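import Vale.Agent.P062.Cert19.Seg0
import Vale.Agent.P062.Cert19.Seg1
import Vale.Agent.P062.Cert19.Seg2
import Vale.Agent.P062.Cert19.Seg3
import Vale.Agent.P062.Cert19.Seg4
import Vale.Agent.P062.Cert19.Seg5
import Vale.Agent.P062.Cert19.Seg6
import Vale.Agent.P062.Cert19.Seg7
import Vale.Agent.P062.Cert19.Seg8
import Vale.Agent.P062.Cert19.Seg9
import Vale.Agent.P062.Cert19.Seg10
import Vale.Agent.P062.Cert19.Seg11
import Vale.Agent.P062.Cert19.Seg12
import Vale.Agent.P062.Cert19.Seg13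
import Vale.Agent.P062.Cert19.Seg14
import Vale.Agent.P062.Cert19.Seg15
import Vale.Agent.P062.Cert19.Seg16
import Vale.Agent.P062.Cert19.Seg17
import Vale.Agent.P062.Cert19.Seg18
import Vale.Agent.P062.Cert19.Seg19
import Vale.Agent.P062.Cert19.Seg20
import Vale.Agent.P062.Cert19.Seg21
import Vale.Agent.P062.Cert19.Seg22
import Vale.Agent.P062.Cert19.Seg23
import Vale.Agent.P062.Cert19.Seg24
import Vale.Agent.P062.Cert19.Seg25
import Vale.Agent.P062.Cert19.Seg26
import Vale.Agent.P062.Cert19.Seg27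
import Vale.Agent.P062.Cert19.Seg28
import Vale.Agent.P062.Cert19.Seg29
import Vale.Agent.P062.Cert19.Seg30
import Vale.Agent.P062.Cert19.Seg31
import Vale.Agent.P062.Cert19.Seg32
import Vale.Agent.P062.Cert19.Seg33
import Vale.Agent.P062.Cert19.Seg34
import Vale.Agent.P062.Cert19.Seg35
import Vale.Agent.P062.Cert19.Seg36
import Vale.Agent.P062.Cert19.Seg37
import Vale.Agent.P062.Cert19.Seg38
import Vale.Agent.P062.Cert19.Seg39
import Vale.Agent.P062.Cert19.Seg40
import Vale.Agent.P062.Cert19.Seg41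
import Vale.Agent.P062.Cert19.Seg42
import Vale.Agent.P062.Cert19.Seg43
import Vale.Agent.P062.Cert19.Seg44
import Vale.Agent.P062.Cert19.Seg45
import Vale.Agent.P062.Cert19.Seg46
import Vale.Agent.P062.Cert19.Seg47
import Vale.Agent.P062.Cert19.Seg48
import Vale.Agent.P062.Cert19.Seg49
import Vale.Agent.P062.Cert19.Seg50
import Vale.Agent.P062.Cert19.Seg51
import Vale.Agent.P062.Cert19.Seg52
import Vale.Agent.P062.Cert19.Seg53
import Vale.Agent.P062.Cert19.Seg54
import Vale.Agent.P062.Cert19.Seg55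
import Vale.Agent.P062.Cert19.Seg56
import Vale.Agent.P062.Cert19.Seg57
import Vale.Agent.P062.Cert19.Seg58
import Vale.Agent.P062.Cert19.Seg59
import Vale.Agent.P062.Cert19.Seg60
import Vale.Agent.P062.Cert19.Seg61
import Vale.Agent.P062.Cert19.Seg62
import Vale.Agent.P062.Cert19.Seg63
import Vale.Agent.P062.Cert19.Seg64
import Vale.Agent.P062.Cert19.Seg65
import Vale.Agent.P062.Cert19.Seg66
import Vale.Agent.P062.Cert19.Seg67
import Vale.Agent.P062.Cert19.Seg68
import Vale.Agent.P062.Cert19.Seg69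
import Vale.Agent.P062.Cert19.Seg70
import Vale.Agent.P062.Cert19.Seg71
import Vale.Agent.P062.Cert19.Seg72
import Vale.Agent.P062.Cert19.Seg73
import Vale.Agent.P062.Cert19.Seg74
import Vale.Agent.P062.Cert19.Seg75
import Vale.Agent.P062.Cert19.Seg76
import Vale.Agent.P062.Cert19.Seg77
import Vale.Agent.P062.Cert19.Seg78
import Vale.Agent.P062.Cert19.Seg79
import Vale.Agent.P062.Cert19.Seg80
import Vale.Agent.P062.Cert19.Seg81
import Vale.Agent.P062.Cert19.Seg82
import Vale.Agent.P062.Cert19.Seg83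
import Vale.Agent.P062.Cert19.Seg84
import Vale.Agent.P062.Cert19.Seg85
import Vale.Agent.P062.Cert19.Seg86
import Vale.Agent.P062.Cert19.Seg87
import Vale.Agent.P062.Cert19.Seg88
import Vale.Agent.P062.Cert19.Seg89
import Vale.Agent.P062.Cert19.Seg90
import Vale.Agent.P062.Cert19.Seg91
import Vale.Agent.P062.Cert19.Seg92
import Vale.Agent.P062.Cert19.Seg93
import Vale.Agent.P062.Cert19.Seg94
import Vale.Agent.P062.Cert19.Seg95
import Vale.Agent.P062.Cert19.Seg96
import Vale.Agent.P062.Cert19.Seg97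
import Vale.Agent.P062.Cert19.Seg98
import Vale.Agent.P062.Cert19.Seg99
import Vale.Agent.P062.Cert19.Seg100
import Vale.Agent.P062.Cert19.Seg101
import Vale.Agent.P062.Cert19.Seg102
import Vale.Agent.P062.Cert19.Seg103
import Vale.Agent.P062.Cert19.Seg104
import Vale.Agent.P062.Cert19.Seg105
import Vale.Agent.P062.Cert19.Seg106
import Vale.Agent.P062.Cert19.Seg107
import Vale.Agent.P062.Cert19.Seg108
import Vale.Agent.P062.Cert19.Seg109
import Vale.Agent.P062.Cert19.Seg110
import Vale.Agent.P062.Cert19.Seg111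
import Vale.Agent.P062.Cert19.Seg112
import Vale.Agent.P062.Cert19.Seg113
import Vale.Agent.P062.Cert19.Seg114
import Vale.Agent.P062.Cert19.Seg115
import Vale.Agent.P062.Cert19.Seg116

/-!
# All segments together
-/

namespace Vale.Agent.P062

theorem goodBelow_all : GoodBelow get 348318 :=
  seg116_sound
 (seg115_sound
 (seg114_sound
 (seg113_sound
 (seg112_sound
 (seg111_sound
 (seg110_sound
 (seg109_sound
 (seg108_sound
 (seg107_sound
 (seg106_sound
 (seg105_sound
 (seg104_sound
 (seg103_sound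
 (seg102_sound
 (seg101_sound
 (seg100_sound
 (seg99_sound
 (seg98_sound
 (seg97_sound
 (seg96_sound
 (seg95_sound
 (seg94_sound
 (seg93_sound
 (seg92_sound
 (seg91_sound
 (seg90_sound
 (seg89_sound
 (seg88_sound
 (seg87_sound
 (seg86_sound
 (seg85_sound
 (seg84_sound
 (seg83_sound
 (seg82_sound
 (seg81_sound
 (seg80_sound
 (seg79_sound
 (seg78_sound
 (seg77_sound
 (seg76_sound
 (seg75_sound
 (seg74_sound
 (seg73_sound
 (seg72_sound
 (seg71_sound
 (seg70_sound
 (seg69_sound
 (seg68_sound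
 (seg67_sound
 (seg66_sound
 (seg65_sound
 (seg64_sound
 (seg63_sound
 (seg62_sound
 (seg61_sound
 (seg60_sound
 (seg59_sound
 (seg58_sound
 (seg57_sound
 (seg56_sound
 (seg55_sound
 (seg54_sound
 (seg53_sound
 (seg52_sound
 (seg51_sound
 (seg50_sound
 (seg49_sound
 (seg48_sound
 (seg47_sound
 (seg46_sound
 (seg45_sound
 (seg44_sound
 (seg43_sound
 (seg42_sound
 (seg41_sound
 (seg40_sound
 (seg39_sound
 (seg38_sound
 (seg37_sound
 (seg36_sound
 (seg35_sound
 (seg34_sound
 (seg33_sound
 (seg32_sound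
 (seg31_sound
 (seg30_sound
 (seg29_sound
 (seg28_sound
 (seg27_sound
 (seg26_sound
 (seg25_sound
 (seg24_sound
 (seg23_sound
 (seg22_sound
 (seg21_sound
 (seg20_sound
 (seg19_sound
 (seg18_sound
 (seg17_sound
 (seg16_sound
 (seg15_sound
 (seg14_sound
 (seg13_sound
 (seg12_sound
 (seg11_sound
 (seg10_sound
 (seg9_sound
 (seg8_sound
 (seg7_sound
 (seg6_sound
 (seg5_sound
 (seg4_sound
 (seg3_sound
 (seg2_sound
 (seg1_sound
 (seg0_sound
 (goodBelow_zero get)))))))))))))))))))))))))))))))))))))))))))))))))))))))))))))))))))))))))))))))))))))))))))))))))))))))))))))))))))))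

/-- The nodes that answer the first replies of Breaker. -/
def roots : List ℕ := [288873, 335953, 339581, 342368, 346187, 348317, 303080, 306709, 332428]

def total : ℕ := 348318

end Vale.Agent.P062
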