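import Vale.Agent.P062.Checker
import Vale.Agent.P062.Cert19.Data0
import Vale.Agent.P062.Cert19.Data1
import Vale.Agent.P062.Cert19.Data2
import Vale.Agent.P062.Cert19.Data3
import Vale.Agent.P062.Cert19.Data4
import Vale.Agent.P062.Cert19.Data5
import Vale.Agent.P062.Cert19.Data6
import Vale.Agent.P062.Cert19.Data7
import Vale.Agent.P062.Cert19.Data8
import Vale.Agent.P062.Cert19.Data9
import Vale.Agent.P062.Cert19.Data10
import Vale.Agent.P062.Cert19.Data11
import Vale.Agent.P062.Cert19.Data12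
import Vale.Agent.P062.Cert19.Data13
import Vale.Agent.P062.Cert19.Data14
import Vale.Agent.P062.Cert19.Data15
import Vale.Agent.P062.Cert19.Data16
import Vale.Agent.P062.Cert19.Data17
import Vale.Agent.P062.Cert19.Data18
import Vale.Agent.P062.Cert19.Data19
import Vale.Agent.P062.Cert19.Data20
import Vale.Agent.P062.Cert19.Data21
import Vale.Agent.P062.Cert19.Data22
import Vale.Agent.P062.Cert19.Data23
import Vale.Agent.P062.Cert19.Data24
import Vale.Agent.P062.Cert19.Data25
import Vale.Agent.P062.Cert19.Data26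
import Vale.Agent.P062.Cert19.Data27
import Vale.Agent.P062.Cert19.Data28
import Vale.Agent.P062.Cert19.Data29
import Vale.Agent.P062.Cert19.Data30
import Vale.Agent.P062.Cert19.Data31
import Vale.Agent.P062.Cert19.Data32
import Vale.Agent.P062.Cert19.Data33
import Vale.Agent.P062.Cert19.Data34
import Vale.Agent.P062.Cert19.Data35
import Vale.Agent.P062.Cert19.Data36
import Vale.Agent.P062.Cert19.Data37
import Vale.Agent.P062.Cert19.Data38
import Vale.Agent.P062.Cert19.Data39
import Vale.Agent.P062.Cert19.Data40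
import Vale.Agent.P062.Cert19.Data41
import Vale.Agent.P062.Cert19.Data42

/-!
# The table of entries
-/

namespace Vale.Agent.P062

noncomputable def blocks0to2 (q : ℕ) : ℕ :=
 cond (Nat.blt q 1) (block0)
 (block1)

noncomputable def blocks2to5 (q : ℕ) : ℕ :=
 cond (Nat.blt q 3) (block2)
 (cond (Nat.blt q 4) (block3)
 (block4))

noncomputable def blocks5to7 (q : ℕ) : ℕ :=
 cond (Nat.blt q 6) (block5)
 (block6)

noncomputable def blocks7to10 (q : ℕ) : ℕ :=
 cond (Nat.blt q 8) (block7)
 (cond (Nat.blt q 9) (block8)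
 (block9))

noncomputable def blocks10to12 (q : ℕ) : ℕ :=
 cond (Nat.blt q 11) (block10)
 (block11)

noncomputable def blocks12to15 (q : ℕ) : ℕ :=
 cond (Nat.blt q 13) (block12)
 (cond (Nat.blt q 14) (block13)
 (block14))

noncomputable def blocks15to18 (q : ℕ) : ℕ :=
 cond (Nat.blt q 16) (block15)
 (cond (Nat.blt q 17) (block16)
 (block17))

noncomputable def blocks18to21 (q : ℕ) : ℕ :=
 cond (Nat.blt q 19) (block18)
 (cond (Nat.blt q 20) (block19)
 (block20))

noncomputable def blocks21to23 (q : ℕ) : ℕ :=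
 cond (Nat.blt q 22) (block21)
 (block22)

noncomputable def blocks23to26 (q : ℕ) : ℕ :=
 cond (Nat.blt q 24) (block23)
 (cond (Nat.blt q 25) (block24)
 (block25))

noncomputable def blocks26to28 (q : ℕ) : ℕ :=
 cond (Nat.blt q 27) (block26)
 (block27)

noncomputable def blocks28to31 (q : ℕ) : ℕ :=
 cond (Nat.blt q 29) (block28)
 (cond (Nat.blt q 30) (block29)
 (block30))

noncomputable def blocks31to33 (q : ℕ) : ℕ :=
 cond (Nat.blt q 32) (block31)
 (block32)

noncomputable def blocks33to36 (q : ℕ) : ℕ :=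
 cond (Nat.blt q 34) (block33)
 (cond (Nat.blt q 35) (block34)
 (block35))

noncomputable def blocks36to39 (q : ℕ) : ℕ :=
 cond (Nat.blt q 37) (block36)
 (cond (Nat.blt q 38) (block37)
 (block38))

noncomputable def blocks39to42 (q : ℕ) : ℕ :=
 cond (Nat.blt q 40) (block39)
 (cond (Nat.blt q 41) (block40)
 (block41))

noncomputable def blocks0to42 (q : ℕ) : ℕ :=
 cond (Nat.blt q 21) (cond (Nat.blt q 10) (cond (Nat.blt q 5) (cond (Nat.blt q 2) (blocks0to2 q)
 (blocks2to5 q))
 (cond (Nat.blt q 7) (blocks5to7 q)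
 (blocks7to10 q)))
 (cond (Nat.blt q 15) (cond (Nat.blt q 12) (blocks10to12 q)
 (blocks12to15 q))
 (cond (Nat.blt q 18) (blocks15to18 q)
 (blocks18to21 q))))
 (cond (Nat.blt q 31) (cond (Nat.blt q 26) (cond (Nat.blt q 23) (blocks21to23 q)
 (blocks23to26 q))
 (cond (Nat.blt q 28) (blocks26to28 q)
 (blocks28to31 q)))
 (cond (Nat.blt q 36) (cond (Nat.blt q 33) (blocks31to33 q)
 (blocks33to36 q))
 (cond (Nat.blt q 39) (blocks36to39 q)
 (blocks39to42 q))))

noncomputable def blocks42to44 (q : ℕ) : ℕ :=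
 cond (Nat.blt q 43) (block42)
 (block43)

noncomputable def blocks44to47 (q : ℕ) : ℕ :=
 cond (Nat.blt q 45) (block44)
 (cond (Nat.blt q 46) (block45)
 (block46))

noncomputable def blocks47to49 (q : ℕ) : ℕ :=
 cond (Nat.blt q 48) (block47)
 (block48)

noncomputable def blocks49to52 (q : ℕ) : ℕ :=
 cond (Nat.blt q 50) (block49)
 (cond (Nat.blt q 51) (block50)
 (block51))

noncomputable def blocks52to54 (q : ℕ) : ℕ :=
 cond (Nat.blt q 53) (block52)
 (block53)

noncomputable def blocks54to57 (q : ℕ) : ℕ :=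
 cond (Nat.blt q 55) (block54)
 (cond (Nat.blt q 56) (block55)
 (block56))

noncomputable def blocks57to60 (q : ℕ) : ℕ :=
 cond (Nat.blt q 58) (block57)
 (cond (Nat.blt q 59) (block58)
 (block59))

noncomputable def blocks60to63 (q : ℕ) : ℕ :=
 cond (Nat.blt q 61) (block60)
 (cond (Nat.blt q 62) (block61)
 (block62))

noncomputable def blocks63to65 (q : ℕ) : ℕ :=
 cond (Nat.blt q 64) (block63)
 (block64)

noncomputable def blocks65to68 (q : ℕ) : ℕ :=
 cond (Nat.blt q 66) (block65)
 (cond (Nat.blt q 67) (block66)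
 (block67))

noncomputable def blocks68to71 (q : ℕ) : ℕ :=
 cond (Nat.blt q 69) (block68)
 (cond (Nat.blt q 70) (block69)
 (block70))

noncomputable def blocks71to74 (q : ℕ) : ℕ :=
 cond (Nat.blt q 72) (block71)
 (cond (Nat.blt q 73) (block72)
 (block73))

noncomputable def blocks74to76 (q : ℕ) : ℕ :=
 cond (Nat.blt q 75) (block74)
 (block75)

noncomputable def blocks76to79 (q : ℕ) : ℕ :=
 cond (Nat.blt q 77) (block76)
 (cond (Nat.blt q 78) (block77)
 (block78))

noncomputable def blocks79to82 (q : ℕ) : ℕ :=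
 cond (Nat.blt q 80) (block79)
 (cond (Nat.blt q 81) (block80)
 (block81))

noncomputable def blocks82to85 (q : ℕ) : ℕ :=
 cond (Nat.blt q 83) (block82)
 (cond (Nat.blt q 84) (block83)
 (block84))

noncomputable def blocks42to85 (q : ℕ) : ℕ :=
 cond (Nat.blt q 63) (cond (Nat.blt q 52) (cond (Nat.blt q 47) (cond (Nat.blt q 44) (blocks42to44 q)
 (blocks44to47 q))
 (cond (Nat.blt q 49) (blocks47to49 q)
 (blocks49to52 q)))
 (cond (Nat.blt q 57) (cond (Nat.blt q 54) (blocks52to54 q)
 (blocks54to57 q))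
 (cond (Nat.blt q 60) (blocks57to60 q)
 (blocks60to63 q))))
 (cond (Nat.blt q 74) (cond (Nat.blt q 68) (cond (Nat.blt q 65) (blocks63to65 q)
 (blocks65to68 q))
 (cond (Nat.blt q 71) (blocks68to71 q)
 (blocks71to74 q)))
 (cond (Nat.blt q 79) (cond (Nat.blt q 76) (blocks74to76 q)
 (blocks76to79 q))
 (cond (Nat.blt q 82) (blocks79to82 q)
 (blocks82to85 q))))

noncomputable def blocks85to87 (q : ℕ) : ℕ :=
 cond (Nat.blt q 86) (block85)
 (block86)

noncomputable def blocks87to90 (q : ℕ) : ℕ :=
 cond (Nat.blt q 88) (block87)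
 (cond (Nat.blt q 89) (block88)
 (block89))

noncomputable def blocks90to92 (q : ℕ) : ℕ :=
 cond (Nat.blt q 91) (block90)
 (block91)

noncomputable def blocks92to95 (q : ℕ) : ℕ :=
 cond (Nat.blt q 93) (block92)
 (cond (Nat.blt q 94) (block93)
 (block94))

noncomputable def blocks95to97 (q : ℕ) : ℕ :=
 cond (Nat.blt q 96) (block95)
 (block96)

noncomputable def blocks97to100 (q : ℕ) : ℕ :=
 cond (Nat.blt q 98) (block97)
 (cond (Nat.blt q 99) (block98)
 (block99))

noncomputable def blocks100to103 (q : ℕ) : ℕ :=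
 cond (Nat.blt q 101) (block100)
 (cond (Nat.blt q 102) (block101)
 (block102))

noncomputable def blocks103to106 (q : ℕ) : ℕ :=
 cond (Nat.blt q 104) (block103)
 (cond (Nat.blt q 105) (block104)
 (block105))

noncomputable def blocks106to108 (q : ℕ) : ℕ :=
 cond (Nat.blt q 107) (block106)
 (block107)

noncomputable def blocks108to111 (q : ℕ) : ℕ :=
 cond (Nat.blt q 109) (block108)
 (cond (Nat.blt q 110) (block109)
 (block110))

noncomputable def blocks111to113 (q : ℕ) : ℕ :=
 cond (Nat.blt q 112) (block111)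
 (block112)

noncomputable def blocks113to116 (q : ℕ) : ℕ :=
 cond (Nat.blt q 114) (block113)
 (cond (Nat.blt q 115) (block114)
 (block115))

noncomputable def blocks116to118 (q : ℕ) : ℕ :=
 cond (Nat.blt q 117) (block116)
 (block117)

noncomputable def blocks118to121 (q : ℕ) : ℕ :=
 cond (Nat.blt q 119) (block118)
 (cond (Nat.blt q 120) (block119)
 (block120))

noncomputable def blocks121to124 (q : ℕ) : ℕ :=
 cond (Nat.blt q 122) (block121)
 (cond (Nat.blt q 123) (block122)
 (block123))

noncomputable def blocks124to127 (q : ℕ) : ℕ :=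
 cond (Nat.blt q 125) (block124)
 (cond (Nat.blt q 126) (block125)
 (block126))

noncomputable def blocks85to127 (q : ℕ) : ℕ :=
 cond (Nat.blt q 106) (cond (Nat.blt q 95) (cond (Nat.blt q 90) (cond (Nat.blt q 87) (blocks85to87 q)
 (blocks87to90 q))
 (cond (Nat.blt q 92) (blocks90to92 q)
 (blocks92to95 q)))
 (cond (Nat.blt q 100) (cond (Nat.blt q 97) (blocks95to97 q)
 (blocks97to100 q))
 (cond (Nat.blt q 103) (blocks100to103 q)
 (blocks103to106 q))))
 (cond (Nat.blt q 116) (cond (Nat.blt q 111) (cond (Nat.blt q 108) (blocks106to108 q)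
 (blocks108to111 q))
 (cond (Nat.blt q 113) (blocks111to113 q)
 (blocks113to116 q)))
 (cond (Nat.blt q 121) (cond (Nat.blt q 118) (blocks116to118 q)
 (blocks118to121 q))
 (cond (Nat.blt q 124) (blocks121to124 q)
 (blocks124to127 q))))

noncomputable def blocks127to129 (q : ℕ) : ℕ :=
 cond (Nat.blt q 128) (block127)
 (block128)

noncomputable def blocks129to132 (q : ℕ) : ℕ :=
 cond (Nat.blt q 130) (block129)
 (cond (Nat.blt q 131) (block130)
 (block131))

noncomputable def blocks132to134 (q : ℕ) : ℕ :=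
 cond (Nat.blt q 133) (block132)
 (block133)

noncomputable def blocks134to137 (q : ℕ) : ℕ :=
 cond (Nat.blt q 135) (block134)
 (cond (Nat.blt q 136) (block135)
 (block136))

noncomputable def blocks137to139 (q : ℕ) : ℕ :=
 cond (Nat.blt q 138) (block137)
 (block138)

noncomputable def blocks139to142 (q : ℕ) : ℕ :=
 cond (Nat.blt q 140) (block139)
 (cond (Nat.blt q 141) (block140)
 (block141))

noncomputable def blocks142to145 (q : ℕ) : ℕ :=
 cond (Nat.blt q 143) (block142)
 (cond (Nat.blt q 144) (block143)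
 (block144))

noncomputable def blocks145to148 (q : ℕ) : ℕ :=
 cond (Nat.blt q 146) (block145)
 (cond (Nat.blt q 147) (block146)
 (block147))

noncomputable def blocks148to150 (q : ℕ) : ℕ :=
 cond (Nat.blt q 149) (block148)
 (block149)

noncomputable def blocks150to153 (q : ℕ) : ℕ :=
 cond (Nat.blt q 151) (block150)
 (cond (Nat.blt q 152) (block151)
 (block152))

noncomputable def blocks153to156 (q : ℕ) : ℕ :=
 cond (Nat.blt q 154) (block153)
 (cond (Nat.blt q 155) (block154)
 (block155))

noncomputable def blocks156to159 (q : ℕ) : ℕ :=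
 cond (Nat.blt q 157) (block156)
 (cond (Nat.blt q 158) (block157)
 (block158))

noncomputable def blocks159to161 (q : ℕ) : ℕ :=
 cond (Nat.blt q 160) (block159)
 (block160)

noncomputable def blocks161to164 (q : ℕ) : ℕ :=
 cond (Nat.blt q 162) (block161)
 (cond (Nat.blt q 163) (block162)
 (block163))

noncomputable def blocks164to167 (q : ℕ) : ℕ :=
 cond (Nat.blt q 165) (block164)
 (cond (Nat.blt q 166) (block165)
 (block166))

noncomputable def blocks167to170 (q : ℕ) : ℕ :=
 cond (Nat.blt q 168) (block167)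
 (cond (Nat.blt q 169) (block168)
 (block169))

noncomputable def blocks127to170 (q : ℕ) : ℕ :=
 cond (Nat.blt q 148) (cond (Nat.blt q 137) (cond (Nat.blt q 132) (cond (Nat.blt q 129) (blocks127to129 q)
 (blocks129to132 q))
 (cond (Nat.blt q 134) (blocks132to134 q)
 (blocks134to137 q)))
 (cond (Nat.blt q 142) (cond (Nat.blt q 139) (blocks137to139 q)
 (blocks139to142 q))
 (cond (Nat.blt q 145) (blocks142to145 q)
 (blocks145to148 q))))
 (cond (Nat.blt q 159) (cond (Nat.blt q 153) (cond (Nat.blt q 150) (blocks148to150 q)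
 (blocks150to153 q))
 (cond (Nat.blt q 156) (blocks153to156 q)
 (blocks156to159 q)))
 (cond (Nat.blt q 164) (cond (Nat.blt q 161) (blocks159to161 q)
 (blocks161to164 q))
 (cond (Nat.blt q 167) (blocks164to167 q)
 (blocks167to170 q))))

noncomputable def blocks170to172 (q : ℕ) : ℕ :=
 cond (Nat.blt q 171) (block170)
 (block171)

noncomputable def blocks172to175 (q : ℕ) : ℕ :=
 cond (Nat.blt q 173) (block172)
 (cond (Nat.blt q 174) (block173)
 (block174))

noncomputable def blocks175to177 (q : ℕ) : ℕ :=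
 cond (Nat.blt q 176) (block175)
 (block176)

noncomputable def blocks177to180 (q : ℕ) : ℕ :=
 cond (Nat.blt q 178) (block177)
 (cond (Nat.blt q 179) (block178)
 (block179))

noncomputable def blocks180to182 (q : ℕ) : ℕ :=
 cond (Nat.blt q 181) (block180)
 (block181)

noncomputable def blocks182to185 (q : ℕ) : ℕ :=
 cond (Nat.blt q 183) (block182)
 (cond (Nat.blt q 184) (block183)
 (block184))

noncomputable def blocks185to188 (q : ℕ) : ℕ :=
 cond (Nat.blt q 186) (block185)
 (cond (Nat.blt q 187) (block186)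
 (block187))

noncomputable def blocks188to191 (q : ℕ) : ℕ :=
 cond (Nat.blt q 189) (block188)
 (cond (Nat.blt q 190) (block189)
 (block190))

noncomputable def blocks191to193 (q : ℕ) : ℕ :=
 cond (Nat.blt q 192) (block191)
 (block192)

noncomputable def blocks193to196 (q : ℕ) : ℕ :=
 cond (Nat.blt q 194) (block193)
 (cond (Nat.blt q 195) (block194)
 (block195))

noncomputable def blocks196to198 (q : ℕ) : ℕ :=
 cond (Nat.blt q 197) (block196)
 (block197)

noncomputable def blocks198to201 (q : ℕ) : ℕ :=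
 cond (Nat.blt q 199) (block198)
 (cond (Nat.blt q 200) (block199)
 (block200))

noncomputable def blocks201to203 (q : ℕ) : ℕ :=
 cond (Nat.blt q 202) (block201)
 (block202)

noncomputable def blocks203to206 (q : ℕ) : ℕ :=
 cond (Nat.blt q 204) (block203)
 (cond (Nat.blt q 205) (block204)
 (block205))

noncomputable def blocks206to209 (q : ℕ) : ℕ :=
 cond (Nat.blt q 207) (block206)
 (cond (Nat.blt q 208) (block207)
 (block208))

noncomputable def blocks209to212 (q : ℕ) : ℕ :=
 cond (Nat.blt q 210) (block209)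
 (cond (Nat.blt q 211) (block210)
 (block211))

noncomputable def blocks170to212 (q : ℕ) : ℕ :=
 cond (Nat.blt q 191) (cond (Nat.blt q 180) (cond (Nat.blt q 175) (cond (Nat.blt q 172) (blocks170to172 q)
 (blocks172to175 q))
 (cond (Nat.blt q 177) (blocks175to177 q)
 (blocks177to180 q)))
 (cond (Nat.blt q 185) (cond (Nat.blt q 182) (blocks180to182 q)
 (blocks182to185 q))
 (cond (Nat.blt q 188) (blocks185to188 q)
 (blocks188to191 q))))
 (cond (Nat.blt q 201) (cond (Nat.blt q 196) (cond (Nat.blt q 193) (blocks191to193 q)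
 (blocks193to196 q))
 (cond (Nat.blt q 198) (blocks196to198 q)
 (blocks198to201 q)))
 (cond (Nat.blt q 206) (cond (Nat.blt q 203) (blocks201to203 q)
 (blocks203to206 q))
 (cond (Nat.blt q 209) (blocks206to209 q)
 (blocks209to212 q))))

noncomputable def blocks212to214 (q : ℕ) : ℕ :=
 cond (Nat.blt q 213) (block212)
 (block213)

noncomputable def blocks214to217 (q : ℕ) : ℕ :=
 cond (Nat.blt q 215) (block214)
 (cond (Nat.blt q 216) (block215)
 (block216))

noncomputable def blocks217to219 (q : ℕ) : ℕ :=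
 cond (Nat.blt q 218) (block217)
 (block218)

noncomputable def blocks219to222 (q : ℕ) : ℕ :=
 cond (Nat.blt q 220) (block219)
 (cond (Nat.blt q 221) (block220)
 (block221))

noncomputable def blocks222to224 (q : ℕ) : ℕ :=
 cond (Nat.blt q 223) (block222)
 (block223)

noncomputable def blocks224to227 (q : ℕ) : ℕ :=
 cond (Nat.blt q 225) (block224)
 (cond (Nat.blt q 226) (block225)
 (block226))

noncomputable def blocks227to230 (q : ℕ) : ℕ :=
 cond (Nat.blt q 228) (block227)
 (cond (Nat.blt q 229) (block228)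
 (block229))

noncomputable def blocks230to233 (q : ℕ) : ℕ :=
 cond (Nat.blt q 231) (block230)
 (cond (Nat.blt q 232) (block231)
 (block232))

noncomputable def blocks233to235 (q : ℕ) : ℕ :=
 cond (Nat.blt q 234) (block233)
 (block234)

noncomputable def blocks235to238 (q : ℕ) : ℕ :=
 cond (Nat.blt q 236) (block235)
 (cond (Nat.blt q 237) (block236)
 (block237))

noncomputable def blocks238to241 (q : ℕ) : ℕ :=
 cond (Nat.blt q 239) (block238)
 (cond (Nat.blt q 240) (block239)
 (block240))

noncomputable def blocks241to244 (q : ℕ) : ℕ :=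
 cond (Nat.blt q 242) (block241)
 (cond (Nat.blt q 243) (block242)
 (block243))

noncomputable def blocks244to246 (q : ℕ) : ℕ :=
 cond (Nat.blt q 245) (block244)
 (block245)

noncomputable def blocks246to249 (q : ℕ) : ℕ :=
 cond (Nat.blt q 247) (block246)
 (cond (Nat.blt q 248) (block247)
 (block248))

noncomputable def blocks249to252 (q : ℕ) : ℕ :=
 cond (Nat.blt q 250) (block249)
 (cond (Nat.blt q 251) (block250)
 (block251))

noncomputable def blocks252to255 (q : ℕ) : ℕ :=
 cond (Nat.blt q 253) (block252)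
 (cond (Nat.blt q 254) (block253)
 (block254))

noncomputable def blocks212to255 (q : ℕ) : ℕ :=
 cond (Nat.blt q 233) (cond (Nat.blt q 222) (cond (Nat.blt q 217) (cond (Nat.blt q 214) (blocks212to214 q)
 (blocks214to217 q))
 (cond (Nat.blt q 219) (blocks217to219 q)
 (blocks219to222 q)))
 (cond (Nat.blt q 227) (cond (Nat.blt q 224) (blocks222to224 q)
 (blocks224to227 q))
 (cond (Nat.blt q 230) (blocks227to230 q)
 (blocks230to233 q))))
 (cond (Nat.blt q 244) (cond (Nat.blt q 238) (cond (Nat.blt q 235) (blocks233to235 q)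
 (blocks235to238 q))
 (cond (Nat.blt q 241) (blocks238to241 q)
 (blocks241to244 q)))
 (cond (Nat.blt q 249) (cond (Nat.blt q 246) (blocks244to246 q)
 (blocks246to249 q))
 (cond (Nat.blt q 252) (blocks249to252 q)
 (blocks252to255 q))))

noncomputable def blocks255to257 (q : ℕ) : ℕ :=
 cond (Nat.blt q 256) (block255)
 (block256)

noncomputable def blocks257to260 (q : ℕ) : ℕ :=
 cond (Nat.blt q 258) (block257)
 (cond (Nat.blt q 259) (block258)
 (block259))

noncomputable def blocks260to262 (q : ℕ) : ℕ :=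
 cond (Nat.blt q 261) (block260)
 (block261)

noncomputable def blocks262to265 (q : ℕ) : ℕ :=
 cond (Nat.blt q 263) (block262)
 (cond (Nat.blt q 264) (block263)
 (block264))

noncomputable def blocks265to267 (q : ℕ) : ℕ :=
 cond (Nat.blt q 266) (block265)
 (block266)

noncomputable def blocks267to270 (q : ℕ) : ℕ :=
 cond (Nat.blt q 268) (block267)
 (cond (Nat.blt q 269) (block268)
 (block269))

noncomputable def blocks270to273 (q : ℕ) : ℕ :=
 cond (Nat.blt q 271) (block270)
 (cond (Nat.blt q 272) (block271)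
 (block272))

noncomputable def blocks273to276 (q : ℕ) : ℕ :=
 cond (Nat.blt q 274) (block273)
 (cond (Nat.blt q 275) (block274)
 (block275))

noncomputable def blocks276to278 (q : ℕ) : ℕ :=
 cond (Nat.blt q 277) (block276)
 (block277)

noncomputable def blocks278to281 (q : ℕ) : ℕ :=
 cond (Nat.blt q 279) (block278)
 (cond (Nat.blt q 280) (block279)
 (block280))

noncomputable def blocks281to283 (q : ℕ) : ℕ :=
 cond (Nat.blt q 282) (block281)
 (block282)

noncomputable def blocks283to286 (q : ℕ) : ℕ :=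
 cond (Nat.blt q 284) (block283)
 (cond (Nat.blt q 285) (block284)
 (block285))

noncomputable def blocks286to288 (q : ℕ) : ℕ :=
 cond (Nat.blt q 287) (block286)
 (block287)

noncomputable def blocks288to291 (q : ℕ) : ℕ :=
 cond (Nat.blt q 289) (block288)
 (cond (Nat.blt q 290) (block289)
 (block290))

noncomputable def blocks291to294 (q : ℕ) : ℕ :=
 cond (Nat.blt q 292) (block291)
 (cond (Nat.blt q 293) (block292)
 (block293))

noncomputable def blocks294to297 (q : ℕ) : ℕ :=
 cond (Nat.blt q 295) (block294)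
 (cond (Nat.blt q 296) (block295)
 (block296))

noncomputable def blocks255to297 (q : ℕ) : ℕ :=
 cond (Nat.blt q 276) (cond (Nat.blt q 265) (cond (Nat.blt q 260) (cond (Nat.blt q 257) (blocks255to257 q)
 (blocks257to260 q))
 (cond (Nat.blt q 262) (blocks260to262 q)
 (blocks262to265 q)))
 (cond (Nat.blt q 270) (cond (Nat.blt q 267) (blocks265to267 q)
 (blocks267to270 q))
 (cond (Nat.blt q 273) (blocks270to273 q)
 (blocks273to276 q))))
 (cond (Nat.blt q 286) (cond (Nat.blt q 281) (cond (Nat.blt q 278) (blocks276to278 q)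
 (blocks278to281 q))
 (cond (Nat.blt q 283) (blocks281to283 q)
 (blocks283to286 q)))
 (cond (Nat.blt q 291) (cond (Nat.blt q 288) (blocks286to288 q)
 (blocks288to291 q))
 (cond (Nat.blt q 294) (blocks291to294 q)
 (blocks294to297 q))))

noncomputable def blocks297to299 (q : ℕ) : ℕ :=
 cond (Nat.blt q 298) (block297)
 (block298)

noncomputable def blocks299to302 (q : ℕ) : ℕ :=
 cond (Nat.blt q 300) (block299)
 (cond (Nat.blt q 301) (block300)
 (block301))

noncomputable def blocks302to304 (q : ℕ) : ℕ :=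
 cond (Nat.blt q 303) (block302)
 (block303)

noncomputable def blocks304to307 (q : ℕ) : ℕ :=
 cond (Nat.blt q 305) (block304)
 (cond (Nat.blt q 306) (block305)
 (block306))

noncomputable def blocks307to309 (q : ℕ) : ℕ :=
 cond (Nat.blt q 308) (block307)
 (block308)

noncomputable def blocks309to312 (q : ℕ) : ℕ :=
 cond (Nat.blt q 310) (block309)
 (cond (Nat.blt q 311) (block310)
 (block311))

noncomputable def blocks312to315 (q : ℕ) : ℕ :=
 cond (Nat.blt q 313) (block312)
 (cond (Nat.blt q 314) (block313)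
 (block314))

noncomputable def blocks315to318 (q : ℕ) : ℕ :=
 cond (Nat.blt q 316) (block315)
 (cond (Nat.blt q 317) (block316)
 (block317))

noncomputable def blocks318to320 (q : ℕ) : ℕ :=
 cond (Nat.blt q 319) (block318)
 (block319)

noncomputable def blocks320to323 (q : ℕ) : ℕ :=
 cond (Nat.blt q 321) (block320)
 (cond (Nat.blt q 322) (block321)
 (block322))

noncomputable def blocks323to326 (q : ℕ) : ℕ :=
 cond (Nat.blt q 324) (block323)
 (cond (Nat.blt q 325) (block324)
 (block325))

noncomputable def blocks326to329 (q : ℕ) : ℕ :=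
 cond (Nat.blt q 327) (block326)
 (cond (Nat.blt q 328) (block327)
 (block328))

noncomputable def blocks329to331 (q : ℕ) : ℕ :=
 cond (Nat.blt q 330) (block329)
 (block330)

noncomputable def blocks331to334 (q : ℕ) : ℕ :=
 cond (Nat.blt q 332) (block331)
 (cond (Nat.blt q 333) (block332)
 (block333))

noncomputable def blocks334to337 (q : ℕ) : ℕ :=
 cond (Nat.blt q 335) (block334)
 (cond (Nat.blt q 336) (block335)
 (block336))

noncomputable def blocks337to340 (q : ℕ) : ℕ :=
 cond (Nat.blt q 338) (block337)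
 (cond (Nat.blt q 339) (block338)
 (block339))

noncomputable def blocks297to340 (q : ℕ) : ℕ :=
 cond (Nat.blt q 318) (cond (Nat.blt q 307) (cond (Nat.blt q 302) (cond (Nat.blt q 299) (blocks297to299 q)
 (blocks299to302 q))
 (cond (Nat.blt q 304) (blocks302to304 q)
 (blocks304to307 q)))
 (cond (Nat.blt q 312) (cond (Nat.blt q 309) (blocks307to309 q)
 (blocks309to312 q))
 (cond (Nat.blt q 315) (blocks312to315 q)
 (blocks315to318 q))))
 (cond (Nat.blt q 329) (cond (Nat.blt q 323) (cond (Nat.blt q 320) (blocks318to320 q)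
 (blocks320to323 q))
 (cond (Nat.blt q 326) (blocks323to326 q)
 (blocks326to329 q)))
 (cond (Nat.blt q 334) (cond (Nat.blt q 331) (blocks329to331 q)
 (blocks331to334 q))
 (cond (Nat.blt q 337) (blocks334to337 q)
 (blocks337to340 q))))

noncomputable def blocks340to342 (q : ℕ) : ℕ :=
 cond (Nat.blt q 341) (block340)
 (block341)

noncomputable def blocks342to345 (q : ℕ) : ℕ :=
 cond (Nat.blt q 343) (block342)
 (cond (Nat.blt q 344) (block343)
 (block344))

noncomputable def blocks345to347 (q : ℕ) : ℕ :=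
 cond (Nat.blt q 346) (block345)
 (block346)

noncomputable def blocks347to350 (q : ℕ) : ℕ :=
 cond (Nat.blt q 348) (block347)
 (cond (Nat.blt q 349) (block348)
 (block349))

noncomputable def blocks350to352 (q : ℕ) : ℕ :=
 cond (Nat.blt q 351) (block350)
 (block351)

noncomputable def blocks352to355 (q : ℕ) : ℕ :=
 cond (Nat.blt q 353) (block352)
 (cond (Nat.blt q 354) (block353)
 (block354))

noncomputable def blocks355to358 (q : ℕ) : ℕ :=
 cond (Nat.blt q 356) (block355)
 (cond (Nat.blt q 357) (block356)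
 (block357))

noncomputable def blocks358to361 (q : ℕ) : ℕ :=
 cond (Nat.blt q 359) (block358)
 (cond (Nat.blt q 360) (block359)
 (block360))

noncomputable def blocks361to363 (q : ℕ) : ℕ :=
 cond (Nat.blt q 362) (block361)
 (block362)

noncomputable def blocks363to366 (q : ℕ) : ℕ :=
 cond (Nat.blt q 364) (block363)
 (cond (Nat.blt q 365) (block364)
 (block365))

noncomputable def blocks366to368 (q : ℕ) : ℕ :=
 cond (Nat.blt q 367) (block366)
 (block367)

noncomputable def blocks368to371 (q : ℕ) : ℕ :=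
 cond (Nat.blt q 369) (block368)
 (cond (Nat.blt q 370) (block369)
 (block370))

noncomputable def blocks371to373 (q : ℕ) : ℕ :=
 cond (Nat.blt q 372) (block371)
 (block372)

noncomputable def blocks373to376 (q : ℕ) : ℕ :=
 cond (Nat.blt q 374) (block373)
 (cond (Nat.blt q 375) (block374)
 (block375))

noncomputable def blocks376to379 (q : ℕ) : ℕ :=
 cond (Nat.blt q 377) (block376)
 (cond (Nat.blt q 378) (block377)
 (block378))

noncomputable def blocks379to382 (q : ℕ) : ℕ :=
 cond (Nat.blt q 380) (block379)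
 (cond (Nat.blt q 381) (block380)
 (block381))

noncomputable def blocks340to382 (q : ℕ) : ℕ :=
 cond (Nat.blt q 361) (cond (Nat.blt q 350) (cond (Nat.blt q 345) (cond (Nat.blt q 342) (blocks340to342 q)
 (blocks342to345 q))
 (cond (Nat.blt q 347) (blocks345to347 q)
 (blocks347to350 q)))
 (cond (Nat.blt q 355) (cond (Nat.blt q 352) (blocks350to352 q)
 (blocks352to355 q))
 (cond (Nat.blt q 358) (blocks355to358 q)
 (blocks358to361 q))))
 (cond (Nat.blt q 371) (cond (Nat.blt q 366) (cond (Nat.blt q 363) (blocks361to363 q)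
 (blocks363to366 q))
 (cond (Nat.blt q 368) (blocks366to368 q)
 (blocks368to371 q)))
 (cond (Nat.blt q 376) (cond (Nat.blt q 373) (blocks371to373 q)
 (blocks373to376 q))
 (cond (Nat.blt q 379) (blocks376to379 q)
 (blocks379to382 q))))

noncomputable def blocks382to384 (q : ℕ) : ℕ :=
 cond (Nat.blt q 383) (block382)
 (block383)

noncomputable def blocks384to387 (q : ℕ) : ℕ :=
 cond (Nat.blt q 385) (block384)
 (cond (Nat.blt q 386) (block385)
 (block386))

noncomputable def blocks387to389 (q : ℕ) : ℕ :=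
 cond (Nat.blt q 388) (block387)
 (block388)

noncomputable def blocks389to392 (q : ℕ) : ℕ :=
 cond (Nat.blt q 390) (block389)
 (cond (Nat.blt q 391) (block390)
 (block391))

noncomputable def blocks392to394 (q : ℕ) : ℕ :=
 cond (Nat.blt q 393) (block392)
 (block393)

noncomputable def blocks394to397 (q : ℕ) : ℕ :=
 cond (Nat.blt q 395) (block394)
 (cond (Nat.blt q 396) (block395)
 (block396))

noncomputable def blocks397to400 (q : ℕ) : ℕ :=
 cond (Nat.blt q 398) (block397)
 (cond (Nat.blt q 399) (block398)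
 (block399))

noncomputable def blocks400to403 (q : ℕ) : ℕ :=
 cond (Nat.blt q 401) (block400)
 (cond (Nat.blt q 402) (block401)
 (block402))

noncomputable def blocks403to405 (q : ℕ) : ℕ :=
 cond (Nat.blt q 404) (block403)
 (block404)

noncomputable def blocks405to408 (q : ℕ) : ℕ :=
 cond (Nat.blt q 406) (block405)
 (cond (Nat.blt q 407) (block406)
 (block407))

noncomputable def blocks408to411 (q : ℕ) : ℕ :=
 cond (Nat.blt q 409) (block408)
 (cond (Nat.blt q 410) (block409)
 (block410))

noncomputable def blocks411to414 (q : ℕ) : ℕ :=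
 cond (Nat.blt q 412) (block411)
 (cond (Nat.blt q 413) (block412)
 (block413))

noncomputable def blocks414to416 (q : ℕ) : ℕ :=
 cond (Nat.blt q 415) (block414)
 (block415)

noncomputable def blocks416to419 (q : ℕ) : ℕ :=
 cond (Nat.blt q 417) (block416)
 (cond (Nat.blt q 418) (block417)
 (block418))

noncomputable def blocks419to422 (q : ℕ) : ℕ :=
 cond (Nat.blt q 420) (block419)
 (cond (Nat.blt q 421) (block420)
 (block421))

noncomputable def blocks422to425 (q : ℕ) : ℕ :=
 cond (Nat.blt q 423) (block422)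
 (cond (Nat.blt q 424) (block423)
 (block424))

noncomputable def blocks382to425 (q : ℕ) : ℕ :=
 cond (Nat.blt q 403) (cond (Nat.blt q 392) (cond (Nat.blt q 387) (cond (Nat.blt q 384) (blocks382to384 q)
 (blocks384to387 q))
 (cond (Nat.blt q 389) (blocks387to389 q)
 (blocks389to392 q)))
 (cond (Nat.blt q 397) (cond (Nat.blt q 394) (blocks392to394 q)
 (blocks394to397 q))
 (cond (Nat.blt q 400) (blocks397to400 q)
 (blocks400to403 q))))
 (cond (Nat.blt q 414) (cond (Nat.blt q 408) (cond (Nat.blt q 405) (blocks403to405 q)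
 (blocks405to408 q))
 (cond (Nat.blt q 411) (blocks408to411 q)
 (blocks411to414 q)))
 (cond (Nat.blt q 419) (cond (Nat.blt q 416) (blocks414to416 q)
 (blocks416to419 q))
 (cond (Nat.blt q 422) (blocks419to422 q)
 (blocks422to425 q))))

noncomputable def blocks425to427 (q : ℕ) : ℕ :=
 cond (Nat.blt q 426) (block425)
 (block426)

noncomputable def blocks427to430 (q : ℕ) : ℕ :=
 cond (Nat.blt q 428) (block427)
 (cond (Nat.blt q 429) (block428)
 (block429))

noncomputable def blocks430to432 (q : ℕ) : ℕ :=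
 cond (Nat.blt q 431) (block430)
 (block431)

noncomputable def blocks432to435 (q : ℕ) : ℕ :=
 cond (Nat.blt q 433) (block432)
 (cond (Nat.blt q 434) (block433)
 (block434))

noncomputable def blocks435to437 (q : ℕ) : ℕ :=
 cond (Nat.blt q 436) (block435)
 (block436)

noncomputable def blocks437to440 (q : ℕ) : ℕ :=
 cond (Nat.blt q 438) (block437)
 (cond (Nat.blt q 439) (block438)
 (block439))

noncomputable def blocks440to443 (q : ℕ) : ℕ :=
 cond (Nat.blt q 441) (block440)
 (cond (Nat.blt q 442) (block441)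
 (block442))

noncomputable def blocks443to446 (q : ℕ) : ℕ :=
 cond (Nat.blt q 444) (block443)
 (cond (Nat.blt q 445) (block444)
 (block445))

noncomputable def blocks446to448 (q : ℕ) : ℕ :=
 cond (Nat.blt q 447) (block446)
 (block447)

noncomputable def blocks448to451 (q : ℕ) : ℕ :=
 cond (Nat.blt q 449) (block448)
 (cond (Nat.blt q 450) (block449)
 (block450))

noncomputable def blocks451to453 (q : ℕ) : ℕ :=
 cond (Nat.blt q 452) (block451)
 (block452)

noncomputable def blocks453to456 (q : ℕ) : ℕ :=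
 cond (Nat.blt q 454) (block453)
 (cond (Nat.blt q 455) (block454)
 (block455))

noncomputable def blocks456to458 (q : ℕ) : ℕ :=
 cond (Nat.blt q 457) (block456)
 (block457)

noncomputable def blocks458to461 (q : ℕ) : ℕ :=
 cond (Nat.blt q 459) (block458)
 (cond (Nat.blt q 460) (block459)
 (block460))

noncomputable def blocks461to464 (q : ℕ) : ℕ :=
 cond (Nat.blt q 462) (block461)
 (cond (Nat.blt q 463) (block462)
 (block463))

noncomputable def blocks464to467 (q : ℕ) : ℕ :=
 cond (Nat.blt q 465) (block464)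
 (cond (Nat.blt q 466) (block465)
 (block466))

noncomputable def blocks425to467 (q : ℕ) : ℕ :=
 cond (Nat.blt q 446) (cond (Nat.blt q 435) (cond (Nat.blt q 430) (cond (Nat.blt q 427) (blocks425to427 q)
 (blocks427to430 q))
 (cond (Nat.blt q 432) (blocks430to432 q)
 (blocks432to435 q)))
 (cond (Nat.blt q 440) (cond (Nat.blt q 437) (blocks435to437 q)
 (blocks437to440 q))
 (cond (Nat.blt q 443) (blocks440to443 q)
 (blocks443to446 q))))
 (cond (Nat.blt q 456) (cond (Nat.blt q 451) (cond (Nat.blt q 448) (blocks446to448 q)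
 (blocks448to451 q))
 (cond (Nat.blt q 453) (blocks451to453 q)
 (blocks453to456 q)))
 (cond (Nat.blt q 461) (cond (Nat.blt q 458) (blocks456to458 q)
 (blocks458to461 q))
 (cond (Nat.blt q 464) (blocks461to464 q)
 (blocks464to467 q))))

noncomputable def blocks467to469 (q : ℕ) : ℕ :=
 cond (Nat.blt q 468) (block467)
 (block468)

noncomputable def blocks469to472 (q : ℕ) : ℕ :=
 cond (Nat.blt q 470) (block469)
 (cond (Nat.blt q 471) (block470)
 (block471))

noncomputable def blocks472to474 (q : ℕ) : ℕ :=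
 cond (Nat.blt q 473) (block472)
 (block473)

noncomputable def blocks474to477 (q : ℕ) : ℕ :=
 cond (Nat.blt q 475) (block474)
 (cond (Nat.blt q 476) (block475)
 (block476))

noncomputable def blocks477to479 (q : ℕ) : ℕ :=
 cond (Nat.blt q 478) (block477)
 (block478)

noncomputable def blocks479to482 (q : ℕ) : ℕ :=
 cond (Nat.blt q 480) (block479)
 (cond (Nat.blt q 481) (block480)
 (block481))

noncomputable def blocks482to485 (q : ℕ) : ℕ :=
 cond (Nat.blt q 483) (block482)
 (cond (Nat.blt q 484) (block483)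
 (block484))

noncomputable def blocks485to488 (q : ℕ) : ℕ :=
 cond (Nat.blt q 486) (block485)
 (cond (Nat.blt q 487) (block486)
 (block487))

noncomputable def blocks488to490 (q : ℕ) : ℕ :=
 cond (Nat.blt q 489) (block488)
 (block489)

noncomputable def blocks490to493 (q : ℕ) : ℕ :=
 cond (Nat.blt q 491) (block490)
 (cond (Nat.blt q 492) (block491)
 (block492))

noncomputable def blocks493to496 (q : ℕ) : ℕ :=
 cond (Nat.blt q 494) (block493)
 (cond (Nat.blt q 495) (block494)
 (block495))

noncomputable def blocks496to499 (q : ℕ) : ℕ :=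
 cond (Nat.blt q 497) (block496)
 (cond (Nat.blt q 498) (block497)
 (block498))

noncomputable def blocks499to501 (q : ℕ) : ℕ :=
 cond (Nat.blt q 500) (block499)
 (block500)

noncomputable def blocks501to504 (q : ℕ) : ℕ :=
 cond (Nat.blt q 502) (block501)
 (cond (Nat.blt q 503) (block502)
 (block503))

noncomputable def blocks504to507 (q : ℕ) : ℕ :=
 cond (Nat.blt q 505) (block504)
 (cond (Nat.blt q 506) (block505)
 (block506))

noncomputable def blocks507to510 (q : ℕ) : ℕ :=
 cond (Nat.blt q 508) (block507)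
 (cond (Nat.blt q 509) (block508)
 (block509))

noncomputable def blocks467to510 (q : ℕ) : ℕ :=
 cond (Nat.blt q 488) (cond (Nat.blt q 477) (cond (Nat.blt q 472) (cond (Nat.blt q 469) (blocks467to469 q)
 (blocks469to472 q))
 (cond (Nat.blt q 474) (blocks472to474 q)
 (blocks474to477 q)))
 (cond (Nat.blt q 482) (cond (Nat.blt q 479) (blocks477to479 q)
 (blocks479to482 q))
 (cond (Nat.blt q 485) (blocks482to485 q)
 (blocks485to488 q))))
 (cond (Nat.blt q 499) (cond (Nat.blt q 493) (cond (Nat.blt q 490) (blocks488to490 q)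
 (blocks490to493 q))
 (cond (Nat.blt q 496) (blocks493to496 q)
 (blocks496to499 q)))
 (cond (Nat.blt q 504) (cond (Nat.blt q 501) (blocks499to501 q)
 (blocks501to504 q))
 (cond (Nat.blt q 507) (blocks504to507 q)
 (blocks507to510 q))))

noncomputable def blocks510to512 (q : ℕ) : ℕ :=
 cond (Nat.blt q 511) (block510)
 (block511)

noncomputable def blocks512to515 (q : ℕ) : ℕ :=
 cond (Nat.blt q 513) (block512)
 (cond (Nat.blt q 514) (block513)
 (block514))

noncomputable def blocks515to517 (q : ℕ) : ℕ :=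
 cond (Nat.blt q 516) (block515)
 (block516)

noncomputable def blocks517to520 (q : ℕ) : ℕ :=
 cond (Nat.blt q 518) (block517)
 (cond (Nat.blt q 519) (block518)
 (block519))

noncomputable def blocks520to522 (q : ℕ) : ℕ :=
 cond (Nat.blt q 521) (block520)
 (block521)

noncomputable def blocks522to525 (q : ℕ) : ℕ :=
 cond (Nat.blt q 523) (block522)
 (cond (Nat.blt q 524) (block523)
 (block524))

noncomputable def blocks525to528 (q : ℕ) : ℕ :=
 cond (Nat.blt q 526) (block525)
 (cond (Nat.blt q 527) (block526)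
 (block527))

noncomputable def blocks528to531 (q : ℕ) : ℕ :=
 cond (Nat.blt q 529) (block528)
 (cond (Nat.blt q 530) (block529)
 (block530))

noncomputable def blocks531to533 (q : ℕ) : ℕ :=
 cond (Nat.blt q 532) (block531)
 (block532)

noncomputable def blocks533to536 (q : ℕ) : ℕ :=
 cond (Nat.blt q 534) (block533)
 (cond (Nat.blt q 535) (block534)
 (block535))

noncomputable def blocks536to538 (q : ℕ) : ℕ :=
 cond (Nat.blt q 537) (block536)
 (block537)

noncomputable def blocks538to541 (q : ℕ) : ℕ :=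
 cond (Nat.blt q 539) (block538)
 (cond (Nat.blt q 540) (block539)
 (block540))

noncomputable def blocks541to543 (q : ℕ) : ℕ :=
 cond (Nat.blt q 542) (block541)
 (block542)

noncomputable def blocks543to546 (q : ℕ) : ℕ :=
 cond (Nat.blt q 544) (block543)
 (cond (Nat.blt q 545) (block544)
 (block545))

noncomputable def blocks546to549 (q : ℕ) : ℕ :=
 cond (Nat.blt q 547) (block546)
 (cond (Nat.blt q 548) (block547)
 (block548))

noncomputable def blocks549to552 (q : ℕ) : ℕ :=
 cond (Nat.blt q 550) (block549)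
 (cond (Nat.blt q 551) (block550)
 (block551))

noncomputable def blocks510to552 (q : ℕ) : ℕ :=
 cond (Nat.blt q 531) (cond (Nat.blt q 520) (cond (Nat.blt q 515) (cond (Nat.blt q 512) (blocks510to512 q)
 (blocks512to515 q))
 (cond (Nat.blt q 517) (blocks515to517 q)
 (blocks517to520 q)))
 (cond (Nat.blt q 525) (cond (Nat.blt q 522) (blocks520to522 q)
 (blocks522to525 q))
 (cond (Nat.blt q 528) (blocks525to528 q)
 (blocks528to531 q))))
 (cond (Nat.blt q 541) (cond (Nat.blt q 536) (cond (Nat.blt q 533) (blocks531to533 q)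
 (blocks533to536 q))
 (cond (Nat.blt q 538) (blocks536to538 q)
 (blocks538to541 q)))
 (cond (Nat.blt q 546) (cond (Nat.blt q 543) (blocks541to543 q)
 (blocks543to546 q))
 (cond (Nat.blt q 549) (blocks546to549 q)
 (blocks549to552 q))))

noncomputable def blocks552to554 (q : ℕ) : ℕ :=
 cond (Nat.blt q 553) (block552)
 (block553)

noncomputable def blocks554to557 (q : ℕ) : ℕ :=
 cond (Nat.blt q 555) (block554)
 (cond (Nat.blt q 556) (block555)
 (block556))

noncomputable def blocks557to559 (q : ℕ) : ℕ :=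
 cond (Nat.blt q 558) (block557)
 (block558)

noncomputable def blocks559to562 (q : ℕ) : ℕ :=
 cond (Nat.blt q 560) (block559)
 (cond (Nat.blt q 561) (block560)
 (block561))

noncomputable def blocks562to564 (q : ℕ) : ℕ :=
 cond (Nat.blt q 563) (block562)
 (block563)

noncomputable def blocks564to567 (q : ℕ) : ℕ :=
 cond (Nat.blt q 565) (block564)
 (cond (Nat.blt q 566) (block565)
 (block566))

noncomputable def blocks567to570 (q : ℕ) : ℕ :=
 cond (Nat.blt q 568) (block567)
 (cond (Nat.blt q 569) (block568)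
 (block569))

noncomputable def blocks570to573 (q : ℕ) : ℕ :=
 cond (Nat.blt q 571) (block570)
 (cond (Nat.blt q 572) (block571)
 (block572))

noncomputable def blocks573to575 (q : ℕ) : ℕ :=
 cond (Nat.blt q 574) (block573)
 (block574)

noncomputable def blocks575to578 (q : ℕ) : ℕ :=
 cond (Nat.blt q 576) (block575)
 (cond (Nat.blt q 577) (block576)
 (block577))

noncomputable def blocks578to581 (q : ℕ) : ℕ :=
 cond (Nat.blt q 579) (block578)
 (cond (Nat.blt q 580) (block579)
 (block580))

noncomputable def blocks581to584 (q : ℕ) : ℕ :=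
 cond (Nat.blt q 582) (block581)
 (cond (Nat.blt q 583) (block582)
 (block583))

noncomputable def blocks584to586 (q : ℕ) : ℕ :=
 cond (Nat.blt q 585) (block584)
 (block585)

noncomputable def blocks586to589 (q : ℕ) : ℕ :=
 cond (Nat.blt q 587) (block586)
 (cond (Nat.blt q 588) (block587)
 (block588))

noncomputable def blocks589to592 (q : ℕ) : ℕ :=
 cond (Nat.blt q 590) (block589)
 (cond (Nat.blt q 591) (block590)
 (block591))

noncomputable def blocks592to595 (q : ℕ) : ℕ :=
 cond (Nat.blt q 593) (block592)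
 (cond (Nat.blt q 594) (block593)
 (block594))

noncomputable def blocks552to595 (q : ℕ) : ℕ :=
 cond (Nat.blt q 573) (cond (Nat.blt q 562) (cond (Nat.blt q 557) (cond (Nat.blt q 554) (blocks552to554 q)
 (blocks554to557 q))
 (cond (Nat.blt q 559) (blocks557to559 q)
 (blocks559to562 q)))
 (cond (Nat.blt q 567) (cond (Nat.blt q 564) (blocks562to564 q)
 (blocks564to567 q))
 (cond (Nat.blt q 570) (blocks567to570 q)
 (blocks570to573 q))))
 (cond (Nat.blt q 584) (cond (Nat.blt q 578) (cond (Nat.blt q 575) (blocks573to575 q)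
 (blocks575to578 q))
 (cond (Nat.blt q 581) (blocks578to581 q)
 (blocks581to584 q)))
 (cond (Nat.blt q 589) (cond (Nat.blt q 586) (blocks584to586 q)
 (blocks586to589 q))
 (cond (Nat.blt q 592) (blocks589to592 q)
 (blocks592to595 q))))

noncomputable def blocks595to597 (q : ℕ) : ℕ :=
 cond (Nat.blt q 596) (block595)
 (block596)

noncomputable def blocks597to600 (q : ℕ) : ℕ :=
 cond (Nat.blt q 598) (block597)
 (cond (Nat.blt q 599) (block598)
 (block599))

noncomputable def blocks600to602 (q : ℕ) : ℕ :=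
 cond (Nat.blt q 601) (block600)
 (block601)

noncomputable def blocks602to605 (q : ℕ) : ℕ :=
 cond (Nat.blt q 603) (block602)
 (cond (Nat.blt q 604) (block603)
 (block604))

noncomputable def blocks605to607 (q : ℕ) : ℕ :=
 cond (Nat.blt q 606) (block605)
 (block606)

noncomputable def blocks607to610 (q : ℕ) : ℕ :=
 cond (Nat.blt q 608) (block607)
 (cond (Nat.blt q 609) (block608)
 (block609))

noncomputable def blocks610to613 (q : ℕ) : ℕ :=
 cond (Nat.blt q 611) (block610)
 (cond (Nat.blt q 612) (block611)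
 (block612))

noncomputable def blocks613to616 (q : ℕ) : ℕ :=
 cond (Nat.blt q 614) (block613)
 (cond (Nat.blt q 615) (block614)
 (block615))

noncomputable def blocks616to618 (q : ℕ) : ℕ :=
 cond (Nat.blt q 617) (block616)
 (block617)

noncomputable def blocks618to621 (q : ℕ) : ℕ :=
 cond (Nat.blt q 619) (block618)
 (cond (Nat.blt q 620) (block619)
 (block620))

noncomputable def blocks621to623 (q : ℕ) : ℕ :=
 cond (Nat.blt q 622) (block621)
 (block622)

noncomputable def blocks623to626 (q : ℕ) : ℕ :=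
 cond (Nat.blt q 624) (block623)
 (cond (Nat.blt q 625) (block624)
 (block625))

noncomputable def blocks626to628 (q : ℕ) : ℕ :=
 cond (Nat.blt q 627) (block626)
 (block627)

noncomputable def blocks628to631 (q : ℕ) : ℕ :=
 cond (Nat.blt q 629) (block628)
 (cond (Nat.blt q 630) (block629)
 (block630))

noncomputable def blocks631to634 (q : ℕ) : ℕ :=
 cond (Nat.blt q 632) (block631)
 (cond (Nat.blt q 633) (block632)
 (block633))

noncomputable def blocks634to637 (q : ℕ) : ℕ :=
 cond (Nat.blt q 635) (block634)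
 (cond (Nat.blt q 636) (block635)
 (block636))

noncomputable def blocks595to637 (q : ℕ) : ℕ :=
 cond (Nat.blt q 616) (cond (Nat.blt q 605) (cond (Nat.blt q 600) (cond (Nat.blt q 597) (blocks595to597 q)
 (blocks597to600 q))
 (cond (Nat.blt q 602) (blocks600to602 q)
 (blocks602to605 q)))
 (cond (Nat.blt q 610) (cond (Nat.blt q 607) (blocks605to607 q)
 (blocks607to610 q))
 (cond (Nat.blt q 613) (blocks610to613 q)
 (blocks613to616 q))))
 (cond (Nat.blt q 626) (cond (Nat.blt q 621) (cond (Nat.blt q 618) (blocks616to618 q)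
 (blocks618to621 q))
 (cond (Nat.blt q 623) (blocks621to623 q)
 (blocks623to626 q)))
 (cond (Nat.blt q 631) (cond (Nat.blt q 628) (blocks626to628 q)
 (blocks628to631 q))
 (cond (Nat.blt q 634) (blocks631to634 q)
 (blocks634to637 q))))

noncomputable def blocks637to639 (q : ℕ) : ℕ :=
 cond (Nat.blt q 638) (block637)
 (block638)

noncomputable def blocks639to642 (q : ℕ) : ℕ :=
 cond (Nat.blt q 640) (block639)
 (cond (Nat.blt q 641) (block640)
 (block641))

noncomputable def blocks642to644 (q : ℕ) : ℕ :=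
 cond (Nat.blt q 643) (block642)
 (block643)

noncomputable def blocks644to647 (q : ℕ) : ℕ :=
 cond (Nat.blt q 645) (block644)
 (cond (Nat.blt q 646) (block645)
 (block646))

noncomputable def blocks647to649 (q : ℕ) : ℕ :=
 cond (Nat.blt q 648) (block647)
 (block648)

noncomputable def blocks649to652 (q : ℕ) : ℕ :=
 cond (Nat.blt q 650) (block649)
 (cond (Nat.blt q 651) (block650)
 (block651))

noncomputable def blocks652to655 (q : ℕ) : ℕ :=
 cond (Nat.blt q 653) (block652)
 (cond (Nat.blt q 654) (block653)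
 (block654))

noncomputable def blocks655to658 (q : ℕ) : ℕ :=
 cond (Nat.blt q 656) (block655)
 (cond (Nat.blt q 657) (block656)
 (block657))

noncomputable def blocks658to660 (q : ℕ) : ℕ :=
 cond (Nat.blt q 659) (block658)
 (block659)

noncomputable def blocks660to663 (q : ℕ) : ℕ :=
 cond (Nat.blt q 661) (block660)
 (cond (Nat.blt q 662) (block661)
 (block662))

noncomputable def blocks663to666 (q : ℕ) : ℕ :=
 cond (Nat.blt q 664) (block663)
 (cond (Nat.blt q 665) (block664)
 (block665))

noncomputable def blocks666to669 (q : ℕ) : ℕ :=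
 cond (Nat.blt q 667) (block666)
 (cond (Nat.blt q 668) (block667)
 (block668))

noncomputable def blocks669to671 (q : ℕ) : ℕ :=
 cond (Nat.blt q 670) (block669)
 (block670)

noncomputable def blocks671to674 (q : ℕ) : ℕ :=
 cond (Nat.blt q 672) (block671)
 (cond (Nat.blt q 673) (block672)
 (block673))

noncomputable def blocks674to677 (q : ℕ) : ℕ :=
 cond (Nat.blt q 675) (block674)
 (cond (Nat.blt q 676) (block675)
 (block676))

noncomputable def blocks677to680 (q : ℕ) : ℕ :=
 cond (Nat.blt q 678) (block677)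
 (cond (Nat.blt q 679) (block678)
 (block679))

noncomputable def blocks637to680 (q : ℕ) : ℕ :=
 cond (Nat.blt q 658) (cond (Nat.blt q 647) (cond (Nat.blt q 642) (cond (Nat.blt q 639) (blocks637to639 q)
 (blocks639to642 q))
 (cond (Nat.blt q 644) (blocks642to644 q)
 (blocks644to647 q)))
 (cond (Nat.blt q 652) (cond (Nat.blt q 649) (blocks647to649 q)
 (blocks649to652 q))
 (cond (Nat.blt q 655) (blocks652to655 q)
 (blocks655to658 q))))
 (cond (Nat.blt q 669) (cond (Nat.blt q 663) (cond (Nat.blt q 660) (blocks658to660 q)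
 (blocks660to663 q))
 (cond (Nat.blt q 666) (blocks663to666 q)
 (blocks666to669 q)))
 (cond (Nat.blt q 674) (cond (Nat.blt q 671) (blocks669to671 q)
 (blocks671to674 q))
 (cond (Nat.blt q 677) (blocks674to677 q)
 (blocks677to680 q))))

noncomputable def blocks0to680 (q : ℕ) : ℕ :=
 cond (Nat.blt q 340) (cond (Nat.blt q 170) (cond (Nat.blt q 85) (cond (Nat.blt q 42) (blocks0to42 q)
 (blocks42to85 q))
 (cond (Nat.blt q 127) (blocks85to127 q)
 (blocks127to170 q)))
 (cond (Nat.blt q 255) (cond (Nat.blt q 212) (blocks170to212 q)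
 (blocks212to255 q))
 (cond (Nat.blt q 297) (blocks255to297 q)
 (blocks297to340 q))))
 (cond (Nat.blt q 510) (cond (Nat.blt q 425) (cond (Nat.blt q 382) (blocks340to382 q)
 (blocks382to425 q))
 (cond (Nat.blt q 467) (blocks425to467 q)
 (blocks467to510 q)))
 (cond (Nat.blt q 595) (cond (Nat.blt q 552) (blocks510to552 q)
 (blocks552to595 q))
 (cond (Nat.blt q 637) (blocks595to637 q)
 (blocks637to680 q))))

noncomputable def blocks680to682 (q : ℕ) : ℕ :=
 cond (Nat.blt q 681) (block680)
 (block681)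

noncomputable def blocks682to685 (q : ℕ) : ℕ :=
 cond (Nat.blt q 683) (block682)
 (cond (Nat.blt q 684) (block683)
 (block684))

noncomputable def blocks685to687 (q : ℕ) : ℕ :=
 cond (Nat.blt q 686) (block685)
 (block686)

noncomputable def blocks687to690 (q : ℕ) : ℕ :=
 cond (Nat.blt q 688) (block687)
 (cond (Nat.blt q 689) (block688)
 (block689))

noncomputable def blocks690to692 (q : ℕ) : ℕ :=
 cond (Nat.blt q 691) (block690)
 (block691)

noncomputable def blocks692to695 (q : ℕ) : ℕ :=
 cond (Nat.blt q 693) (block692)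
 (cond (Nat.blt q 694) (block693)
 (block694))

noncomputable def blocks695to698 (q : ℕ) : ℕ :=
 cond (Nat.blt q 696) (block695)
 (cond (Nat.blt q 697) (block696)
 (block697))

noncomputable def blocks698to701 (q : ℕ) : ℕ :=
 cond (Nat.blt q 699) (block698)
 (cond (Nat.blt q 700) (block699)
 (block700))

noncomputable def blocks701to703 (q : ℕ) : ℕ :=
 cond (Nat.blt q 702) (block701)
 (block702)

noncomputable def blocks703to706 (q : ℕ) : ℕ :=
 cond (Nat.blt q 704) (block703)
 (cond (Nat.blt q 705) (block704)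
 (block705))

noncomputable def blocks706to708 (q : ℕ) : ℕ :=
 cond (Nat.blt q 707) (block706)
 (block707)

noncomputable def blocks708to711 (q : ℕ) : ℕ :=
 cond (Nat.blt q 709) (block708)
 (cond (Nat.blt q 710) (block709)
 (block710))

noncomputable def blocks711to713 (q : ℕ) : ℕ :=
 cond (Nat.blt q 712) (block711)
 (block712)

noncomputable def blocks713to716 (q : ℕ) : ℕ :=
 cond (Nat.blt q 714) (block713)
 (cond (Nat.blt q 715) (block714)
 (block715))

noncomputable def blocks716to719 (q : ℕ) : ℕ :=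
 cond (Nat.blt q 717) (block716)
 (cond (Nat.blt q 718) (block717)
 (block718))

noncomputable def blocks719to722 (q : ℕ) : ℕ :=
 cond (Nat.blt q 720) (block719)
 (cond (Nat.blt q 721) (block720)
 (block721))

noncomputable def blocks680to722 (q : ℕ) : ℕ :=
 cond (Nat.blt q 701) (cond (Nat.blt q 690) (cond (Nat.blt q 685) (cond (Nat.blt q 682) (blocks680to682 q)
 (blocks682to685 q))
 (cond (Nat.blt q 687) (blocks685to687 q)
 (blocks687to690 q)))
 (cond (Nat.blt q 695) (cond (Nat.blt q 692) (blocks690to692 q)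
 (blocks692to695 q))
 (cond (Nat.blt q 698) (blocks695to698 q)
 (blocks698to701 q))))
 (cond (Nat.blt q 711) (cond (Nat.blt q 706) (cond (Nat.blt q 703) (blocks701to703 q)
 (blocks703to706 q))
 (cond (Nat.blt q 708) (blocks706to708 q)
 (blocks708to711 q)))
 (cond (Nat.blt q 716) (cond (Nat.blt q 713) (blocks711to713 q)
 (blocks713to716 q))
 (cond (Nat.blt q 719) (blocks716to719 q)
 (blocks719to722 q))))

noncomputable def blocks722to724 (q : ℕ) : ℕ :=
 cond (Nat.blt q 723) (block722)
 (block723)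

noncomputable def blocks724to727 (q : ℕ) : ℕ :=
 cond (Nat.blt q 725) (block724)
 (cond (Nat.blt q 726) (block725)
 (block726))

noncomputable def blocks727to729 (q : ℕ) : ℕ :=
 cond (Nat.blt q 728) (block727)
 (block728)

noncomputable def blocks729to732 (q : ℕ) : ℕ :=
 cond (Nat.blt q 730) (block729)
 (cond (Nat.blt q 731) (block730)
 (block731))

noncomputable def blocks732to734 (q : ℕ) : ℕ :=
 cond (Nat.blt q 733) (block732)
 (block733)

noncomputable def blocks734to737 (q : ℕ) : ℕ :=
 cond (Nat.blt q 735) (block734)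
 (cond (Nat.blt q 736) (block735)
 (block736))

noncomputable def blocks737to740 (q : ℕ) : ℕ :=
 cond (Nat.blt q 738) (block737)
 (cond (Nat.blt q 739) (block738)
 (block739))

noncomputable def blocks740to743 (q : ℕ) : ℕ :=
 cond (Nat.blt q 741) (block740)
 (cond (Nat.blt q 742) (block741)
 (block742))

noncomputable def blocks743to745 (q : ℕ) : ℕ :=
 cond (Nat.blt q 744) (block743)
 (block744)

noncomputable def blocks745to748 (q : ℕ) : ℕ :=
 cond (Nat.blt q 746) (block745)
 (cond (Nat.blt q 747) (block746)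
 (block747))

noncomputable def blocks748to751 (q : ℕ) : ℕ :=
 cond (Nat.blt q 749) (block748)
 (cond (Nat.blt q 750) (block749)
 (block750))

noncomputable def blocks751to754 (q : ℕ) : ℕ :=
 cond (Nat.blt q 752) (block751)
 (cond (Nat.blt q 753) (block752)
 (block753))

noncomputable def blocks754to756 (q : ℕ) : ℕ :=
 cond (Nat.blt q 755) (block754)
 (block755)

noncomputable def blocks756to759 (q : ℕ) : ℕ :=
 cond (Nat.blt q 757) (block756)
 (cond (Nat.blt q 758) (block757)
 (block758))

noncomputable def blocks759to762 (q : ℕ) : ℕ :=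
 cond (Nat.blt q 760) (block759)
 (cond (Nat.blt q 761) (block760)
 (block761))

noncomputable def blocks762to765 (q : ℕ) : ℕ :=
 cond (Nat.blt q 763) (block762)
 (cond (Nat.blt q 764) (block763)
 (block764))

noncomputable def blocks722to765 (q : ℕ) : ℕ :=
 cond (Nat.blt q 743) (cond (Nat.blt q 732) (cond (Nat.blt q 727) (cond (Nat.blt q 724) (blocks722to724 q)
 (blocks724to727 q))
 (cond (Nat.blt q 729) (blocks727to729 q)
 (blocks729to732 q)))
 (cond (Nat.blt q 737) (cond (Nat.blt q 734) (blocks732to734 q)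
 (blocks734to737 q))
 (cond (Nat.blt q 740) (blocks737to740 q)
 (blocks740to743 q))))
 (cond (Nat.blt q 754) (cond (Nat.blt q 748) (cond (Nat.blt q 745) (blocks743to745 q)
 (blocks745to748 q))
 (cond (Nat.blt q 751) (blocks748to751 q)
 (blocks751to754 q)))
 (cond (Nat.blt q 759) (cond (Nat.blt q 756) (blocks754to756 q)
 (blocks756to759 q))
 (cond (Nat.blt q 762) (blocks759to762 q)
 (blocks762to765 q))))

noncomputable def blocks765to767 (q : ℕ) : ℕ :=
 cond (Nat.blt q 766) (block765)
 (block766)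

noncomputable def blocks767to770 (q : ℕ) : ℕ :=
 cond (Nat.blt q 768) (block767)
 (cond (Nat.blt q 769) (block768)
 (block769))

noncomputable def blocks770to772 (q : ℕ) : ℕ :=
 cond (Nat.blt q 771) (block770)
 (block771)

noncomputable def blocks772to775 (q : ℕ) : ℕ :=
 cond (Nat.blt q 773) (block772)
 (cond (Nat.blt q 774) (block773)
 (block774))

noncomputable def blocks775to777 (q : ℕ) : ℕ :=
 cond (Nat.blt q 776) (block775)
 (block776)

noncomputable def blocks777to780 (q : ℕ) : ℕ :=
 cond (Nat.blt q 778) (block777)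
 (cond (Nat.blt q 779) (block778)
 (block779))

noncomputable def blocks780to783 (q : ℕ) : ℕ :=
 cond (Nat.blt q 781) (block780)
 (cond (Nat.blt q 782) (block781)
 (block782))

noncomputable def blocks783to786 (q : ℕ) : ℕ :=
 cond (Nat.blt q 784) (block783)
 (cond (Nat.blt q 785) (block784)
 (block785))

noncomputable def blocks786to788 (q : ℕ) : ℕ :=
 cond (Nat.blt q 787) (block786)
 (block787)

noncomputable def blocks788to791 (q : ℕ) : ℕ :=
 cond (Nat.blt q 789) (block788)
 (cond (Nat.blt q 790) (block789)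
 (block790))

noncomputable def blocks791to793 (q : ℕ) : ℕ :=
 cond (Nat.blt q 792) (block791)
 (block792)

noncomputable def blocks793to796 (q : ℕ) : ℕ :=
 cond (Nat.blt q 794) (block793)
 (cond (Nat.blt q 795) (block794)
 (block795))

noncomputable def blocks796to798 (q : ℕ) : ℕ :=
 cond (Nat.blt q 797) (block796)
 (block797)

noncomputable def blocks798to801 (q : ℕ) : ℕ :=
 cond (Nat.blt q 799) (block798)
 (cond (Nat.blt q 800) (block799)
 (block800))

noncomputable def blocks801to804 (q : ℕ) : ℕ :=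
 cond (Nat.blt q 802) (block801)
 (cond (Nat.blt q 803) (block802)
 (block803))

noncomputable def blocks804to807 (q : ℕ) : ℕ :=
 cond (Nat.blt q 805) (block804)
 (cond (Nat.blt q 806) (block805)
 (block806))

noncomputable def blocks765to807 (q : ℕ) : ℕ :=
 cond (Nat.blt q 786) (cond (Nat.blt q 775) (cond (Nat.blt q 770) (cond (Nat.blt q 767) (blocks765to767 q)
 (blocks767to770 q))
 (cond (Nat.blt q 772) (blocks770to772 q)
 (blocks772to775 q)))
 (cond (Nat.blt q 780) (cond (Nat.blt q 777) (blocks775to777 q)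
 (blocks777to780 q))
 (cond (Nat.blt q 783) (blocks780to783 q)
 (blocks783to786 q))))
 (cond (Nat.blt q 796) (cond (Nat.blt q 791) (cond (Nat.blt q 788) (blocks786to788 q)
 (blocks788to791 q))
 (cond (Nat.blt q 793) (blocks791to793 q)
 (blocks793to796 q)))
 (cond (Nat.blt q 801) (cond (Nat.blt q 798) (blocks796to798 q)
 (blocks798to801 q))
 (cond (Nat.blt q 804) (blocks801to804 q)
 (blocks804to807 q))))

noncomputable def blocks807to809 (q : ℕ) : ℕ :=
 cond (Nat.blt q 808) (block807)
 (block808)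

noncomputable def blocks809to812 (q : ℕ) : ℕ :=
 cond (Nat.blt q 810) (block809)
 (cond (Nat.blt q 811) (block810)
 (block811))

noncomputable def blocks812to814 (q : ℕ) : ℕ :=
 cond (Nat.blt q 813) (block812)
 (block813)

noncomputable def blocks814to817 (q : ℕ) : ℕ :=
 cond (Nat.blt q 815) (block814)
 (cond (Nat.blt q 816) (block815)
 (block816))

noncomputable def blocks817to819 (q : ℕ) : ℕ :=
 cond (Nat.blt q 818) (block817)
 (block818)

noncomputable def blocks819to822 (q : ℕ) : ℕ :=
 cond (Nat.blt q 820) (block819)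
 (cond (Nat.blt q 821) (block820)
 (block821))

noncomputable def blocks822to825 (q : ℕ) : ℕ :=
 cond (Nat.blt q 823) (block822)
 (cond (Nat.blt q 824) (block823)
 (block824))

noncomputable def blocks825to828 (q : ℕ) : ℕ :=
 cond (Nat.blt q 826) (block825)
 (cond (Nat.blt q 827) (block826)
 (block827))

noncomputable def blocks828to830 (q : ℕ) : ℕ :=
 cond (Nat.blt q 829) (block828)
 (block829)

noncomputable def blocks830to833 (q : ℕ) : ℕ :=
 cond (Nat.blt q 831) (block830)
 (cond (Nat.blt q 832) (block831)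
 (block832))

noncomputable def blocks833to836 (q : ℕ) : ℕ :=
 cond (Nat.blt q 834) (block833)
 (cond (Nat.blt q 835) (block834)
 (block835))

noncomputable def blocks836to839 (q : ℕ) : ℕ :=
 cond (Nat.blt q 837) (block836)
 (cond (Nat.blt q 838) (block837)
 (block838))

noncomputable def blocks839to841 (q : ℕ) : ℕ :=
 cond (Nat.blt q 840) (block839)
 (block840)

noncomputable def blocks841to844 (q : ℕ) : ℕ :=
 cond (Nat.blt q 842) (block841)
 (cond (Nat.blt q 843) (block842)
 (block843))

noncomputable def blocks844to847 (q : ℕ) : ℕ :=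
 cond (Nat.blt q 845) (block844)
 (cond (Nat.blt q 846) (block845)
 (block846))

noncomputable def blocks847to850 (q : ℕ) : ℕ :=
 cond (Nat.blt q 848) (block847)
 (cond (Nat.blt q 849) (block848)
 (block849))

noncomputable def blocks807to850 (q : ℕ) : ℕ :=
 cond (Nat.blt q 828) (cond (Nat.blt q 817) (cond (Nat.blt q 812) (cond (Nat.blt q 809) (blocks807to809 q)
 (blocks809to812 q))
 (cond (Nat.blt q 814) (blocks812to814 q)
 (blocks814to817 q)))
 (cond (Nat.blt q 822) (cond (Nat.blt q 819) (blocks817to819 q)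
 (blocks819to822 q))
 (cond (Nat.blt q 825) (blocks822to825 q)
 (blocks825to828 q))))
 (cond (Nat.blt q 839) (cond (Nat.blt q 833) (cond (Nat.blt q 830) (blocks828to830 q)
 (blocks830to833 q))
 (cond (Nat.blt q 836) (blocks833to836 q)
 (blocks836to839 q)))
 (cond (Nat.blt q 844) (cond (Nat.blt q 841) (blocks839to841 q)
 (blocks841to844 q))
 (cond (Nat.blt q 847) (blocks844to847 q)
 (blocks847to850 q))))

noncomputable def blocks850to852 (q : ℕ) : ℕ :=
 cond (Nat.blt q 851) (block850)
 (block851)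

noncomputable def blocks852to855 (q : ℕ) : ℕ :=
 cond (Nat.blt q 853) (block852)
 (cond (Nat.blt q 854) (block853)
 (block854))

noncomputable def blocks855to857 (q : ℕ) : ℕ :=
 cond (Nat.blt q 856) (block855)
 (block856)

noncomputable def blocks857to860 (q : ℕ) : ℕ :=
 cond (Nat.blt q 858) (block857)
 (cond (Nat.blt q 859) (block858)
 (block859))

noncomputable def blocks860to862 (q : ℕ) : ℕ :=
 cond (Nat.blt q 861) (block860)
 (block861)

noncomputable def blocks862to865 (q : ℕ) : ℕ :=
 cond (Nat.blt q 863) (block862)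
 (cond (Nat.blt q 864) (block863)
 (block864))

noncomputable def blocks865to868 (q : ℕ) : ℕ :=
 cond (Nat.blt q 866) (block865)
 (cond (Nat.blt q 867) (block866)
 (block867))

noncomputable def blocks868to871 (q : ℕ) : ℕ :=
 cond (Nat.blt q 869) (block868)
 (cond (Nat.blt q 870) (block869)
 (block870))

noncomputable def blocks871to873 (q : ℕ) : ℕ :=
 cond (Nat.blt q 872) (block871)
 (block872)

noncomputable def blocks873to876 (q : ℕ) : ℕ :=
 cond (Nat.blt q 874) (block873)
 (cond (Nat.blt q 875) (block874)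
 (block875))

noncomputable def blocks876to878 (q : ℕ) : ℕ :=
 cond (Nat.blt q 877) (block876)
 (block877)

noncomputable def blocks878to881 (q : ℕ) : ℕ :=
 cond (Nat.blt q 879) (block878)
 (cond (Nat.blt q 880) (block879)
 (block880))

noncomputable def blocks881to883 (q : ℕ) : ℕ :=
 cond (Nat.blt q 882) (block881)
 (block882)

noncomputable def blocks883to886 (q : ℕ) : ℕ :=
 cond (Nat.blt q 884) (block883)
 (cond (Nat.blt q 885) (block884)
 (block885))

noncomputable def blocks886to889 (q : ℕ) : ℕ :=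
 cond (Nat.blt q 887) (block886)
 (cond (Nat.blt q 888) (block887)
 (block888))

noncomputable def blocks889to892 (q : ℕ) : ℕ :=
 cond (Nat.blt q 890) (block889)
 (cond (Nat.blt q 891) (block890)
 (block891))

noncomputable def blocks850to892 (q : ℕ) : ℕ :=
 cond (Nat.blt q 871) (cond (Nat.blt q 860) (cond (Nat.blt q 855) (cond (Nat.blt q 852) (blocks850to852 q)
 (blocks852to855 q))
 (cond (Nat.blt q 857) (blocks855to857 q)
 (blocks857to860 q)))
 (cond (Nat.blt q 865) (cond (Nat.blt q 862) (blocks860to862 q)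
 (blocks862to865 q))
 (cond (Nat.blt q 868) (blocks865to868 q)
 (blocks868to871 q))))
 (cond (Nat.blt q 881) (cond (Nat.blt q 876) (cond (Nat.blt q 873) (blocks871to873 q)
 (blocks873to876 q))
 (cond (Nat.blt q 878) (blocks876to878 q)
 (blocks878to881 q)))
 (cond (Nat.blt q 886) (cond (Nat.blt q 883) (blocks881to883 q)
 (blocks883to886 q))
 (cond (Nat.blt q 889) (blocks886to889 q)
 (blocks889to892 q))))

noncomputable def blocks892to894 (q : ℕ) : ℕ :=
 cond (Nat.blt q 893) (block892)
 (block893)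

noncomputable def blocks894to897 (q : ℕ) : ℕ :=
 cond (Nat.blt q 895) (block894)
 (cond (Nat.blt q 896) (block895)
 (block896))

noncomputable def blocks897to899 (q : ℕ) : ℕ :=
 cond (Nat.blt q 898) (block897)
 (block898)

noncomputable def blocks899to902 (q : ℕ) : ℕ :=
 cond (Nat.blt q 900) (block899)
 (cond (Nat.blt q 901) (block900)
 (block901))

noncomputable def blocks902to904 (q : ℕ) : ℕ :=
 cond (Nat.blt q 903) (block902)
 (block903)

noncomputable def blocks904to907 (q : ℕ) : ℕ :=
 cond (Nat.blt q 905) (block904)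
 (cond (Nat.blt q 906) (block905)
 (block906))

noncomputable def blocks907to910 (q : ℕ) : ℕ :=
 cond (Nat.blt q 908) (block907)
 (cond (Nat.blt q 909) (block908)
 (block909))

noncomputable def blocks910to913 (q : ℕ) : ℕ :=
 cond (Nat.blt q 911) (block910)
 (cond (Nat.blt q 912) (block911)
 (block912))

noncomputable def blocks913to915 (q : ℕ) : ℕ :=
 cond (Nat.blt q 914) (block913)
 (block914)

noncomputable def blocks915to918 (q : ℕ) : ℕ :=
 cond (Nat.blt q 916) (block915)
 (cond (Nat.blt q 917) (block916)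
 (block917))

noncomputable def blocks918to921 (q : ℕ) : ℕ :=
 cond (Nat.blt q 919) (block918)
 (cond (Nat.blt q 920) (block919)
 (block920))

noncomputable def blocks921to924 (q : ℕ) : ℕ :=
 cond (Nat.blt q 922) (block921)
 (cond (Nat.blt q 923) (block922)
 (block923))

noncomputable def blocks924to926 (q : ℕ) : ℕ :=
 cond (Nat.blt q 925) (block924)
 (block925)

noncomputable def blocks926to929 (q : ℕ) : ℕ :=
 cond (Nat.blt q 927) (block926)
 (cond (Nat.blt q 928) (block927)
 (block928))

noncomputable def blocks929to932 (q : ℕ) : ℕ :=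
 cond (Nat.blt q 930) (block929)
 (cond (Nat.blt q 931) (block930)
 (block931))

noncomputable def blocks932to935 (q : ℕ) : ℕ :=
 cond (Nat.blt q 933) (block932)
 (cond (Nat.blt q 934) (block933)
 (block934))

noncomputable def blocks892to935 (q : ℕ) : ℕ :=
 cond (Nat.blt q 913) (cond (Nat.blt q 902) (cond (Nat.blt q 897) (cond (Nat.blt q 894) (blocks892to894 q)
 (blocks894to897 q))
 (cond (Nat.blt q 899) (blocks897to899 q)
 (blocks899to902 q)))
 (cond (Nat.blt q 907) (cond (Nat.blt q 904) (blocks902to904 q)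
 (blocks904to907 q))
 (cond (Nat.blt q 910) (blocks907to910 q)
 (blocks910to913 q))))
 (cond (Nat.blt q 924) (cond (Nat.blt q 918) (cond (Nat.blt q 915) (blocks913to915 q)
 (blocks915to918 q))
 (cond (Nat.blt q 921) (blocks918to921 q)
 (blocks921to924 q)))
 (cond (Nat.blt q 929) (cond (Nat.blt q 926) (blocks924to926 q)
 (blocks926to929 q))
 (cond (Nat.blt q 932) (blocks929to932 q)
 (blocks932to935 q))))

noncomputable def blocks935to937 (q : ℕ) : ℕ :=
 cond (Nat.blt q 936) (block935)
 (block936)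

noncomputable def blocks937to940 (q : ℕ) : ℕ :=
 cond (Nat.blt q 938) (block937)
 (cond (Nat.blt q 939) (block938)
 (block939))

noncomputable def blocks940to942 (q : ℕ) : ℕ :=
 cond (Nat.blt q 941) (block940)
 (block941)

noncomputable def blocks942to945 (q : ℕ) : ℕ :=
 cond (Nat.blt q 943) (block942)
 (cond (Nat.blt q 944) (block943)
 (block944))

noncomputable def blocks945to947 (q : ℕ) : ℕ :=
 cond (Nat.blt q 946) (block945)
 (block946)

noncomputable def blocks947to950 (q : ℕ) : ℕ :=
 cond (Nat.blt q 948) (block947)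
 (cond (Nat.blt q 949) (block948)
 (block949))

noncomputable def blocks950to953 (q : ℕ) : ℕ :=
 cond (Nat.blt q 951) (block950)
 (cond (Nat.blt q 952) (block951)
 (block952))

noncomputable def blocks953to956 (q : ℕ) : ℕ :=
 cond (Nat.blt q 954) (block953)
 (cond (Nat.blt q 955) (block954)
 (block955))

noncomputable def blocks956to958 (q : ℕ) : ℕ :=
 cond (Nat.blt q 957) (block956)
 (block957)

noncomputable def blocks958to961 (q : ℕ) : ℕ :=
 cond (Nat.blt q 959) (block958)
 (cond (Nat.blt q 960) (block959)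
 (block960))

noncomputable def blocks961to963 (q : ℕ) : ℕ :=
 cond (Nat.blt q 962) (block961)
 (block962)

noncomputable def blocks963to966 (q : ℕ) : ℕ :=
 cond (Nat.blt q 964) (block963)
 (cond (Nat.blt q 965) (block964)
 (block965))

noncomputable def blocks966to968 (q : ℕ) : ℕ :=
 cond (Nat.blt q 967) (block966)
 (block967)

noncomputable def blocks968to971 (q : ℕ) : ℕ :=
 cond (Nat.blt q 969) (block968)
 (cond (Nat.blt q 970) (block969)
 (block970))

noncomputable def blocks971to974 (q : ℕ) : ℕ :=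
 cond (Nat.blt q 972) (block971)
 (cond (Nat.blt q 973) (block972)
 (block973))

noncomputable def blocks974to977 (q : ℕ) : ℕ :=
 cond (Nat.blt q 975) (block974)
 (cond (Nat.blt q 976) (block975)
 (block976))

noncomputable def blocks935to977 (q : ℕ) : ℕ :=
 cond (Nat.blt q 956) (cond (Nat.blt q 945) (cond (Nat.blt q 940) (cond (Nat.blt q 937) (blocks935to937 q)
 (blocks937to940 q))
 (cond (Nat.blt q 942) (blocks940to942 q)
 (blocks942to945 q)))
 (cond (Nat.blt q 950) (cond (Nat.blt q 947) (blocks945to947 q)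
 (blocks947to950 q))
 (cond (Nat.blt q 953) (blocks950to953 q)
 (blocks953to956 q))))
 (cond (Nat.blt q 966) (cond (Nat.blt q 961) (cond (Nat.blt q 958) (blocks956to958 q)
 (blocks958to961 q))
 (cond (Nat.blt q 963) (blocks961to963 q)
 (blocks963to966 q)))
 (cond (Nat.blt q 971) (cond (Nat.blt q 968) (blocks966to968 q)
 (blocks968to971 q))
 (cond (Nat.blt q 974) (blocks971to974 q)
 (blocks974to977 q))))

noncomputable def blocks977to979 (q : ℕ) : ℕ :=
 cond (Nat.blt q 978) (block977)
 (block978)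

noncomputable def blocks979to982 (q : ℕ) : ℕ :=
 cond (Nat.blt q 980) (block979)
 (cond (Nat.blt q 981) (block980)
 (block981))

noncomputable def blocks982to984 (q : ℕ) : ℕ :=
 cond (Nat.blt q 983) (block982)
 (block983)

noncomputable def blocks984to987 (q : ℕ) : ℕ :=
 cond (Nat.blt q 985) (block984)
 (cond (Nat.blt q 986) (block985)
 (block986))

noncomputable def blocks987to989 (q : ℕ) : ℕ :=
 cond (Nat.blt q 988) (block987)
 (block988)

noncomputable def blocks989to992 (q : ℕ) : ℕ :=
 cond (Nat.blt q 990) (block989)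
 (cond (Nat.blt q 991) (block990)
 (block991))

noncomputable def blocks992to995 (q : ℕ) : ℕ :=
 cond (Nat.blt q 993) (block992)
 (cond (Nat.blt q 994) (block993)
 (block994))

noncomputable def blocks995to998 (q : ℕ) : ℕ :=
 cond (Nat.blt q 996) (block995)
 (cond (Nat.blt q 997) (block996)
 (block997))

noncomputable def blocks998to1000 (q : ℕ) : ℕ :=
 cond (Nat.blt q 999) (block998)
 (block999)

noncomputable def blocks1000to1003 (q : ℕ) : ℕ :=
 cond (Nat.blt q 1001) (block1000)
 (cond (Nat.blt q 1002) (block1001)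
 (block1002))

noncomputable def blocks1003to1006 (q : ℕ) : ℕ :=
 cond (Nat.blt q 1004) (block1003)
 (cond (Nat.blt q 1005) (block1004)
 (block1005))

noncomputable def blocks1006to1009 (q : ℕ) : ℕ :=
 cond (Nat.blt q 1007) (block1006)
 (cond (Nat.blt q 1008) (block1007)
 (block1008))

noncomputable def blocks1009to1011 (q : ℕ) : ℕ :=
 cond (Nat.blt q 1010) (block1009)
 (block1010)

noncomputable def blocks1011to1014 (q : ℕ) : ℕ :=
 cond (Nat.blt q 1012) (block1011)
 (cond (Nat.blt q 1013) (block1012)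
 (block1013))

noncomputable def blocks1014to1017 (q : ℕ) : ℕ :=
 cond (Nat.blt q 1015) (block1014)
 (cond (Nat.blt q 1016) (block1015)
 (block1016))

noncomputable def blocks1017to1020 (q : ℕ) : ℕ :=
 cond (Nat.blt q 1018) (block1017)
 (cond (Nat.blt q 1019) (block1018)
 (block1019))

noncomputable def blocks977to1020 (q : ℕ) : ℕ :=
 cond (Nat.blt q 998) (cond (Nat.blt q 987) (cond (Nat.blt q 982) (cond (Nat.blt q 979) (blocks977to979 q)
 (blocks979to982 q))
 (cond (Nat.blt q 984) (blocks982to984 q)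
 (blocks984to987 q)))
 (cond (Nat.blt q 992) (cond (Nat.blt q 989) (blocks987to989 q)
 (blocks989to992 q))
 (cond (Nat.blt q 995) (blocks992to995 q)
 (blocks995to998 q))))
 (cond (Nat.blt q 1009) (cond (Nat.blt q 1003) (cond (Nat.blt q 1000) (blocks998to1000 q)
 (blocks1000to1003 q))
 (cond (Nat.blt q 1006) (blocks1003to1006 q)
 (blocks1006to1009 q)))
 (cond (Nat.blt q 1014) (cond (Nat.blt q 1011) (blocks1009to1011 q)
 (blocks1011to1014 q))
 (cond (Nat.blt q 1017) (blocks1014to1017 q)
 (blocks1017to1020 q))))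

noncomputable def blocks1020to1022 (q : ℕ) : ℕ :=
 cond (Nat.blt q 1021) (block1020)
 (block1021)

noncomputable def blocks1022to1025 (q : ℕ) : ℕ :=
 cond (Nat.blt q 1023) (block1022)
 (cond (Nat.blt q 1024) (block1023)
 (block1024))

noncomputable def blocks1025to1027 (q : ℕ) : ℕ :=
 cond (Nat.blt q 1026) (block1025)
 (block1026)

noncomputable def blocks1027to1030 (q : ℕ) : ℕ :=
 cond (Nat.blt q 1028) (block1027)
 (cond (Nat.blt q 1029) (block1028)
 (block1029))

noncomputable def blocks1030to1032 (q : ℕ) : ℕ :=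
 cond (Nat.blt q 1031) (block1030)
 (block1031)

noncomputable def blocks1032to1035 (q : ℕ) : ℕ :=
 cond (Nat.blt q 1033) (block1032)
 (cond (Nat.blt q 1034) (block1033)
 (block1034))

noncomputable def blocks1035to1038 (q : ℕ) : ℕ :=
 cond (Nat.blt q 1036) (block1035)
 (cond (Nat.blt q 1037) (block1036)
 (block1037))

noncomputable def blocks1038to1041 (q : ℕ) : ℕ :=
 cond (Nat.blt q 1039) (block1038)
 (cond (Nat.blt q 1040) (block1039)
 (block1040))

noncomputable def blocks1041to1043 (q : ℕ) : ℕ :=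
 cond (Nat.blt q 1042) (block1041)
 (block1042)

noncomputable def blocks1043to1046 (q : ℕ) : ℕ :=
 cond (Nat.blt q 1044) (block1043)
 (cond (Nat.blt q 1045) (block1044)
 (block1045))

noncomputable def blocks1046to1048 (q : ℕ) : ℕ :=
 cond (Nat.blt q 1047) (block1046)
 (block1047)

noncomputable def blocks1048to1051 (q : ℕ) : ℕ :=
 cond (Nat.blt q 1049) (block1048)
 (cond (Nat.blt q 1050) (block1049)
 (block1050))

noncomputable def blocks1051to1053 (q : ℕ) : ℕ :=
 cond (Nat.blt q 1052) (block1051)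
 (block1052)

noncomputable def blocks1053to1056 (q : ℕ) : ℕ :=
 cond (Nat.blt q 1054) (block1053)
 (cond (Nat.blt q 1055) (block1054)
 (block1055))

noncomputable def blocks1056to1059 (q : ℕ) : ℕ :=
 cond (Nat.blt q 1057) (block1056)
 (cond (Nat.blt q 1058) (block1057)
 (block1058))

noncomputable def blocks1059to1062 (q : ℕ) : ℕ :=
 cond (Nat.blt q 1060) (block1059)
 (cond (Nat.blt q 1061) (block1060)
 (block1061))

noncomputable def blocks1020to1062 (q : ℕ) : ℕ :=
 cond (Nat.blt q 1041) (cond (Nat.blt q 1030) (cond (Nat.blt q 1025) (cond (Nat.blt q 1022) (blocks1020to1022 q)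
 (blocks1022to1025 q))
 (cond (Nat.blt q 1027) (blocks1025to1027 q)
 (blocks1027to1030 q)))
 (cond (Nat.blt q 1035) (cond (Nat.blt q 1032) (blocks1030to1032 q)
 (blocks1032to1035 q))
 (cond (Nat.blt q 1038) (blocks1035to1038 q)
 (blocks1038to1041 q))))
 (cond (Nat.blt q 1051) (cond (Nat.blt q 1046) (cond (Nat.blt q 1043) (blocks1041to1043 q)
 (blocks1043to1046 q))
 (cond (Nat.blt q 1048) (blocks1046to1048 q)
 (blocks1048to1051 q)))
 (cond (Nat.blt q 1056) (cond (Nat.blt q 1053) (blocks1051to1053 q)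
 (blocks1053to1056 q))
 (cond (Nat.blt q 1059) (blocks1056to1059 q)
 (blocks1059to1062 q))))

noncomputable def blocks1062to1064 (q : ℕ) : ℕ :=
 cond (Nat.blt q 1063) (block1062)
 (block1063)

noncomputable def blocks1064to1067 (q : ℕ) : ℕ :=
 cond (Nat.blt q 1065) (block1064)
 (cond (Nat.blt q 1066) (block1065)
 (block1066))

noncomputable def blocks1067to1069 (q : ℕ) : ℕ :=
 cond (Nat.blt q 1068) (block1067)
 (block1068)

noncomputable def blocks1069to1072 (q : ℕ) : ℕ :=
 cond (Nat.blt q 1070) (block1069)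
 (cond (Nat.blt q 1071) (block1070)
 (block1071))

noncomputable def blocks1072to1074 (q : ℕ) : ℕ :=
 cond (Nat.blt q 1073) (block1072)
 (block1073)

noncomputable def blocks1074to1077 (q : ℕ) : ℕ :=
 cond (Nat.blt q 1075) (block1074)
 (cond (Nat.blt q 1076) (block1075)
 (block1076))

noncomputable def blocks1077to1080 (q : ℕ) : ℕ :=
 cond (Nat.blt q 1078) (block1077)
 (cond (Nat.blt q 1079) (block1078)
 (block1079))

noncomputable def blocks1080to1083 (q : ℕ) : ℕ :=
 cond (Nat.blt q 1081) (block1080)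
 (cond (Nat.blt q 1082) (block1081)
 (block1082))

noncomputable def blocks1083to1085 (q : ℕ) : ℕ :=
 cond (Nat.blt q 1084) (block1083)
 (block1084)

noncomputable def blocks1085to1088 (q : ℕ) : ℕ :=
 cond (Nat.blt q 1086) (block1085)
 (cond (Nat.blt q 1087) (block1086)
 (block1087))

noncomputable def blocks1088to1091 (q : ℕ) : ℕ :=
 cond (Nat.blt q 1089) (block1088)
 (cond (Nat.blt q 1090) (block1089)
 (block1090))

noncomputable def blocks1091to1094 (q : ℕ) : ℕ :=
 cond (Nat.blt q 1092) (block1091)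
 (cond (Nat.blt q 1093) (block1092)
 (block1093))

noncomputable def blocks1094to1096 (q : ℕ) : ℕ :=
 cond (Nat.blt q 1095) (block1094)
 (block1095)

noncomputable def blocks1096to1099 (q : ℕ) : ℕ :=
 cond (Nat.blt q 1097) (block1096)
 (cond (Nat.blt q 1098) (block1097)
 (block1098))

noncomputable def blocks1099to1102 (q : ℕ) : ℕ :=
 cond (Nat.blt q 1100) (block1099)
 (cond (Nat.blt q 1101) (block1100)
 (block1101))

noncomputable def blocks1102to1105 (q : ℕ) : ℕ :=
 cond (Nat.blt q 1103) (block1102)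
 (cond (Nat.blt q 1104) (block1103)
 (block1104))

noncomputable def blocks1062to1105 (q : ℕ) : ℕ :=
 cond (Nat.blt q 1083) (cond (Nat.blt q 1072) (cond (Nat.blt q 1067) (cond (Nat.blt q 1064) (blocks1062to1064 q)
 (blocks1064to1067 q))
 (cond (Nat.blt q 1069) (blocks1067to1069 q)
 (blocks1069to1072 q)))
 (cond (Nat.blt q 1077) (cond (Nat.blt q 1074) (blocks1072to1074 q)
 (blocks1074to1077 q))
 (cond (Nat.blt q 1080) (blocks1077to1080 q)
 (blocks1080to1083 q))))
 (cond (Nat.blt q 1094) (cond (Nat.blt q 1088) (cond (Nat.blt q 1085) (blocks1083to1085 q)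
 (blocks1085to1088 q))
 (cond (Nat.blt q 1091) (blocks1088to1091 q)
 (blocks1091to1094 q)))
 (cond (Nat.blt q 1099) (cond (Nat.blt q 1096) (blocks1094to1096 q)
 (blocks1096to1099 q))
 (cond (Nat.blt q 1102) (blocks1099to1102 q)
 (blocks1102to1105 q))))

noncomputable def blocks1105to1107 (q : ℕ) : ℕ :=
 cond (Nat.blt q 1106) (block1105)
 (block1106)

noncomputable def blocks1107to1110 (q : ℕ) : ℕ :=
 cond (Nat.blt q 1108) (block1107)
 (cond (Nat.blt q 1109) (block1108)
 (block1109))

noncomputable def blocks1110to1112 (q : ℕ) : ℕ :=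
 cond (Nat.blt q 1111) (block1110)
 (block1111)

noncomputable def blocks1112to1115 (q : ℕ) : ℕ :=
 cond (Nat.blt q 1113) (block1112)
 (cond (Nat.blt q 1114) (block1113)
 (block1114))

noncomputable def blocks1115to1117 (q : ℕ) : ℕ :=
 cond (Nat.blt q 1116) (block1115)
 (block1116)

noncomputable def blocks1117to1120 (q : ℕ) : ℕ :=
 cond (Nat.blt q 1118) (block1117)
 (cond (Nat.blt q 1119) (block1118)
 (block1119))

noncomputable def blocks1120to1123 (q : ℕ) : ℕ :=
 cond (Nat.blt q 1121) (block1120)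
 (cond (Nat.blt q 1122) (block1121)
 (block1122))

noncomputable def blocks1123to1126 (q : ℕ) : ℕ :=
 cond (Nat.blt q 1124) (block1123)
 (cond (Nat.blt q 1125) (block1124)
 (block1125))

noncomputable def blocks1126to1128 (q : ℕ) : ℕ :=
 cond (Nat.blt q 1127) (block1126)
 (block1127)

noncomputable def blocks1128to1131 (q : ℕ) : ℕ :=
 cond (Nat.blt q 1129) (block1128)
 (cond (Nat.blt q 1130) (block1129)
 (block1130))

noncomputable def blocks1131to1133 (q : ℕ) : ℕ :=
 cond (Nat.blt q 1132) (block1131)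
 (block1132)

noncomputable def blocks1133to1136 (q : ℕ) : ℕ :=
 cond (Nat.blt q 1134) (block1133)
 (cond (Nat.blt q 1135) (block1134)
 (block1135))

noncomputable def blocks1136to1138 (q : ℕ) : ℕ :=
 cond (Nat.blt q 1137) (block1136)
 (block1137)

noncomputable def blocks1138to1141 (q : ℕ) : ℕ :=
 cond (Nat.blt q 1139) (block1138)
 (cond (Nat.blt q 1140) (block1139)
 (block1140))

noncomputable def blocks1141to1144 (q : ℕ) : ℕ :=
 cond (Nat.blt q 1142) (block1141)
 (cond (Nat.blt q 1143) (block1142)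
 (block1143))

noncomputable def blocks1144to1147 (q : ℕ) : ℕ :=
 cond (Nat.blt q 1145) (block1144)
 (cond (Nat.blt q 1146) (block1145)
 (block1146))

noncomputable def blocks1105to1147 (q : ℕ) : ℕ :=
 cond (Nat.blt q 1126) (cond (Nat.blt q 1115) (cond (Nat.blt q 1110) (cond (Nat.blt q 1107) (blocks1105to1107 q)
 (blocks1107to1110 q))
 (cond (Nat.blt q 1112) (blocks1110to1112 q)
 (blocks1112to1115 q)))
 (cond (Nat.blt q 1120) (cond (Nat.blt q 1117) (blocks1115to1117 q)
 (blocks1117to1120 q))
 (cond (Nat.blt q 1123) (blocks1120to1123 q)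
 (blocks1123to1126 q))))
 (cond (Nat.blt q 1136) (cond (Nat.blt q 1131) (cond (Nat.blt q 1128) (blocks1126to1128 q)
 (blocks1128to1131 q))
 (cond (Nat.blt q 1133) (blocks1131to1133 q)
 (blocks1133to1136 q)))
 (cond (Nat.blt q 1141) (cond (Nat.blt q 1138) (blocks1136to1138 q)
 (blocks1138to1141 q))
 (cond (Nat.blt q 1144) (blocks1141to1144 q)
 (blocks1144to1147 q))))

noncomputable def blocks1147to1149 (q : ℕ) : ℕ :=
 cond (Nat.blt q 1148) (block1147)
 (block1148)

noncomputable def blocks1149to1152 (q : ℕ) : ℕ :=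
 cond (Nat.blt q 1150) (block1149)
 (cond (Nat.blt q 1151) (block1150)
 (block1151))

noncomputable def blocks1152to1154 (q : ℕ) : ℕ :=
 cond (Nat.blt q 1153) (block1152)
 (block1153)

noncomputable def blocks1154to1157 (q : ℕ) : ℕ :=
 cond (Nat.blt q 1155) (block1154)
 (cond (Nat.blt q 1156) (block1155)
 (block1156))

noncomputable def blocks1157to1159 (q : ℕ) : ℕ :=
 cond (Nat.blt q 1158) (block1157)
 (block1158)

noncomputable def blocks1159to1162 (q : ℕ) : ℕ :=
 cond (Nat.blt q 1160) (block1159)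
 (cond (Nat.blt q 1161) (block1160)
 (block1161))

noncomputable def blocks1162to1165 (q : ℕ) : ℕ :=
 cond (Nat.blt q 1163) (block1162)
 (cond (Nat.blt q 1164) (block1163)
 (block1164))

noncomputable def blocks1165to1168 (q : ℕ) : ℕ :=
 cond (Nat.blt q 1166) (block1165)
 (cond (Nat.blt q 1167) (block1166)
 (block1167))

noncomputable def blocks1168to1170 (q : ℕ) : ℕ :=
 cond (Nat.blt q 1169) (block1168)
 (block1169)

noncomputable def blocks1170to1173 (q : ℕ) : ℕ :=
 cond (Nat.blt q 1171) (block1170)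
 (cond (Nat.blt q 1172) (block1171)
 (block1172))

noncomputable def blocks1173to1176 (q : ℕ) : ℕ :=
 cond (Nat.blt q 1174) (block1173)
 (cond (Nat.blt q 1175) (block1174)
 (block1175))

noncomputable def blocks1176to1179 (q : ℕ) : ℕ :=
 cond (Nat.blt q 1177) (block1176)
 (cond (Nat.blt q 1178) (block1177)
 (block1178))

noncomputable def blocks1179to1181 (q : ℕ) : ℕ :=
 cond (Nat.blt q 1180) (block1179)
 (block1180)

noncomputable def blocks1181to1184 (q : ℕ) : ℕ :=
 cond (Nat.blt q 1182) (block1181)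
 (cond (Nat.blt q 1183) (block1182)
 (block1183))

noncomputable def blocks1184to1187 (q : ℕ) : ℕ :=
 cond (Nat.blt q 1185) (block1184)
 (cond (Nat.blt q 1186) (block1185)
 (block1186))

noncomputable def blocks1187to1190 (q : ℕ) : ℕ :=
 cond (Nat.blt q 1188) (block1187)
 (cond (Nat.blt q 1189) (block1188)
 (block1189))

noncomputable def blocks1147to1190 (q : ℕ) : ℕ :=
 cond (Nat.blt q 1168) (cond (Nat.blt q 1157) (cond (Nat.blt q 1152) (cond (Nat.blt q 1149) (blocks1147to1149 q)
 (blocks1149to1152 q))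
 (cond (Nat.blt q 1154) (blocks1152to1154 q)
 (blocks1154to1157 q)))
 (cond (Nat.blt q 1162) (cond (Nat.blt q 1159) (blocks1157to1159 q)
 (blocks1159to1162 q))
 (cond (Nat.blt q 1165) (blocks1162to1165 q)
 (blocks1165to1168 q))))
 (cond (Nat.blt q 1179) (cond (Nat.blt q 1173) (cond (Nat.blt q 1170) (blocks1168to1170 q)
 (blocks1170to1173 q))
 (cond (Nat.blt q 1176) (blocks1173to1176 q)
 (blocks1176to1179 q)))
 (cond (Nat.blt q 1184) (cond (Nat.blt q 1181) (blocks1179to1181 q)
 (blocks1181to1184 q))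
 (cond (Nat.blt q 1187) (blocks1184to1187 q)
 (blocks1187to1190 q))))

noncomputable def blocks1190to1192 (q : ℕ) : ℕ :=
 cond (Nat.blt q 1191) (block1190)
 (block1191)

noncomputable def blocks1192to1195 (q : ℕ) : ℕ :=
 cond (Nat.blt q 1193) (block1192)
 (cond (Nat.blt q 1194) (block1193)
 (block1194))

noncomputable def blocks1195to1197 (q : ℕ) : ℕ :=
 cond (Nat.blt q 1196) (block1195)
 (block1196)

noncomputable def blocks1197to1200 (q : ℕ) : ℕ :=
 cond (Nat.blt q 1198) (block1197)
 (cond (Nat.blt q 1199) (block1198)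
 (block1199))

noncomputable def blocks1200to1202 (q : ℕ) : ℕ :=
 cond (Nat.blt q 1201) (block1200)
 (block1201)

noncomputable def blocks1202to1205 (q : ℕ) : ℕ :=
 cond (Nat.blt q 1203) (block1202)
 (cond (Nat.blt q 1204) (block1203)
 (block1204))

noncomputable def blocks1205to1208 (q : ℕ) : ℕ :=
 cond (Nat.blt q 1206) (block1205)
 (cond (Nat.blt q 1207) (block1206)
 (block1207))

noncomputable def blocks1208to1211 (q : ℕ) : ℕ :=
 cond (Nat.blt q 1209) (block1208)
 (cond (Nat.blt q 1210) (block1209)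
 (block1210))

noncomputable def blocks1211to1213 (q : ℕ) : ℕ :=
 cond (Nat.blt q 1212) (block1211)
 (block1212)

noncomputable def blocks1213to1216 (q : ℕ) : ℕ :=
 cond (Nat.blt q 1214) (block1213)
 (cond (Nat.blt q 1215) (block1214)
 (block1215))

noncomputable def blocks1216to1218 (q : ℕ) : ℕ :=
 cond (Nat.blt q 1217) (block1216)
 (block1217)

noncomputable def blocks1218to1221 (q : ℕ) : ℕ :=
 cond (Nat.blt q 1219) (block1218)
 (cond (Nat.blt q 1220) (block1219)
 (block1220))

noncomputable def blocks1221to1223 (q : ℕ) : ℕ :=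
 cond (Nat.blt q 1222) (block1221)
 (block1222)

noncomputable def blocks1223to1226 (q : ℕ) : ℕ :=
 cond (Nat.blt q 1224) (block1223)
 (cond (Nat.blt q 1225) (block1224)
 (block1225))

noncomputable def blocks1226to1229 (q : ℕ) : ℕ :=
 cond (Nat.blt q 1227) (block1226)
 (cond (Nat.blt q 1228) (block1227)
 (block1228))

noncomputable def blocks1229to1232 (q : ℕ) : ℕ :=
 cond (Nat.blt q 1230) (block1229)
 (cond (Nat.blt q 1231) (block1230)
 (block1231))

noncomputable def blocks1190to1232 (q : ℕ) : ℕ :=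
 cond (Nat.blt q 1211) (cond (Nat.blt q 1200) (cond (Nat.blt q 1195) (cond (Nat.blt q 1192) (blocks1190to1192 q)
 (blocks1192to1195 q))
 (cond (Nat.blt q 1197) (blocks1195to1197 q)
 (blocks1197to1200 q)))
 (cond (Nat.blt q 1205) (cond (Nat.blt q 1202) (blocks1200to1202 q)
 (blocks1202to1205 q))
 (cond (Nat.blt q 1208) (blocks1205to1208 q)
 (blocks1208to1211 q))))
 (cond (Nat.blt q 1221) (cond (Nat.blt q 1216) (cond (Nat.blt q 1213) (blocks1211to1213 q)
 (blocks1213to1216 q))
 (cond (Nat.blt q 1218) (blocks1216to1218 q)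
 (blocks1218to1221 q)))
 (cond (Nat.blt q 1226) (cond (Nat.blt q 1223) (blocks1221to1223 q)
 (blocks1223to1226 q))
 (cond (Nat.blt q 1229) (blocks1226to1229 q)
 (blocks1229to1232 q))))

noncomputable def blocks1232to1234 (q : ℕ) : ℕ :=
 cond (Nat.blt q 1233) (block1232)
 (block1233)

noncomputable def blocks1234to1237 (q : ℕ) : ℕ :=
 cond (Nat.blt q 1235) (block1234)
 (cond (Nat.blt q 1236) (block1235)
 (block1236))

noncomputable def blocks1237to1239 (q : ℕ) : ℕ :=
 cond (Nat.blt q 1238) (block1237)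
 (block1238)

noncomputable def blocks1239to1242 (q : ℕ) : ℕ :=
 cond (Nat.blt q 1240) (block1239)
 (cond (Nat.blt q 1241) (block1240)
 (block1241))

noncomputable def blocks1242to1244 (q : ℕ) : ℕ :=
 cond (Nat.blt q 1243) (block1242)
 (block1243)

noncomputable def blocks1244to1247 (q : ℕ) : ℕ :=
 cond (Nat.blt q 1245) (block1244)
 (cond (Nat.blt q 1246) (block1245)
 (block1246))

noncomputable def blocks1247to1250 (q : ℕ) : ℕ :=
 cond (Nat.blt q 1248) (block1247)
 (cond (Nat.blt q 1249) (block1248)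
 (block1249))

noncomputable def blocks1250to1253 (q : ℕ) : ℕ :=
 cond (Nat.blt q 1251) (block1250)
 (cond (Nat.blt q 1252) (block1251)
 (block1252))

noncomputable def blocks1253to1255 (q : ℕ) : ℕ :=
 cond (Nat.blt q 1254) (block1253)
 (block1254)

noncomputable def blocks1255to1258 (q : ℕ) : ℕ :=
 cond (Nat.blt q 1256) (block1255)
 (cond (Nat.blt q 1257) (block1256)
 (block1257))

noncomputable def blocks1258to1261 (q : ℕ) : ℕ :=
 cond (Nat.blt q 1259) (block1258)
 (cond (Nat.blt q 1260) (block1259)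
 (block1260))

noncomputable def blocks1261to1264 (q : ℕ) : ℕ :=
 cond (Nat.blt q 1262) (block1261)
 (cond (Nat.blt q 1263) (block1262)
 (block1263))

noncomputable def blocks1264to1266 (q : ℕ) : ℕ :=
 cond (Nat.blt q 1265) (block1264)
 (block1265)

noncomputable def blocks1266to1269 (q : ℕ) : ℕ :=
 cond (Nat.blt q 1267) (block1266)
 (cond (Nat.blt q 1268) (block1267)
 (block1268))

noncomputable def blocks1269to1272 (q : ℕ) : ℕ :=
 cond (Nat.blt q 1270) (block1269)
 (cond (Nat.blt q 1271) (block1270)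
 (block1271))

noncomputable def blocks1272to1275 (q : ℕ) : ℕ :=
 cond (Nat.blt q 1273) (block1272)
 (cond (Nat.blt q 1274) (block1273)
 (block1274))

noncomputable def blocks1232to1275 (q : ℕ) : ℕ :=
 cond (Nat.blt q 1253) (cond (Nat.blt q 1242) (cond (Nat.blt q 1237) (cond (Nat.blt q 1234) (blocks1232to1234 q)
 (blocks1234to1237 q))
 (cond (Nat.blt q 1239) (blocks1237to1239 q)
 (blocks1239to1242 q)))
 (cond (Nat.blt q 1247) (cond (Nat.blt q 1244) (blocks1242to1244 q)
 (blocks1244to1247 q))
 (cond (Nat.blt q 1250) (blocks1247to1250 q)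
 (blocks1250to1253 q))))
 (cond (Nat.blt q 1264) (cond (Nat.blt q 1258) (cond (Nat.blt q 1255) (blocks1253to1255 q)
 (blocks1255to1258 q))
 (cond (Nat.blt q 1261) (blocks1258to1261 q)
 (blocks1261to1264 q)))
 (cond (Nat.blt q 1269) (cond (Nat.blt q 1266) (blocks1264to1266 q)
 (blocks1266to1269 q))
 (cond (Nat.blt q 1272) (blocks1269to1272 q)
 (blocks1272to1275 q))))

noncomputable def blocks1275to1277 (q : ℕ) : ℕ :=
 cond (Nat.blt q 1276) (block1275)
 (block1276)

noncomputable def blocks1277to1280 (q : ℕ) : ℕ :=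
 cond (Nat.blt q 1278) (block1277)
 (cond (Nat.blt q 1279) (block1278)
 (block1279))

noncomputable def blocks1280to1282 (q : ℕ) : ℕ :=
 cond (Nat.blt q 1281) (block1280)
 (block1281)

noncomputable def blocks1282to1285 (q : ℕ) : ℕ :=
 cond (Nat.blt q 1283) (block1282)
 (cond (Nat.blt q 1284) (block1283)
 (block1284))

noncomputable def blocks1285to1287 (q : ℕ) : ℕ :=
 cond (Nat.blt q 1286) (block1285)
 (block1286)

noncomputable def blocks1287to1290 (q : ℕ) : ℕ :=
 cond (Nat.blt q 1288) (block1287)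
 (cond (Nat.blt q 1289) (block1288)
 (block1289))

noncomputable def blocks1290to1293 (q : ℕ) : ℕ :=
 cond (Nat.blt q 1291) (block1290)
 (cond (Nat.blt q 1292) (block1291)
 (block1292))

noncomputable def blocks1293to1296 (q : ℕ) : ℕ :=
 cond (Nat.blt q 1294) (block1293)
 (cond (Nat.blt q 1295) (block1294)
 (block1295))

noncomputable def blocks1296to1298 (q : ℕ) : ℕ :=
 cond (Nat.blt q 1297) (block1296)
 (block1297)

noncomputable def blocks1298to1301 (q : ℕ) : ℕ :=
 cond (Nat.blt q 1299) (block1298)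
 (cond (Nat.blt q 1300) (block1299)
 (block1300))

noncomputable def blocks1301to1303 (q : ℕ) : ℕ :=
 cond (Nat.blt q 1302) (block1301)
 (block1302)

noncomputable def blocks1303to1306 (q : ℕ) : ℕ :=
 cond (Nat.blt q 1304) (block1303)
 (cond (Nat.blt q 1305) (block1304)
 (block1305))

noncomputable def blocks1306to1308 (q : ℕ) : ℕ :=
 cond (Nat.blt q 1307) (block1306)
 (block1307)

noncomputable def blocks1308to1311 (q : ℕ) : ℕ :=
 cond (Nat.blt q 1309) (block1308)
 (cond (Nat.blt q 1310) (block1309)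
 (block1310))

noncomputable def blocks1311to1314 (q : ℕ) : ℕ :=
 cond (Nat.blt q 1312) (block1311)
 (cond (Nat.blt q 1313) (block1312)
 (block1313))

noncomputable def blocks1314to1317 (q : ℕ) : ℕ :=
 cond (Nat.blt q 1315) (block1314)
 (cond (Nat.blt q 1316) (block1315)
 (block1316))

noncomputable def blocks1275to1317 (q : ℕ) : ℕ :=
 cond (Nat.blt q 1296) (cond (Nat.blt q 1285) (cond (Nat.blt q 1280) (cond (Nat.blt q 1277) (blocks1275to1277 q)
 (blocks1277to1280 q))
 (cond (Nat.blt q 1282) (blocks1280to1282 q)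
 (blocks1282to1285 q)))
 (cond (Nat.blt q 1290) (cond (Nat.blt q 1287) (blocks1285to1287 q)
 (blocks1287to1290 q))
 (cond (Nat.blt q 1293) (blocks1290to1293 q)
 (blocks1293to1296 q))))
 (cond (Nat.blt q 1306) (cond (Nat.blt q 1301) (cond (Nat.blt q 1298) (blocks1296to1298 q)
 (blocks1298to1301 q))
 (cond (Nat.blt q 1303) (blocks1301to1303 q)
 (blocks1303to1306 q)))
 (cond (Nat.blt q 1311) (cond (Nat.blt q 1308) (blocks1306to1308 q)
 (blocks1308to1311 q))
 (cond (Nat.blt q 1314) (blocks1311to1314 q)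
 (blocks1314to1317 q))))

noncomputable def blocks1317to1319 (q : ℕ) : ℕ :=
 cond (Nat.blt q 1318) (block1317)
 (block1318)

noncomputable def blocks1319to1322 (q : ℕ) : ℕ :=
 cond (Nat.blt q 1320) (block1319)
 (cond (Nat.blt q 1321) (block1320)
 (block1321))

noncomputable def blocks1322to1324 (q : ℕ) : ℕ :=
 cond (Nat.blt q 1323) (block1322)
 (block1323)

noncomputable def blocks1324to1327 (q : ℕ) : ℕ :=
 cond (Nat.blt q 1325) (block1324)
 (cond (Nat.blt q 1326) (block1325)
 (block1326))

noncomputable def blocks1327to1329 (q : ℕ) : ℕ :=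
 cond (Nat.blt q 1328) (block1327)
 (block1328)

noncomputable def blocks1329to1332 (q : ℕ) : ℕ :=
 cond (Nat.blt q 1330) (block1329)
 (cond (Nat.blt q 1331) (block1330)
 (block1331))

noncomputable def blocks1332to1335 (q : ℕ) : ℕ :=
 cond (Nat.blt q 1333) (block1332)
 (cond (Nat.blt q 1334) (block1333)
 (block1334))

noncomputable def blocks1335to1338 (q : ℕ) : ℕ :=
 cond (Nat.blt q 1336) (block1335)
 (cond (Nat.blt q 1337) (block1336)
 (block1337))

noncomputable def blocks1338to1340 (q : ℕ) : ℕ :=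
 cond (Nat.blt q 1339) (block1338)
 (block1339)

noncomputable def blocks1340to1343 (q : ℕ) : ℕ :=
 cond (Nat.blt q 1341) (block1340)
 (cond (Nat.blt q 1342) (block1341)
 (block1342))

noncomputable def blocks1343to1346 (q : ℕ) : ℕ :=
 cond (Nat.blt q 1344) (block1343)
 (cond (Nat.blt q 1345) (block1344)
 (block1345))

noncomputable def blocks1346to1349 (q : ℕ) : ℕ :=
 cond (Nat.blt q 1347) (block1346)
 (cond (Nat.blt q 1348) (block1347)
 (block1348))

noncomputable def blocks1349to1351 (q : ℕ) : ℕ :=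
 cond (Nat.blt q 1350) (block1349)
 (block1350)

noncomputable def blocks1351to1354 (q : ℕ) : ℕ :=
 cond (Nat.blt q 1352) (block1351)
 (cond (Nat.blt q 1353) (block1352)
 (block1353))

noncomputable def blocks1354to1357 (q : ℕ) : ℕ :=
 cond (Nat.blt q 1355) (block1354)
 (cond (Nat.blt q 1356) (block1355)
 (block1356))

noncomputable def blocks1357to1360 (q : ℕ) : ℕ :=
 cond (Nat.blt q 1358) (block1357)
 (cond (Nat.blt q 1359) (block1358)
 (block1359))

noncomputable def blocks1317to1360 (q : ℕ) : ℕ :=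
 cond (Nat.blt q 1338) (cond (Nat.blt q 1327) (cond (Nat.blt q 1322) (cond (Nat.blt q 1319) (blocks1317to1319 q)
 (blocks1319to1322 q))
 (cond (Nat.blt q 1324) (blocks1322to1324 q)
 (blocks1324to1327 q)))
 (cond (Nat.blt q 1332) (cond (Nat.blt q 1329) (blocks1327to1329 q)
 (blocks1329to1332 q))
 (cond (Nat.blt q 1335) (blocks1332to1335 q)
 (blocks1335to1338 q))))
 (cond (Nat.blt q 1349) (cond (Nat.blt q 1343) (cond (Nat.blt q 1340) (blocks1338to1340 q)
 (blocks1340to1343 q))
 (cond (Nat.blt q 1346) (blocks1343to1346 q)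
 (blocks1346to1349 q)))
 (cond (Nat.blt q 1354) (cond (Nat.blt q 1351) (blocks1349to1351 q)
 (blocks1351to1354 q))
 (cond (Nat.blt q 1357) (blocks1354to1357 q)
 (blocks1357to1360 q))))

noncomputable def blocks680to1360 (q : ℕ) : ℕ :=
 cond (Nat.blt q 1020) (cond (Nat.blt q 850) (cond (Nat.blt q 765) (cond (Nat.blt q 722) (blocks680to722 q)
 (blocks722to765 q))
 (cond (Nat.blt q 807) (blocks765to807 q)
 (blocks807to850 q)))
 (cond (Nat.blt q 935) (cond (Nat.blt q 892) (blocks850to892 q)
 (blocks892to935 q))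
 (cond (Nat.blt q 977) (blocks935to977 q)
 (blocks977to1020 q))))
 (cond (Nat.blt q 1190) (cond (Nat.blt q 1105) (cond (Nat.blt q 1062) (blocks1020to1062 q)
 (blocks1062to1105 q))
 (cond (Nat.blt q 1147) (blocks1105to1147 q)
 (blocks1147to1190 q)))
 (cond (Nat.blt q 1275) (cond (Nat.blt q 1232) (blocks1190to1232 q)
 (blocks1232to1275 q))
 (cond (Nat.blt q 1317) (blocks1275to1317 q)
 (blocks1317to1360 q))))

noncomputable def blocks1360to1362 (q : ℕ) : ℕ :=
 cond (Nat.blt q 1361) (block1360)
 (block1361)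

noncomputable def blocks1362to1365 (q : ℕ) : ℕ :=
 cond (Nat.blt q 1363) (block1362)
 (cond (Nat.blt q 1364) (block1363)
 (block1364))

noncomputable def blocks1365to1367 (q : ℕ) : ℕ :=
 cond (Nat.blt q 1366) (block1365)
 (block1366)

noncomputable def blocks1367to1370 (q : ℕ) : ℕ :=
 cond (Nat.blt q 1368) (block1367)
 (cond (Nat.blt q 1369) (block1368)
 (block1369))

noncomputable def blocks1370to1372 (q : ℕ) : ℕ :=
 cond (Nat.blt q 1371) (block1370)
 (block1371)

noncomputable def blocks1372to1375 (q : ℕ) : ℕ :=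
 cond (Nat.blt q 1373) (block1372)
 (cond (Nat.blt q 1374) (block1373)
 (block1374))

noncomputable def blocks1375to1378 (q : ℕ) : ℕ :=
 cond (Nat.blt q 1376) (block1375)
 (cond (Nat.blt q 1377) (block1376)
 (block1377))

noncomputable def blocks1378to1381 (q : ℕ) : ℕ :=
 cond (Nat.blt q 1379) (block1378)
 (cond (Nat.blt q 1380) (block1379)
 (block1380))

noncomputable def blocks1381to1383 (q : ℕ) : ℕ :=
 cond (Nat.blt q 1382) (block1381)
 (block1382)

noncomputable def blocks1383to1386 (q : ℕ) : ℕ :=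
 cond (Nat.blt q 1384) (block1383)
 (cond (Nat.blt q 1385) (block1384)
 (block1385))

noncomputable def blocks1386to1388 (q : ℕ) : ℕ :=
 cond (Nat.blt q 1387) (block1386)
 (block1387)

noncomputable def blocks1388to1391 (q : ℕ) : ℕ :=
 cond (Nat.blt q 1389) (block1388)
 (cond (Nat.blt q 1390) (block1389)
 (block1390))

noncomputable def blocks1391to1393 (q : ℕ) : ℕ :=
 cond (Nat.blt q 1392) (block1391)
 (block1392)

noncomputable def blocks1393to1396 (q : ℕ) : ℕ :=
 cond (Nat.blt q 1394) (block1393)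
 (cond (Nat.blt q 1395) (block1394)
 (block1395))

noncomputable def blocks1396to1399 (q : ℕ) : ℕ :=
 cond (Nat.blt q 1397) (block1396)
 (cond (Nat.blt q 1398) (block1397)
 (block1398))

noncomputable def blocks1399to1402 (q : ℕ) : ℕ :=
 cond (Nat.blt q 1400) (block1399)
 (cond (Nat.blt q 1401) (block1400)
 (block1401))

noncomputable def blocks1360to1402 (q : ℕ) : ℕ :=
 cond (Nat.blt q 1381) (cond (Nat.blt q 1370) (cond (Nat.blt q 1365) (cond (Nat.blt q 1362) (blocks1360to1362 q)
 (blocks1362to1365 q))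
 (cond (Nat.blt q 1367) (blocks1365to1367 q)
 (blocks1367to1370 q)))
 (cond (Nat.blt q 1375) (cond (Nat.blt q 1372) (blocks1370to1372 q)
 (blocks1372to1375 q))
 (cond (Nat.blt q 1378) (blocks1375to1378 q)
 (blocks1378to1381 q))))
 (cond (Nat.blt q 1391) (cond (Nat.blt q 1386) (cond (Nat.blt q 1383) (blocks1381to1383 q)
 (blocks1383to1386 q))
 (cond (Nat.blt q 1388) (blocks1386to1388 q)
 (blocks1388to1391 q)))
 (cond (Nat.blt q 1396) (cond (Nat.blt q 1393) (blocks1391to1393 q)
 (blocks1393to1396 q))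
 (cond (Nat.blt q 1399) (blocks1396to1399 q)
 (blocks1399to1402 q))))

noncomputable def blocks1402to1404 (q : ℕ) : ℕ :=
 cond (Nat.blt q 1403) (block1402)
 (block1403)

noncomputable def blocks1404to1407 (q : ℕ) : ℕ :=
 cond (Nat.blt q 1405) (block1404)
 (cond (Nat.blt q 1406) (block1405)
 (block1406))

noncomputable def blocks1407to1409 (q : ℕ) : ℕ :=
 cond (Nat.blt q 1408) (block1407)
 (block1408)

noncomputable def blocks1409to1412 (q : ℕ) : ℕ :=
 cond (Nat.blt q 1410) (block1409)
 (cond (Nat.blt q 1411) (block1410)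
 (block1411))

noncomputable def blocks1412to1414 (q : ℕ) : ℕ :=
 cond (Nat.blt q 1413) (block1412)
 (block1413)

noncomputable def blocks1414to1417 (q : ℕ) : ℕ :=
 cond (Nat.blt q 1415) (block1414)
 (cond (Nat.blt q 1416) (block1415)
 (block1416))

noncomputable def blocks1417to1420 (q : ℕ) : ℕ :=
 cond (Nat.blt q 1418) (block1417)
 (cond (Nat.blt q 1419) (block1418)
 (block1419))

noncomputable def blocks1420to1423 (q : ℕ) : ℕ :=
 cond (Nat.blt q 1421) (block1420)
 (cond (Nat.blt q 1422) (block1421)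
 (block1422))

noncomputable def blocks1423to1425 (q : ℕ) : ℕ :=
 cond (Nat.blt q 1424) (block1423)
 (block1424)

noncomputable def blocks1425to1428 (q : ℕ) : ℕ :=
 cond (Nat.blt q 1426) (block1425)
 (cond (Nat.blt q 1427) (block1426)
 (block1427))

noncomputable def blocks1428to1431 (q : ℕ) : ℕ :=
 cond (Nat.blt q 1429) (block1428)
 (cond (Nat.blt q 1430) (block1429)
 (block1430))

noncomputable def blocks1431to1434 (q : ℕ) : ℕ :=
 cond (Nat.blt q 1432) (block1431)
 (cond (Nat.blt q 1433) (block1432)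
 (block1433))

noncomputable def blocks1434to1436 (q : ℕ) : ℕ :=
 cond (Nat.blt q 1435) (block1434)
 (block1435)

noncomputable def blocks1436to1439 (q : ℕ) : ℕ :=
 cond (Nat.blt q 1437) (block1436)
 (cond (Nat.blt q 1438) (block1437)
 (block1438))

noncomputable def blocks1439to1442 (q : ℕ) : ℕ :=
 cond (Nat.blt q 1440) (block1439)
 (cond (Nat.blt q 1441) (block1440)
 (block1441))

noncomputable def blocks1442to1445 (q : ℕ) : ℕ :=
 cond (Nat.blt q 1443) (block1442)
 (cond (Nat.blt q 1444) (block1443)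
 (block1444))

noncomputable def blocks1402to1445 (q : ℕ) : ℕ :=
 cond (Nat.blt q 1423) (cond (Nat.blt q 1412) (cond (Nat.blt q 1407) (cond (Nat.blt q 1404) (blocks1402to1404 q)
 (blocks1404to1407 q))
 (cond (Nat.blt q 1409) (blocks1407to1409 q)
 (blocks1409to1412 q)))
 (cond (Nat.blt q 1417) (cond (Nat.blt q 1414) (blocks1412to1414 q)
 (blocks1414to1417 q))
 (cond (Nat.blt q 1420) (blocks1417to1420 q)
 (blocks1420to1423 q))))
 (cond (Nat.blt q 1434) (cond (Nat.blt q 1428) (cond (Nat.blt q 1425) (blocks1423to1425 q)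
 (blocks1425to1428 q))
 (cond (Nat.blt q 1431) (blocks1428to1431 q)
 (blocks1431to1434 q)))
 (cond (Nat.blt q 1439) (cond (Nat.blt q 1436) (blocks1434to1436 q)
 (blocks1436to1439 q))
 (cond (Nat.blt q 1442) (blocks1439to1442 q)
 (blocks1442to1445 q))))

noncomputable def blocks1445to1447 (q : ℕ) : ℕ :=
 cond (Nat.blt q 1446) (block1445)
 (block1446)

noncomputable def blocks1447to1450 (q : ℕ) : ℕ :=
 cond (Nat.blt q 1448) (block1447)
 (cond (Nat.blt q 1449) (block1448)
 (block1449))

noncomputable def blocks1450to1452 (q : ℕ) : ℕ :=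
 cond (Nat.blt q 1451) (block1450)
 (block1451)

noncomputable def blocks1452to1455 (q : ℕ) : ℕ :=
 cond (Nat.blt q 1453) (block1452)
 (cond (Nat.blt q 1454) (block1453)
 (block1454))

noncomputable def blocks1455to1457 (q : ℕ) : ℕ :=
 cond (Nat.blt q 1456) (block1455)
 (block1456)

noncomputable def blocks1457to1460 (q : ℕ) : ℕ :=
 cond (Nat.blt q 1458) (block1457)
 (cond (Nat.blt q 1459) (block1458)
 (block1459))

noncomputable def blocks1460to1463 (q : ℕ) : ℕ :=
 cond (Nat.blt q 1461) (block1460)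
 (cond (Nat.blt q 1462) (block1461)
 (block1462))

noncomputable def blocks1463to1466 (q : ℕ) : ℕ :=
 cond (Nat.blt q 1464) (block1463)
 (cond (Nat.blt q 1465) (block1464)
 (block1465))

noncomputable def blocks1466to1468 (q : ℕ) : ℕ :=
 cond (Nat.blt q 1467) (block1466)
 (block1467)

noncomputable def blocks1468to1471 (q : ℕ) : ℕ :=
 cond (Nat.blt q 1469) (block1468)
 (cond (Nat.blt q 1470) (block1469)
 (block1470))

noncomputable def blocks1471to1473 (q : ℕ) : ℕ :=
 cond (Nat.blt q 1472) (block1471)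
 (block1472)

noncomputable def blocks1473to1476 (q : ℕ) : ℕ :=
 cond (Nat.blt q 1474) (block1473)
 (cond (Nat.blt q 1475) (block1474)
 (block1475))

noncomputable def blocks1476to1478 (q : ℕ) : ℕ :=
 cond (Nat.blt q 1477) (block1476)
 (block1477)

noncomputable def blocks1478to1481 (q : ℕ) : ℕ :=
 cond (Nat.blt q 1479) (block1478)
 (cond (Nat.blt q 1480) (block1479)
 (block1480))

noncomputable def blocks1481to1484 (q : ℕ) : ℕ :=
 cond (Nat.blt q 1482) (block1481)
 (cond (Nat.blt q 1483) (block1482)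
 (block1483))

noncomputable def blocks1484to1487 (q : ℕ) : ℕ :=
 cond (Nat.blt q 1485) (block1484)
 (cond (Nat.blt q 1486) (block1485)
 (block1486))

noncomputable def blocks1445to1487 (q : ℕ) : ℕ :=
 cond (Nat.blt q 1466) (cond (Nat.blt q 1455) (cond (Nat.blt q 1450) (cond (Nat.blt q 1447) (blocks1445to1447 q)
 (blocks1447to1450 q))
 (cond (Nat.blt q 1452) (blocks1450to1452 q)
 (blocks1452to1455 q)))
 (cond (Nat.blt q 1460) (cond (Nat.blt q 1457) (blocks1455to1457 q)
 (blocks1457to1460 q))
 (cond (Nat.blt q 1463) (blocks1460to1463 q)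
 (blocks1463to1466 q))))
 (cond (Nat.blt q 1476) (cond (Nat.blt q 1471) (cond (Nat.blt q 1468) (blocks1466to1468 q)
 (blocks1468to1471 q))
 (cond (Nat.blt q 1473) (blocks1471to1473 q)
 (blocks1473to1476 q)))
 (cond (Nat.blt q 1481) (cond (Nat.blt q 1478) (blocks1476to1478 q)
 (blocks1478to1481 q))
 (cond (Nat.blt q 1484) (blocks1481to1484 q)
 (blocks1484to1487 q))))

noncomputable def blocks1487to1489 (q : ℕ) : ℕ :=
 cond (Nat.blt q 1488) (block1487)
 (block1488)

noncomputable def blocks1489to1492 (q : ℕ) : ℕ :=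
 cond (Nat.blt q 1490) (block1489)
 (cond (Nat.blt q 1491) (block1490)
 (block1491))

noncomputable def blocks1492to1494 (q : ℕ) : ℕ :=
 cond (Nat.blt q 1493) (block1492)
 (block1493)

noncomputable def blocks1494to1497 (q : ℕ) : ℕ :=
 cond (Nat.blt q 1495) (block1494)
 (cond (Nat.blt q 1496) (block1495)
 (block1496))

noncomputable def blocks1497to1499 (q : ℕ) : ℕ :=
 cond (Nat.blt q 1498) (block1497)
 (block1498)

noncomputable def blocks1499to1502 (q : ℕ) : ℕ :=
 cond (Nat.blt q 1500) (block1499)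
 (cond (Nat.blt q 1501) (block1500)
 (block1501))

noncomputable def blocks1502to1505 (q : ℕ) : ℕ :=
 cond (Nat.blt q 1503) (block1502)
 (cond (Nat.blt q 1504) (block1503)
 (block1504))

noncomputable def blocks1505to1508 (q : ℕ) : ℕ :=
 cond (Nat.blt q 1506) (block1505)
 (cond (Nat.blt q 1507) (block1506)
 (block1507))

noncomputable def blocks1508to1510 (q : ℕ) : ℕ :=
 cond (Nat.blt q 1509) (block1508)
 (block1509)

noncomputable def blocks1510to1513 (q : ℕ) : ℕ :=
 cond (Nat.blt q 1511) (block1510)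
 (cond (Nat.blt q 1512) (block1511)
 (block1512))

noncomputable def blocks1513to1516 (q : ℕ) : ℕ :=
 cond (Nat.blt q 1514) (block1513)
 (cond (Nat.blt q 1515) (block1514)
 (block1515))

noncomputable def blocks1516to1519 (q : ℕ) : ℕ :=
 cond (Nat.blt q 1517) (block1516)
 (cond (Nat.blt q 1518) (block1517)
 (block1518))

noncomputable def blocks1519to1521 (q : ℕ) : ℕ :=
 cond (Nat.blt q 1520) (block1519)
 (block1520)

noncomputable def blocks1521to1524 (q : ℕ) : ℕ :=
 cond (Nat.blt q 1522) (block1521)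
 (cond (Nat.blt q 1523) (block1522)
 (block1523))

noncomputable def blocks1524to1527 (q : ℕ) : ℕ :=
 cond (Nat.blt q 1525) (block1524)
 (cond (Nat.blt q 1526) (block1525)
 (block1526))

noncomputable def blocks1527to1530 (q : ℕ) : ℕ :=
 cond (Nat.blt q 1528) (block1527)
 (cond (Nat.blt q 1529) (block1528)
 (block1529))

noncomputable def blocks1487to1530 (q : ℕ) : ℕ :=
 cond (Nat.blt q 1508) (cond (Nat.blt q 1497) (cond (Nat.blt q 1492) (cond (Nat.blt q 1489) (blocks1487to1489 q)
 (blocks1489to1492 q))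
 (cond (Nat.blt q 1494) (blocks1492to1494 q)
 (blocks1494to1497 q)))
 (cond (Nat.blt q 1502) (cond (Nat.blt q 1499) (blocks1497to1499 q)
 (blocks1499to1502 q))
 (cond (Nat.blt q 1505) (blocks1502to1505 q)
 (blocks1505to1508 q))))
 (cond (Nat.blt q 1519) (cond (Nat.blt q 1513) (cond (Nat.blt q 1510) (blocks1508to1510 q)
 (blocks1510to1513 q))
 (cond (Nat.blt q 1516) (blocks1513to1516 q)
 (blocks1516to1519 q)))
 (cond (Nat.blt q 1524) (cond (Nat.blt q 1521) (blocks1519to1521 q)
 (blocks1521to1524 q))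
 (cond (Nat.blt q 1527) (blocks1524to1527 q)
 (blocks1527to1530 q))))

noncomputable def blocks1530to1532 (q : ℕ) : ℕ :=
 cond (Nat.blt q 1531) (block1530)
 (block1531)

noncomputable def blocks1532to1535 (q : ℕ) : ℕ :=
 cond (Nat.blt q 1533) (block1532)
 (cond (Nat.blt q 1534) (block1533)
 (block1534))

noncomputable def blocks1535to1537 (q : ℕ) : ℕ :=
 cond (Nat.blt q 1536) (block1535)
 (block1536)

noncomputable def blocks1537to1540 (q : ℕ) : ℕ :=
 cond (Nat.blt q 1538) (block1537)
 (cond (Nat.blt q 1539) (block1538)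
 (block1539))

noncomputable def blocks1540to1542 (q : ℕ) : ℕ :=
 cond (Nat.blt q 1541) (block1540)
 (block1541)

noncomputable def blocks1542to1545 (q : ℕ) : ℕ :=
 cond (Nat.blt q 1543) (block1542)
 (cond (Nat.blt q 1544) (block1543)
 (block1544))

noncomputable def blocks1545to1548 (q : ℕ) : ℕ :=
 cond (Nat.blt q 1546) (block1545)
 (cond (Nat.blt q 1547) (block1546)
 (block1547))

noncomputable def blocks1548to1551 (q : ℕ) : ℕ :=
 cond (Nat.blt q 1549) (block1548)
 (cond (Nat.blt q 1550) (block1549)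
 (block1550))

noncomputable def blocks1551to1553 (q : ℕ) : ℕ :=
 cond (Nat.blt q 1552) (block1551)
 (block1552)

noncomputable def blocks1553to1556 (q : ℕ) : ℕ :=
 cond (Nat.blt q 1554) (block1553)
 (cond (Nat.blt q 1555) (block1554)
 (block1555))

noncomputable def blocks1556to1558 (q : ℕ) : ℕ :=
 cond (Nat.blt q 1557) (block1556)
 (block1557)

noncomputable def blocks1558to1561 (q : ℕ) : ℕ :=
 cond (Nat.blt q 1559) (block1558)
 (cond (Nat.blt q 1560) (block1559)
 (block1560))

noncomputable def blocks1561to1563 (q : ℕ) : ℕ :=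
 cond (Nat.blt q 1562) (block1561)
 (block1562)

noncomputable def blocks1563to1566 (q : ℕ) : ℕ :=
 cond (Nat.blt q 1564) (block1563)
 (cond (Nat.blt q 1565) (block1564)
 (block1565))

noncomputable def blocks1566to1569 (q : ℕ) : ℕ :=
 cond (Nat.blt q 1567) (block1566)
 (cond (Nat.blt q 1568) (block1567)
 (block1568))

noncomputable def blocks1569to1572 (q : ℕ) : ℕ :=
 cond (Nat.blt q 1570) (block1569)
 (cond (Nat.blt q 1571) (block1570)
 (block1571))

noncomputable def blocks1530to1572 (q : ℕ) : ℕ :=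
 cond (Nat.blt q 1551) (cond (Nat.blt q 1540) (cond (Nat.blt q 1535) (cond (Nat.blt q 1532) (blocks1530to1532 q)
 (blocks1532to1535 q))
 (cond (Nat.blt q 1537) (blocks1535to1537 q)
 (blocks1537to1540 q)))
 (cond (Nat.blt q 1545) (cond (Nat.blt q 1542) (blocks1540to1542 q)
 (blocks1542to1545 q))
 (cond (Nat.blt q 1548) (blocks1545to1548 q)
 (blocks1548to1551 q))))
 (cond (Nat.blt q 1561) (cond (Nat.blt q 1556) (cond (Nat.blt q 1553) (blocks1551to1553 q)
 (blocks1553to1556 q))
 (cond (Nat.blt q 1558) (blocks1556to1558 q)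
 (blocks1558to1561 q)))
 (cond (Nat.blt q 1566) (cond (Nat.blt q 1563) (blocks1561to1563 q)
 (blocks1563to1566 q))
 (cond (Nat.blt q 1569) (blocks1566to1569 q)
 (blocks1569to1572 q))))

noncomputable def blocks1572to1574 (q : ℕ) : ℕ :=
 cond (Nat.blt q 1573) (block1572)
 (block1573)

noncomputable def blocks1574to1577 (q : ℕ) : ℕ :=
 cond (Nat.blt q 1575) (block1574)
 (cond (Nat.blt q 1576) (block1575)
 (block1576))

noncomputable def blocks1577to1579 (q : ℕ) : ℕ :=
 cond (Nat.blt q 1578) (block1577)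
 (block1578)

noncomputable def blocks1579to1582 (q : ℕ) : ℕ :=
 cond (Nat.blt q 1580) (block1579)
 (cond (Nat.blt q 1581) (block1580)
 (block1581))

noncomputable def blocks1582to1584 (q : ℕ) : ℕ :=
 cond (Nat.blt q 1583) (block1582)
 (block1583)

noncomputable def blocks1584to1587 (q : ℕ) : ℕ :=
 cond (Nat.blt q 1585) (block1584)
 (cond (Nat.blt q 1586) (block1585)
 (block1586))

noncomputable def blocks1587to1590 (q : ℕ) : ℕ :=
 cond (Nat.blt q 1588) (block1587)
 (cond (Nat.blt q 1589) (block1588)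
 (block1589))

noncomputable def blocks1590to1593 (q : ℕ) : ℕ :=
 cond (Nat.blt q 1591) (block1590)
 (cond (Nat.blt q 1592) (block1591)
 (block1592))

noncomputable def blocks1593to1595 (q : ℕ) : ℕ :=
 cond (Nat.blt q 1594) (block1593)
 (block1594)

noncomputable def blocks1595to1598 (q : ℕ) : ℕ :=
 cond (Nat.blt q 1596) (block1595)
 (cond (Nat.blt q 1597) (block1596)
 (block1597))

noncomputable def blocks1598to1601 (q : ℕ) : ℕ :=
 cond (Nat.blt q 1599) (block1598)
 (cond (Nat.blt q 1600) (block1599)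
 (block1600))

noncomputable def blocks1601to1604 (q : ℕ) : ℕ :=
 cond (Nat.blt q 1602) (block1601)
 (cond (Nat.blt q 1603) (block1602)
 (block1603))

noncomputable def blocks1604to1606 (q : ℕ) : ℕ :=
 cond (Nat.blt q 1605) (block1604)
 (block1605)

noncomputable def blocks1606to1609 (q : ℕ) : ℕ :=
 cond (Nat.blt q 1607) (block1606)
 (cond (Nat.blt q 1608) (block1607)
 (block1608))

noncomputable def blocks1609to1612 (q : ℕ) : ℕ :=
 cond (Nat.blt q 1610) (block1609)
 (cond (Nat.blt q 1611) (block1610)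
 (block1611))

noncomputable def blocks1612to1615 (q : ℕ) : ℕ :=
 cond (Nat.blt q 1613) (block1612)
 (cond (Nat.blt q 1614) (block1613)
 (block1614))

noncomputable def blocks1572to1615 (q : ℕ) : ℕ :=
 cond (Nat.blt q 1593) (cond (Nat.blt q 1582) (cond (Nat.blt q 1577) (cond (Nat.blt q 1574) (blocks1572to1574 q)
 (blocks1574to1577 q))
 (cond (Nat.blt q 1579) (blocks1577to1579 q)
 (blocks1579to1582 q)))
 (cond (Nat.blt q 1587) (cond (Nat.blt q 1584) (blocks1582to1584 q)
 (blocks1584to1587 q))
 (cond (Nat.blt q 1590) (blocks1587to1590 q)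
 (blocks1590to1593 q))))
 (cond (Nat.blt q 1604) (cond (Nat.blt q 1598) (cond (Nat.blt q 1595) (blocks1593to1595 q)
 (blocks1595to1598 q))
 (cond (Nat.blt q 1601) (blocks1598to1601 q)
 (blocks1601to1604 q)))
 (cond (Nat.blt q 1609) (cond (Nat.blt q 1606) (blocks1604to1606 q)
 (blocks1606to1609 q))
 (cond (Nat.blt q 1612) (blocks1609to1612 q)
 (blocks1612to1615 q))))

noncomputable def blocks1615to1617 (q : ℕ) : ℕ :=
 cond (Nat.blt q 1616) (block1615)
 (block1616)

noncomputable def blocks1617to1620 (q : ℕ) : ℕ :=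
 cond (Nat.blt q 1618) (block1617)
 (cond (Nat.blt q 1619) (block1618)
 (block1619))

noncomputable def blocks1620to1622 (q : ℕ) : ℕ :=
 cond (Nat.blt q 1621) (block1620)
 (block1621)

noncomputable def blocks1622to1625 (q : ℕ) : ℕ :=
 cond (Nat.blt q 1623) (block1622)
 (cond (Nat.blt q 1624) (block1623)
 (block1624))

noncomputable def blocks1625to1627 (q : ℕ) : ℕ :=
 cond (Nat.blt q 1626) (block1625)
 (block1626)

noncomputable def blocks1627to1630 (q : ℕ) : ℕ :=
 cond (Nat.blt q 1628) (block1627)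
 (cond (Nat.blt q 1629) (block1628)
 (block1629))

noncomputable def blocks1630to1633 (q : ℕ) : ℕ :=
 cond (Nat.blt q 1631) (block1630)
 (cond (Nat.blt q 1632) (block1631)
 (block1632))

noncomputable def blocks1633to1636 (q : ℕ) : ℕ :=
 cond (Nat.blt q 1634) (block1633)
 (cond (Nat.blt q 1635) (block1634)
 (block1635))

noncomputable def blocks1636to1638 (q : ℕ) : ℕ :=
 cond (Nat.blt q 1637) (block1636)
 (block1637)

noncomputable def blocks1638to1641 (q : ℕ) : ℕ :=
 cond (Nat.blt q 1639) (block1638)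
 (cond (Nat.blt q 1640) (block1639)
 (block1640))

noncomputable def blocks1641to1643 (q : ℕ) : ℕ :=
 cond (Nat.blt q 1642) (block1641)
 (block1642)

noncomputable def blocks1643to1646 (q : ℕ) : ℕ :=
 cond (Nat.blt q 1644) (block1643)
 (cond (Nat.blt q 1645) (block1644)
 (block1645))

noncomputable def blocks1646to1648 (q : ℕ) : ℕ :=
 cond (Nat.blt q 1647) (block1646)
 (block1647)

noncomputable def blocks1648to1651 (q : ℕ) : ℕ :=
 cond (Nat.blt q 1649) (block1648)
 (cond (Nat.blt q 1650) (block1649)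
 (block1650))

noncomputable def blocks1651to1654 (q : ℕ) : ℕ :=
 cond (Nat.blt q 1652) (block1651)
 (cond (Nat.blt q 1653) (block1652)
 (block1653))

noncomputable def blocks1654to1657 (q : ℕ) : ℕ :=
 cond (Nat.blt q 1655) (block1654)
 (cond (Nat.blt q 1656) (block1655)
 (block1656))

noncomputable def blocks1615to1657 (q : ℕ) : ℕ :=
 cond (Nat.blt q 1636) (cond (Nat.blt q 1625) (cond (Nat.blt q 1620) (cond (Nat.blt q 1617) (blocks1615to1617 q)
 (blocks1617to1620 q))
 (cond (Nat.blt q 1622) (blocks1620to1622 q)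
 (blocks1622to1625 q)))
 (cond (Nat.blt q 1630) (cond (Nat.blt q 1627) (blocks1625to1627 q)
 (blocks1627to1630 q))
 (cond (Nat.blt q 1633) (blocks1630to1633 q)
 (blocks1633to1636 q))))
 (cond (Nat.blt q 1646) (cond (Nat.blt q 1641) (cond (Nat.blt q 1638) (blocks1636to1638 q)
 (blocks1638to1641 q))
 (cond (Nat.blt q 1643) (blocks1641to1643 q)
 (blocks1643to1646 q)))
 (cond (Nat.blt q 1651) (cond (Nat.blt q 1648) (blocks1646to1648 q)
 (blocks1648to1651 q))
 (cond (Nat.blt q 1654) (blocks1651to1654 q)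
 (blocks1654to1657 q))))

noncomputable def blocks1657to1659 (q : ℕ) : ℕ :=
 cond (Nat.blt q 1658) (block1657)
 (block1658)

noncomputable def blocks1659to1662 (q : ℕ) : ℕ :=
 cond (Nat.blt q 1660) (block1659)
 (cond (Nat.blt q 1661) (block1660)
 (block1661))

noncomputable def blocks1662to1664 (q : ℕ) : ℕ :=
 cond (Nat.blt q 1663) (block1662)
 (block1663)

noncomputable def blocks1664to1667 (q : ℕ) : ℕ :=
 cond (Nat.blt q 1665) (block1664)
 (cond (Nat.blt q 1666) (block1665)
 (block1666))

noncomputable def blocks1667to1669 (q : ℕ) : ℕ :=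
 cond (Nat.blt q 1668) (block1667)
 (block1668)

noncomputable def blocks1669to1672 (q : ℕ) : ℕ :=
 cond (Nat.blt q 1670) (block1669)
 (cond (Nat.blt q 1671) (block1670)
 (block1671))

noncomputable def blocks1672to1675 (q : ℕ) : ℕ :=
 cond (Nat.blt q 1673) (block1672)
 (cond (Nat.blt q 1674) (block1673)
 (block1674))

noncomputable def blocks1675to1678 (q : ℕ) : ℕ :=
 cond (Nat.blt q 1676) (block1675)
 (cond (Nat.blt q 1677) (block1676)
 (block1677))

noncomputable def blocks1678to1680 (q : ℕ) : ℕ :=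
 cond (Nat.blt q 1679) (block1678)
 (block1679)

noncomputable def blocks1680to1683 (q : ℕ) : ℕ :=
 cond (Nat.blt q 1681) (block1680)
 (cond (Nat.blt q 1682) (block1681)
 (block1682))

noncomputable def blocks1683to1686 (q : ℕ) : ℕ :=
 cond (Nat.blt q 1684) (block1683)
 (cond (Nat.blt q 1685) (block1684)
 (block1685))

noncomputable def blocks1686to1689 (q : ℕ) : ℕ :=
 cond (Nat.blt q 1687) (block1686)
 (cond (Nat.blt q 1688) (block1687)
 (block1688))

noncomputable def blocks1689to1691 (q : ℕ) : ℕ :=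
 cond (Nat.blt q 1690) (block1689)
 (block1690)

noncomputable def blocks1691to1694 (q : ℕ) : ℕ :=
 cond (Nat.blt q 1692) (block1691)
 (cond (Nat.blt q 1693) (block1692)
 (block1693))

noncomputable def blocks1694to1697 (q : ℕ) : ℕ :=
 cond (Nat.blt q 1695) (block1694)
 (cond (Nat.blt q 1696) (block1695)
 (block1696))

noncomputable def blocks1697to1700 (q : ℕ) : ℕ :=
 cond (Nat.blt q 1698) (block1697)
 (cond (Nat.blt q 1699) (block1698)
 (block1699))

noncomputable def blocks1657to1700 (q : ℕ) : ℕ :=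
 cond (Nat.blt q 1678) (cond (Nat.blt q 1667) (cond (Nat.blt q 1662) (cond (Nat.blt q 1659) (blocks1657to1659 q)
 (blocks1659to1662 q))
 (cond (Nat.blt q 1664) (blocks1662to1664 q)
 (blocks1664to1667 q)))
 (cond (Nat.blt q 1672) (cond (Nat.blt q 1669) (blocks1667to1669 q)
 (blocks1669to1672 q))
 (cond (Nat.blt q 1675) (blocks1672to1675 q)
 (blocks1675to1678 q))))
 (cond (Nat.blt q 1689) (cond (Nat.blt q 1683) (cond (Nat.blt q 1680) (blocks1678to1680 q)
 (blocks1680to1683 q))
 (cond (Nat.blt q 1686) (blocks1683to1686 q)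
 (blocks1686to1689 q)))
 (cond (Nat.blt q 1694) (cond (Nat.blt q 1691) (blocks1689to1691 q)
 (blocks1691to1694 q))
 (cond (Nat.blt q 1697) (blocks1694to1697 q)
 (blocks1697to1700 q))))

noncomputable def blocks1700to1702 (q : ℕ) : ℕ :=
 cond (Nat.blt q 1701) (block1700)
 (block1701)

noncomputable def blocks1702to1705 (q : ℕ) : ℕ :=
 cond (Nat.blt q 1703) (block1702)
 (cond (Nat.blt q 1704) (block1703)
 (block1704))

noncomputable def blocks1705to1707 (q : ℕ) : ℕ :=
 cond (Nat.blt q 1706) (block1705)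
 (block1706)

noncomputable def blocks1707to1710 (q : ℕ) : ℕ :=
 cond (Nat.blt q 1708) (block1707)
 (cond (Nat.blt q 1709) (block1708)
 (block1709))

noncomputable def blocks1710to1712 (q : ℕ) : ℕ :=
 cond (Nat.blt q 1711) (block1710)
 (block1711)

noncomputable def blocks1712to1715 (q : ℕ) : ℕ :=
 cond (Nat.blt q 1713) (block1712)
 (cond (Nat.blt q 1714) (block1713)
 (block1714))

noncomputable def blocks1715to1718 (q : ℕ) : ℕ :=
 cond (Nat.blt q 1716) (block1715)
 (cond (Nat.blt q 1717) (block1716)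
 (block1717))

noncomputable def blocks1718to1721 (q : ℕ) : ℕ :=
 cond (Nat.blt q 1719) (block1718)
 (cond (Nat.blt q 1720) (block1719)
 (block1720))

noncomputable def blocks1721to1723 (q : ℕ) : ℕ :=
 cond (Nat.blt q 1722) (block1721)
 (block1722)

noncomputable def blocks1723to1726 (q : ℕ) : ℕ :=
 cond (Nat.blt q 1724) (block1723)
 (cond (Nat.blt q 1725) (block1724)
 (block1725))

noncomputable def blocks1726to1728 (q : ℕ) : ℕ :=
 cond (Nat.blt q 1727) (block1726)
 (block1727)

noncomputable def blocks1728to1731 (q : ℕ) : ℕ :=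
 cond (Nat.blt q 1729) (block1728)
 (cond (Nat.blt q 1730) (block1729)
 (block1730))

noncomputable def blocks1731to1733 (q : ℕ) : ℕ :=
 cond (Nat.blt q 1732) (block1731)
 (block1732)

noncomputable def blocks1733to1736 (q : ℕ) : ℕ :=
 cond (Nat.blt q 1734) (block1733)
 (cond (Nat.blt q 1735) (block1734)
 (block1735))

noncomputable def blocks1736to1739 (q : ℕ) : ℕ :=
 cond (Nat.blt q 1737) (block1736)
 (cond (Nat.blt q 1738) (block1737)
 (block1738))

noncomputable def blocks1739to1742 (q : ℕ) : ℕ :=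
 cond (Nat.blt q 1740) (block1739)
 (cond (Nat.blt q 1741) (block1740)
 (block1741))

noncomputable def blocks1700to1742 (q : ℕ) : ℕ :=
 cond (Nat.blt q 1721) (cond (Nat.blt q 1710) (cond (Nat.blt q 1705) (cond (Nat.blt q 1702) (blocks1700to1702 q)
 (blocks1702to1705 q))
 (cond (Nat.blt q 1707) (blocks1705to1707 q)
 (blocks1707to1710 q)))
 (cond (Nat.blt q 1715) (cond (Nat.blt q 1712) (blocks1710to1712 q)
 (blocks1712to1715 q))
 (cond (Nat.blt q 1718) (blocks1715to1718 q)
 (blocks1718to1721 q))))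
 (cond (Nat.blt q 1731) (cond (Nat.blt q 1726) (cond (Nat.blt q 1723) (blocks1721to1723 q)
 (blocks1723to1726 q))
 (cond (Nat.blt q 1728) (blocks1726to1728 q)
 (blocks1728to1731 q)))
 (cond (Nat.blt q 1736) (cond (Nat.blt q 1733) (blocks1731to1733 q)
 (blocks1733to1736 q))
 (cond (Nat.blt q 1739) (blocks1736to1739 q)
 (blocks1739to1742 q))))

noncomputable def blocks1742to1744 (q : ℕ) : ℕ :=
 cond (Nat.blt q 1743) (block1742)
 (block1743)

noncomputable def blocks1744to1747 (q : ℕ) : ℕ :=
 cond (Nat.blt q 1745) (block1744)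
 (cond (Nat.blt q 1746) (block1745)
 (block1746))

noncomputable def blocks1747to1749 (q : ℕ) : ℕ :=
 cond (Nat.blt q 1748) (block1747)
 (block1748)

noncomputable def blocks1749to1752 (q : ℕ) : ℕ :=
 cond (Nat.blt q 1750) (block1749)
 (cond (Nat.blt q 1751) (block1750)
 (block1751))

noncomputable def blocks1752to1754 (q : ℕ) : ℕ :=
 cond (Nat.blt q 1753) (block1752)
 (block1753)

noncomputable def blocks1754to1757 (q : ℕ) : ℕ :=
 cond (Nat.blt q 1755) (block1754)
 (cond (Nat.blt q 1756) (block1755)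
 (block1756))

noncomputable def blocks1757to1760 (q : ℕ) : ℕ :=
 cond (Nat.blt q 1758) (block1757)
 (cond (Nat.blt q 1759) (block1758)
 (block1759))

noncomputable def blocks1760to1763 (q : ℕ) : ℕ :=
 cond (Nat.blt q 1761) (block1760)
 (cond (Nat.blt q 1762) (block1761)
 (block1762))

noncomputable def blocks1763to1765 (q : ℕ) : ℕ :=
 cond (Nat.blt q 1764) (block1763)
 (block1764)

noncomputable def blocks1765to1768 (q : ℕ) : ℕ :=
 cond (Nat.blt q 1766) (block1765)
 (cond (Nat.blt q 1767) (block1766)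
 (block1767))

noncomputable def blocks1768to1771 (q : ℕ) : ℕ :=
 cond (Nat.blt q 1769) (block1768)
 (cond (Nat.blt q 1770) (block1769)
 (block1770))

noncomputable def blocks1771to1774 (q : ℕ) : ℕ :=
 cond (Nat.blt q 1772) (block1771)
 (cond (Nat.blt q 1773) (block1772)
 (block1773))

noncomputable def blocks1774to1776 (q : ℕ) : ℕ :=
 cond (Nat.blt q 1775) (block1774)
 (block1775)

noncomputable def blocks1776to1779 (q : ℕ) : ℕ :=
 cond (Nat.blt q 1777) (block1776)
 (cond (Nat.blt q 1778) (block1777)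
 (block1778))

noncomputable def blocks1779to1782 (q : ℕ) : ℕ :=
 cond (Nat.blt q 1780) (block1779)
 (cond (Nat.blt q 1781) (block1780)
 (block1781))

noncomputable def blocks1782to1785 (q : ℕ) : ℕ :=
 cond (Nat.blt q 1783) (block1782)
 (cond (Nat.blt q 1784) (block1783)
 (block1784))

noncomputable def blocks1742to1785 (q : ℕ) : ℕ :=
 cond (Nat.blt q 1763) (cond (Nat.blt q 1752) (cond (Nat.blt q 1747) (cond (Nat.blt q 1744) (blocks1742to1744 q)
 (blocks1744to1747 q))
 (cond (Nat.blt q 1749) (blocks1747to1749 q)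
 (blocks1749to1752 q)))
 (cond (Nat.blt q 1757) (cond (Nat.blt q 1754) (blocks1752to1754 q)
 (blocks1754to1757 q))
 (cond (Nat.blt q 1760) (blocks1757to1760 q)
 (blocks1760to1763 q))))
 (cond (Nat.blt q 1774) (cond (Nat.blt q 1768) (cond (Nat.blt q 1765) (blocks1763to1765 q)
 (blocks1765to1768 q))
 (cond (Nat.blt q 1771) (blocks1768to1771 q)
 (blocks1771to1774 q)))
 (cond (Nat.blt q 1779) (cond (Nat.blt q 1776) (blocks1774to1776 q)
 (blocks1776to1779 q))
 (cond (Nat.blt q 1782) (blocks1779to1782 q)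
 (blocks1782to1785 q))))

noncomputable def blocks1785to1787 (q : ℕ) : ℕ :=
 cond (Nat.blt q 1786) (block1785)
 (block1786)

noncomputable def blocks1787to1790 (q : ℕ) : ℕ :=
 cond (Nat.blt q 1788) (block1787)
 (cond (Nat.blt q 1789) (block1788)
 (block1789))

noncomputable def blocks1790to1792 (q : ℕ) : ℕ :=
 cond (Nat.blt q 1791) (block1790)
 (block1791)

noncomputable def blocks1792to1795 (q : ℕ) : ℕ :=
 cond (Nat.blt q 1793) (block1792)
 (cond (Nat.blt q 1794) (block1793)
 (block1794))

noncomputable def blocks1795to1797 (q : ℕ) : ℕ :=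
 cond (Nat.blt q 1796) (block1795)
 (block1796)

noncomputable def blocks1797to1800 (q : ℕ) : ℕ :=
 cond (Nat.blt q 1798) (block1797)
 (cond (Nat.blt q 1799) (block1798)
 (block1799))

noncomputable def blocks1800to1803 (q : ℕ) : ℕ :=
 cond (Nat.blt q 1801) (block1800)
 (cond (Nat.blt q 1802) (block1801)
 (block1802))

noncomputable def blocks1803to1806 (q : ℕ) : ℕ :=
 cond (Nat.blt q 1804) (block1803)
 (cond (Nat.blt q 1805) (block1804)
 (block1805))

noncomputable def blocks1806to1808 (q : ℕ) : ℕ :=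
 cond (Nat.blt q 1807) (block1806)
 (block1807)

noncomputable def blocks1808to1811 (q : ℕ) : ℕ :=
 cond (Nat.blt q 1809) (block1808)
 (cond (Nat.blt q 1810) (block1809)
 (block1810))

noncomputable def blocks1811to1813 (q : ℕ) : ℕ :=
 cond (Nat.blt q 1812) (block1811)
 (block1812)

noncomputable def blocks1813to1816 (q : ℕ) : ℕ :=
 cond (Nat.blt q 1814) (block1813)
 (cond (Nat.blt q 1815) (block1814)
 (block1815))

noncomputable def blocks1816to1818 (q : ℕ) : ℕ :=
 cond (Nat.blt q 1817) (block1816)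
 (block1817)

noncomputable def blocks1818to1821 (q : ℕ) : ℕ :=
 cond (Nat.blt q 1819) (block1818)
 (cond (Nat.blt q 1820) (block1819)
 (block1820))

noncomputable def blocks1821to1824 (q : ℕ) : ℕ :=
 cond (Nat.blt q 1822) (block1821)
 (cond (Nat.blt q 1823) (block1822)
 (block1823))

noncomputable def blocks1824to1827 (q : ℕ) : ℕ :=
 cond (Nat.blt q 1825) (block1824)
 (cond (Nat.blt q 1826) (block1825)
 (block1826))

noncomputable def blocks1785to1827 (q : ℕ) : ℕ :=
 cond (Nat.blt q 1806) (cond (Nat.blt q 1795) (cond (Nat.blt q 1790) (cond (Nat.blt q 1787) (blocks1785to1787 q)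
 (blocks1787to1790 q))
 (cond (Nat.blt q 1792) (blocks1790to1792 q)
 (blocks1792to1795 q)))
 (cond (Nat.blt q 1800) (cond (Nat.blt q 1797) (blocks1795to1797 q)
 (blocks1797to1800 q))
 (cond (Nat.blt q 1803) (blocks1800to1803 q)
 (blocks1803to1806 q))))
 (cond (Nat.blt q 1816) (cond (Nat.blt q 1811) (cond (Nat.blt q 1808) (blocks1806to1808 q)
 (blocks1808to1811 q))
 (cond (Nat.blt q 1813) (blocks1811to1813 q)
 (blocks1813to1816 q)))
 (cond (Nat.blt q 1821) (cond (Nat.blt q 1818) (blocks1816to1818 q)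
 (blocks1818to1821 q))
 (cond (Nat.blt q 1824) (blocks1821to1824 q)
 (blocks1824to1827 q))))

noncomputable def blocks1827to1829 (q : ℕ) : ℕ :=
 cond (Nat.blt q 1828) (block1827)
 (block1828)

noncomputable def blocks1829to1832 (q : ℕ) : ℕ :=
 cond (Nat.blt q 1830) (block1829)
 (cond (Nat.blt q 1831) (block1830)
 (block1831))

noncomputable def blocks1832to1834 (q : ℕ) : ℕ :=
 cond (Nat.blt q 1833) (block1832)
 (block1833)

noncomputable def blocks1834to1837 (q : ℕ) : ℕ :=
 cond (Nat.blt q 1835) (block1834)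
 (cond (Nat.blt q 1836) (block1835)
 (block1836))

noncomputable def blocks1837to1839 (q : ℕ) : ℕ :=
 cond (Nat.blt q 1838) (block1837)
 (block1838)

noncomputable def blocks1839to1842 (q : ℕ) : ℕ :=
 cond (Nat.blt q 1840) (block1839)
 (cond (Nat.blt q 1841) (block1840)
 (block1841))

noncomputable def blocks1842to1845 (q : ℕ) : ℕ :=
 cond (Nat.blt q 1843) (block1842)
 (cond (Nat.blt q 1844) (block1843)
 (block1844))

noncomputable def blocks1845to1848 (q : ℕ) : ℕ :=
 cond (Nat.blt q 1846) (block1845)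
 (cond (Nat.blt q 1847) (block1846)
 (block1847))

noncomputable def blocks1848to1850 (q : ℕ) : ℕ :=
 cond (Nat.blt q 1849) (block1848)
 (block1849)

noncomputable def blocks1850to1853 (q : ℕ) : ℕ :=
 cond (Nat.blt q 1851) (block1850)
 (cond (Nat.blt q 1852) (block1851)
 (block1852))

noncomputable def blocks1853to1856 (q : ℕ) : ℕ :=
 cond (Nat.blt q 1854) (block1853)
 (cond (Nat.blt q 1855) (block1854)
 (block1855))

noncomputable def blocks1856to1859 (q : ℕ) : ℕ :=
 cond (Nat.blt q 1857) (block1856)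
 (cond (Nat.blt q 1858) (block1857)
 (block1858))

noncomputable def blocks1859to1861 (q : ℕ) : ℕ :=
 cond (Nat.blt q 1860) (block1859)
 (block1860)

noncomputable def blocks1861to1864 (q : ℕ) : ℕ :=
 cond (Nat.blt q 1862) (block1861)
 (cond (Nat.blt q 1863) (block1862)
 (block1863))

noncomputable def blocks1864to1867 (q : ℕ) : ℕ :=
 cond (Nat.blt q 1865) (block1864)
 (cond (Nat.blt q 1866) (block1865)
 (block1866))

noncomputable def blocks1867to1870 (q : ℕ) : ℕ :=
 cond (Nat.blt q 1868) (block1867)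
 (cond (Nat.blt q 1869) (block1868)
 (block1869))

noncomputable def blocks1827to1870 (q : ℕ) : ℕ :=
 cond (Nat.blt q 1848) (cond (Nat.blt q 1837) (cond (Nat.blt q 1832) (cond (Nat.blt q 1829) (blocks1827to1829 q)
 (blocks1829to1832 q))
 (cond (Nat.blt q 1834) (blocks1832to1834 q)
 (blocks1834to1837 q)))
 (cond (Nat.blt q 1842) (cond (Nat.blt q 1839) (blocks1837to1839 q)
 (blocks1839to1842 q))
 (cond (Nat.blt q 1845) (blocks1842to1845 q)
 (blocks1845to1848 q))))
 (cond (Nat.blt q 1859) (cond (Nat.blt q 1853) (cond (Nat.blt q 1850) (blocks1848to1850 q)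
 (blocks1850to1853 q))
 (cond (Nat.blt q 1856) (blocks1853to1856 q)
 (blocks1856to1859 q)))
 (cond (Nat.blt q 1864) (cond (Nat.blt q 1861) (blocks1859to1861 q)
 (blocks1861to1864 q))
 (cond (Nat.blt q 1867) (blocks1864to1867 q)
 (blocks1867to1870 q))))

noncomputable def blocks1870to1872 (q : ℕ) : ℕ :=
 cond (Nat.blt q 1871) (block1870)
 (block1871)

noncomputable def blocks1872to1875 (q : ℕ) : ℕ :=
 cond (Nat.blt q 1873) (block1872)
 (cond (Nat.blt q 1874) (block1873)
 (block1874))

noncomputable def blocks1875to1877 (q : ℕ) : ℕ :=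
 cond (Nat.blt q 1876) (block1875)
 (block1876)

noncomputable def blocks1877to1880 (q : ℕ) : ℕ :=
 cond (Nat.blt q 1878) (block1877)
 (cond (Nat.blt q 1879) (block1878)
 (block1879))

noncomputable def blocks1880to1882 (q : ℕ) : ℕ :=
 cond (Nat.blt q 1881) (block1880)
 (block1881)

noncomputable def blocks1882to1885 (q : ℕ) : ℕ :=
 cond (Nat.blt q 1883) (block1882)
 (cond (Nat.blt q 1884) (block1883)
 (block1884))

noncomputable def blocks1885to1888 (q : ℕ) : ℕ :=
 cond (Nat.blt q 1886) (block1885)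
 (cond (Nat.blt q 1887) (block1886)
 (block1887))

noncomputable def blocks1888to1891 (q : ℕ) : ℕ :=
 cond (Nat.blt q 1889) (block1888)
 (cond (Nat.blt q 1890) (block1889)
 (block1890))

noncomputable def blocks1891to1893 (q : ℕ) : ℕ :=
 cond (Nat.blt q 1892) (block1891)
 (block1892)

noncomputable def blocks1893to1896 (q : ℕ) : ℕ :=
 cond (Nat.blt q 1894) (block1893)
 (cond (Nat.blt q 1895) (block1894)
 (block1895))

noncomputable def blocks1896to1898 (q : ℕ) : ℕ :=
 cond (Nat.blt q 1897) (block1896)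
 (block1897)

noncomputable def blocks1898to1901 (q : ℕ) : ℕ :=
 cond (Nat.blt q 1899) (block1898)
 (cond (Nat.blt q 1900) (block1899)
 (block1900))

noncomputable def blocks1901to1903 (q : ℕ) : ℕ :=
 cond (Nat.blt q 1902) (block1901)
 (block1902)

noncomputable def blocks1903to1906 (q : ℕ) : ℕ :=
 cond (Nat.blt q 1904) (block1903)
 (cond (Nat.blt q 1905) (block1904)
 (block1905))

noncomputable def blocks1906to1909 (q : ℕ) : ℕ :=
 cond (Nat.blt q 1907) (block1906)
 (cond (Nat.blt q 1908) (block1907)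
 (block1908))

noncomputable def blocks1909to1912 (q : ℕ) : ℕ :=
 cond (Nat.blt q 1910) (block1909)
 (cond (Nat.blt q 1911) (block1910)
 (block1911))

noncomputable def blocks1870to1912 (q : ℕ) : ℕ :=
 cond (Nat.blt q 1891) (cond (Nat.blt q 1880) (cond (Nat.blt q 1875) (cond (Nat.blt q 1872) (blocks1870to1872 q)
 (blocks1872to1875 q))
 (cond (Nat.blt q 1877) (blocks1875to1877 q)
 (blocks1877to1880 q)))
 (cond (Nat.blt q 1885) (cond (Nat.blt q 1882) (blocks1880to1882 q)
 (blocks1882to1885 q))
 (cond (Nat.blt q 1888) (blocks1885to1888 q)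
 (blocks1888to1891 q))))
 (cond (Nat.blt q 1901) (cond (Nat.blt q 1896) (cond (Nat.blt q 1893) (blocks1891to1893 q)
 (blocks1893to1896 q))
 (cond (Nat.blt q 1898) (blocks1896to1898 q)
 (blocks1898to1901 q)))
 (cond (Nat.blt q 1906) (cond (Nat.blt q 1903) (blocks1901to1903 q)
 (blocks1903to1906 q))
 (cond (Nat.blt q 1909) (blocks1906to1909 q)
 (blocks1909to1912 q))))

noncomputable def blocks1912to1914 (q : ℕ) : ℕ :=
 cond (Nat.blt q 1913) (block1912)
 (block1913)

noncomputable def blocks1914to1917 (q : ℕ) : ℕ :=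
 cond (Nat.blt q 1915) (block1914)
 (cond (Nat.blt q 1916) (block1915)
 (block1916))

noncomputable def blocks1917to1919 (q : ℕ) : ℕ :=
 cond (Nat.blt q 1918) (block1917)
 (block1918)

noncomputable def blocks1919to1922 (q : ℕ) : ℕ :=
 cond (Nat.blt q 1920) (block1919)
 (cond (Nat.blt q 1921) (block1920)
 (block1921))

noncomputable def blocks1922to1924 (q : ℕ) : ℕ :=
 cond (Nat.blt q 1923) (block1922)
 (block1923)

noncomputable def blocks1924to1927 (q : ℕ) : ℕ :=
 cond (Nat.blt q 1925) (block1924)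
 (cond (Nat.blt q 1926) (block1925)
 (block1926))

noncomputable def blocks1927to1930 (q : ℕ) : ℕ :=
 cond (Nat.blt q 1928) (block1927)
 (cond (Nat.blt q 1929) (block1928)
 (block1929))

noncomputable def blocks1930to1933 (q : ℕ) : ℕ :=
 cond (Nat.blt q 1931) (block1930)
 (cond (Nat.blt q 1932) (block1931)
 (block1932))

noncomputable def blocks1933to1935 (q : ℕ) : ℕ :=
 cond (Nat.blt q 1934) (block1933)
 (block1934)

noncomputable def blocks1935to1938 (q : ℕ) : ℕ :=
 cond (Nat.blt q 1936) (block1935)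
 (cond (Nat.blt q 1937) (block1936)
 (block1937))

noncomputable def blocks1938to1941 (q : ℕ) : ℕ :=
 cond (Nat.blt q 1939) (block1938)
 (cond (Nat.blt q 1940) (block1939)
 (block1940))

noncomputable def blocks1941to1944 (q : ℕ) : ℕ :=
 cond (Nat.blt q 1942) (block1941)
 (cond (Nat.blt q 1943) (block1942)
 (block1943))

noncomputable def blocks1944to1946 (q : ℕ) : ℕ :=
 cond (Nat.blt q 1945) (block1944)
 (block1945)

noncomputable def blocks1946to1949 (q : ℕ) : ℕ :=
 cond (Nat.blt q 1947) (block1946)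
 (cond (Nat.blt q 1948) (block1947)
 (block1948))

noncomputable def blocks1949to1952 (q : ℕ) : ℕ :=
 cond (Nat.blt q 1950) (block1949)
 (cond (Nat.blt q 1951) (block1950)
 (block1951))

noncomputable def blocks1952to1955 (q : ℕ) : ℕ :=
 cond (Nat.blt q 1953) (block1952)
 (cond (Nat.blt q 1954) (block1953)
 (block1954))

noncomputable def blocks1912to1955 (q : ℕ) : ℕ :=
 cond (Nat.blt q 1933) (cond (Nat.blt q 1922) (cond (Nat.blt q 1917) (cond (Nat.blt q 1914) (blocks1912to1914 q)
 (blocks1914to1917 q))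
 (cond (Nat.blt q 1919) (blocks1917to1919 q)
 (blocks1919to1922 q)))
 (cond (Nat.blt q 1927) (cond (Nat.blt q 1924) (blocks1922to1924 q)
 (blocks1924to1927 q))
 (cond (Nat.blt q 1930) (blocks1927to1930 q)
 (blocks1930to1933 q))))
 (cond (Nat.blt q 1944) (cond (Nat.blt q 1938) (cond (Nat.blt q 1935) (blocks1933to1935 q)
 (blocks1935to1938 q))
 (cond (Nat.blt q 1941) (blocks1938to1941 q)
 (blocks1941to1944 q)))
 (cond (Nat.blt q 1949) (cond (Nat.blt q 1946) (blocks1944to1946 q)
 (blocks1946to1949 q))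
 (cond (Nat.blt q 1952) (blocks1949to1952 q)
 (blocks1952to1955 q))))

noncomputable def blocks1955to1957 (q : ℕ) : ℕ :=
 cond (Nat.blt q 1956) (block1955)
 (block1956)

noncomputable def blocks1957to1960 (q : ℕ) : ℕ :=
 cond (Nat.blt q 1958) (block1957)
 (cond (Nat.blt q 1959) (block1958)
 (block1959))

noncomputable def blocks1960to1962 (q : ℕ) : ℕ :=
 cond (Nat.blt q 1961) (block1960)
 (block1961)

noncomputable def blocks1962to1965 (q : ℕ) : ℕ :=
 cond (Nat.blt q 1963) (block1962)
 (cond (Nat.blt q 1964) (block1963)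
 (block1964))

noncomputable def blocks1965to1967 (q : ℕ) : ℕ :=
 cond (Nat.blt q 1966) (block1965)
 (block1966)

noncomputable def blocks1967to1970 (q : ℕ) : ℕ :=
 cond (Nat.blt q 1968) (block1967)
 (cond (Nat.blt q 1969) (block1968)
 (block1969))

noncomputable def blocks1970to1973 (q : ℕ) : ℕ :=
 cond (Nat.blt q 1971) (block1970)
 (cond (Nat.blt q 1972) (block1971)
 (block1972))

noncomputable def blocks1973to1976 (q : ℕ) : ℕ :=
 cond (Nat.blt q 1974) (block1973)
 (cond (Nat.blt q 1975) (block1974)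
 (block1975))

noncomputable def blocks1976to1978 (q : ℕ) : ℕ :=
 cond (Nat.blt q 1977) (block1976)
 (block1977)

noncomputable def blocks1978to1981 (q : ℕ) : ℕ :=
 cond (Nat.blt q 1979) (block1978)
 (cond (Nat.blt q 1980) (block1979)
 (block1980))

noncomputable def blocks1981to1983 (q : ℕ) : ℕ :=
 cond (Nat.blt q 1982) (block1981)
 (block1982)

noncomputable def blocks1983to1986 (q : ℕ) : ℕ :=
 cond (Nat.blt q 1984) (block1983)
 (cond (Nat.blt q 1985) (block1984)
 (block1985))

noncomputable def blocks1986to1988 (q : ℕ) : ℕ :=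
 cond (Nat.blt q 1987) (block1986)
 (block1987)

noncomputable def blocks1988to1991 (q : ℕ) : ℕ :=
 cond (Nat.blt q 1989) (block1988)
 (cond (Nat.blt q 1990) (block1989)
 (block1990))

noncomputable def blocks1991to1994 (q : ℕ) : ℕ :=
 cond (Nat.blt q 1992) (block1991)
 (cond (Nat.blt q 1993) (block1992)
 (block1993))

noncomputable def blocks1994to1997 (q : ℕ) : ℕ :=
 cond (Nat.blt q 1995) (block1994)
 (cond (Nat.blt q 1996) (block1995)
 (block1996))

noncomputable def blocks1955to1997 (q : ℕ) : ℕ :=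
 cond (Nat.blt q 1976) (cond (Nat.blt q 1965) (cond (Nat.blt q 1960) (cond (Nat.blt q 1957) (blocks1955to1957 q)
 (blocks1957to1960 q))
 (cond (Nat.blt q 1962) (blocks1960to1962 q)
 (blocks1962to1965 q)))
 (cond (Nat.blt q 1970) (cond (Nat.blt q 1967) (blocks1965to1967 q)
 (blocks1967to1970 q))
 (cond (Nat.blt q 1973) (blocks1970to1973 q)
 (blocks1973to1976 q))))
 (cond (Nat.blt q 1986) (cond (Nat.blt q 1981) (cond (Nat.blt q 1978) (blocks1976to1978 q)
 (blocks1978to1981 q))
 (cond (Nat.blt q 1983) (blocks1981to1983 q)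
 (blocks1983to1986 q)))
 (cond (Nat.blt q 1991) (cond (Nat.blt q 1988) (blocks1986to1988 q)
 (blocks1988to1991 q))
 (cond (Nat.blt q 1994) (blocks1991to1994 q)
 (blocks1994to1997 q))))

noncomputable def blocks1997to1999 (q : ℕ) : ℕ :=
 cond (Nat.blt q 1998) (block1997)
 (block1998)

noncomputable def blocks1999to2002 (q : ℕ) : ℕ :=
 cond (Nat.blt q 2000) (block1999)
 (cond (Nat.blt q 2001) (block2000)
 (block2001))

noncomputable def blocks2002to2004 (q : ℕ) : ℕ :=
 cond (Nat.blt q 2003) (block2002)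
 (block2003)

noncomputable def blocks2004to2007 (q : ℕ) : ℕ :=
 cond (Nat.blt q 2005) (block2004)
 (cond (Nat.blt q 2006) (block2005)
 (block2006))

noncomputable def blocks2007to2009 (q : ℕ) : ℕ :=
 cond (Nat.blt q 2008) (block2007)
 (block2008)

noncomputable def blocks2009to2012 (q : ℕ) : ℕ :=
 cond (Nat.blt q 2010) (block2009)
 (cond (Nat.blt q 2011) (block2010)
 (block2011))

noncomputable def blocks2012to2015 (q : ℕ) : ℕ :=
 cond (Nat.blt q 2013) (block2012)
 (cond (Nat.blt q 2014) (block2013)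
 (block2014))

noncomputable def blocks2015to2018 (q : ℕ) : ℕ :=
 cond (Nat.blt q 2016) (block2015)
 (cond (Nat.blt q 2017) (block2016)
 (block2017))

noncomputable def blocks2018to2020 (q : ℕ) : ℕ :=
 cond (Nat.blt q 2019) (block2018)
 (block2019)

noncomputable def blocks2020to2023 (q : ℕ) : ℕ :=
 cond (Nat.blt q 2021) (block2020)
 (cond (Nat.blt q 2022) (block2021)
 (block2022))

noncomputable def blocks2023to2026 (q : ℕ) : ℕ :=
 cond (Nat.blt q 2024) (block2023)
 (cond (Nat.blt q 2025) (block2024)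
 (block2025))

noncomputable def blocks2026to2029 (q : ℕ) : ℕ :=
 cond (Nat.blt q 2027) (block2026)
 (cond (Nat.blt q 2028) (block2027)
 (block2028))

noncomputable def blocks2029to2031 (q : ℕ) : ℕ :=
 cond (Nat.blt q 2030) (block2029)
 (block2030)

noncomputable def blocks2031to2034 (q : ℕ) : ℕ :=
 cond (Nat.blt q 2032) (block2031)
 (cond (Nat.blt q 2033) (block2032)
 (block2033))

noncomputable def blocks2034to2037 (q : ℕ) : ℕ :=
 cond (Nat.blt q 2035) (block2034)
 (cond (Nat.blt q 2036) (block2035)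
 (block2036))

noncomputable def blocks2037to2040 (q : ℕ) : ℕ :=
 cond (Nat.blt q 2038) (block2037)
 (cond (Nat.blt q 2039) (block2038)
 (block2039))

noncomputable def blocks1997to2040 (q : ℕ) : ℕ :=
 cond (Nat.blt q 2018) (cond (Nat.blt q 2007) (cond (Nat.blt q 2002) (cond (Nat.blt q 1999) (blocks1997to1999 q)
 (blocks1999to2002 q))
 (cond (Nat.blt q 2004) (blocks2002to2004 q)
 (blocks2004to2007 q)))
 (cond (Nat.blt q 2012) (cond (Nat.blt q 2009) (blocks2007to2009 q)
 (blocks2009to2012 q))
 (cond (Nat.blt q 2015) (blocks2012to2015 q)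
 (blocks2015to2018 q))))
 (cond (Nat.blt q 2029) (cond (Nat.blt q 2023) (cond (Nat.blt q 2020) (blocks2018to2020 q)
 (blocks2020to2023 q))
 (cond (Nat.blt q 2026) (blocks2023to2026 q)
 (blocks2026to2029 q)))
 (cond (Nat.blt q 2034) (cond (Nat.blt q 2031) (blocks2029to2031 q)
 (blocks2031to2034 q))
 (cond (Nat.blt q 2037) (blocks2034to2037 q)
 (blocks2037to2040 q))))

noncomputable def blocks1360to2040 (q : ℕ) : ℕ :=
 cond (Nat.blt q 1700) (cond (Nat.blt q 1530) (cond (Nat.blt q 1445) (cond (Nat.blt q 1402) (blocks1360to1402 q)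
 (blocks1402to1445 q))
 (cond (Nat.blt q 1487) (blocks1445to1487 q)
 (blocks1487to1530 q)))
 (cond (Nat.blt q 1615) (cond (Nat.blt q 1572) (blocks1530to1572 q)
 (blocks1572to1615 q))
 (cond (Nat.blt q 1657) (blocks1615to1657 q)
 (blocks1657to1700 q))))
 (cond (Nat.blt q 1870) (cond (Nat.blt q 1785) (cond (Nat.blt q 1742) (blocks1700to1742 q)
 (blocks1742to1785 q))
 (cond (Nat.blt q 1827) (blocks1785to1827 q)
 (blocks1827to1870 q)))
 (cond (Nat.blt q 1955) (cond (Nat.blt q 1912) (blocks1870to1912 q)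
 (blocks1912to1955 q))
 (cond (Nat.blt q 1997) (blocks1955to1997 q)
 (blocks1997to2040 q))))

noncomputable def blocks2040to2042 (q : ℕ) : ℕ :=
 cond (Nat.blt q 2041) (block2040)
 (block2041)

noncomputable def blocks2042to2045 (q : ℕ) : ℕ :=
 cond (Nat.blt q 2043) (block2042)
 (cond (Nat.blt q 2044) (block2043)
 (block2044))

noncomputable def blocks2045to2047 (q : ℕ) : ℕ :=
 cond (Nat.blt q 2046) (block2045)
 (block2046)

noncomputable def blocks2047to2050 (q : ℕ) : ℕ :=
 cond (Nat.blt q 2048) (block2047)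
 (cond (Nat.blt q 2049) (block2048)
 (block2049))

noncomputable def blocks2050to2052 (q : ℕ) : ℕ :=
 cond (Nat.blt q 2051) (block2050)
 (block2051)

noncomputable def blocks2052to2055 (q : ℕ) : ℕ :=
 cond (Nat.blt q 2053) (block2052)
 (cond (Nat.blt q 2054) (block2053)
 (block2054))

noncomputable def blocks2055to2058 (q : ℕ) : ℕ :=
 cond (Nat.blt q 2056) (block2055)
 (cond (Nat.blt q 2057) (block2056)
 (block2057))

noncomputable def blocks2058to2061 (q : ℕ) : ℕ :=
 cond (Nat.blt q 2059) (block2058)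
 (cond (Nat.blt q 2060) (block2059)
 (block2060))

noncomputable def blocks2061to2063 (q : ℕ) : ℕ :=
 cond (Nat.blt q 2062) (block2061)
 (block2062)

noncomputable def blocks2063to2066 (q : ℕ) : ℕ :=
 cond (Nat.blt q 2064) (block2063)
 (cond (Nat.blt q 2065) (block2064)
 (block2065))

noncomputable def blocks2066to2068 (q : ℕ) : ℕ :=
 cond (Nat.blt q 2067) (block2066)
 (block2067)

noncomputable def blocks2068to2071 (q : ℕ) : ℕ :=
 cond (Nat.blt q 2069) (block2068)
 (cond (Nat.blt q 2070) (block2069)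
 (block2070))

noncomputable def blocks2071to2073 (q : ℕ) : ℕ :=
 cond (Nat.blt q 2072) (block2071)
 (block2072)

noncomputable def blocks2073to2076 (q : ℕ) : ℕ :=
 cond (Nat.blt q 2074) (block2073)
 (cond (Nat.blt q 2075) (block2074)
 (block2075))

noncomputable def blocks2076to2079 (q : ℕ) : ℕ :=
 cond (Nat.blt q 2077) (block2076)
 (cond (Nat.blt q 2078) (block2077)
 (block2078))

noncomputable def blocks2079to2082 (q : ℕ) : ℕ :=
 cond (Nat.blt q 2080) (block2079)
 (cond (Nat.blt q 2081) (block2080)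
 (block2081))

noncomputable def blocks2040to2082 (q : ℕ) : ℕ :=
 cond (Nat.blt q 2061) (cond (Nat.blt q 2050) (cond (Nat.blt q 2045) (cond (Nat.blt q 2042) (blocks2040to2042 q)
 (blocks2042to2045 q))
 (cond (Nat.blt q 2047) (blocks2045to2047 q)
 (blocks2047to2050 q)))
 (cond (Nat.blt q 2055) (cond (Nat.blt q 2052) (blocks2050to2052 q)
 (blocks2052to2055 q))
 (cond (Nat.blt q 2058) (blocks2055to2058 q)
 (blocks2058to2061 q))))
 (cond (Nat.blt q 2071) (cond (Nat.blt q 2066) (cond (Nat.blt q 2063) (blocks2061to2063 q)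
 (blocks2063to2066 q))
 (cond (Nat.blt q 2068) (blocks2066to2068 q)
 (blocks2068to2071 q)))
 (cond (Nat.blt q 2076) (cond (Nat.blt q 2073) (blocks2071to2073 q)
 (blocks2073to2076 q))
 (cond (Nat.blt q 2079) (blocks2076to2079 q)
 (blocks2079to2082 q))))

noncomputable def blocks2082to2084 (q : ℕ) : ℕ :=
 cond (Nat.blt q 2083) (block2082)
 (block2083)

noncomputable def blocks2084to2087 (q : ℕ) : ℕ :=
 cond (Nat.blt q 2085) (block2084)
 (cond (Nat.blt q 2086) (block2085)
 (block2086))

noncomputable def blocks2087to2089 (q : ℕ) : ℕ :=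
 cond (Nat.blt q 2088) (block2087)
 (block2088)

noncomputable def blocks2089to2092 (q : ℕ) : ℕ :=
 cond (Nat.blt q 2090) (block2089)
 (cond (Nat.blt q 2091) (block2090)
 (block2091))

noncomputable def blocks2092to2094 (q : ℕ) : ℕ :=
 cond (Nat.blt q 2093) (block2092)
 (block2093)

noncomputable def blocks2094to2097 (q : ℕ) : ℕ :=
 cond (Nat.blt q 2095) (block2094)
 (cond (Nat.blt q 2096) (block2095)
 (block2096))

noncomputable def blocks2097to2100 (q : ℕ) : ℕ :=
 cond (Nat.blt q 2098) (block2097)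
 (cond (Nat.blt q 2099) (block2098)
 (block2099))

noncomputable def blocks2100to2103 (q : ℕ) : ℕ :=
 cond (Nat.blt q 2101) (block2100)
 (cond (Nat.blt q 2102) (block2101)
 (block2102))

noncomputable def blocks2103to2105 (q : ℕ) : ℕ :=
 cond (Nat.blt q 2104) (block2103)
 (block2104)

noncomputable def blocks2105to2108 (q : ℕ) : ℕ :=
 cond (Nat.blt q 2106) (block2105)
 (cond (Nat.blt q 2107) (block2106)
 (block2107))

noncomputable def blocks2108to2111 (q : ℕ) : ℕ :=
 cond (Nat.blt q 2109) (block2108)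
 (cond (Nat.blt q 2110) (block2109)
 (block2110))

noncomputable def blocks2111to2114 (q : ℕ) : ℕ :=
 cond (Nat.blt q 2112) (block2111)
 (cond (Nat.blt q 2113) (block2112)
 (block2113))

noncomputable def blocks2114to2116 (q : ℕ) : ℕ :=
 cond (Nat.blt q 2115) (block2114)
 (block2115)

noncomputable def blocks2116to2119 (q : ℕ) : ℕ :=
 cond (Nat.blt q 2117) (block2116)
 (cond (Nat.blt q 2118) (block2117)
 (block2118))

noncomputable def blocks2119to2122 (q : ℕ) : ℕ :=
 cond (Nat.blt q 2120) (block2119)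
 (cond (Nat.blt q 2121) (block2120)
 (block2121))

noncomputable def blocks2122to2125 (q : ℕ) : ℕ :=
 cond (Nat.blt q 2123) (block2122)
 (cond (Nat.blt q 2124) (block2123)
 (block2124))

noncomputable def blocks2082to2125 (q : ℕ) : ℕ :=
 cond (Nat.blt q 2103) (cond (Nat.blt q 2092) (cond (Nat.blt q 2087) (cond (Nat.blt q 2084) (blocks2082to2084 q)
 (blocks2084to2087 q))
 (cond (Nat.blt q 2089) (blocks2087to2089 q)
 (blocks2089to2092 q)))
 (cond (Nat.blt q 2097) (cond (Nat.blt q 2094) (blocks2092to2094 q)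
 (blocks2094to2097 q))
 (cond (Nat.blt q 2100) (blocks2097to2100 q)
 (blocks2100to2103 q))))
 (cond (Nat.blt q 2114) (cond (Nat.blt q 2108) (cond (Nat.blt q 2105) (blocks2103to2105 q)
 (blocks2105to2108 q))
 (cond (Nat.blt q 2111) (blocks2108to2111 q)
 (blocks2111to2114 q)))
 (cond (Nat.blt q 2119) (cond (Nat.blt q 2116) (blocks2114to2116 q)
 (blocks2116to2119 q))
 (cond (Nat.blt q 2122) (blocks2119to2122 q)
 (blocks2122to2125 q))))

noncomputable def blocks2125to2127 (q : ℕ) : ℕ :=
 cond (Nat.blt q 2126) (block2125)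
 (block2126)

noncomputable def blocks2127to2130 (q : ℕ) : ℕ :=
 cond (Nat.blt q 2128) (block2127)
 (cond (Nat.blt q 2129) (block2128)
 (block2129))

noncomputable def blocks2130to2132 (q : ℕ) : ℕ :=
 cond (Nat.blt q 2131) (block2130)
 (block2131)

noncomputable def blocks2132to2135 (q : ℕ) : ℕ :=
 cond (Nat.blt q 2133) (block2132)
 (cond (Nat.blt q 2134) (block2133)
 (block2134))

noncomputable def blocks2135to2137 (q : ℕ) : ℕ :=
 cond (Nat.blt q 2136) (block2135)
 (block2136)

noncomputable def blocks2137to2140 (q : ℕ) : ℕ :=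
 cond (Nat.blt q 2138) (block2137)
 (cond (Nat.blt q 2139) (block2138)
 (block2139))

noncomputable def blocks2140to2143 (q : ℕ) : ℕ :=
 cond (Nat.blt q 2141) (block2140)
 (cond (Nat.blt q 2142) (block2141)
 (block2142))

noncomputable def blocks2143to2146 (q : ℕ) : ℕ :=
 cond (Nat.blt q 2144) (block2143)
 (cond (Nat.blt q 2145) (block2144)
 (block2145))

noncomputable def blocks2146to2148 (q : ℕ) : ℕ :=
 cond (Nat.blt q 2147) (block2146)
 (block2147)

noncomputable def blocks2148to2151 (q : ℕ) : ℕ :=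
 cond (Nat.blt q 2149) (block2148)
 (cond (Nat.blt q 2150) (block2149)
 (block2150))

noncomputable def blocks2151to2153 (q : ℕ) : ℕ :=
 cond (Nat.blt q 2152) (block2151)
 (block2152)

noncomputable def blocks2153to2156 (q : ℕ) : ℕ :=
 cond (Nat.blt q 2154) (block2153)
 (cond (Nat.blt q 2155) (block2154)
 (block2155))

noncomputable def blocks2156to2158 (q : ℕ) : ℕ :=
 cond (Nat.blt q 2157) (block2156)
 (block2157)

noncomputable def blocks2158to2161 (q : ℕ) : ℕ :=
 cond (Nat.blt q 2159) (block2158)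
 (cond (Nat.blt q 2160) (block2159)
 (block2160))

noncomputable def blocks2161to2164 (q : ℕ) : ℕ :=
 cond (Nat.blt q 2162) (block2161)
 (cond (Nat.blt q 2163) (block2162)
 (block2163))

noncomputable def blocks2164to2167 (q : ℕ) : ℕ :=
 cond (Nat.blt q 2165) (block2164)
 (cond (Nat.blt q 2166) (block2165)
 (block2166))

noncomputable def blocks2125to2167 (q : ℕ) : ℕ :=
 cond (Nat.blt q 2146) (cond (Nat.blt q 2135) (cond (Nat.blt q 2130) (cond (Nat.blt q 2127) (blocks2125to2127 q)
 (blocks2127to2130 q))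
 (cond (Nat.blt q 2132) (blocks2130to2132 q)
 (blocks2132to2135 q)))
 (cond (Nat.blt q 2140) (cond (Nat.blt q 2137) (blocks2135to2137 q)
 (blocks2137to2140 q))
 (cond (Nat.blt q 2143) (blocks2140to2143 q)
 (blocks2143to2146 q))))
 (cond (Nat.blt q 2156) (cond (Nat.blt q 2151) (cond (Nat.blt q 2148) (blocks2146to2148 q)
 (blocks2148to2151 q))
 (cond (Nat.blt q 2153) (blocks2151to2153 q)
 (blocks2153to2156 q)))
 (cond (Nat.blt q 2161) (cond (Nat.blt q 2158) (blocks2156to2158 q)
 (blocks2158to2161 q))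
 (cond (Nat.blt q 2164) (blocks2161to2164 q)
 (blocks2164to2167 q))))

noncomputable def blocks2167to2169 (q : ℕ) : ℕ :=
 cond (Nat.blt q 2168) (block2167)
 (block2168)

noncomputable def blocks2169to2172 (q : ℕ) : ℕ :=
 cond (Nat.blt q 2170) (block2169)
 (cond (Nat.blt q 2171) (block2170)
 (block2171))

noncomputable def blocks2172to2174 (q : ℕ) : ℕ :=
 cond (Nat.blt q 2173) (block2172)
 (block2173)

noncomputable def blocks2174to2177 (q : ℕ) : ℕ :=
 cond (Nat.blt q 2175) (block2174)
 (cond (Nat.blt q 2176) (block2175)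
 (block2176))

noncomputable def blocks2177to2179 (q : ℕ) : ℕ :=
 cond (Nat.blt q 2178) (block2177)
 (block2178)

noncomputable def blocks2179to2182 (q : ℕ) : ℕ :=
 cond (Nat.blt q 2180) (block2179)
 (cond (Nat.blt q 2181) (block2180)
 (block2181))

noncomputable def blocks2182to2185 (q : ℕ) : ℕ :=
 cond (Nat.blt q 2183) (block2182)
 (cond (Nat.blt q 2184) (block2183)
 (block2184))

noncomputable def blocks2185to2188 (q : ℕ) : ℕ :=
 cond (Nat.blt q 2186) (block2185)
 (cond (Nat.blt q 2187) (block2186)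
 (block2187))

noncomputable def blocks2188to2190 (q : ℕ) : ℕ :=
 cond (Nat.blt q 2189) (block2188)
 (block2189)

noncomputable def blocks2190to2193 (q : ℕ) : ℕ :=
 cond (Nat.blt q 2191) (block2190)
 (cond (Nat.blt q 2192) (block2191)
 (block2192))

noncomputable def blocks2193to2196 (q : ℕ) : ℕ :=
 cond (Nat.blt q 2194) (block2193)
 (cond (Nat.blt q 2195) (block2194)
 (block2195))

noncomputable def blocks2196to2199 (q : ℕ) : ℕ :=
 cond (Nat.blt q 2197) (block2196)
 (cond (Nat.blt q 2198) (block2197)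
 (block2198))

noncomputable def blocks2199to2201 (q : ℕ) : ℕ :=
 cond (Nat.blt q 2200) (block2199)
 (block2200)

noncomputable def blocks2201to2204 (q : ℕ) : ℕ :=
 cond (Nat.blt q 2202) (block2201)
 (cond (Nat.blt q 2203) (block2202)
 (block2203))

noncomputable def blocks2204to2207 (q : ℕ) : ℕ :=
 cond (Nat.blt q 2205) (block2204)
 (cond (Nat.blt q 2206) (block2205)
 (block2206))

noncomputable def blocks2207to2210 (q : ℕ) : ℕ :=
 cond (Nat.blt q 2208) (block2207)
 (cond (Nat.blt q 2209) (block2208)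
 (block2209))

noncomputable def blocks2167to2210 (q : ℕ) : ℕ :=
 cond (Nat.blt q 2188) (cond (Nat.blt q 2177) (cond (Nat.blt q 2172) (cond (Nat.blt q 2169) (blocks2167to2169 q)
 (blocks2169to2172 q))
 (cond (Nat.blt q 2174) (blocks2172to2174 q)
 (blocks2174to2177 q)))
 (cond (Nat.blt q 2182) (cond (Nat.blt q 2179) (blocks2177to2179 q)
 (blocks2179to2182 q))
 (cond (Nat.blt q 2185) (blocks2182to2185 q)
 (blocks2185to2188 q))))
 (cond (Nat.blt q 2199) (cond (Nat.blt q 2193) (cond (Nat.blt q 2190) (blocks2188to2190 q)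
 (blocks2190to2193 q))
 (cond (Nat.blt q 2196) (blocks2193to2196 q)
 (blocks2196to2199 q)))
 (cond (Nat.blt q 2204) (cond (Nat.blt q 2201) (blocks2199to2201 q)
 (blocks2201to2204 q))
 (cond (Nat.blt q 2207) (blocks2204to2207 q)
 (blocks2207to2210 q))))

noncomputable def blocks2210to2212 (q : ℕ) : ℕ :=
 cond (Nat.blt q 2211) (block2210)
 (block2211)

noncomputable def blocks2212to2215 (q : ℕ) : ℕ :=
 cond (Nat.blt q 2213) (block2212)
 (cond (Nat.blt q 2214) (block2213)
 (block2214))

noncomputable def blocks2215to2217 (q : ℕ) : ℕ :=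
 cond (Nat.blt q 2216) (block2215)
 (block2216)

noncomputable def blocks2217to2220 (q : ℕ) : ℕ :=
 cond (Nat.blt q 2218) (block2217)
 (cond (Nat.blt q 2219) (block2218)
 (block2219))

noncomputable def blocks2220to2222 (q : ℕ) : ℕ :=
 cond (Nat.blt q 2221) (block2220)
 (block2221)

noncomputable def blocks2222to2225 (q : ℕ) : ℕ :=
 cond (Nat.blt q 2223) (block2222)
 (cond (Nat.blt q 2224) (block2223)
 (block2224))

noncomputable def blocks2225to2228 (q : ℕ) : ℕ :=
 cond (Nat.blt q 2226) (block2225)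
 (cond (Nat.blt q 2227) (block2226)
 (block2227))

noncomputable def blocks2228to2231 (q : ℕ) : ℕ :=
 cond (Nat.blt q 2229) (block2228)
 (cond (Nat.blt q 2230) (block2229)
 (block2230))

noncomputable def blocks2231to2233 (q : ℕ) : ℕ :=
 cond (Nat.blt q 2232) (block2231)
 (block2232)

noncomputable def blocks2233to2236 (q : ℕ) : ℕ :=
 cond (Nat.blt q 2234) (block2233)
 (cond (Nat.blt q 2235) (block2234)
 (block2235))

noncomputable def blocks2236to2238 (q : ℕ) : ℕ :=
 cond (Nat.blt q 2237) (block2236)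
 (block2237)

noncomputable def blocks2238to2241 (q : ℕ) : ℕ :=
 cond (Nat.blt q 2239) (block2238)
 (cond (Nat.blt q 2240) (block2239)
 (block2240))

noncomputable def blocks2241to2243 (q : ℕ) : ℕ :=
 cond (Nat.blt q 2242) (block2241)
 (block2242)

noncomputable def blocks2243to2246 (q : ℕ) : ℕ :=
 cond (Nat.blt q 2244) (block2243)
 (cond (Nat.blt q 2245) (block2244)
 (block2245))

noncomputable def blocks2246to2249 (q : ℕ) : ℕ :=
 cond (Nat.blt q 2247) (block2246)
 (cond (Nat.blt q 2248) (block2247)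
 (block2248))

noncomputable def blocks2249to2252 (q : ℕ) : ℕ :=
 cond (Nat.blt q 2250) (block2249)
 (cond (Nat.blt q 2251) (block2250)
 (block2251))

noncomputable def blocks2210to2252 (q : ℕ) : ℕ :=
 cond (Nat.blt q 2231) (cond (Nat.blt q 2220) (cond (Nat.blt q 2215) (cond (Nat.blt q 2212) (blocks2210to2212 q)
 (blocks2212to2215 q))
 (cond (Nat.blt q 2217) (blocks2215to2217 q)
 (blocks2217to2220 q)))
 (cond (Nat.blt q 2225) (cond (Nat.blt q 2222) (blocks2220to2222 q)
 (blocks2222to2225 q))
 (cond (Nat.blt q 2228) (blocks2225to2228 q)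
 (blocks2228to2231 q))))
 (cond (Nat.blt q 2241) (cond (Nat.blt q 2236) (cond (Nat.blt q 2233) (blocks2231to2233 q)
 (blocks2233to2236 q))
 (cond (Nat.blt q 2238) (blocks2236to2238 q)
 (blocks2238to2241 q)))
 (cond (Nat.blt q 2246) (cond (Nat.blt q 2243) (blocks2241to2243 q)
 (blocks2243to2246 q))
 (cond (Nat.blt q 2249) (blocks2246to2249 q)
 (blocks2249to2252 q))))

noncomputable def blocks2252to2254 (q : ℕ) : ℕ :=
 cond (Nat.blt q 2253) (block2252)
 (block2253)

noncomputable def blocks2254to2257 (q : ℕ) : ℕ :=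
 cond (Nat.blt q 2255) (block2254)
 (cond (Nat.blt q 2256) (block2255)
 (block2256))

noncomputable def blocks2257to2259 (q : ℕ) : ℕ :=
 cond (Nat.blt q 2258) (block2257)
 (block2258)

noncomputable def blocks2259to2262 (q : ℕ) : ℕ :=
 cond (Nat.blt q 2260) (block2259)
 (cond (Nat.blt q 2261) (block2260)
 (block2261))

noncomputable def blocks2262to2264 (q : ℕ) : ℕ :=
 cond (Nat.blt q 2263) (block2262)
 (block2263)

noncomputable def blocks2264to2267 (q : ℕ) : ℕ :=
 cond (Nat.blt q 2265) (block2264)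
 (cond (Nat.blt q 2266) (block2265)
 (block2266))

noncomputable def blocks2267to2270 (q : ℕ) : ℕ :=
 cond (Nat.blt q 2268) (block2267)
 (cond (Nat.blt q 2269) (block2268)
 (block2269))

noncomputable def blocks2270to2273 (q : ℕ) : ℕ :=
 cond (Nat.blt q 2271) (block2270)
 (cond (Nat.blt q 2272) (block2271)
 (block2272))

noncomputable def blocks2273to2275 (q : ℕ) : ℕ :=
 cond (Nat.blt q 2274) (block2273)
 (block2274)

noncomputable def blocks2275to2278 (q : ℕ) : ℕ :=
 cond (Nat.blt q 2276) (block2275)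
 (cond (Nat.blt q 2277) (block2276)
 (block2277))

noncomputable def blocks2278to2281 (q : ℕ) : ℕ :=
 cond (Nat.blt q 2279) (block2278)
 (cond (Nat.blt q 2280) (block2279)
 (block2280))

noncomputable def blocks2281to2284 (q : ℕ) : ℕ :=
 cond (Nat.blt q 2282) (block2281)
 (cond (Nat.blt q 2283) (block2282)
 (block2283))

noncomputable def blocks2284to2286 (q : ℕ) : ℕ :=
 cond (Nat.blt q 2285) (block2284)
 (block2285)

noncomputable def blocks2286to2289 (q : ℕ) : ℕ :=
 cond (Nat.blt q 2287) (block2286)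
 (cond (Nat.blt q 2288) (block2287)
 (block2288))

noncomputable def blocks2289to2292 (q : ℕ) : ℕ :=
 cond (Nat.blt q 2290) (block2289)
 (cond (Nat.blt q 2291) (block2290)
 (block2291))

noncomputable def blocks2292to2295 (q : ℕ) : ℕ :=
 cond (Nat.blt q 2293) (block2292)
 (cond (Nat.blt q 2294) (block2293)
 (block2294))

noncomputable def blocks2252to2295 (q : ℕ) : ℕ :=
 cond (Nat.blt q 2273) (cond (Nat.blt q 2262) (cond (Nat.blt q 2257) (cond (Nat.blt q 2254) (blocks2252to2254 q)
 (blocks2254to2257 q))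
 (cond (Nat.blt q 2259) (blocks2257to2259 q)
 (blocks2259to2262 q)))
 (cond (Nat.blt q 2267) (cond (Nat.blt q 2264) (blocks2262to2264 q)
 (blocks2264to2267 q))
 (cond (Nat.blt q 2270) (blocks2267to2270 q)
 (blocks2270to2273 q))))
 (cond (Nat.blt q 2284) (cond (Nat.blt q 2278) (cond (Nat.blt q 2275) (blocks2273to2275 q)
 (blocks2275to2278 q))
 (cond (Nat.blt q 2281) (blocks2278to2281 q)
 (blocks2281to2284 q)))
 (cond (Nat.blt q 2289) (cond (Nat.blt q 2286) (blocks2284to2286 q)
 (blocks2286to2289 q))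
 (cond (Nat.blt q 2292) (blocks2289to2292 q)
 (blocks2292to2295 q))))

noncomputable def blocks2295to2297 (q : ℕ) : ℕ :=
 cond (Nat.blt q 2296) (block2295)
 (block2296)

noncomputable def blocks2297to2300 (q : ℕ) : ℕ :=
 cond (Nat.blt q 2298) (block2297)
 (cond (Nat.blt q 2299) (block2298)
 (block2299))

noncomputable def blocks2300to2302 (q : ℕ) : ℕ :=
 cond (Nat.blt q 2301) (block2300)
 (block2301)

noncomputable def blocks2302to2305 (q : ℕ) : ℕ :=
 cond (Nat.blt q 2303) (block2302)
 (cond (Nat.blt q 2304) (block2303)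
 (block2304))

noncomputable def blocks2305to2307 (q : ℕ) : ℕ :=
 cond (Nat.blt q 2306) (block2305)
 (block2306)

noncomputable def blocks2307to2310 (q : ℕ) : ℕ :=
 cond (Nat.blt q 2308) (block2307)
 (cond (Nat.blt q 2309) (block2308)
 (block2309))

noncomputable def blocks2310to2313 (q : ℕ) : ℕ :=
 cond (Nat.blt q 2311) (block2310)
 (cond (Nat.blt q 2312) (block2311)
 (block2312))

noncomputable def blocks2313to2316 (q : ℕ) : ℕ :=
 cond (Nat.blt q 2314) (block2313)
 (cond (Nat.blt q 2315) (block2314)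
 (block2315))

noncomputable def blocks2316to2318 (q : ℕ) : ℕ :=
 cond (Nat.blt q 2317) (block2316)
 (block2317)

noncomputable def blocks2318to2321 (q : ℕ) : ℕ :=
 cond (Nat.blt q 2319) (block2318)
 (cond (Nat.blt q 2320) (block2319)
 (block2320))

noncomputable def blocks2321to2323 (q : ℕ) : ℕ :=
 cond (Nat.blt q 2322) (block2321)
 (block2322)

noncomputable def blocks2323to2326 (q : ℕ) : ℕ :=
 cond (Nat.blt q 2324) (block2323)
 (cond (Nat.blt q 2325) (block2324)
 (block2325))

noncomputable def blocks2326to2328 (q : ℕ) : ℕ :=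
 cond (Nat.blt q 2327) (block2326)
 (block2327)

noncomputable def blocks2328to2331 (q : ℕ) : ℕ :=
 cond (Nat.blt q 2329) (block2328)
 (cond (Nat.blt q 2330) (block2329)
 (block2330))

noncomputable def blocks2331to2334 (q : ℕ) : ℕ :=
 cond (Nat.blt q 2332) (block2331)
 (cond (Nat.blt q 2333) (block2332)
 (block2333))

noncomputable def blocks2334to2337 (q : ℕ) : ℕ :=
 cond (Nat.blt q 2335) (block2334)
 (cond (Nat.blt q 2336) (block2335)
 (block2336))

noncomputable def blocks2295to2337 (q : ℕ) : ℕ :=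
 cond (Nat.blt q 2316) (cond (Nat.blt q 2305) (cond (Nat.blt q 2300) (cond (Nat.blt q 2297) (blocks2295to2297 q)
 (blocks2297to2300 q))
 (cond (Nat.blt q 2302) (blocks2300to2302 q)
 (blocks2302to2305 q)))
 (cond (Nat.blt q 2310) (cond (Nat.blt q 2307) (blocks2305to2307 q)
 (blocks2307to2310 q))
 (cond (Nat.blt q 2313) (blocks2310to2313 q)
 (blocks2313to2316 q))))
 (cond (Nat.blt q 2326) (cond (Nat.blt q 2321) (cond (Nat.blt q 2318) (blocks2316to2318 q)
 (blocks2318to2321 q))
 (cond (Nat.blt q 2323) (blocks2321to2323 q)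
 (blocks2323to2326 q)))
 (cond (Nat.blt q 2331) (cond (Nat.blt q 2328) (blocks2326to2328 q)
 (blocks2328to2331 q))
 (cond (Nat.blt q 2334) (blocks2331to2334 q)
 (blocks2334to2337 q))))

noncomputable def blocks2337to2339 (q : ℕ) : ℕ :=
 cond (Nat.blt q 2338) (block2337)
 (block2338)

noncomputable def blocks2339to2342 (q : ℕ) : ℕ :=
 cond (Nat.blt q 2340) (block2339)
 (cond (Nat.blt q 2341) (block2340)
 (block2341))

noncomputable def blocks2342to2344 (q : ℕ) : ℕ :=
 cond (Nat.blt q 2343) (block2342)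
 (block2343)

noncomputable def blocks2344to2347 (q : ℕ) : ℕ :=
 cond (Nat.blt q 2345) (block2344)
 (cond (Nat.blt q 2346) (block2345)
 (block2346))

noncomputable def blocks2347to2349 (q : ℕ) : ℕ :=
 cond (Nat.blt q 2348) (block2347)
 (block2348)

noncomputable def blocks2349to2352 (q : ℕ) : ℕ :=
 cond (Nat.blt q 2350) (block2349)
 (cond (Nat.blt q 2351) (block2350)
 (block2351))

noncomputable def blocks2352to2355 (q : ℕ) : ℕ :=
 cond (Nat.blt q 2353) (block2352)
 (cond (Nat.blt q 2354) (block2353)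
 (block2354))

noncomputable def blocks2355to2358 (q : ℕ) : ℕ :=
 cond (Nat.blt q 2356) (block2355)
 (cond (Nat.blt q 2357) (block2356)
 (block2357))

noncomputable def blocks2358to2360 (q : ℕ) : ℕ :=
 cond (Nat.blt q 2359) (block2358)
 (block2359)

noncomputable def blocks2360to2363 (q : ℕ) : ℕ :=
 cond (Nat.blt q 2361) (block2360)
 (cond (Nat.blt q 2362) (block2361)
 (block2362))

noncomputable def blocks2363to2366 (q : ℕ) : ℕ :=
 cond (Nat.blt q 2364) (block2363)
 (cond (Nat.blt q 2365) (block2364)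
 (block2365))

noncomputable def blocks2366to2369 (q : ℕ) : ℕ :=
 cond (Nat.blt q 2367) (block2366)
 (cond (Nat.blt q 2368) (block2367)
 (block2368))

noncomputable def blocks2369to2371 (q : ℕ) : ℕ :=
 cond (Nat.blt q 2370) (block2369)
 (block2370)

noncomputable def blocks2371to2374 (q : ℕ) : ℕ :=
 cond (Nat.blt q 2372) (block2371)
 (cond (Nat.blt q 2373) (block2372)
 (block2373))

noncomputable def blocks2374to2377 (q : ℕ) : ℕ :=
 cond (Nat.blt q 2375) (block2374)
 (cond (Nat.blt q 2376) (block2375)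
 (block2376))

noncomputable def blocks2377to2380 (q : ℕ) : ℕ :=
 cond (Nat.blt q 2378) (block2377)
 (cond (Nat.blt q 2379) (block2378)
 (block2379))

noncomputable def blocks2337to2380 (q : ℕ) : ℕ :=
 cond (Nat.blt q 2358) (cond (Nat.blt q 2347) (cond (Nat.blt q 2342) (cond (Nat.blt q 2339) (blocks2337to2339 q)
 (blocks2339to2342 q))
 (cond (Nat.blt q 2344) (blocks2342to2344 q)
 (blocks2344to2347 q)))
 (cond (Nat.blt q 2352) (cond (Nat.blt q 2349) (blocks2347to2349 q)
 (blocks2349to2352 q))
 (cond (Nat.blt q 2355) (blocks2352to2355 q)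
 (blocks2355to2358 q))))
 (cond (Nat.blt q 2369) (cond (Nat.blt q 2363) (cond (Nat.blt q 2360) (blocks2358to2360 q)
 (blocks2360to2363 q))
 (cond (Nat.blt q 2366) (blocks2363to2366 q)
 (blocks2366to2369 q)))
 (cond (Nat.blt q 2374) (cond (Nat.blt q 2371) (blocks2369to2371 q)
 (blocks2371to2374 q))
 (cond (Nat.blt q 2377) (blocks2374to2377 q)
 (blocks2377to2380 q))))

noncomputable def blocks2380to2382 (q : ℕ) : ℕ :=
 cond (Nat.blt q 2381) (block2380)
 (block2381)

noncomputable def blocks2382to2385 (q : ℕ) : ℕ :=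
 cond (Nat.blt q 2383) (block2382)
 (cond (Nat.blt q 2384) (block2383)
 (block2384))

noncomputable def blocks2385to2387 (q : ℕ) : ℕ :=
 cond (Nat.blt q 2386) (block2385)
 (block2386)

noncomputable def blocks2387to2390 (q : ℕ) : ℕ :=
 cond (Nat.blt q 2388) (block2387)
 (cond (Nat.blt q 2389) (block2388)
 (block2389))

noncomputable def blocks2390to2392 (q : ℕ) : ℕ :=
 cond (Nat.blt q 2391) (block2390)
 (block2391)

noncomputable def blocks2392to2395 (q : ℕ) : ℕ :=
 cond (Nat.blt q 2393) (block2392)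
 (cond (Nat.blt q 2394) (block2393)
 (block2394))

noncomputable def blocks2395to2398 (q : ℕ) : ℕ :=
 cond (Nat.blt q 2396) (block2395)
 (cond (Nat.blt q 2397) (block2396)
 (block2397))

noncomputable def blocks2398to2401 (q : ℕ) : ℕ :=
 cond (Nat.blt q 2399) (block2398)
 (cond (Nat.blt q 2400) (block2399)
 (block2400))

noncomputable def blocks2401to2403 (q : ℕ) : ℕ :=
 cond (Nat.blt q 2402) (block2401)
 (block2402)

noncomputable def blocks2403to2406 (q : ℕ) : ℕ :=
 cond (Nat.blt q 2404) (block2403)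
 (cond (Nat.blt q 2405) (block2404)
 (block2405))

noncomputable def blocks2406to2408 (q : ℕ) : ℕ :=
 cond (Nat.blt q 2407) (block2406)
 (block2407)

noncomputable def blocks2408to2411 (q : ℕ) : ℕ :=
 cond (Nat.blt q 2409) (block2408)
 (cond (Nat.blt q 2410) (block2409)
 (block2410))

noncomputable def blocks2411to2413 (q : ℕ) : ℕ :=
 cond (Nat.blt q 2412) (block2411)
 (block2412)

noncomputable def blocks2413to2416 (q : ℕ) : ℕ :=
 cond (Nat.blt q 2414) (block2413)
 (cond (Nat.blt q 2415) (block2414)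
 (block2415))

noncomputable def blocks2416to2419 (q : ℕ) : ℕ :=
 cond (Nat.blt q 2417) (block2416)
 (cond (Nat.blt q 2418) (block2417)
 (block2418))

noncomputable def blocks2419to2422 (q : ℕ) : ℕ :=
 cond (Nat.blt q 2420) (block2419)
 (cond (Nat.blt q 2421) (block2420)
 (block2421))

noncomputable def blocks2380to2422 (q : ℕ) : ℕ :=
 cond (Nat.blt q 2401) (cond (Nat.blt q 2390) (cond (Nat.blt q 2385) (cond (Nat.blt q 2382) (blocks2380to2382 q)
 (blocks2382to2385 q))
 (cond (Nat.blt q 2387) (blocks2385to2387 q)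
 (blocks2387to2390 q)))
 (cond (Nat.blt q 2395) (cond (Nat.blt q 2392) (blocks2390to2392 q)
 (blocks2392to2395 q))
 (cond (Nat.blt q 2398) (blocks2395to2398 q)
 (blocks2398to2401 q))))
 (cond (Nat.blt q 2411) (cond (Nat.blt q 2406) (cond (Nat.blt q 2403) (blocks2401to2403 q)
 (blocks2403to2406 q))
 (cond (Nat.blt q 2408) (blocks2406to2408 q)
 (blocks2408to2411 q)))
 (cond (Nat.blt q 2416) (cond (Nat.blt q 2413) (blocks2411to2413 q)
 (blocks2413to2416 q))
 (cond (Nat.blt q 2419) (blocks2416to2419 q)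
 (blocks2419to2422 q))))

noncomputable def blocks2422to2424 (q : ℕ) : ℕ :=
 cond (Nat.blt q 2423) (block2422)
 (block2423)

noncomputable def blocks2424to2427 (q : ℕ) : ℕ :=
 cond (Nat.blt q 2425) (block2424)
 (cond (Nat.blt q 2426) (block2425)
 (block2426))

noncomputable def blocks2427to2429 (q : ℕ) : ℕ :=
 cond (Nat.blt q 2428) (block2427)
 (block2428)

noncomputable def blocks2429to2432 (q : ℕ) : ℕ :=
 cond (Nat.blt q 2430) (block2429)
 (cond (Nat.blt q 2431) (block2430)
 (block2431))

noncomputable def blocks2432to2434 (q : ℕ) : ℕ :=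
 cond (Nat.blt q 2433) (block2432)
 (block2433)

noncomputable def blocks2434to2437 (q : ℕ) : ℕ :=
 cond (Nat.blt q 2435) (block2434)
 (cond (Nat.blt q 2436) (block2435)
 (block2436))

noncomputable def blocks2437to2440 (q : ℕ) : ℕ :=
 cond (Nat.blt q 2438) (block2437)
 (cond (Nat.blt q 2439) (block2438)
 (block2439))

noncomputable def blocks2440to2443 (q : ℕ) : ℕ :=
 cond (Nat.blt q 2441) (block2440)
 (cond (Nat.blt q 2442) (block2441)
 (block2442))

noncomputable def blocks2443to2445 (q : ℕ) : ℕ :=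
 cond (Nat.blt q 2444) (block2443)
 (block2444)

noncomputable def blocks2445to2448 (q : ℕ) : ℕ :=
 cond (Nat.blt q 2446) (block2445)
 (cond (Nat.blt q 2447) (block2446)
 (block2447))

noncomputable def blocks2448to2451 (q : ℕ) : ℕ :=
 cond (Nat.blt q 2449) (block2448)
 (cond (Nat.blt q 2450) (block2449)
 (block2450))

noncomputable def blocks2451to2454 (q : ℕ) : ℕ :=
 cond (Nat.blt q 2452) (block2451)
 (cond (Nat.blt q 2453) (block2452)
 (block2453))

noncomputable def blocks2454to2456 (q : ℕ) : ℕ :=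
 cond (Nat.blt q 2455) (block2454)
 (block2455)

noncomputable def blocks2456to2459 (q : ℕ) : ℕ :=
 cond (Nat.blt q 2457) (block2456)
 (cond (Nat.blt q 2458) (block2457)
 (block2458))

noncomputable def blocks2459to2462 (q : ℕ) : ℕ :=
 cond (Nat.blt q 2460) (block2459)
 (cond (Nat.blt q 2461) (block2460)
 (block2461))

noncomputable def blocks2462to2465 (q : ℕ) : ℕ :=
 cond (Nat.blt q 2463) (block2462)
 (cond (Nat.blt q 2464) (block2463)
 (block2464))

noncomputable def blocks2422to2465 (q : ℕ) : ℕ :=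
 cond (Nat.blt q 2443) (cond (Nat.blt q 2432) (cond (Nat.blt q 2427) (cond (Nat.blt q 2424) (blocks2422to2424 q)
 (blocks2424to2427 q))
 (cond (Nat.blt q 2429) (blocks2427to2429 q)
 (blocks2429to2432 q)))
 (cond (Nat.blt q 2437) (cond (Nat.blt q 2434) (blocks2432to2434 q)
 (blocks2434to2437 q))
 (cond (Nat.blt q 2440) (blocks2437to2440 q)
 (blocks2440to2443 q))))
 (cond (Nat.blt q 2454) (cond (Nat.blt q 2448) (cond (Nat.blt q 2445) (blocks2443to2445 q)
 (blocks2445to2448 q))
 (cond (Nat.blt q 2451) (blocks2448to2451 q)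
 (blocks2451to2454 q)))
 (cond (Nat.blt q 2459) (cond (Nat.blt q 2456) (blocks2454to2456 q)
 (blocks2456to2459 q))
 (cond (Nat.blt q 2462) (blocks2459to2462 q)
 (blocks2462to2465 q))))

noncomputable def blocks2465to2467 (q : ℕ) : ℕ :=
 cond (Nat.blt q 2466) (block2465)
 (block2466)

noncomputable def blocks2467to2470 (q : ℕ) : ℕ :=
 cond (Nat.blt q 2468) (block2467)
 (cond (Nat.blt q 2469) (block2468)
 (block2469))

noncomputable def blocks2470to2472 (q : ℕ) : ℕ :=
 cond (Nat.blt q 2471) (block2470)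
 (block2471)

noncomputable def blocks2472to2475 (q : ℕ) : ℕ :=
 cond (Nat.blt q 2473) (block2472)
 (cond (Nat.blt q 2474) (block2473)
 (block2474))

noncomputable def blocks2475to2477 (q : ℕ) : ℕ :=
 cond (Nat.blt q 2476) (block2475)
 (block2476)

noncomputable def blocks2477to2480 (q : ℕ) : ℕ :=
 cond (Nat.blt q 2478) (block2477)
 (cond (Nat.blt q 2479) (block2478)
 (block2479))

noncomputable def blocks2480to2483 (q : ℕ) : ℕ :=
 cond (Nat.blt q 2481) (block2480)
 (cond (Nat.blt q 2482) (block2481)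
 (block2482))

noncomputable def blocks2483to2486 (q : ℕ) : ℕ :=
 cond (Nat.blt q 2484) (block2483)
 (cond (Nat.blt q 2485) (block2484)
 (block2485))

noncomputable def blocks2486to2488 (q : ℕ) : ℕ :=
 cond (Nat.blt q 2487) (block2486)
 (block2487)

noncomputable def blocks2488to2491 (q : ℕ) : ℕ :=
 cond (Nat.blt q 2489) (block2488)
 (cond (Nat.blt q 2490) (block2489)
 (block2490))

noncomputable def blocks2491to2493 (q : ℕ) : ℕ :=
 cond (Nat.blt q 2492) (block2491)
 (block2492)

noncomputable def blocks2493to2496 (q : ℕ) : ℕ :=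
 cond (Nat.blt q 2494) (block2493)
 (cond (Nat.blt q 2495) (block2494)
 (block2495))

noncomputable def blocks2496to2498 (q : ℕ) : ℕ :=
 cond (Nat.blt q 2497) (block2496)
 (block2497)

noncomputable def blocks2498to2501 (q : ℕ) : ℕ :=
 cond (Nat.blt q 2499) (block2498)
 (cond (Nat.blt q 2500) (block2499)
 (block2500))

noncomputable def blocks2501to2504 (q : ℕ) : ℕ :=
 cond (Nat.blt q 2502) (block2501)
 (cond (Nat.blt q 2503) (block2502)
 (block2503))

noncomputable def blocks2504to2507 (q : ℕ) : ℕ :=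
 cond (Nat.blt q 2505) (block2504)
 (cond (Nat.blt q 2506) (block2505)
 (block2506))

noncomputable def blocks2465to2507 (q : ℕ) : ℕ :=
 cond (Nat.blt q 2486) (cond (Nat.blt q 2475) (cond (Nat.blt q 2470) (cond (Nat.blt q 2467) (blocks2465to2467 q)
 (blocks2467to2470 q))
 (cond (Nat.blt q 2472) (blocks2470to2472 q)
 (blocks2472to2475 q)))
 (cond (Nat.blt q 2480) (cond (Nat.blt q 2477) (blocks2475to2477 q)
 (blocks2477to2480 q))
 (cond (Nat.blt q 2483) (blocks2480to2483 q)
 (blocks2483to2486 q))))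
 (cond (Nat.blt q 2496) (cond (Nat.blt q 2491) (cond (Nat.blt q 2488) (blocks2486to2488 q)
 (blocks2488to2491 q))
 (cond (Nat.blt q 2493) (blocks2491to2493 q)
 (blocks2493to2496 q)))
 (cond (Nat.blt q 2501) (cond (Nat.blt q 2498) (blocks2496to2498 q)
 (blocks2498to2501 q))
 (cond (Nat.blt q 2504) (blocks2501to2504 q)
 (blocks2504to2507 q))))

noncomputable def blocks2507to2509 (q : ℕ) : ℕ :=
 cond (Nat.blt q 2508) (block2507)
 (block2508)

noncomputable def blocks2509to2512 (q : ℕ) : ℕ :=
 cond (Nat.blt q 2510) (block2509)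
 (cond (Nat.blt q 2511) (block2510)
 (block2511))

noncomputable def blocks2512to2514 (q : ℕ) : ℕ :=
 cond (Nat.blt q 2513) (block2512)
 (block2513)

noncomputable def blocks2514to2517 (q : ℕ) : ℕ :=
 cond (Nat.blt q 2515) (block2514)
 (cond (Nat.blt q 2516) (block2515)
 (block2516))

noncomputable def blocks2517to2519 (q : ℕ) : ℕ :=
 cond (Nat.blt q 2518) (block2517)
 (block2518)

noncomputable def blocks2519to2522 (q : ℕ) : ℕ :=
 cond (Nat.blt q 2520) (block2519)
 (cond (Nat.blt q 2521) (block2520)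
 (block2521))

noncomputable def blocks2522to2525 (q : ℕ) : ℕ :=
 cond (Nat.blt q 2523) (block2522)
 (cond (Nat.blt q 2524) (block2523)
 (block2524))

noncomputable def blocks2525to2528 (q : ℕ) : ℕ :=
 cond (Nat.blt q 2526) (block2525)
 (cond (Nat.blt q 2527) (block2526)
 (block2527))

noncomputable def blocks2528to2530 (q : ℕ) : ℕ :=
 cond (Nat.blt q 2529) (block2528)
 (block2529)

noncomputable def blocks2530to2533 (q : ℕ) : ℕ :=
 cond (Nat.blt q 2531) (block2530)
 (cond (Nat.blt q 2532) (block2531)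
 (block2532))

noncomputable def blocks2533to2536 (q : ℕ) : ℕ :=
 cond (Nat.blt q 2534) (block2533)
 (cond (Nat.blt q 2535) (block2534)
 (block2535))

noncomputable def blocks2536to2539 (q : ℕ) : ℕ :=
 cond (Nat.blt q 2537) (block2536)
 (cond (Nat.blt q 2538) (block2537)
 (block2538))

noncomputable def blocks2539to2541 (q : ℕ) : ℕ :=
 cond (Nat.blt q 2540) (block2539)
 (block2540)

noncomputable def blocks2541to2544 (q : ℕ) : ℕ :=
 cond (Nat.blt q 2542) (block2541)
 (cond (Nat.blt q 2543) (block2542)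
 (block2543))

noncomputable def blocks2544to2547 (q : ℕ) : ℕ :=
 cond (Nat.blt q 2545) (block2544)
 (cond (Nat.blt q 2546) (block2545)
 (block2546))

noncomputable def blocks2547to2550 (q : ℕ) : ℕ :=
 cond (Nat.blt q 2548) (block2547)
 (cond (Nat.blt q 2549) (block2548)
 (block2549))

noncomputable def blocks2507to2550 (q : ℕ) : ℕ :=
 cond (Nat.blt q 2528) (cond (Nat.blt q 2517) (cond (Nat.blt q 2512) (cond (Nat.blt q 2509) (blocks2507to2509 q)
 (blocks2509to2512 q))
 (cond (Nat.blt q 2514) (blocks2512to2514 q)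
 (blocks2514to2517 q)))
 (cond (Nat.blt q 2522) (cond (Nat.blt q 2519) (blocks2517to2519 q)
 (blocks2519to2522 q))
 (cond (Nat.blt q 2525) (blocks2522to2525 q)
 (blocks2525to2528 q))))
 (cond (Nat.blt q 2539) (cond (Nat.blt q 2533) (cond (Nat.blt q 2530) (blocks2528to2530 q)
 (blocks2530to2533 q))
 (cond (Nat.blt q 2536) (blocks2533to2536 q)
 (blocks2536to2539 q)))
 (cond (Nat.blt q 2544) (cond (Nat.blt q 2541) (blocks2539to2541 q)
 (blocks2541to2544 q))
 (cond (Nat.blt q 2547) (blocks2544to2547 q)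
 (blocks2547to2550 q))))

noncomputable def blocks2550to2552 (q : ℕ) : ℕ :=
 cond (Nat.blt q 2551) (block2550)
 (block2551)

noncomputable def blocks2552to2555 (q : ℕ) : ℕ :=
 cond (Nat.blt q 2553) (block2552)
 (cond (Nat.blt q 2554) (block2553)
 (block2554))

noncomputable def blocks2555to2557 (q : ℕ) : ℕ :=
 cond (Nat.blt q 2556) (block2555)
 (block2556)

noncomputable def blocks2557to2560 (q : ℕ) : ℕ :=
 cond (Nat.blt q 2558) (block2557)
 (cond (Nat.blt q 2559) (block2558)
 (block2559))

noncomputable def blocks2560to2562 (q : ℕ) : ℕ :=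
 cond (Nat.blt q 2561) (block2560)
 (block2561)

noncomputable def blocks2562to2565 (q : ℕ) : ℕ :=
 cond (Nat.blt q 2563) (block2562)
 (cond (Nat.blt q 2564) (block2563)
 (block2564))

noncomputable def blocks2565to2568 (q : ℕ) : ℕ :=
 cond (Nat.blt q 2566) (block2565)
 (cond (Nat.blt q 2567) (block2566)
 (block2567))

noncomputable def blocks2568to2571 (q : ℕ) : ℕ :=
 cond (Nat.blt q 2569) (block2568)
 (cond (Nat.blt q 2570) (block2569)
 (block2570))

noncomputable def blocks2571to2573 (q : ℕ) : ℕ :=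
 cond (Nat.blt q 2572) (block2571)
 (block2572)

noncomputable def blocks2573to2576 (q : ℕ) : ℕ :=
 cond (Nat.blt q 2574) (block2573)
 (cond (Nat.blt q 2575) (block2574)
 (block2575))

noncomputable def blocks2576to2578 (q : ℕ) : ℕ :=
 cond (Nat.blt q 2577) (block2576)
 (block2577)

noncomputable def blocks2578to2581 (q : ℕ) : ℕ :=
 cond (Nat.blt q 2579) (block2578)
 (cond (Nat.blt q 2580) (block2579)
 (block2580))

noncomputable def blocks2581to2583 (q : ℕ) : ℕ :=
 cond (Nat.blt q 2582) (block2581)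
 (block2582)

noncomputable def blocks2583to2586 (q : ℕ) : ℕ :=
 cond (Nat.blt q 2584) (block2583)
 (cond (Nat.blt q 2585) (block2584)
 (block2585))

noncomputable def blocks2586to2589 (q : ℕ) : ℕ :=
 cond (Nat.blt q 2587) (block2586)
 (cond (Nat.blt q 2588) (block2587)
 (block2588))

noncomputable def blocks2589to2592 (q : ℕ) : ℕ :=
 cond (Nat.blt q 2590) (block2589)
 (cond (Nat.blt q 2591) (block2590)
 (block2591))

noncomputable def blocks2550to2592 (q : ℕ) : ℕ :=
 cond (Nat.blt q 2571) (cond (Nat.blt q 2560) (cond (Nat.blt q 2555) (cond (Nat.blt q 2552) (blocks2550to2552 q)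
 (blocks2552to2555 q))
 (cond (Nat.blt q 2557) (blocks2555to2557 q)
 (blocks2557to2560 q)))
 (cond (Nat.blt q 2565) (cond (Nat.blt q 2562) (blocks2560to2562 q)
 (blocks2562to2565 q))
 (cond (Nat.blt q 2568) (blocks2565to2568 q)
 (blocks2568to2571 q))))
 (cond (Nat.blt q 2581) (cond (Nat.blt q 2576) (cond (Nat.blt q 2573) (blocks2571to2573 q)
 (blocks2573to2576 q))
 (cond (Nat.blt q 2578) (blocks2576to2578 q)
 (blocks2578to2581 q)))
 (cond (Nat.blt q 2586) (cond (Nat.blt q 2583) (blocks2581to2583 q)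
 (blocks2583to2586 q))
 (cond (Nat.blt q 2589) (blocks2586to2589 q)
 (blocks2589to2592 q))))

noncomputable def blocks2592to2594 (q : ℕ) : ℕ :=
 cond (Nat.blt q 2593) (block2592)
 (block2593)

noncomputable def blocks2594to2597 (q : ℕ) : ℕ :=
 cond (Nat.blt q 2595) (block2594)
 (cond (Nat.blt q 2596) (block2595)
 (block2596))

noncomputable def blocks2597to2599 (q : ℕ) : ℕ :=
 cond (Nat.blt q 2598) (block2597)
 (block2598)

noncomputable def blocks2599to2602 (q : ℕ) : ℕ :=
 cond (Nat.blt q 2600) (block2599)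
 (cond (Nat.blt q 2601) (block2600)
 (block2601))

noncomputable def blocks2602to2604 (q : ℕ) : ℕ :=
 cond (Nat.blt q 2603) (block2602)
 (block2603)

noncomputable def blocks2604to2607 (q : ℕ) : ℕ :=
 cond (Nat.blt q 2605) (block2604)
 (cond (Nat.blt q 2606) (block2605)
 (block2606))

noncomputable def blocks2607to2610 (q : ℕ) : ℕ :=
 cond (Nat.blt q 2608) (block2607)
 (cond (Nat.blt q 2609) (block2608)
 (block2609))

noncomputable def blocks2610to2613 (q : ℕ) : ℕ :=
 cond (Nat.blt q 2611) (block2610)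
 (cond (Nat.blt q 2612) (block2611)
 (block2612))

noncomputable def blocks2613to2615 (q : ℕ) : ℕ :=
 cond (Nat.blt q 2614) (block2613)
 (block2614)

noncomputable def blocks2615to2618 (q : ℕ) : ℕ :=
 cond (Nat.blt q 2616) (block2615)
 (cond (Nat.blt q 2617) (block2616)
 (block2617))

noncomputable def blocks2618to2621 (q : ℕ) : ℕ :=
 cond (Nat.blt q 2619) (block2618)
 (cond (Nat.blt q 2620) (block2619)
 (block2620))

noncomputable def blocks2621to2624 (q : ℕ) : ℕ :=
 cond (Nat.blt q 2622) (block2621)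
 (cond (Nat.blt q 2623) (block2622)
 (block2623))

noncomputable def blocks2624to2626 (q : ℕ) : ℕ :=
 cond (Nat.blt q 2625) (block2624)
 (block2625)

noncomputable def blocks2626to2629 (q : ℕ) : ℕ :=
 cond (Nat.blt q 2627) (block2626)
 (cond (Nat.blt q 2628) (block2627)
 (block2628))

noncomputable def blocks2629to2632 (q : ℕ) : ℕ :=
 cond (Nat.blt q 2630) (block2629)
 (cond (Nat.blt q 2631) (block2630)
 (block2631))

noncomputable def blocks2632to2635 (q : ℕ) : ℕ :=
 cond (Nat.blt q 2633) (block2632)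
 (cond (Nat.blt q 2634) (block2633)
 (block2634))

noncomputable def blocks2592to2635 (q : ℕ) : ℕ :=
 cond (Nat.blt q 2613) (cond (Nat.blt q 2602) (cond (Nat.blt q 2597) (cond (Nat.blt q 2594) (blocks2592to2594 q)
 (blocks2594to2597 q))
 (cond (Nat.blt q 2599) (blocks2597to2599 q)
 (blocks2599to2602 q)))
 (cond (Nat.blt q 2607) (cond (Nat.blt q 2604) (blocks2602to2604 q)
 (blocks2604to2607 q))
 (cond (Nat.blt q 2610) (blocks2607to2610 q)
 (blocks2610to2613 q))))
 (cond (Nat.blt q 2624) (cond (Nat.blt q 2618) (cond (Nat.blt q 2615) (blocks2613to2615 q)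
 (blocks2615to2618 q))
 (cond (Nat.blt q 2621) (blocks2618to2621 q)
 (blocks2621to2624 q)))
 (cond (Nat.blt q 2629) (cond (Nat.blt q 2626) (blocks2624to2626 q)
 (blocks2626to2629 q))
 (cond (Nat.blt q 2632) (blocks2629to2632 q)
 (blocks2632to2635 q))))

noncomputable def blocks2635to2637 (q : ℕ) : ℕ :=
 cond (Nat.blt q 2636) (block2635)
 (block2636)

noncomputable def blocks2637to2640 (q : ℕ) : ℕ :=
 cond (Nat.blt q 2638) (block2637)
 (cond (Nat.blt q 2639) (block2638)
 (block2639))

noncomputable def blocks2640to2642 (q : ℕ) : ℕ :=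
 cond (Nat.blt q 2641) (block2640)
 (block2641)

noncomputable def blocks2642to2645 (q : ℕ) : ℕ :=
 cond (Nat.blt q 2643) (block2642)
 (cond (Nat.blt q 2644) (block2643)
 (block2644))

noncomputable def blocks2645to2647 (q : ℕ) : ℕ :=
 cond (Nat.blt q 2646) (block2645)
 (block2646)

noncomputable def blocks2647to2650 (q : ℕ) : ℕ :=
 cond (Nat.blt q 2648) (block2647)
 (cond (Nat.blt q 2649) (block2648)
 (block2649))

noncomputable def blocks2650to2653 (q : ℕ) : ℕ :=
 cond (Nat.blt q 2651) (block2650)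
 (cond (Nat.blt q 2652) (block2651)
 (block2652))

noncomputable def blocks2653to2656 (q : ℕ) : ℕ :=
 cond (Nat.blt q 2654) (block2653)
 (cond (Nat.blt q 2655) (block2654)
 (block2655))

noncomputable def blocks2656to2658 (q : ℕ) : ℕ :=
 cond (Nat.blt q 2657) (block2656)
 (block2657)

noncomputable def blocks2658to2661 (q : ℕ) : ℕ :=
 cond (Nat.blt q 2659) (block2658)
 (cond (Nat.blt q 2660) (block2659)
 (block2660))

noncomputable def blocks2661to2664 (q : ℕ) : ℕ :=
 cond (Nat.blt q 2662) (block2661)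
 (cond (Nat.blt q 2663) (block2662)
 (block2663))

noncomputable def blocks2664to2667 (q : ℕ) : ℕ :=
 cond (Nat.blt q 2665) (block2664)
 (cond (Nat.blt q 2666) (block2665)
 (block2666))

noncomputable def blocks2667to2669 (q : ℕ) : ℕ :=
 cond (Nat.blt q 2668) (block2667)
 (block2668)

noncomputable def blocks2669to2672 (q : ℕ) : ℕ :=
 cond (Nat.blt q 2670) (block2669)
 (cond (Nat.blt q 2671) (block2670)
 (block2671))

noncomputable def blocks2672to2675 (q : ℕ) : ℕ :=
 cond (Nat.blt q 2673) (block2672)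
 (cond (Nat.blt q 2674) (block2673)
 (block2674))

noncomputable def blocks2675to2678 (q : ℕ) : ℕ :=
 cond (Nat.blt q 2676) (block2675)
 (cond (Nat.blt q 2677) (block2676)
 (block2677))

noncomputable def blocks2635to2678 (q : ℕ) : ℕ :=
 cond (Nat.blt q 2656) (cond (Nat.blt q 2645) (cond (Nat.blt q 2640) (cond (Nat.blt q 2637) (blocks2635to2637 q)
 (blocks2637to2640 q))
 (cond (Nat.blt q 2642) (blocks2640to2642 q)
 (blocks2642to2645 q)))
 (cond (Nat.blt q 2650) (cond (Nat.blt q 2647) (blocks2645to2647 q)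
 (blocks2647to2650 q))
 (cond (Nat.blt q 2653) (blocks2650to2653 q)
 (blocks2653to2656 q))))
 (cond (Nat.blt q 2667) (cond (Nat.blt q 2661) (cond (Nat.blt q 2658) (blocks2656to2658 q)
 (blocks2658to2661 q))
 (cond (Nat.blt q 2664) (blocks2661to2664 q)
 (blocks2664to2667 q)))
 (cond (Nat.blt q 2672) (cond (Nat.blt q 2669) (blocks2667to2669 q)
 (blocks2669to2672 q))
 (cond (Nat.blt q 2675) (blocks2672to2675 q)
 (blocks2675to2678 q))))

noncomputable def blocks2678to2680 (q : ℕ) : ℕ :=
 cond (Nat.blt q 2679) (block2678)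
 (block2679)

noncomputable def blocks2680to2683 (q : ℕ) : ℕ :=
 cond (Nat.blt q 2681) (block2680)
 (cond (Nat.blt q 2682) (block2681)
 (block2682))

noncomputable def blocks2683to2685 (q : ℕ) : ℕ :=
 cond (Nat.blt q 2684) (block2683)
 (block2684)

noncomputable def blocks2685to2688 (q : ℕ) : ℕ :=
 cond (Nat.blt q 2686) (block2685)
 (cond (Nat.blt q 2687) (block2686)
 (block2687))

noncomputable def blocks2688to2690 (q : ℕ) : ℕ :=
 cond (Nat.blt q 2689) (block2688)
 (block2689)

noncomputable def blocks2690to2693 (q : ℕ) : ℕ :=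
 cond (Nat.blt q 2691) (block2690)
 (cond (Nat.blt q 2692) (block2691)
 (block2692))

noncomputable def blocks2693to2696 (q : ℕ) : ℕ :=
 cond (Nat.blt q 2694) (block2693)
 (cond (Nat.blt q 2695) (block2694)
 (block2695))

noncomputable def blocks2696to2699 (q : ℕ) : ℕ :=
 cond (Nat.blt q 2697) (block2696)
 (cond (Nat.blt q 2698) (block2697)
 (block2698))

noncomputable def blocks2699to2701 (q : ℕ) : ℕ :=
 cond (Nat.blt q 2700) (block2699)
 (block2700)

noncomputable def blocks2701to2704 (q : ℕ) : ℕ :=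
 cond (Nat.blt q 2702) (block2701)
 (cond (Nat.blt q 2703) (block2702)
 (block2703))

noncomputable def blocks2704to2707 (q : ℕ) : ℕ :=
 cond (Nat.blt q 2705) (block2704)
 (cond (Nat.blt q 2706) (block2705)
 (block2706))

noncomputable def blocks2707to2710 (q : ℕ) : ℕ :=
 cond (Nat.blt q 2708) (block2707)
 (cond (Nat.blt q 2709) (block2708)
 (block2709))

noncomputable def blocks2710to2712 (q : ℕ) : ℕ :=
 cond (Nat.blt q 2711) (block2710)
 (block2711)

noncomputable def blocks2712to2715 (q : ℕ) : ℕ :=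
 cond (Nat.blt q 2713) (block2712)
 (cond (Nat.blt q 2714) (block2713)
 (block2714))

noncomputable def blocks2715to2718 (q : ℕ) : ℕ :=
 cond (Nat.blt q 2716) (block2715)
 (cond (Nat.blt q 2717) (block2716)
 (block2717))

noncomputable def blocks2718to2721 (q : ℕ) : ℕ :=
 cond (Nat.blt q 2719) (block2718)
 (cond (Nat.blt q 2720) (block2719)
 (block2720))

noncomputable def blocks2678to2721 (q : ℕ) : ℕ :=
 cond (Nat.blt q 2699) (cond (Nat.blt q 2688) (cond (Nat.blt q 2683) (cond (Nat.blt q 2680) (blocks2678to2680 q)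
 (blocks2680to2683 q))
 (cond (Nat.blt q 2685) (blocks2683to2685 q)
 (blocks2685to2688 q)))
 (cond (Nat.blt q 2693) (cond (Nat.blt q 2690) (blocks2688to2690 q)
 (blocks2690to2693 q))
 (cond (Nat.blt q 2696) (blocks2693to2696 q)
 (blocks2696to2699 q))))
 (cond (Nat.blt q 2710) (cond (Nat.blt q 2704) (cond (Nat.blt q 2701) (blocks2699to2701 q)
 (blocks2701to2704 q))
 (cond (Nat.blt q 2707) (blocks2704to2707 q)
 (blocks2707to2710 q)))
 (cond (Nat.blt q 2715) (cond (Nat.blt q 2712) (blocks2710to2712 q)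
 (blocks2712to2715 q))
 (cond (Nat.blt q 2718) (blocks2715to2718 q)
 (blocks2718to2721 q))))

noncomputable def blocks2040to2721 (q : ℕ) : ℕ :=
 cond (Nat.blt q 2380) (cond (Nat.blt q 2210) (cond (Nat.blt q 2125) (cond (Nat.blt q 2082) (blocks2040to2082 q)
 (blocks2082to2125 q))
 (cond (Nat.blt q 2167) (blocks2125to2167 q)
 (blocks2167to2210 q)))
 (cond (Nat.blt q 2295) (cond (Nat.blt q 2252) (blocks2210to2252 q)
 (blocks2252to2295 q))
 (cond (Nat.blt q 2337) (blocks2295to2337 q)
 (blocks2337to2380 q))))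
 (cond (Nat.blt q 2550) (cond (Nat.blt q 2465) (cond (Nat.blt q 2422) (blocks2380to2422 q)
 (blocks2422to2465 q))
 (cond (Nat.blt q 2507) (blocks2465to2507 q)
 (blocks2507to2550 q)))
 (cond (Nat.blt q 2635) (cond (Nat.blt q 2592) (blocks2550to2592 q)
 (blocks2592to2635 q))
 (cond (Nat.blt q 2678) (blocks2635to2678 q)
 (blocks2678to2721 q))))

noncomputable def blocks2721to2723 (q : ℕ) : ℕ :=
 cond (Nat.blt q 2722) (block2721)
 (block2722)

noncomputable def blocks2723to2726 (q : ℕ) : ℕ :=
 cond (Nat.blt q 2724) (block2723)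
 (cond (Nat.blt q 2725) (block2724)
 (block2725))

noncomputable def blocks2726to2728 (q : ℕ) : ℕ :=
 cond (Nat.blt q 2727) (block2726)
 (block2727)

noncomputable def blocks2728to2731 (q : ℕ) : ℕ :=
 cond (Nat.blt q 2729) (block2728)
 (cond (Nat.blt q 2730) (block2729)
 (block2730))

noncomputable def blocks2731to2733 (q : ℕ) : ℕ :=
 cond (Nat.blt q 2732) (block2731)
 (block2732)

noncomputable def blocks2733to2736 (q : ℕ) : ℕ :=
 cond (Nat.blt q 2734) (block2733)
 (cond (Nat.blt q 2735) (block2734)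
 (block2735))

noncomputable def blocks2736to2739 (q : ℕ) : ℕ :=
 cond (Nat.blt q 2737) (block2736)
 (cond (Nat.blt q 2738) (block2737)
 (block2738))

noncomputable def blocks2739to2742 (q : ℕ) : ℕ :=
 cond (Nat.blt q 2740) (block2739)
 (cond (Nat.blt q 2741) (block2740)
 (block2741))

noncomputable def blocks2742to2744 (q : ℕ) : ℕ :=
 cond (Nat.blt q 2743) (block2742)
 (block2743)

noncomputable def blocks2744to2747 (q : ℕ) : ℕ :=
 cond (Nat.blt q 2745) (block2744)
 (cond (Nat.blt q 2746) (block2745)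
 (block2746))

noncomputable def blocks2747to2749 (q : ℕ) : ℕ :=
 cond (Nat.blt q 2748) (block2747)
 (block2748)

noncomputable def blocks2749to2752 (q : ℕ) : ℕ :=
 cond (Nat.blt q 2750) (block2749)
 (cond (Nat.blt q 2751) (block2750)
 (block2751))

noncomputable def blocks2752to2754 (q : ℕ) : ℕ :=
 cond (Nat.blt q 2753) (block2752)
 (block2753)

noncomputable def blocks2754to2757 (q : ℕ) : ℕ :=
 cond (Nat.blt q 2755) (block2754)
 (cond (Nat.blt q 2756) (block2755)
 (block2756))

noncomputable def blocks2757to2760 (q : ℕ) : ℕ :=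
 cond (Nat.blt q 2758) (block2757)
 (cond (Nat.blt q 2759) (block2758)
 (block2759))

noncomputable def blocks2760to2763 (q : ℕ) : ℕ :=
 cond (Nat.blt q 2761) (block2760)
 (cond (Nat.blt q 2762) (block2761)
 (block2762))

noncomputable def blocks2721to2763 (q : ℕ) : ℕ :=
 cond (Nat.blt q 2742) (cond (Nat.blt q 2731) (cond (Nat.blt q 2726) (cond (Nat.blt q 2723) (blocks2721to2723 q)
 (blocks2723to2726 q))
 (cond (Nat.blt q 2728) (blocks2726to2728 q)
 (blocks2728to2731 q)))
 (cond (Nat.blt q 2736) (cond (Nat.blt q 2733) (blocks2731to2733 q)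
 (blocks2733to2736 q))
 (cond (Nat.blt q 2739) (blocks2736to2739 q)
 (blocks2739to2742 q))))
 (cond (Nat.blt q 2752) (cond (Nat.blt q 2747) (cond (Nat.blt q 2744) (blocks2742to2744 q)
 (blocks2744to2747 q))
 (cond (Nat.blt q 2749) (blocks2747to2749 q)
 (blocks2749to2752 q)))
 (cond (Nat.blt q 2757) (cond (Nat.blt q 2754) (blocks2752to2754 q)
 (blocks2754to2757 q))
 (cond (Nat.blt q 2760) (blocks2757to2760 q)
 (blocks2760to2763 q))))

noncomputable def blocks2763to2765 (q : ℕ) : ℕ :=
 cond (Nat.blt q 2764) (block2763)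
 (block2764)

noncomputable def blocks2765to2768 (q : ℕ) : ℕ :=
 cond (Nat.blt q 2766) (block2765)
 (cond (Nat.blt q 2767) (block2766)
 (block2767))

noncomputable def blocks2768to2770 (q : ℕ) : ℕ :=
 cond (Nat.blt q 2769) (block2768)
 (block2769)

noncomputable def blocks2770to2773 (q : ℕ) : ℕ :=
 cond (Nat.blt q 2771) (block2770)
 (cond (Nat.blt q 2772) (block2771)
 (block2772))

noncomputable def blocks2773to2775 (q : ℕ) : ℕ :=
 cond (Nat.blt q 2774) (block2773)
 (block2774)

noncomputable def blocks2775to2778 (q : ℕ) : ℕ :=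
 cond (Nat.blt q 2776) (block2775)
 (cond (Nat.blt q 2777) (block2776)
 (block2777))

noncomputable def blocks2778to2781 (q : ℕ) : ℕ :=
 cond (Nat.blt q 2779) (block2778)
 (cond (Nat.blt q 2780) (block2779)
 (block2780))

noncomputable def blocks2781to2784 (q : ℕ) : ℕ :=
 cond (Nat.blt q 2782) (block2781)
 (cond (Nat.blt q 2783) (block2782)
 (block2783))

noncomputable def blocks2784to2786 (q : ℕ) : ℕ :=
 cond (Nat.blt q 2785) (block2784)
 (block2785)

noncomputable def blocks2786to2789 (q : ℕ) : ℕ :=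
 cond (Nat.blt q 2787) (block2786)
 (cond (Nat.blt q 2788) (block2787)
 (block2788))

noncomputable def blocks2789to2792 (q : ℕ) : ℕ :=
 cond (Nat.blt q 2790) (block2789)
 (cond (Nat.blt q 2791) (block2790)
 (block2791))

noncomputable def blocks2792to2795 (q : ℕ) : ℕ :=
 cond (Nat.blt q 2793) (block2792)
 (cond (Nat.blt q 2794) (block2793)
 (block2794))

noncomputable def blocks2795to2797 (q : ℕ) : ℕ :=
 cond (Nat.blt q 2796) (block2795)
 (block2796)

noncomputable def blocks2797to2800 (q : ℕ) : ℕ :=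
 cond (Nat.blt q 2798) (block2797)
 (cond (Nat.blt q 2799) (block2798)
 (block2799))

noncomputable def blocks2800to2803 (q : ℕ) : ℕ :=
 cond (Nat.blt q 2801) (block2800)
 (cond (Nat.blt q 2802) (block2801)
 (block2802))

noncomputable def blocks2803to2806 (q : ℕ) : ℕ :=
 cond (Nat.blt q 2804) (block2803)
 (cond (Nat.blt q 2805) (block2804)
 (block2805))

noncomputable def blocks2763to2806 (q : ℕ) : ℕ :=
 cond (Nat.blt q 2784) (cond (Nat.blt q 2773) (cond (Nat.blt q 2768) (cond (Nat.blt q 2765) (blocks2763to2765 q)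
 (blocks2765to2768 q))
 (cond (Nat.blt q 2770) (blocks2768to2770 q)
 (blocks2770to2773 q)))
 (cond (Nat.blt q 2778) (cond (Nat.blt q 2775) (blocks2773to2775 q)
 (blocks2775to2778 q))
 (cond (Nat.blt q 2781) (blocks2778to2781 q)
 (blocks2781to2784 q))))
 (cond (Nat.blt q 2795) (cond (Nat.blt q 2789) (cond (Nat.blt q 2786) (blocks2784to2786 q)
 (blocks2786to2789 q))
 (cond (Nat.blt q 2792) (blocks2789to2792 q)
 (blocks2792to2795 q)))
 (cond (Nat.blt q 2800) (cond (Nat.blt q 2797) (blocks2795to2797 q)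
 (blocks2797to2800 q))
 (cond (Nat.blt q 2803) (blocks2800to2803 q)
 (blocks2803to2806 q))))

noncomputable def blocks2806to2808 (q : ℕ) : ℕ :=
 cond (Nat.blt q 2807) (block2806)
 (block2807)

noncomputable def blocks2808to2811 (q : ℕ) : ℕ :=
 cond (Nat.blt q 2809) (block2808)
 (cond (Nat.blt q 2810) (block2809)
 (block2810))

noncomputable def blocks2811to2813 (q : ℕ) : ℕ :=
 cond (Nat.blt q 2812) (block2811)
 (block2812)

noncomputable def blocks2813to2816 (q : ℕ) : ℕ :=
 cond (Nat.blt q 2814) (block2813)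
 (cond (Nat.blt q 2815) (block2814)
 (block2815))

noncomputable def blocks2816to2818 (q : ℕ) : ℕ :=
 cond (Nat.blt q 2817) (block2816)
 (block2817)

noncomputable def blocks2818to2821 (q : ℕ) : ℕ :=
 cond (Nat.blt q 2819) (block2818)
 (cond (Nat.blt q 2820) (block2819)
 (block2820))

noncomputable def blocks2821to2824 (q : ℕ) : ℕ :=
 cond (Nat.blt q 2822) (block2821)
 (cond (Nat.blt q 2823) (block2822)
 (block2823))

noncomputable def blocks2824to2827 (q : ℕ) : ℕ :=
 cond (Nat.blt q 2825) (block2824)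
 (cond (Nat.blt q 2826) (block2825)
 (block2826))

noncomputable def blocks2827to2829 (q : ℕ) : ℕ :=
 cond (Nat.blt q 2828) (block2827)
 (block2828)

noncomputable def blocks2829to2832 (q : ℕ) : ℕ :=
 cond (Nat.blt q 2830) (block2829)
 (cond (Nat.blt q 2831) (block2830)
 (block2831))

noncomputable def blocks2832to2834 (q : ℕ) : ℕ :=
 cond (Nat.blt q 2833) (block2832)
 (block2833)

noncomputable def blocks2834to2837 (q : ℕ) : ℕ :=
 cond (Nat.blt q 2835) (block2834)
 (cond (Nat.blt q 2836) (block2835)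
 (block2836))

noncomputable def blocks2837to2839 (q : ℕ) : ℕ :=
 cond (Nat.blt q 2838) (block2837)
 (block2838)

noncomputable def blocks2839to2842 (q : ℕ) : ℕ :=
 cond (Nat.blt q 2840) (block2839)
 (cond (Nat.blt q 2841) (block2840)
 (block2841))

noncomputable def blocks2842to2845 (q : ℕ) : ℕ :=
 cond (Nat.blt q 2843) (block2842)
 (cond (Nat.blt q 2844) (block2843)
 (block2844))

noncomputable def blocks2845to2848 (q : ℕ) : ℕ :=
 cond (Nat.blt q 2846) (block2845)
 (cond (Nat.blt q 2847) (block2846)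
 (block2847))

noncomputable def blocks2806to2848 (q : ℕ) : ℕ :=
 cond (Nat.blt q 2827) (cond (Nat.blt q 2816) (cond (Nat.blt q 2811) (cond (Nat.blt q 2808) (blocks2806to2808 q)
 (blocks2808to2811 q))
 (cond (Nat.blt q 2813) (blocks2811to2813 q)
 (blocks2813to2816 q)))
 (cond (Nat.blt q 2821) (cond (Nat.blt q 2818) (blocks2816to2818 q)
 (blocks2818to2821 q))
 (cond (Nat.blt q 2824) (blocks2821to2824 q)
 (blocks2824to2827 q))))
 (cond (Nat.blt q 2837) (cond (Nat.blt q 2832) (cond (Nat.blt q 2829) (blocks2827to2829 q)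
 (blocks2829to2832 q))
 (cond (Nat.blt q 2834) (blocks2832to2834 q)
 (blocks2834to2837 q)))
 (cond (Nat.blt q 2842) (cond (Nat.blt q 2839) (blocks2837to2839 q)
 (blocks2839to2842 q))
 (cond (Nat.blt q 2845) (blocks2842to2845 q)
 (blocks2845to2848 q))))

noncomputable def blocks2848to2850 (q : ℕ) : ℕ :=
 cond (Nat.blt q 2849) (block2848)
 (block2849)

noncomputable def blocks2850to2853 (q : ℕ) : ℕ :=
 cond (Nat.blt q 2851) (block2850)
 (cond (Nat.blt q 2852) (block2851)
 (block2852))

noncomputable def blocks2853to2855 (q : ℕ) : ℕ :=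
 cond (Nat.blt q 2854) (block2853)
 (block2854)

noncomputable def blocks2855to2858 (q : ℕ) : ℕ :=
 cond (Nat.blt q 2856) (block2855)
 (cond (Nat.blt q 2857) (block2856)
 (block2857))

noncomputable def blocks2858to2860 (q : ℕ) : ℕ :=
 cond (Nat.blt q 2859) (block2858)
 (block2859)

noncomputable def blocks2860to2863 (q : ℕ) : ℕ :=
 cond (Nat.blt q 2861) (block2860)
 (cond (Nat.blt q 2862) (block2861)
 (block2862))

noncomputable def blocks2863to2866 (q : ℕ) : ℕ :=
 cond (Nat.blt q 2864) (block2863)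
 (cond (Nat.blt q 2865) (block2864)
 (block2865))

noncomputable def blocks2866to2869 (q : ℕ) : ℕ :=
 cond (Nat.blt q 2867) (block2866)
 (cond (Nat.blt q 2868) (block2867)
 (block2868))

noncomputable def blocks2869to2871 (q : ℕ) : ℕ :=
 cond (Nat.blt q 2870) (block2869)
 (block2870)

noncomputable def blocks2871to2874 (q : ℕ) : ℕ :=
 cond (Nat.blt q 2872) (block2871)
 (cond (Nat.blt q 2873) (block2872)
 (block2873))

noncomputable def blocks2874to2877 (q : ℕ) : ℕ :=
 cond (Nat.blt q 2875) (block2874)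
 (cond (Nat.blt q 2876) (block2875)
 (block2876))

noncomputable def blocks2877to2880 (q : ℕ) : ℕ :=
 cond (Nat.blt q 2878) (block2877)
 (cond (Nat.blt q 2879) (block2878)
 (block2879))

noncomputable def blocks2880to2882 (q : ℕ) : ℕ :=
 cond (Nat.blt q 2881) (block2880)
 (block2881)

noncomputable def blocks2882to2885 (q : ℕ) : ℕ :=
 cond (Nat.blt q 2883) (block2882)
 (cond (Nat.blt q 2884) (block2883)
 (block2884))

noncomputable def blocks2885to2888 (q : ℕ) : ℕ :=
 cond (Nat.blt q 2886) (block2885)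
 (cond (Nat.blt q 2887) (block2886)
 (block2887))

noncomputable def blocks2888to2891 (q : ℕ) : ℕ :=
 cond (Nat.blt q 2889) (block2888)
 (cond (Nat.blt q 2890) (block2889)
 (block2890))

noncomputable def blocks2848to2891 (q : ℕ) : ℕ :=
 cond (Nat.blt q 2869) (cond (Nat.blt q 2858) (cond (Nat.blt q 2853) (cond (Nat.blt q 2850) (blocks2848to2850 q)
 (blocks2850to2853 q))
 (cond (Nat.blt q 2855) (blocks2853to2855 q)
 (blocks2855to2858 q)))
 (cond (Nat.blt q 2863) (cond (Nat.blt q 2860) (blocks2858to2860 q)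
 (blocks2860to2863 q))
 (cond (Nat.blt q 2866) (blocks2863to2866 q)
 (blocks2866to2869 q))))
 (cond (Nat.blt q 2880) (cond (Nat.blt q 2874) (cond (Nat.blt q 2871) (blocks2869to2871 q)
 (blocks2871to2874 q))
 (cond (Nat.blt q 2877) (blocks2874to2877 q)
 (blocks2877to2880 q)))
 (cond (Nat.blt q 2885) (cond (Nat.blt q 2882) (blocks2880to2882 q)
 (blocks2882to2885 q))
 (cond (Nat.blt q 2888) (blocks2885to2888 q)
 (blocks2888to2891 q))))

noncomputable def blocks2891to2893 (q : ℕ) : ℕ :=
 cond (Nat.blt q 2892) (block2891)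
 (block2892)

noncomputable def blocks2893to2896 (q : ℕ) : ℕ :=
 cond (Nat.blt q 2894) (block2893)
 (cond (Nat.blt q 2895) (block2894)
 (block2895))

noncomputable def blocks2896to2898 (q : ℕ) : ℕ :=
 cond (Nat.blt q 2897) (block2896)
 (block2897)

noncomputable def blocks2898to2901 (q : ℕ) : ℕ :=
 cond (Nat.blt q 2899) (block2898)
 (cond (Nat.blt q 2900) (block2899)
 (block2900))

noncomputable def blocks2901to2903 (q : ℕ) : ℕ :=
 cond (Nat.blt q 2902) (block2901)
 (block2902)

noncomputable def blocks2903to2906 (q : ℕ) : ℕ :=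
 cond (Nat.blt q 2904) (block2903)
 (cond (Nat.blt q 2905) (block2904)
 (block2905))

noncomputable def blocks2906to2909 (q : ℕ) : ℕ :=
 cond (Nat.blt q 2907) (block2906)
 (cond (Nat.blt q 2908) (block2907)
 (block2908))

noncomputable def blocks2909to2912 (q : ℕ) : ℕ :=
 cond (Nat.blt q 2910) (block2909)
 (cond (Nat.blt q 2911) (block2910)
 (block2911))

noncomputable def blocks2912to2914 (q : ℕ) : ℕ :=
 cond (Nat.blt q 2913) (block2912)
 (block2913)

noncomputable def blocks2914to2917 (q : ℕ) : ℕ :=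
 cond (Nat.blt q 2915) (block2914)
 (cond (Nat.blt q 2916) (block2915)
 (block2916))

noncomputable def blocks2917to2919 (q : ℕ) : ℕ :=
 cond (Nat.blt q 2918) (block2917)
 (block2918)

noncomputable def blocks2919to2922 (q : ℕ) : ℕ :=
 cond (Nat.blt q 2920) (block2919)
 (cond (Nat.blt q 2921) (block2920)
 (block2921))

noncomputable def blocks2922to2924 (q : ℕ) : ℕ :=
 cond (Nat.blt q 2923) (block2922)
 (block2923)

noncomputable def blocks2924to2927 (q : ℕ) : ℕ :=
 cond (Nat.blt q 2925) (block2924)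
 (cond (Nat.blt q 2926) (block2925)
 (block2926))

noncomputable def blocks2927to2930 (q : ℕ) : ℕ :=
 cond (Nat.blt q 2928) (block2927)
 (cond (Nat.blt q 2929) (block2928)
 (block2929))

noncomputable def blocks2930to2933 (q : ℕ) : ℕ :=
 cond (Nat.blt q 2931) (block2930)
 (cond (Nat.blt q 2932) (block2931)
 (block2932))

noncomputable def blocks2891to2933 (q : ℕ) : ℕ :=
 cond (Nat.blt q 2912) (cond (Nat.blt q 2901) (cond (Nat.blt q 2896) (cond (Nat.blt q 2893) (blocks2891to2893 q)
 (blocks2893to2896 q))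
 (cond (Nat.blt q 2898) (blocks2896to2898 q)
 (blocks2898to2901 q)))
 (cond (Nat.blt q 2906) (cond (Nat.blt q 2903) (blocks2901to2903 q)
 (blocks2903to2906 q))
 (cond (Nat.blt q 2909) (blocks2906to2909 q)
 (blocks2909to2912 q))))
 (cond (Nat.blt q 2922) (cond (Nat.blt q 2917) (cond (Nat.blt q 2914) (blocks2912to2914 q)
 (blocks2914to2917 q))
 (cond (Nat.blt q 2919) (blocks2917to2919 q)
 (blocks2919to2922 q)))
 (cond (Nat.blt q 2927) (cond (Nat.blt q 2924) (blocks2922to2924 q)
 (blocks2924to2927 q))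
 (cond (Nat.blt q 2930) (blocks2927to2930 q)
 (blocks2930to2933 q))))

noncomputable def blocks2933to2935 (q : ℕ) : ℕ :=
 cond (Nat.blt q 2934) (block2933)
 (block2934)

noncomputable def blocks2935to2938 (q : ℕ) : ℕ :=
 cond (Nat.blt q 2936) (block2935)
 (cond (Nat.blt q 2937) (block2936)
 (block2937))

noncomputable def blocks2938to2940 (q : ℕ) : ℕ :=
 cond (Nat.blt q 2939) (block2938)
 (block2939)

noncomputable def blocks2940to2943 (q : ℕ) : ℕ :=
 cond (Nat.blt q 2941) (block2940)
 (cond (Nat.blt q 2942) (block2941)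
 (block2942))

noncomputable def blocks2943to2945 (q : ℕ) : ℕ :=
 cond (Nat.blt q 2944) (block2943)
 (block2944)

noncomputable def blocks2945to2948 (q : ℕ) : ℕ :=
 cond (Nat.blt q 2946) (block2945)
 (cond (Nat.blt q 2947) (block2946)
 (block2947))

noncomputable def blocks2948to2951 (q : ℕ) : ℕ :=
 cond (Nat.blt q 2949) (block2948)
 (cond (Nat.blt q 2950) (block2949)
 (block2950))

noncomputable def blocks2951to2954 (q : ℕ) : ℕ :=
 cond (Nat.blt q 2952) (block2951)
 (cond (Nat.blt q 2953) (block2952)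
 (block2953))

noncomputable def blocks2954to2956 (q : ℕ) : ℕ :=
 cond (Nat.blt q 2955) (block2954)
 (block2955)

noncomputable def blocks2956to2959 (q : ℕ) : ℕ :=
 cond (Nat.blt q 2957) (block2956)
 (cond (Nat.blt q 2958) (block2957)
 (block2958))

noncomputable def blocks2959to2962 (q : ℕ) : ℕ :=
 cond (Nat.blt q 2960) (block2959)
 (cond (Nat.blt q 2961) (block2960)
 (block2961))

noncomputable def blocks2962to2965 (q : ℕ) : ℕ :=
 cond (Nat.blt q 2963) (block2962)
 (cond (Nat.blt q 2964) (block2963)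
 (block2964))

noncomputable def blocks2965to2967 (q : ℕ) : ℕ :=
 cond (Nat.blt q 2966) (block2965)
 (block2966)

noncomputable def blocks2967to2970 (q : ℕ) : ℕ :=
 cond (Nat.blt q 2968) (block2967)
 (cond (Nat.blt q 2969) (block2968)
 (block2969))

noncomputable def blocks2970to2973 (q : ℕ) : ℕ :=
 cond (Nat.blt q 2971) (block2970)
 (cond (Nat.blt q 2972) (block2971)
 (block2972))

noncomputable def blocks2973to2976 (q : ℕ) : ℕ :=
 cond (Nat.blt q 2974) (block2973)
 (cond (Nat.blt q 2975) (block2974)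
 (block2975))

noncomputable def blocks2933to2976 (q : ℕ) : ℕ :=
 cond (Nat.blt q 2954) (cond (Nat.blt q 2943) (cond (Nat.blt q 2938) (cond (Nat.blt q 2935) (blocks2933to2935 q)
 (blocks2935to2938 q))
 (cond (Nat.blt q 2940) (blocks2938to2940 q)
 (blocks2940to2943 q)))
 (cond (Nat.blt q 2948) (cond (Nat.blt q 2945) (blocks2943to2945 q)
 (blocks2945to2948 q))
 (cond (Nat.blt q 2951) (blocks2948to2951 q)
 (blocks2951to2954 q))))
 (cond (Nat.blt q 2965) (cond (Nat.blt q 2959) (cond (Nat.blt q 2956) (blocks2954to2956 q)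
 (blocks2956to2959 q))
 (cond (Nat.blt q 2962) (blocks2959to2962 q)
 (blocks2962to2965 q)))
 (cond (Nat.blt q 2970) (cond (Nat.blt q 2967) (blocks2965to2967 q)
 (blocks2967to2970 q))
 (cond (Nat.blt q 2973) (blocks2970to2973 q)
 (blocks2973to2976 q))))

noncomputable def blocks2976to2978 (q : ℕ) : ℕ :=
 cond (Nat.blt q 2977) (block2976)
 (block2977)

noncomputable def blocks2978to2981 (q : ℕ) : ℕ :=
 cond (Nat.blt q 2979) (block2978)
 (cond (Nat.blt q 2980) (block2979)
 (block2980))

noncomputable def blocks2981to2983 (q : ℕ) : ℕ :=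
 cond (Nat.blt q 2982) (block2981)
 (block2982)

noncomputable def blocks2983to2986 (q : ℕ) : ℕ :=
 cond (Nat.blt q 2984) (block2983)
 (cond (Nat.blt q 2985) (block2984)
 (block2985))

noncomputable def blocks2986to2988 (q : ℕ) : ℕ :=
 cond (Nat.blt q 2987) (block2986)
 (block2987)

noncomputable def blocks2988to2991 (q : ℕ) : ℕ :=
 cond (Nat.blt q 2989) (block2988)
 (cond (Nat.blt q 2990) (block2989)
 (block2990))

noncomputable def blocks2991to2994 (q : ℕ) : ℕ :=
 cond (Nat.blt q 2992) (block2991)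
 (cond (Nat.blt q 2993) (block2992)
 (block2993))

noncomputable def blocks2994to2997 (q : ℕ) : ℕ :=
 cond (Nat.blt q 2995) (block2994)
 (cond (Nat.blt q 2996) (block2995)
 (block2996))

noncomputable def blocks2997to2999 (q : ℕ) : ℕ :=
 cond (Nat.blt q 2998) (block2997)
 (block2998)

noncomputable def blocks2999to3002 (q : ℕ) : ℕ :=
 cond (Nat.blt q 3000) (block2999)
 (cond (Nat.blt q 3001) (block3000)
 (block3001))

noncomputable def blocks3002to3004 (q : ℕ) : ℕ :=
 cond (Nat.blt q 3003) (block3002)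
 (block3003)

noncomputable def blocks3004to3007 (q : ℕ) : ℕ :=
 cond (Nat.blt q 3005) (block3004)
 (cond (Nat.blt q 3006) (block3005)
 (block3006))

noncomputable def blocks3007to3009 (q : ℕ) : ℕ :=
 cond (Nat.blt q 3008) (block3007)
 (block3008)

noncomputable def blocks3009to3012 (q : ℕ) : ℕ :=
 cond (Nat.blt q 3010) (block3009)
 (cond (Nat.blt q 3011) (block3010)
 (block3011))

noncomputable def blocks3012to3015 (q : ℕ) : ℕ :=
 cond (Nat.blt q 3013) (block3012)
 (cond (Nat.blt q 3014) (block3013)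
 (block3014))

noncomputable def blocks3015to3018 (q : ℕ) : ℕ :=
 cond (Nat.blt q 3016) (block3015)
 (cond (Nat.blt q 3017) (block3016)
 (block3017))

noncomputable def blocks2976to3018 (q : ℕ) : ℕ :=
 cond (Nat.blt q 2997) (cond (Nat.blt q 2986) (cond (Nat.blt q 2981) (cond (Nat.blt q 2978) (blocks2976to2978 q)
 (blocks2978to2981 q))
 (cond (Nat.blt q 2983) (blocks2981to2983 q)
 (blocks2983to2986 q)))
 (cond (Nat.blt q 2991) (cond (Nat.blt q 2988) (blocks2986to2988 q)
 (blocks2988to2991 q))
 (cond (Nat.blt q 2994) (blocks2991to2994 q)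
 (blocks2994to2997 q))))
 (cond (Nat.blt q 3007) (cond (Nat.blt q 3002) (cond (Nat.blt q 2999) (blocks2997to2999 q)
 (blocks2999to3002 q))
 (cond (Nat.blt q 3004) (blocks3002to3004 q)
 (blocks3004to3007 q)))
 (cond (Nat.blt q 3012) (cond (Nat.blt q 3009) (blocks3007to3009 q)
 (blocks3009to3012 q))
 (cond (Nat.blt q 3015) (blocks3012to3015 q)
 (blocks3015to3018 q))))

noncomputable def blocks3018to3020 (q : ℕ) : ℕ :=
 cond (Nat.blt q 3019) (block3018)
 (block3019)

noncomputable def blocks3020to3023 (q : ℕ) : ℕ :=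
 cond (Nat.blt q 3021) (block3020)
 (cond (Nat.blt q 3022) (block3021)
 (block3022))

noncomputable def blocks3023to3025 (q : ℕ) : ℕ :=
 cond (Nat.blt q 3024) (block3023)
 (block3024)

noncomputable def blocks3025to3028 (q : ℕ) : ℕ :=
 cond (Nat.blt q 3026) (block3025)
 (cond (Nat.blt q 3027) (block3026)
 (block3027))

noncomputable def blocks3028to3030 (q : ℕ) : ℕ :=
 cond (Nat.blt q 3029) (block3028)
 (block3029)

noncomputable def blocks3030to3033 (q : ℕ) : ℕ :=
 cond (Nat.blt q 3031) (block3030)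
 (cond (Nat.blt q 3032) (block3031)
 (block3032))

noncomputable def blocks3033to3036 (q : ℕ) : ℕ :=
 cond (Nat.blt q 3034) (block3033)
 (cond (Nat.blt q 3035) (block3034)
 (block3035))

noncomputable def blocks3036to3039 (q : ℕ) : ℕ :=
 cond (Nat.blt q 3037) (block3036)
 (cond (Nat.blt q 3038) (block3037)
 (block3038))

noncomputable def blocks3039to3041 (q : ℕ) : ℕ :=
 cond (Nat.blt q 3040) (block3039)
 (block3040)

noncomputable def blocks3041to3044 (q : ℕ) : ℕ :=
 cond (Nat.blt q 3042) (block3041)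
 (cond (Nat.blt q 3043) (block3042)
 (block3043))

noncomputable def blocks3044to3047 (q : ℕ) : ℕ :=
 cond (Nat.blt q 3045) (block3044)
 (cond (Nat.blt q 3046) (block3045)
 (block3046))

noncomputable def blocks3047to3050 (q : ℕ) : ℕ :=
 cond (Nat.blt q 3048) (block3047)
 (cond (Nat.blt q 3049) (block3048)
 (block3049))

noncomputable def blocks3050to3052 (q : ℕ) : ℕ :=
 cond (Nat.blt q 3051) (block3050)
 (block3051)

noncomputable def blocks3052to3055 (q : ℕ) : ℕ :=
 cond (Nat.blt q 3053) (block3052)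
 (cond (Nat.blt q 3054) (block3053)
 (block3054))

noncomputable def blocks3055to3058 (q : ℕ) : ℕ :=
 cond (Nat.blt q 3056) (block3055)
 (cond (Nat.blt q 3057) (block3056)
 (block3057))

noncomputable def blocks3058to3061 (q : ℕ) : ℕ :=
 cond (Nat.blt q 3059) (block3058)
 (cond (Nat.blt q 3060) (block3059)
 (block3060))

noncomputable def blocks3018to3061 (q : ℕ) : ℕ :=
 cond (Nat.blt q 3039) (cond (Nat.blt q 3028) (cond (Nat.blt q 3023) (cond (Nat.blt q 3020) (blocks3018to3020 q)
 (blocks3020to3023 q))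
 (cond (Nat.blt q 3025) (blocks3023to3025 q)
 (blocks3025to3028 q)))
 (cond (Nat.blt q 3033) (cond (Nat.blt q 3030) (blocks3028to3030 q)
 (blocks3030to3033 q))
 (cond (Nat.blt q 3036) (blocks3033to3036 q)
 (blocks3036to3039 q))))
 (cond (Nat.blt q 3050) (cond (Nat.blt q 3044) (cond (Nat.blt q 3041) (blocks3039to3041 q)
 (blocks3041to3044 q))
 (cond (Nat.blt q 3047) (blocks3044to3047 q)
 (blocks3047to3050 q)))
 (cond (Nat.blt q 3055) (cond (Nat.blt q 3052) (blocks3050to3052 q)
 (blocks3052to3055 q))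
 (cond (Nat.blt q 3058) (blocks3055to3058 q)
 (blocks3058to3061 q))))

noncomputable def blocks3061to3063 (q : ℕ) : ℕ :=
 cond (Nat.blt q 3062) (block3061)
 (block3062)

noncomputable def blocks3063to3066 (q : ℕ) : ℕ :=
 cond (Nat.blt q 3064) (block3063)
 (cond (Nat.blt q 3065) (block3064)
 (block3065))

noncomputable def blocks3066to3068 (q : ℕ) : ℕ :=
 cond (Nat.blt q 3067) (block3066)
 (block3067)

noncomputable def blocks3068to3071 (q : ℕ) : ℕ :=
 cond (Nat.blt q 3069) (block3068)
 (cond (Nat.blt q 3070) (block3069)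
 (block3070))

noncomputable def blocks3071to3073 (q : ℕ) : ℕ :=
 cond (Nat.blt q 3072) (block3071)
 (block3072)

noncomputable def blocks3073to3076 (q : ℕ) : ℕ :=
 cond (Nat.blt q 3074) (block3073)
 (cond (Nat.blt q 3075) (block3074)
 (block3075))

noncomputable def blocks3076to3079 (q : ℕ) : ℕ :=
 cond (Nat.blt q 3077) (block3076)
 (cond (Nat.blt q 3078) (block3077)
 (block3078))

noncomputable def blocks3079to3082 (q : ℕ) : ℕ :=
 cond (Nat.blt q 3080) (block3079)
 (cond (Nat.blt q 3081) (block3080)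
 (block3081))

noncomputable def blocks3082to3084 (q : ℕ) : ℕ :=
 cond (Nat.blt q 3083) (block3082)
 (block3083)

noncomputable def blocks3084to3087 (q : ℕ) : ℕ :=
 cond (Nat.blt q 3085) (block3084)
 (cond (Nat.blt q 3086) (block3085)
 (block3086))

noncomputable def blocks3087to3089 (q : ℕ) : ℕ :=
 cond (Nat.blt q 3088) (block3087)
 (block3088)

noncomputable def blocks3089to3092 (q : ℕ) : ℕ :=
 cond (Nat.blt q 3090) (block3089)
 (cond (Nat.blt q 3091) (block3090)
 (block3091))

noncomputable def blocks3092to3094 (q : ℕ) : ℕ :=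
 cond (Nat.blt q 3093) (block3092)
 (block3093)

noncomputable def blocks3094to3097 (q : ℕ) : ℕ :=
 cond (Nat.blt q 3095) (block3094)
 (cond (Nat.blt q 3096) (block3095)
 (block3096))

noncomputable def blocks3097to3100 (q : ℕ) : ℕ :=
 cond (Nat.blt q 3098) (block3097)
 (cond (Nat.blt q 3099) (block3098)
 (block3099))

noncomputable def blocks3100to3103 (q : ℕ) : ℕ :=
 cond (Nat.blt q 3101) (block3100)
 (cond (Nat.blt q 3102) (block3101)
 (block3102))

noncomputable def blocks3061to3103 (q : ℕ) : ℕ :=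
 cond (Nat.blt q 3082) (cond (Nat.blt q 3071) (cond (Nat.blt q 3066) (cond (Nat.blt q 3063) (blocks3061to3063 q)
 (blocks3063to3066 q))
 (cond (Nat.blt q 3068) (blocks3066to3068 q)
 (blocks3068to3071 q)))
 (cond (Nat.blt q 3076) (cond (Nat.blt q 3073) (blocks3071to3073 q)
 (blocks3073to3076 q))
 (cond (Nat.blt q 3079) (blocks3076to3079 q)
 (blocks3079to3082 q))))
 (cond (Nat.blt q 3092) (cond (Nat.blt q 3087) (cond (Nat.blt q 3084) (blocks3082to3084 q)
 (blocks3084to3087 q))
 (cond (Nat.blt q 3089) (blocks3087to3089 q)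
 (blocks3089to3092 q)))
 (cond (Nat.blt q 3097) (cond (Nat.blt q 3094) (blocks3092to3094 q)
 (blocks3094to3097 q))
 (cond (Nat.blt q 3100) (blocks3097to3100 q)
 (blocks3100to3103 q))))

noncomputable def blocks3103to3105 (q : ℕ) : ℕ :=
 cond (Nat.blt q 3104) (block3103)
 (block3104)

noncomputable def blocks3105to3108 (q : ℕ) : ℕ :=
 cond (Nat.blt q 3106) (block3105)
 (cond (Nat.blt q 3107) (block3106)
 (block3107))

noncomputable def blocks3108to3110 (q : ℕ) : ℕ :=
 cond (Nat.blt q 3109) (block3108)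
 (block3109)

noncomputable def blocks3110to3113 (q : ℕ) : ℕ :=
 cond (Nat.blt q 3111) (block3110)
 (cond (Nat.blt q 3112) (block3111)
 (block3112))

noncomputable def blocks3113to3115 (q : ℕ) : ℕ :=
 cond (Nat.blt q 3114) (block3113)
 (block3114)

noncomputable def blocks3115to3118 (q : ℕ) : ℕ :=
 cond (Nat.blt q 3116) (block3115)
 (cond (Nat.blt q 3117) (block3116)
 (block3117))

noncomputable def blocks3118to3121 (q : ℕ) : ℕ :=
 cond (Nat.blt q 3119) (block3118)
 (cond (Nat.blt q 3120) (block3119)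
 (block3120))

noncomputable def blocks3121to3124 (q : ℕ) : ℕ :=
 cond (Nat.blt q 3122) (block3121)
 (cond (Nat.blt q 3123) (block3122)
 (block3123))

noncomputable def blocks3124to3126 (q : ℕ) : ℕ :=
 cond (Nat.blt q 3125) (block3124)
 (block3125)

noncomputable def blocks3126to3129 (q : ℕ) : ℕ :=
 cond (Nat.blt q 3127) (block3126)
 (cond (Nat.blt q 3128) (block3127)
 (block3128))

noncomputable def blocks3129to3132 (q : ℕ) : ℕ :=
 cond (Nat.blt q 3130) (block3129)
 (cond (Nat.blt q 3131) (block3130)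
 (block3131))

noncomputable def blocks3132to3135 (q : ℕ) : ℕ :=
 cond (Nat.blt q 3133) (block3132)
 (cond (Nat.blt q 3134) (block3133)
 (block3134))

noncomputable def blocks3135to3137 (q : ℕ) : ℕ :=
 cond (Nat.blt q 3136) (block3135)
 (block3136)

noncomputable def blocks3137to3140 (q : ℕ) : ℕ :=
 cond (Nat.blt q 3138) (block3137)
 (cond (Nat.blt q 3139) (block3138)
 (block3139))

noncomputable def blocks3140to3143 (q : ℕ) : ℕ :=
 cond (Nat.blt q 3141) (block3140)
 (cond (Nat.blt q 3142) (block3141)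
 (block3142))

noncomputable def blocks3143to3146 (q : ℕ) : ℕ :=
 cond (Nat.blt q 3144) (block3143)
 (cond (Nat.blt q 3145) (block3144)
 (block3145))

noncomputable def blocks3103to3146 (q : ℕ) : ℕ :=
 cond (Nat.blt q 3124) (cond (Nat.blt q 3113) (cond (Nat.blt q 3108) (cond (Nat.blt q 3105) (blocks3103to3105 q)
 (blocks3105to3108 q))
 (cond (Nat.blt q 3110) (blocks3108to3110 q)
 (blocks3110to3113 q)))
 (cond (Nat.blt q 3118) (cond (Nat.blt q 3115) (blocks3113to3115 q)
 (blocks3115to3118 q))
 (cond (Nat.blt q 3121) (blocks3118to3121 q)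
 (blocks3121to3124 q))))
 (cond (Nat.blt q 3135) (cond (Nat.blt q 3129) (cond (Nat.blt q 3126) (blocks3124to3126 q)
 (blocks3126to3129 q))
 (cond (Nat.blt q 3132) (blocks3129to3132 q)
 (blocks3132to3135 q)))
 (cond (Nat.blt q 3140) (cond (Nat.blt q 3137) (blocks3135to3137 q)
 (blocks3137to3140 q))
 (cond (Nat.blt q 3143) (blocks3140to3143 q)
 (blocks3143to3146 q))))

noncomputable def blocks3146to3148 (q : ℕ) : ℕ :=
 cond (Nat.blt q 3147) (block3146)
 (block3147)

noncomputable def blocks3148to3151 (q : ℕ) : ℕ :=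
 cond (Nat.blt q 3149) (block3148)
 (cond (Nat.blt q 3150) (block3149)
 (block3150))

noncomputable def blocks3151to3153 (q : ℕ) : ℕ :=
 cond (Nat.blt q 3152) (block3151)
 (block3152)

noncomputable def blocks3153to3156 (q : ℕ) : ℕ :=
 cond (Nat.blt q 3154) (block3153)
 (cond (Nat.blt q 3155) (block3154)
 (block3155))

noncomputable def blocks3156to3158 (q : ℕ) : ℕ :=
 cond (Nat.blt q 3157) (block3156)
 (block3157)

noncomputable def blocks3158to3161 (q : ℕ) : ℕ :=
 cond (Nat.blt q 3159) (block3158)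
 (cond (Nat.blt q 3160) (block3159)
 (block3160))

noncomputable def blocks3161to3164 (q : ℕ) : ℕ :=
 cond (Nat.blt q 3162) (block3161)
 (cond (Nat.blt q 3163) (block3162)
 (block3163))

noncomputable def blocks3164to3167 (q : ℕ) : ℕ :=
 cond (Nat.blt q 3165) (block3164)
 (cond (Nat.blt q 3166) (block3165)
 (block3166))

noncomputable def blocks3167to3169 (q : ℕ) : ℕ :=
 cond (Nat.blt q 3168) (block3167)
 (block3168)

noncomputable def blocks3169to3172 (q : ℕ) : ℕ :=
 cond (Nat.blt q 3170) (block3169)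
 (cond (Nat.blt q 3171) (block3170)
 (block3171))

noncomputable def blocks3172to3174 (q : ℕ) : ℕ :=
 cond (Nat.blt q 3173) (block3172)
 (block3173)

noncomputable def blocks3174to3177 (q : ℕ) : ℕ :=
 cond (Nat.blt q 3175) (block3174)
 (cond (Nat.blt q 3176) (block3175)
 (block3176))

noncomputable def blocks3177to3179 (q : ℕ) : ℕ :=
 cond (Nat.blt q 3178) (block3177)
 (block3178)

noncomputable def blocks3179to3182 (q : ℕ) : ℕ :=
 cond (Nat.blt q 3180) (block3179)
 (cond (Nat.blt q 3181) (block3180)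
 (block3181))

noncomputable def blocks3182to3185 (q : ℕ) : ℕ :=
 cond (Nat.blt q 3183) (block3182)
 (cond (Nat.blt q 3184) (block3183)
 (block3184))

noncomputable def blocks3185to3188 (q : ℕ) : ℕ :=
 cond (Nat.blt q 3186) (block3185)
 (cond (Nat.blt q 3187) (block3186)
 (block3187))

noncomputable def blocks3146to3188 (q : ℕ) : ℕ :=
 cond (Nat.blt q 3167) (cond (Nat.blt q 3156) (cond (Nat.blt q 3151) (cond (Nat.blt q 3148) (blocks3146to3148 q)
 (blocks3148to3151 q))
 (cond (Nat.blt q 3153) (blocks3151to3153 q)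
 (blocks3153to3156 q)))
 (cond (Nat.blt q 3161) (cond (Nat.blt q 3158) (blocks3156to3158 q)
 (blocks3158to3161 q))
 (cond (Nat.blt q 3164) (blocks3161to3164 q)
 (blocks3164to3167 q))))
 (cond (Nat.blt q 3177) (cond (Nat.blt q 3172) (cond (Nat.blt q 3169) (blocks3167to3169 q)
 (blocks3169to3172 q))
 (cond (Nat.blt q 3174) (blocks3172to3174 q)
 (blocks3174to3177 q)))
 (cond (Nat.blt q 3182) (cond (Nat.blt q 3179) (blocks3177to3179 q)
 (blocks3179to3182 q))
 (cond (Nat.blt q 3185) (blocks3182to3185 q)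
 (blocks3185to3188 q))))

noncomputable def blocks3188to3190 (q : ℕ) : ℕ :=
 cond (Nat.blt q 3189) (block3188)
 (block3189)

noncomputable def blocks3190to3193 (q : ℕ) : ℕ :=
 cond (Nat.blt q 3191) (block3190)
 (cond (Nat.blt q 3192) (block3191)
 (block3192))

noncomputable def blocks3193to3195 (q : ℕ) : ℕ :=
 cond (Nat.blt q 3194) (block3193)
 (block3194)

noncomputable def blocks3195to3198 (q : ℕ) : ℕ :=
 cond (Nat.blt q 3196) (block3195)
 (cond (Nat.blt q 3197) (block3196)
 (block3197))

noncomputable def blocks3198to3200 (q : ℕ) : ℕ :=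
 cond (Nat.blt q 3199) (block3198)
 (block3199)

noncomputable def blocks3200to3203 (q : ℕ) : ℕ :=
 cond (Nat.blt q 3201) (block3200)
 (cond (Nat.blt q 3202) (block3201)
 (block3202))

noncomputable def blocks3203to3206 (q : ℕ) : ℕ :=
 cond (Nat.blt q 3204) (block3203)
 (cond (Nat.blt q 3205) (block3204)
 (block3205))

noncomputable def blocks3206to3209 (q : ℕ) : ℕ :=
 cond (Nat.blt q 3207) (block3206)
 (cond (Nat.blt q 3208) (block3207)
 (block3208))

noncomputable def blocks3209to3211 (q : ℕ) : ℕ :=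
 cond (Nat.blt q 3210) (block3209)
 (block3210)

noncomputable def blocks3211to3214 (q : ℕ) : ℕ :=
 cond (Nat.blt q 3212) (block3211)
 (cond (Nat.blt q 3213) (block3212)
 (block3213))

noncomputable def blocks3214to3217 (q : ℕ) : ℕ :=
 cond (Nat.blt q 3215) (block3214)
 (cond (Nat.blt q 3216) (block3215)
 (block3216))

noncomputable def blocks3217to3220 (q : ℕ) : ℕ :=
 cond (Nat.blt q 3218) (block3217)
 (cond (Nat.blt q 3219) (block3218)
 (block3219))

noncomputable def blocks3220to3222 (q : ℕ) : ℕ :=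
 cond (Nat.blt q 3221) (block3220)
 (block3221)

noncomputable def blocks3222to3225 (q : ℕ) : ℕ :=
 cond (Nat.blt q 3223) (block3222)
 (cond (Nat.blt q 3224) (block3223)
 (block3224))

noncomputable def blocks3225to3228 (q : ℕ) : ℕ :=
 cond (Nat.blt q 3226) (block3225)
 (cond (Nat.blt q 3227) (block3226)
 (block3227))

noncomputable def blocks3228to3231 (q : ℕ) : ℕ :=
 cond (Nat.blt q 3229) (block3228)
 (cond (Nat.blt q 3230) (block3229)
 (block3230))

noncomputable def blocks3188to3231 (q : ℕ) : ℕ :=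
 cond (Nat.blt q 3209) (cond (Nat.blt q 3198) (cond (Nat.blt q 3193) (cond (Nat.blt q 3190) (blocks3188to3190 q)
 (blocks3190to3193 q))
 (cond (Nat.blt q 3195) (blocks3193to3195 q)
 (blocks3195to3198 q)))
 (cond (Nat.blt q 3203) (cond (Nat.blt q 3200) (blocks3198to3200 q)
 (blocks3200to3203 q))
 (cond (Nat.blt q 3206) (blocks3203to3206 q)
 (blocks3206to3209 q))))
 (cond (Nat.blt q 3220) (cond (Nat.blt q 3214) (cond (Nat.blt q 3211) (blocks3209to3211 q)
 (blocks3211to3214 q))
 (cond (Nat.blt q 3217) (blocks3214to3217 q)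
 (blocks3217to3220 q)))
 (cond (Nat.blt q 3225) (cond (Nat.blt q 3222) (blocks3220to3222 q)
 (blocks3222to3225 q))
 (cond (Nat.blt q 3228) (blocks3225to3228 q)
 (blocks3228to3231 q))))

noncomputable def blocks3231to3233 (q : ℕ) : ℕ :=
 cond (Nat.blt q 3232) (block3231)
 (block3232)

noncomputable def blocks3233to3236 (q : ℕ) : ℕ :=
 cond (Nat.blt q 3234) (block3233)
 (cond (Nat.blt q 3235) (block3234)
 (block3235))

noncomputable def blocks3236to3238 (q : ℕ) : ℕ :=
 cond (Nat.blt q 3237) (block3236)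
 (block3237)

noncomputable def blocks3238to3241 (q : ℕ) : ℕ :=
 cond (Nat.blt q 3239) (block3238)
 (cond (Nat.blt q 3240) (block3239)
 (block3240))

noncomputable def blocks3241to3243 (q : ℕ) : ℕ :=
 cond (Nat.blt q 3242) (block3241)
 (block3242)

noncomputable def blocks3243to3246 (q : ℕ) : ℕ :=
 cond (Nat.blt q 3244) (block3243)
 (cond (Nat.blt q 3245) (block3244)
 (block3245))

noncomputable def blocks3246to3249 (q : ℕ) : ℕ :=
 cond (Nat.blt q 3247) (block3246)
 (cond (Nat.blt q 3248) (block3247)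
 (block3248))

noncomputable def blocks3249to3252 (q : ℕ) : ℕ :=
 cond (Nat.blt q 3250) (block3249)
 (cond (Nat.blt q 3251) (block3250)
 (block3251))

noncomputable def blocks3252to3254 (q : ℕ) : ℕ :=
 cond (Nat.blt q 3253) (block3252)
 (block3253)

noncomputable def blocks3254to3257 (q : ℕ) : ℕ :=
 cond (Nat.blt q 3255) (block3254)
 (cond (Nat.blt q 3256) (block3255)
 (block3256))

noncomputable def blocks3257to3259 (q : ℕ) : ℕ :=
 cond (Nat.blt q 3258) (block3257)
 (block3258)

noncomputable def blocks3259to3262 (q : ℕ) : ℕ :=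
 cond (Nat.blt q 3260) (block3259)
 (cond (Nat.blt q 3261) (block3260)
 (block3261))

noncomputable def blocks3262to3264 (q : ℕ) : ℕ :=
 cond (Nat.blt q 3263) (block3262)
 (block3263)

noncomputable def blocks3264to3267 (q : ℕ) : ℕ :=
 cond (Nat.blt q 3265) (block3264)
 (cond (Nat.blt q 3266) (block3265)
 (block3266))

noncomputable def blocks3267to3270 (q : ℕ) : ℕ :=
 cond (Nat.blt q 3268) (block3267)
 (cond (Nat.blt q 3269) (block3268)
 (block3269))

noncomputable def blocks3270to3273 (q : ℕ) : ℕ :=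
 cond (Nat.blt q 3271) (block3270)
 (cond (Nat.blt q 3272) (block3271)
 (block3272))

noncomputable def blocks3231to3273 (q : ℕ) : ℕ :=
 cond (Nat.blt q 3252) (cond (Nat.blt q 3241) (cond (Nat.blt q 3236) (cond (Nat.blt q 3233) (blocks3231to3233 q)
 (blocks3233to3236 q))
 (cond (Nat.blt q 3238) (blocks3236to3238 q)
 (blocks3238to3241 q)))
 (cond (Nat.blt q 3246) (cond (Nat.blt q 3243) (blocks3241to3243 q)
 (blocks3243to3246 q))
 (cond (Nat.blt q 3249) (blocks3246to3249 q)
 (blocks3249to3252 q))))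
 (cond (Nat.blt q 3262) (cond (Nat.blt q 3257) (cond (Nat.blt q 3254) (blocks3252to3254 q)
 (blocks3254to3257 q))
 (cond (Nat.blt q 3259) (blocks3257to3259 q)
 (blocks3259to3262 q)))
 (cond (Nat.blt q 3267) (cond (Nat.blt q 3264) (blocks3262to3264 q)
 (blocks3264to3267 q))
 (cond (Nat.blt q 3270) (blocks3267to3270 q)
 (blocks3270to3273 q))))

noncomputable def blocks3273to3275 (q : ℕ) : ℕ :=
 cond (Nat.blt q 3274) (block3273)
 (block3274)

noncomputable def blocks3275to3278 (q : ℕ) : ℕ :=
 cond (Nat.blt q 3276) (block3275)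
 (cond (Nat.blt q 3277) (block3276)
 (block3277))

noncomputable def blocks3278to3280 (q : ℕ) : ℕ :=
 cond (Nat.blt q 3279) (block3278)
 (block3279)

noncomputable def blocks3280to3283 (q : ℕ) : ℕ :=
 cond (Nat.blt q 3281) (block3280)
 (cond (Nat.blt q 3282) (block3281)
 (block3282))

noncomputable def blocks3283to3285 (q : ℕ) : ℕ :=
 cond (Nat.blt q 3284) (block3283)
 (block3284)

noncomputable def blocks3285to3288 (q : ℕ) : ℕ :=
 cond (Nat.blt q 3286) (block3285)
 (cond (Nat.blt q 3287) (block3286)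
 (block3287))

noncomputable def blocks3288to3291 (q : ℕ) : ℕ :=
 cond (Nat.blt q 3289) (block3288)
 (cond (Nat.blt q 3290) (block3289)
 (block3290))

noncomputable def blocks3291to3294 (q : ℕ) : ℕ :=
 cond (Nat.blt q 3292) (block3291)
 (cond (Nat.blt q 3293) (block3292)
 (block3293))

noncomputable def blocks3294to3296 (q : ℕ) : ℕ :=
 cond (Nat.blt q 3295) (block3294)
 (block3295)

noncomputable def blocks3296to3299 (q : ℕ) : ℕ :=
 cond (Nat.blt q 3297) (block3296)
 (cond (Nat.blt q 3298) (block3297)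
 (block3298))

noncomputable def blocks3299to3302 (q : ℕ) : ℕ :=
 cond (Nat.blt q 3300) (block3299)
 (cond (Nat.blt q 3301) (block3300)
 (block3301))

noncomputable def blocks3302to3305 (q : ℕ) : ℕ :=
 cond (Nat.blt q 3303) (block3302)
 (cond (Nat.blt q 3304) (block3303)
 (block3304))

noncomputable def blocks3305to3307 (q : ℕ) : ℕ :=
 cond (Nat.blt q 3306) (block3305)
 (block3306)

noncomputable def blocks3307to3310 (q : ℕ) : ℕ :=
 cond (Nat.blt q 3308) (block3307)
 (cond (Nat.blt q 3309) (block3308)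
 (block3309))

noncomputable def blocks3310to3313 (q : ℕ) : ℕ :=
 cond (Nat.blt q 3311) (block3310)
 (cond (Nat.blt q 3312) (block3311)
 (block3312))

noncomputable def blocks3313to3316 (q : ℕ) : ℕ :=
 cond (Nat.blt q 3314) (block3313)
 (cond (Nat.blt q 3315) (block3314)
 (block3315))

noncomputable def blocks3273to3316 (q : ℕ) : ℕ :=
 cond (Nat.blt q 3294) (cond (Nat.blt q 3283) (cond (Nat.blt q 3278) (cond (Nat.blt q 3275) (blocks3273to3275 q)
 (blocks3275to3278 q))
 (cond (Nat.blt q 3280) (blocks3278to3280 q)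
 (blocks3280to3283 q)))
 (cond (Nat.blt q 3288) (cond (Nat.blt q 3285) (blocks3283to3285 q)
 (blocks3285to3288 q))
 (cond (Nat.blt q 3291) (blocks3288to3291 q)
 (blocks3291to3294 q))))
 (cond (Nat.blt q 3305) (cond (Nat.blt q 3299) (cond (Nat.blt q 3296) (blocks3294to3296 q)
 (blocks3296to3299 q))
 (cond (Nat.blt q 3302) (blocks3299to3302 q)
 (blocks3302to3305 q)))
 (cond (Nat.blt q 3310) (cond (Nat.blt q 3307) (blocks3305to3307 q)
 (blocks3307to3310 q))
 (cond (Nat.blt q 3313) (blocks3310to3313 q)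
 (blocks3313to3316 q))))

noncomputable def blocks3316to3318 (q : ℕ) : ℕ :=
 cond (Nat.blt q 3317) (block3316)
 (block3317)

noncomputable def blocks3318to3321 (q : ℕ) : ℕ :=
 cond (Nat.blt q 3319) (block3318)
 (cond (Nat.blt q 3320) (block3319)
 (block3320))

noncomputable def blocks3321to3323 (q : ℕ) : ℕ :=
 cond (Nat.blt q 3322) (block3321)
 (block3322)

noncomputable def blocks3323to3326 (q : ℕ) : ℕ :=
 cond (Nat.blt q 3324) (block3323)
 (cond (Nat.blt q 3325) (block3324)
 (block3325))

noncomputable def blocks3326to3328 (q : ℕ) : ℕ :=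
 cond (Nat.blt q 3327) (block3326)
 (block3327)

noncomputable def blocks3328to3331 (q : ℕ) : ℕ :=
 cond (Nat.blt q 3329) (block3328)
 (cond (Nat.blt q 3330) (block3329)
 (block3330))

noncomputable def blocks3331to3334 (q : ℕ) : ℕ :=
 cond (Nat.blt q 3332) (block3331)
 (cond (Nat.blt q 3333) (block3332)
 (block3333))

noncomputable def blocks3334to3337 (q : ℕ) : ℕ :=
 cond (Nat.blt q 3335) (block3334)
 (cond (Nat.blt q 3336) (block3335)
 (block3336))

noncomputable def blocks3337to3339 (q : ℕ) : ℕ :=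
 cond (Nat.blt q 3338) (block3337)
 (block3338)

noncomputable def blocks3339to3342 (q : ℕ) : ℕ :=
 cond (Nat.blt q 3340) (block3339)
 (cond (Nat.blt q 3341) (block3340)
 (block3341))

noncomputable def blocks3342to3344 (q : ℕ) : ℕ :=
 cond (Nat.blt q 3343) (block3342)
 (block3343)

noncomputable def blocks3344to3347 (q : ℕ) : ℕ :=
 cond (Nat.blt q 3345) (block3344)
 (cond (Nat.blt q 3346) (block3345)
 (block3346))

noncomputable def blocks3347to3349 (q : ℕ) : ℕ :=
 cond (Nat.blt q 3348) (block3347)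
 (block3348)

noncomputable def blocks3349to3352 (q : ℕ) : ℕ :=
 cond (Nat.blt q 3350) (block3349)
 (cond (Nat.blt q 3351) (block3350)
 (block3351))

noncomputable def blocks3352to3355 (q : ℕ) : ℕ :=
 cond (Nat.blt q 3353) (block3352)
 (cond (Nat.blt q 3354) (block3353)
 (block3354))

noncomputable def blocks3355to3358 (q : ℕ) : ℕ :=
 cond (Nat.blt q 3356) (block3355)
 (cond (Nat.blt q 3357) (block3356)
 (block3357))

noncomputable def blocks3316to3358 (q : ℕ) : ℕ :=
 cond (Nat.blt q 3337) (cond (Nat.blt q 3326) (cond (Nat.blt q 3321) (cond (Nat.blt q 3318) (blocks3316to3318 q)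
 (blocks3318to3321 q))
 (cond (Nat.blt q 3323) (blocks3321to3323 q)
 (blocks3323to3326 q)))
 (cond (Nat.blt q 3331) (cond (Nat.blt q 3328) (blocks3326to3328 q)
 (blocks3328to3331 q))
 (cond (Nat.blt q 3334) (blocks3331to3334 q)
 (blocks3334to3337 q))))
 (cond (Nat.blt q 3347) (cond (Nat.blt q 3342) (cond (Nat.blt q 3339) (blocks3337to3339 q)
 (blocks3339to3342 q))
 (cond (Nat.blt q 3344) (blocks3342to3344 q)
 (blocks3344to3347 q)))
 (cond (Nat.blt q 3352) (cond (Nat.blt q 3349) (blocks3347to3349 q)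
 (blocks3349to3352 q))
 (cond (Nat.blt q 3355) (blocks3352to3355 q)
 (blocks3355to3358 q))))

noncomputable def blocks3358to3360 (q : ℕ) : ℕ :=
 cond (Nat.blt q 3359) (block3358)
 (block3359)

noncomputable def blocks3360to3363 (q : ℕ) : ℕ :=
 cond (Nat.blt q 3361) (block3360)
 (cond (Nat.blt q 3362) (block3361)
 (block3362))

noncomputable def blocks3363to3365 (q : ℕ) : ℕ :=
 cond (Nat.blt q 3364) (block3363)
 (block3364)

noncomputable def blocks3365to3368 (q : ℕ) : ℕ :=
 cond (Nat.blt q 3366) (block3365)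
 (cond (Nat.blt q 3367) (block3366)
 (block3367))

noncomputable def blocks3368to3370 (q : ℕ) : ℕ :=
 cond (Nat.blt q 3369) (block3368)
 (block3369)

noncomputable def blocks3370to3373 (q : ℕ) : ℕ :=
 cond (Nat.blt q 3371) (block3370)
 (cond (Nat.blt q 3372) (block3371)
 (block3372))

noncomputable def blocks3373to3376 (q : ℕ) : ℕ :=
 cond (Nat.blt q 3374) (block3373)
 (cond (Nat.blt q 3375) (block3374)
 (block3375))

noncomputable def blocks3376to3379 (q : ℕ) : ℕ :=
 cond (Nat.blt q 3377) (block3376)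
 (cond (Nat.blt q 3378) (block3377)
 (block3378))

noncomputable def blocks3379to3381 (q : ℕ) : ℕ :=
 cond (Nat.blt q 3380) (block3379)
 (block3380)

noncomputable def blocks3381to3384 (q : ℕ) : ℕ :=
 cond (Nat.blt q 3382) (block3381)
 (cond (Nat.blt q 3383) (block3382)
 (block3383))

noncomputable def blocks3384to3387 (q : ℕ) : ℕ :=
 cond (Nat.blt q 3385) (block3384)
 (cond (Nat.blt q 3386) (block3385)
 (block3386))

noncomputable def blocks3387to3390 (q : ℕ) : ℕ :=
 cond (Nat.blt q 3388) (block3387)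
 (cond (Nat.blt q 3389) (block3388)
 (block3389))

noncomputable def blocks3390to3392 (q : ℕ) : ℕ :=
 cond (Nat.blt q 3391) (block3390)
 (block3391)

noncomputable def blocks3392to3395 (q : ℕ) : ℕ :=
 cond (Nat.blt q 3393) (block3392)
 (cond (Nat.blt q 3394) (block3393)
 (block3394))

noncomputable def blocks3395to3398 (q : ℕ) : ℕ :=
 cond (Nat.blt q 3396) (block3395)
 (cond (Nat.blt q 3397) (block3396)
 (block3397))

noncomputable def blocks3398to3401 (q : ℕ) : ℕ :=
 cond (Nat.blt q 3399) (block3398)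
 (cond (Nat.blt q 3400) (block3399)
 (block3400))

noncomputable def blocks3358to3401 (q : ℕ) : ℕ :=
 cond (Nat.blt q 3379) (cond (Nat.blt q 3368) (cond (Nat.blt q 3363) (cond (Nat.blt q 3360) (blocks3358to3360 q)
 (blocks3360to3363 q))
 (cond (Nat.blt q 3365) (blocks3363to3365 q)
 (blocks3365to3368 q)))
 (cond (Nat.blt q 3373) (cond (Nat.blt q 3370) (blocks3368to3370 q)
 (blocks3370to3373 q))
 (cond (Nat.blt q 3376) (blocks3373to3376 q)
 (blocks3376to3379 q))))
 (cond (Nat.blt q 3390) (cond (Nat.blt q 3384) (cond (Nat.blt q 3381) (blocks3379to3381 q)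
 (blocks3381to3384 q))
 (cond (Nat.blt q 3387) (blocks3384to3387 q)
 (blocks3387to3390 q)))
 (cond (Nat.blt q 3395) (cond (Nat.blt q 3392) (blocks3390to3392 q)
 (blocks3392to3395 q))
 (cond (Nat.blt q 3398) (blocks3395to3398 q)
 (blocks3398to3401 q))))

noncomputable def blocks2721to3401 (q : ℕ) : ℕ :=
 cond (Nat.blt q 3061) (cond (Nat.blt q 2891) (cond (Nat.blt q 2806) (cond (Nat.blt q 2763) (blocks2721to2763 q)
 (blocks2763to2806 q))
 (cond (Nat.blt q 2848) (blocks2806to2848 q)
 (blocks2848to2891 q)))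
 (cond (Nat.blt q 2976) (cond (Nat.blt q 2933) (blocks2891to2933 q)
 (blocks2933to2976 q))
 (cond (Nat.blt q 3018) (blocks2976to3018 q)
 (blocks3018to3061 q))))
 (cond (Nat.blt q 3231) (cond (Nat.blt q 3146) (cond (Nat.blt q 3103) (blocks3061to3103 q)
 (blocks3103to3146 q))
 (cond (Nat.blt q 3188) (blocks3146to3188 q)
 (blocks3188to3231 q)))
 (cond (Nat.blt q 3316) (cond (Nat.blt q 3273) (blocks3231to3273 q)
 (blocks3273to3316 q))
 (cond (Nat.blt q 3358) (blocks3316to3358 q)
 (blocks3358to3401 q))))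

noncomputable def blocks3401to3403 (q : ℕ) : ℕ :=
 cond (Nat.blt q 3402) (block3401)
 (block3402)

noncomputable def blocks3403to3406 (q : ℕ) : ℕ :=
 cond (Nat.blt q 3404) (block3403)
 (cond (Nat.blt q 3405) (block3404)
 (block3405))

noncomputable def blocks3406to3408 (q : ℕ) : ℕ :=
 cond (Nat.blt q 3407) (block3406)
 (block3407)

noncomputable def blocks3408to3411 (q : ℕ) : ℕ :=
 cond (Nat.blt q 3409) (block3408)
 (cond (Nat.blt q 3410) (block3409)
 (block3410))

noncomputable def blocks3411to3413 (q : ℕ) : ℕ :=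
 cond (Nat.blt q 3412) (block3411)
 (block3412)

noncomputable def blocks3413to3416 (q : ℕ) : ℕ :=
 cond (Nat.blt q 3414) (block3413)
 (cond (Nat.blt q 3415) (block3414)
 (block3415))

noncomputable def blocks3416to3419 (q : ℕ) : ℕ :=
 cond (Nat.blt q 3417) (block3416)
 (cond (Nat.blt q 3418) (block3417)
 (block3418))

noncomputable def blocks3419to3422 (q : ℕ) : ℕ :=
 cond (Nat.blt q 3420) (block3419)
 (cond (Nat.blt q 3421) (block3420)
 (block3421))

noncomputable def blocks3422to3424 (q : ℕ) : ℕ :=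
 cond (Nat.blt q 3423) (block3422)
 (block3423)

noncomputable def blocks3424to3427 (q : ℕ) : ℕ :=
 cond (Nat.blt q 3425) (block3424)
 (cond (Nat.blt q 3426) (block3425)
 (block3426))

noncomputable def blocks3427to3429 (q : ℕ) : ℕ :=
 cond (Nat.blt q 3428) (block3427)
 (block3428)

noncomputable def blocks3429to3432 (q : ℕ) : ℕ :=
 cond (Nat.blt q 3430) (block3429)
 (cond (Nat.blt q 3431) (block3430)
 (block3431))

noncomputable def blocks3432to3434 (q : ℕ) : ℕ :=
 cond (Nat.blt q 3433) (block3432)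
 (block3433)

noncomputable def blocks3434to3437 (q : ℕ) : ℕ :=
 cond (Nat.blt q 3435) (block3434)
 (cond (Nat.blt q 3436) (block3435)
 (block3436))

noncomputable def blocks3437to3440 (q : ℕ) : ℕ :=
 cond (Nat.blt q 3438) (block3437)
 (cond (Nat.blt q 3439) (block3438)
 (block3439))

noncomputable def blocks3440to3443 (q : ℕ) : ℕ :=
 cond (Nat.blt q 3441) (block3440)
 (cond (Nat.blt q 3442) (block3441)
 (block3442))

noncomputable def blocks3401to3443 (q : ℕ) : ℕ :=
 cond (Nat.blt q 3422) (cond (Nat.blt q 3411) (cond (Nat.blt q 3406) (cond (Nat.blt q 3403) (blocks3401to3403 q)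
 (blocks3403to3406 q))
 (cond (Nat.blt q 3408) (blocks3406to3408 q)
 (blocks3408to3411 q)))
 (cond (Nat.blt q 3416) (cond (Nat.blt q 3413) (blocks3411to3413 q)
 (blocks3413to3416 q))
 (cond (Nat.blt q 3419) (blocks3416to3419 q)
 (blocks3419to3422 q))))
 (cond (Nat.blt q 3432) (cond (Nat.blt q 3427) (cond (Nat.blt q 3424) (blocks3422to3424 q)
 (blocks3424to3427 q))
 (cond (Nat.blt q 3429) (blocks3427to3429 q)
 (blocks3429to3432 q)))
 (cond (Nat.blt q 3437) (cond (Nat.blt q 3434) (blocks3432to3434 q)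
 (blocks3434to3437 q))
 (cond (Nat.blt q 3440) (blocks3437to3440 q)
 (blocks3440to3443 q))))

noncomputable def blocks3443to3445 (q : ℕ) : ℕ :=
 cond (Nat.blt q 3444) (block3443)
 (block3444)

noncomputable def blocks3445to3448 (q : ℕ) : ℕ :=
 cond (Nat.blt q 3446) (block3445)
 (cond (Nat.blt q 3447) (block3446)
 (block3447))

noncomputable def blocks3448to3450 (q : ℕ) : ℕ :=
 cond (Nat.blt q 3449) (block3448)
 (block3449)

noncomputable def blocks3450to3453 (q : ℕ) : ℕ :=
 cond (Nat.blt q 3451) (block3450)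
 (cond (Nat.blt q 3452) (block3451)
 (block3452))

noncomputable def blocks3453to3455 (q : ℕ) : ℕ :=
 cond (Nat.blt q 3454) (block3453)
 (block3454)

noncomputable def blocks3455to3458 (q : ℕ) : ℕ :=
 cond (Nat.blt q 3456) (block3455)
 (cond (Nat.blt q 3457) (block3456)
 (block3457))

noncomputable def blocks3458to3461 (q : ℕ) : ℕ :=
 cond (Nat.blt q 3459) (block3458)
 (cond (Nat.blt q 3460) (block3459)
 (block3460))

noncomputable def blocks3461to3464 (q : ℕ) : ℕ :=
 cond (Nat.blt q 3462) (block3461)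
 (cond (Nat.blt q 3463) (block3462)
 (block3463))

noncomputable def blocks3464to3466 (q : ℕ) : ℕ :=
 cond (Nat.blt q 3465) (block3464)
 (block3465)

noncomputable def blocks3466to3469 (q : ℕ) : ℕ :=
 cond (Nat.blt q 3467) (block3466)
 (cond (Nat.blt q 3468) (block3467)
 (block3468))

noncomputable def blocks3469to3472 (q : ℕ) : ℕ :=
 cond (Nat.blt q 3470) (block3469)
 (cond (Nat.blt q 3471) (block3470)
 (block3471))

noncomputable def blocks3472to3475 (q : ℕ) : ℕ :=
 cond (Nat.blt q 3473) (block3472)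
 (cond (Nat.blt q 3474) (block3473)
 (block3474))

noncomputable def blocks3475to3477 (q : ℕ) : ℕ :=
 cond (Nat.blt q 3476) (block3475)
 (block3476)

noncomputable def blocks3477to3480 (q : ℕ) : ℕ :=
 cond (Nat.blt q 3478) (block3477)
 (cond (Nat.blt q 3479) (block3478)
 (block3479))

noncomputable def blocks3480to3483 (q : ℕ) : ℕ :=
 cond (Nat.blt q 3481) (block3480)
 (cond (Nat.blt q 3482) (block3481)
 (block3482))

noncomputable def blocks3483to3486 (q : ℕ) : ℕ :=
 cond (Nat.blt q 3484) (block3483)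
 (cond (Nat.blt q 3485) (block3484)
 (block3485))

noncomputable def blocks3443to3486 (q : ℕ) : ℕ :=
 cond (Nat.blt q 3464) (cond (Nat.blt q 3453) (cond (Nat.blt q 3448) (cond (Nat.blt q 3445) (blocks3443to3445 q)
 (blocks3445to3448 q))
 (cond (Nat.blt q 3450) (blocks3448to3450 q)
 (blocks3450to3453 q)))
 (cond (Nat.blt q 3458) (cond (Nat.blt q 3455) (blocks3453to3455 q)
 (blocks3455to3458 q))
 (cond (Nat.blt q 3461) (blocks3458to3461 q)
 (blocks3461to3464 q))))
 (cond (Nat.blt q 3475) (cond (Nat.blt q 3469) (cond (Nat.blt q 3466) (blocks3464to3466 q)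
 (blocks3466to3469 q))
 (cond (Nat.blt q 3472) (blocks3469to3472 q)
 (blocks3472to3475 q)))
 (cond (Nat.blt q 3480) (cond (Nat.blt q 3477) (blocks3475to3477 q)
 (blocks3477to3480 q))
 (cond (Nat.blt q 3483) (blocks3480to3483 q)
 (blocks3483to3486 q))))

noncomputable def blocks3486to3488 (q : ℕ) : ℕ :=
 cond (Nat.blt q 3487) (block3486)
 (block3487)

noncomputable def blocks3488to3491 (q : ℕ) : ℕ :=
 cond (Nat.blt q 3489) (block3488)
 (cond (Nat.blt q 3490) (block3489)
 (block3490))

noncomputable def blocks3491to3493 (q : ℕ) : ℕ :=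
 cond (Nat.blt q 3492) (block3491)
 (block3492)

noncomputable def blocks3493to3496 (q : ℕ) : ℕ :=
 cond (Nat.blt q 3494) (block3493)
 (cond (Nat.blt q 3495) (block3494)
 (block3495))

noncomputable def blocks3496to3498 (q : ℕ) : ℕ :=
 cond (Nat.blt q 3497) (block3496)
 (block3497)

noncomputable def blocks3498to3501 (q : ℕ) : ℕ :=
 cond (Nat.blt q 3499) (block3498)
 (cond (Nat.blt q 3500) (block3499)
 (block3500))

noncomputable def blocks3501to3504 (q : ℕ) : ℕ :=
 cond (Nat.blt q 3502) (block3501)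
 (cond (Nat.blt q 3503) (block3502)
 (block3503))

noncomputable def blocks3504to3507 (q : ℕ) : ℕ :=
 cond (Nat.blt q 3505) (block3504)
 (cond (Nat.blt q 3506) (block3505)
 (block3506))

noncomputable def blocks3507to3509 (q : ℕ) : ℕ :=
 cond (Nat.blt q 3508) (block3507)
 (block3508)

noncomputable def blocks3509to3512 (q : ℕ) : ℕ :=
 cond (Nat.blt q 3510) (block3509)
 (cond (Nat.blt q 3511) (block3510)
 (block3511))

noncomputable def blocks3512to3514 (q : ℕ) : ℕ :=
 cond (Nat.blt q 3513) (block3512)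
 (block3513)

noncomputable def blocks3514to3517 (q : ℕ) : ℕ :=
 cond (Nat.blt q 3515) (block3514)
 (cond (Nat.blt q 3516) (block3515)
 (block3516))

noncomputable def blocks3517to3519 (q : ℕ) : ℕ :=
 cond (Nat.blt q 3518) (block3517)
 (block3518)

noncomputable def blocks3519to3522 (q : ℕ) : ℕ :=
 cond (Nat.blt q 3520) (block3519)
 (cond (Nat.blt q 3521) (block3520)
 (block3521))

noncomputable def blocks3522to3525 (q : ℕ) : ℕ :=
 cond (Nat.blt q 3523) (block3522)
 (cond (Nat.blt q 3524) (block3523)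
 (block3524))

noncomputable def blocks3525to3528 (q : ℕ) : ℕ :=
 cond (Nat.blt q 3526) (block3525)
 (cond (Nat.blt q 3527) (block3526)
 (block3527))

noncomputable def blocks3486to3528 (q : ℕ) : ℕ :=
 cond (Nat.blt q 3507) (cond (Nat.blt q 3496) (cond (Nat.blt q 3491) (cond (Nat.blt q 3488) (blocks3486to3488 q)
 (blocks3488to3491 q))
 (cond (Nat.blt q 3493) (blocks3491to3493 q)
 (blocks3493to3496 q)))
 (cond (Nat.blt q 3501) (cond (Nat.blt q 3498) (blocks3496to3498 q)
 (blocks3498to3501 q))
 (cond (Nat.blt q 3504) (blocks3501to3504 q)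
 (blocks3504to3507 q))))
 (cond (Nat.blt q 3517) (cond (Nat.blt q 3512) (cond (Nat.blt q 3509) (blocks3507to3509 q)
 (blocks3509to3512 q))
 (cond (Nat.blt q 3514) (blocks3512to3514 q)
 (blocks3514to3517 q)))
 (cond (Nat.blt q 3522) (cond (Nat.blt q 3519) (blocks3517to3519 q)
 (blocks3519to3522 q))
 (cond (Nat.blt q 3525) (blocks3522to3525 q)
 (blocks3525to3528 q))))

noncomputable def blocks3528to3530 (q : ℕ) : ℕ :=
 cond (Nat.blt q 3529) (block3528)
 (block3529)

noncomputable def blocks3530to3533 (q : ℕ) : ℕ :=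
 cond (Nat.blt q 3531) (block3530)
 (cond (Nat.blt q 3532) (block3531)
 (block3532))

noncomputable def blocks3533to3535 (q : ℕ) : ℕ :=
 cond (Nat.blt q 3534) (block3533)
 (block3534)

noncomputable def blocks3535to3538 (q : ℕ) : ℕ :=
 cond (Nat.blt q 3536) (block3535)
 (cond (Nat.blt q 3537) (block3536)
 (block3537))

noncomputable def blocks3538to3540 (q : ℕ) : ℕ :=
 cond (Nat.blt q 3539) (block3538)
 (block3539)

noncomputable def blocks3540to3543 (q : ℕ) : ℕ :=
 cond (Nat.blt q 3541) (block3540)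
 (cond (Nat.blt q 3542) (block3541)
 (block3542))

noncomputable def blocks3543to3546 (q : ℕ) : ℕ :=
 cond (Nat.blt q 3544) (block3543)
 (cond (Nat.blt q 3545) (block3544)
 (block3545))

noncomputable def blocks3546to3549 (q : ℕ) : ℕ :=
 cond (Nat.blt q 3547) (block3546)
 (cond (Nat.blt q 3548) (block3547)
 (block3548))

noncomputable def blocks3549to3551 (q : ℕ) : ℕ :=
 cond (Nat.blt q 3550) (block3549)
 (block3550)

noncomputable def blocks3551to3554 (q : ℕ) : ℕ :=
 cond (Nat.blt q 3552) (block3551)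
 (cond (Nat.blt q 3553) (block3552)
 (block3553))

noncomputable def blocks3554to3557 (q : ℕ) : ℕ :=
 cond (Nat.blt q 3555) (block3554)
 (cond (Nat.blt q 3556) (block3555)
 (block3556))

noncomputable def blocks3557to3560 (q : ℕ) : ℕ :=
 cond (Nat.blt q 3558) (block3557)
 (cond (Nat.blt q 3559) (block3558)
 (block3559))

noncomputable def blocks3560to3562 (q : ℕ) : ℕ :=
 cond (Nat.blt q 3561) (block3560)
 (block3561)

noncomputable def blocks3562to3565 (q : ℕ) : ℕ :=
 cond (Nat.blt q 3563) (block3562)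
 (cond (Nat.blt q 3564) (block3563)
 (block3564))

noncomputable def blocks3565to3568 (q : ℕ) : ℕ :=
 cond (Nat.blt q 3566) (block3565)
 (cond (Nat.blt q 3567) (block3566)
 (block3567))

noncomputable def blocks3568to3571 (q : ℕ) : ℕ :=
 cond (Nat.blt q 3569) (block3568)
 (cond (Nat.blt q 3570) (block3569)
 (block3570))

noncomputable def blocks3528to3571 (q : ℕ) : ℕ :=
 cond (Nat.blt q 3549) (cond (Nat.blt q 3538) (cond (Nat.blt q 3533) (cond (Nat.blt q 3530) (blocks3528to3530 q)
 (blocks3530to3533 q))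
 (cond (Nat.blt q 3535) (blocks3533to3535 q)
 (blocks3535to3538 q)))
 (cond (Nat.blt q 3543) (cond (Nat.blt q 3540) (blocks3538to3540 q)
 (blocks3540to3543 q))
 (cond (Nat.blt q 3546) (blocks3543to3546 q)
 (blocks3546to3549 q))))
 (cond (Nat.blt q 3560) (cond (Nat.blt q 3554) (cond (Nat.blt q 3551) (blocks3549to3551 q)
 (blocks3551to3554 q))
 (cond (Nat.blt q 3557) (blocks3554to3557 q)
 (blocks3557to3560 q)))
 (cond (Nat.blt q 3565) (cond (Nat.blt q 3562) (blocks3560to3562 q)
 (blocks3562to3565 q))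
 (cond (Nat.blt q 3568) (blocks3565to3568 q)
 (blocks3568to3571 q))))

noncomputable def blocks3571to3573 (q : ℕ) : ℕ :=
 cond (Nat.blt q 3572) (block3571)
 (block3572)

noncomputable def blocks3573to3576 (q : ℕ) : ℕ :=
 cond (Nat.blt q 3574) (block3573)
 (cond (Nat.blt q 3575) (block3574)
 (block3575))

noncomputable def blocks3576to3578 (q : ℕ) : ℕ :=
 cond (Nat.blt q 3577) (block3576)
 (block3577)

noncomputable def blocks3578to3581 (q : ℕ) : ℕ :=
 cond (Nat.blt q 3579) (block3578)
 (cond (Nat.blt q 3580) (block3579)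
 (block3580))

noncomputable def blocks3581to3583 (q : ℕ) : ℕ :=
 cond (Nat.blt q 3582) (block3581)
 (block3582)

noncomputable def blocks3583to3586 (q : ℕ) : ℕ :=
 cond (Nat.blt q 3584) (block3583)
 (cond (Nat.blt q 3585) (block3584)
 (block3585))

noncomputable def blocks3586to3589 (q : ℕ) : ℕ :=
 cond (Nat.blt q 3587) (block3586)
 (cond (Nat.blt q 3588) (block3587)
 (block3588))

noncomputable def blocks3589to3592 (q : ℕ) : ℕ :=
 cond (Nat.blt q 3590) (block3589)
 (cond (Nat.blt q 3591) (block3590)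
 (block3591))

noncomputable def blocks3592to3594 (q : ℕ) : ℕ :=
 cond (Nat.blt q 3593) (block3592)
 (block3593)

noncomputable def blocks3594to3597 (q : ℕ) : ℕ :=
 cond (Nat.blt q 3595) (block3594)
 (cond (Nat.blt q 3596) (block3595)
 (block3596))

noncomputable def blocks3597to3599 (q : ℕ) : ℕ :=
 cond (Nat.blt q 3598) (block3597)
 (block3598)

noncomputable def blocks3599to3602 (q : ℕ) : ℕ :=
 cond (Nat.blt q 3600) (block3599)
 (cond (Nat.blt q 3601) (block3600)
 (block3601))

noncomputable def blocks3602to3604 (q : ℕ) : ℕ :=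
 cond (Nat.blt q 3603) (block3602)
 (block3603)

noncomputable def blocks3604to3607 (q : ℕ) : ℕ :=
 cond (Nat.blt q 3605) (block3604)
 (cond (Nat.blt q 3606) (block3605)
 (block3606))

noncomputable def blocks3607to3610 (q : ℕ) : ℕ :=
 cond (Nat.blt q 3608) (block3607)
 (cond (Nat.blt q 3609) (block3608)
 (block3609))

noncomputable def blocks3610to3613 (q : ℕ) : ℕ :=
 cond (Nat.blt q 3611) (block3610)
 (cond (Nat.blt q 3612) (block3611)
 (block3612))

noncomputable def blocks3571to3613 (q : ℕ) : ℕ :=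
 cond (Nat.blt q 3592) (cond (Nat.blt q 3581) (cond (Nat.blt q 3576) (cond (Nat.blt q 3573) (blocks3571to3573 q)
 (blocks3573to3576 q))
 (cond (Nat.blt q 3578) (blocks3576to3578 q)
 (blocks3578to3581 q)))
 (cond (Nat.blt q 3586) (cond (Nat.blt q 3583) (blocks3581to3583 q)
 (blocks3583to3586 q))
 (cond (Nat.blt q 3589) (blocks3586to3589 q)
 (blocks3589to3592 q))))
 (cond (Nat.blt q 3602) (cond (Nat.blt q 3597) (cond (Nat.blt q 3594) (blocks3592to3594 q)
 (blocks3594to3597 q))
 (cond (Nat.blt q 3599) (blocks3597to3599 q)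
 (blocks3599to3602 q)))
 (cond (Nat.blt q 3607) (cond (Nat.blt q 3604) (blocks3602to3604 q)
 (blocks3604to3607 q))
 (cond (Nat.blt q 3610) (blocks3607to3610 q)
 (blocks3610to3613 q))))

noncomputable def blocks3613to3615 (q : ℕ) : ℕ :=
 cond (Nat.blt q 3614) (block3613)
 (block3614)

noncomputable def blocks3615to3618 (q : ℕ) : ℕ :=
 cond (Nat.blt q 3616) (block3615)
 (cond (Nat.blt q 3617) (block3616)
 (block3617))

noncomputable def blocks3618to3620 (q : ℕ) : ℕ :=
 cond (Nat.blt q 3619) (block3618)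
 (block3619)

noncomputable def blocks3620to3623 (q : ℕ) : ℕ :=
 cond (Nat.blt q 3621) (block3620)
 (cond (Nat.blt q 3622) (block3621)
 (block3622))

noncomputable def blocks3623to3625 (q : ℕ) : ℕ :=
 cond (Nat.blt q 3624) (block3623)
 (block3624)

noncomputable def blocks3625to3628 (q : ℕ) : ℕ :=
 cond (Nat.blt q 3626) (block3625)
 (cond (Nat.blt q 3627) (block3626)
 (block3627))

noncomputable def blocks3628to3631 (q : ℕ) : ℕ :=
 cond (Nat.blt q 3629) (block3628)
 (cond (Nat.blt q 3630) (block3629)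
 (block3630))

noncomputable def blocks3631to3634 (q : ℕ) : ℕ :=
 cond (Nat.blt q 3632) (block3631)
 (cond (Nat.blt q 3633) (block3632)
 (block3633))

noncomputable def blocks3634to3636 (q : ℕ) : ℕ :=
 cond (Nat.blt q 3635) (block3634)
 (block3635)

noncomputable def blocks3636to3639 (q : ℕ) : ℕ :=
 cond (Nat.blt q 3637) (block3636)
 (cond (Nat.blt q 3638) (block3637)
 (block3638))

noncomputable def blocks3639to3642 (q : ℕ) : ℕ :=
 cond (Nat.blt q 3640) (block3639)
 (cond (Nat.blt q 3641) (block3640)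
 (block3641))

noncomputable def blocks3642to3645 (q : ℕ) : ℕ :=
 cond (Nat.blt q 3643) (block3642)
 (cond (Nat.blt q 3644) (block3643)
 (block3644))

noncomputable def blocks3645to3647 (q : ℕ) : ℕ :=
 cond (Nat.blt q 3646) (block3645)
 (block3646)

noncomputable def blocks3647to3650 (q : ℕ) : ℕ :=
 cond (Nat.blt q 3648) (block3647)
 (cond (Nat.blt q 3649) (block3648)
 (block3649))

noncomputable def blocks3650to3653 (q : ℕ) : ℕ :=
 cond (Nat.blt q 3651) (block3650)
 (cond (Nat.blt q 3652) (block3651)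
 (block3652))

noncomputable def blocks3653to3656 (q : ℕ) : ℕ :=
 cond (Nat.blt q 3654) (block3653)
 (cond (Nat.blt q 3655) (block3654)
 (block3655))

noncomputable def blocks3613to3656 (q : ℕ) : ℕ :=
 cond (Nat.blt q 3634) (cond (Nat.blt q 3623) (cond (Nat.blt q 3618) (cond (Nat.blt q 3615) (blocks3613to3615 q)
 (blocks3615to3618 q))
 (cond (Nat.blt q 3620) (blocks3618to3620 q)
 (blocks3620to3623 q)))
 (cond (Nat.blt q 3628) (cond (Nat.blt q 3625) (blocks3623to3625 q)
 (blocks3625to3628 q))
 (cond (Nat.blt q 3631) (blocks3628to3631 q)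
 (blocks3631to3634 q))))
 (cond (Nat.blt q 3645) (cond (Nat.blt q 3639) (cond (Nat.blt q 3636) (blocks3634to3636 q)
 (blocks3636to3639 q))
 (cond (Nat.blt q 3642) (blocks3639to3642 q)
 (blocks3642to3645 q)))
 (cond (Nat.blt q 3650) (cond (Nat.blt q 3647) (blocks3645to3647 q)
 (blocks3647to3650 q))
 (cond (Nat.blt q 3653) (blocks3650to3653 q)
 (blocks3653to3656 q))))

noncomputable def blocks3656to3658 (q : ℕ) : ℕ :=
 cond (Nat.blt q 3657) (block3656)
 (block3657)

noncomputable def blocks3658to3661 (q : ℕ) : ℕ :=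
 cond (Nat.blt q 3659) (block3658)
 (cond (Nat.blt q 3660) (block3659)
 (block3660))

noncomputable def blocks3661to3663 (q : ℕ) : ℕ :=
 cond (Nat.blt q 3662) (block3661)
 (block3662)

noncomputable def blocks3663to3666 (q : ℕ) : ℕ :=
 cond (Nat.blt q 3664) (block3663)
 (cond (Nat.blt q 3665) (block3664)
 (block3665))

noncomputable def blocks3666to3668 (q : ℕ) : ℕ :=
 cond (Nat.blt q 3667) (block3666)
 (block3667)

noncomputable def blocks3668to3671 (q : ℕ) : ℕ :=
 cond (Nat.blt q 3669) (block3668)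
 (cond (Nat.blt q 3670) (block3669)
 (block3670))

noncomputable def blocks3671to3674 (q : ℕ) : ℕ :=
 cond (Nat.blt q 3672) (block3671)
 (cond (Nat.blt q 3673) (block3672)
 (block3673))

noncomputable def blocks3674to3677 (q : ℕ) : ℕ :=
 cond (Nat.blt q 3675) (block3674)
 (cond (Nat.blt q 3676) (block3675)
 (block3676))

noncomputable def blocks3677to3679 (q : ℕ) : ℕ :=
 cond (Nat.blt q 3678) (block3677)
 (block3678)

noncomputable def blocks3679to3682 (q : ℕ) : ℕ :=
 cond (Nat.blt q 3680) (block3679)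
 (cond (Nat.blt q 3681) (block3680)
 (block3681))

noncomputable def blocks3682to3684 (q : ℕ) : ℕ :=
 cond (Nat.blt q 3683) (block3682)
 (block3683)

noncomputable def blocks3684to3687 (q : ℕ) : ℕ :=
 cond (Nat.blt q 3685) (block3684)
 (cond (Nat.blt q 3686) (block3685)
 (block3686))

noncomputable def blocks3687to3689 (q : ℕ) : ℕ :=
 cond (Nat.blt q 3688) (block3687)
 (block3688)

noncomputable def blocks3689to3692 (q : ℕ) : ℕ :=
 cond (Nat.blt q 3690) (block3689)
 (cond (Nat.blt q 3691) (block3690)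
 (block3691))

noncomputable def blocks3692to3695 (q : ℕ) : ℕ :=
 cond (Nat.blt q 3693) (block3692)
 (cond (Nat.blt q 3694) (block3693)
 (block3694))

noncomputable def blocks3695to3698 (q : ℕ) : ℕ :=
 cond (Nat.blt q 3696) (block3695)
 (cond (Nat.blt q 3697) (block3696)
 (block3697))

noncomputable def blocks3656to3698 (q : ℕ) : ℕ :=
 cond (Nat.blt q 3677) (cond (Nat.blt q 3666) (cond (Nat.blt q 3661) (cond (Nat.blt q 3658) (blocks3656to3658 q)
 (blocks3658to3661 q))
 (cond (Nat.blt q 3663) (blocks3661to3663 q)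
 (blocks3663to3666 q)))
 (cond (Nat.blt q 3671) (cond (Nat.blt q 3668) (blocks3666to3668 q)
 (blocks3668to3671 q))
 (cond (Nat.blt q 3674) (blocks3671to3674 q)
 (blocks3674to3677 q))))
 (cond (Nat.blt q 3687) (cond (Nat.blt q 3682) (cond (Nat.blt q 3679) (blocks3677to3679 q)
 (blocks3679to3682 q))
 (cond (Nat.blt q 3684) (blocks3682to3684 q)
 (blocks3684to3687 q)))
 (cond (Nat.blt q 3692) (cond (Nat.blt q 3689) (blocks3687to3689 q)
 (blocks3689to3692 q))
 (cond (Nat.blt q 3695) (blocks3692to3695 q)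
 (blocks3695to3698 q))))

noncomputable def blocks3698to3700 (q : ℕ) : ℕ :=
 cond (Nat.blt q 3699) (block3698)
 (block3699)

noncomputable def blocks3700to3703 (q : ℕ) : ℕ :=
 cond (Nat.blt q 3701) (block3700)
 (cond (Nat.blt q 3702) (block3701)
 (block3702))

noncomputable def blocks3703to3705 (q : ℕ) : ℕ :=
 cond (Nat.blt q 3704) (block3703)
 (block3704)

noncomputable def blocks3705to3708 (q : ℕ) : ℕ :=
 cond (Nat.blt q 3706) (block3705)
 (cond (Nat.blt q 3707) (block3706)
 (block3707))

noncomputable def blocks3708to3710 (q : ℕ) : ℕ :=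
 cond (Nat.blt q 3709) (block3708)
 (block3709)

noncomputable def blocks3710to3713 (q : ℕ) : ℕ :=
 cond (Nat.blt q 3711) (block3710)
 (cond (Nat.blt q 3712) (block3711)
 (block3712))

noncomputable def blocks3713to3716 (q : ℕ) : ℕ :=
 cond (Nat.blt q 3714) (block3713)
 (cond (Nat.blt q 3715) (block3714)
 (block3715))

noncomputable def blocks3716to3719 (q : ℕ) : ℕ :=
 cond (Nat.blt q 3717) (block3716)
 (cond (Nat.blt q 3718) (block3717)
 (block3718))

noncomputable def blocks3719to3721 (q : ℕ) : ℕ :=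
 cond (Nat.blt q 3720) (block3719)
 (block3720)

noncomputable def blocks3721to3724 (q : ℕ) : ℕ :=
 cond (Nat.blt q 3722) (block3721)
 (cond (Nat.blt q 3723) (block3722)
 (block3723))

noncomputable def blocks3724to3727 (q : ℕ) : ℕ :=
 cond (Nat.blt q 3725) (block3724)
 (cond (Nat.blt q 3726) (block3725)
 (block3726))

noncomputable def blocks3727to3730 (q : ℕ) : ℕ :=
 cond (Nat.blt q 3728) (block3727)
 (cond (Nat.blt q 3729) (block3728)
 (block3729))

noncomputable def blocks3730to3732 (q : ℕ) : ℕ :=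
 cond (Nat.blt q 3731) (block3730)
 (block3731)

noncomputable def blocks3732to3735 (q : ℕ) : ℕ :=
 cond (Nat.blt q 3733) (block3732)
 (cond (Nat.blt q 3734) (block3733)
 (block3734))

noncomputable def blocks3735to3738 (q : ℕ) : ℕ :=
 cond (Nat.blt q 3736) (block3735)
 (cond (Nat.blt q 3737) (block3736)
 (block3737))

noncomputable def blocks3738to3741 (q : ℕ) : ℕ :=
 cond (Nat.blt q 3739) (block3738)
 (cond (Nat.blt q 3740) (block3739)
 (block3740))

noncomputable def blocks3698to3741 (q : ℕ) : ℕ :=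
 cond (Nat.blt q 3719) (cond (Nat.blt q 3708) (cond (Nat.blt q 3703) (cond (Nat.blt q 3700) (blocks3698to3700 q)
 (blocks3700to3703 q))
 (cond (Nat.blt q 3705) (blocks3703to3705 q)
 (blocks3705to3708 q)))
 (cond (Nat.blt q 3713) (cond (Nat.blt q 3710) (blocks3708to3710 q)
 (blocks3710to3713 q))
 (cond (Nat.blt q 3716) (blocks3713to3716 q)
 (blocks3716to3719 q))))
 (cond (Nat.blt q 3730) (cond (Nat.blt q 3724) (cond (Nat.blt q 3721) (blocks3719to3721 q)
 (blocks3721to3724 q))
 (cond (Nat.blt q 3727) (blocks3724to3727 q)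
 (blocks3727to3730 q)))
 (cond (Nat.blt q 3735) (cond (Nat.blt q 3732) (blocks3730to3732 q)
 (blocks3732to3735 q))
 (cond (Nat.blt q 3738) (blocks3735to3738 q)
 (blocks3738to3741 q))))

noncomputable def blocks3741to3743 (q : ℕ) : ℕ :=
 cond (Nat.blt q 3742) (block3741)
 (block3742)

noncomputable def blocks3743to3746 (q : ℕ) : ℕ :=
 cond (Nat.blt q 3744) (block3743)
 (cond (Nat.blt q 3745) (block3744)
 (block3745))

noncomputable def blocks3746to3748 (q : ℕ) : ℕ :=
 cond (Nat.blt q 3747) (block3746)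
 (block3747)

noncomputable def blocks3748to3751 (q : ℕ) : ℕ :=
 cond (Nat.blt q 3749) (block3748)
 (cond (Nat.blt q 3750) (block3749)
 (block3750))

noncomputable def blocks3751to3753 (q : ℕ) : ℕ :=
 cond (Nat.blt q 3752) (block3751)
 (block3752)

noncomputable def blocks3753to3756 (q : ℕ) : ℕ :=
 cond (Nat.blt q 3754) (block3753)
 (cond (Nat.blt q 3755) (block3754)
 (block3755))

noncomputable def blocks3756to3759 (q : ℕ) : ℕ :=
 cond (Nat.blt q 3757) (block3756)
 (cond (Nat.blt q 3758) (block3757)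
 (block3758))

noncomputable def blocks3759to3762 (q : ℕ) : ℕ :=
 cond (Nat.blt q 3760) (block3759)
 (cond (Nat.blt q 3761) (block3760)
 (block3761))

noncomputable def blocks3762to3764 (q : ℕ) : ℕ :=
 cond (Nat.blt q 3763) (block3762)
 (block3763)

noncomputable def blocks3764to3767 (q : ℕ) : ℕ :=
 cond (Nat.blt q 3765) (block3764)
 (cond (Nat.blt q 3766) (block3765)
 (block3766))

noncomputable def blocks3767to3769 (q : ℕ) : ℕ :=
 cond (Nat.blt q 3768) (block3767)
 (block3768)

noncomputable def blocks3769to3772 (q : ℕ) : ℕ :=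
 cond (Nat.blt q 3770) (block3769)
 (cond (Nat.blt q 3771) (block3770)
 (block3771))

noncomputable def blocks3772to3774 (q : ℕ) : ℕ :=
 cond (Nat.blt q 3773) (block3772)
 (block3773)

noncomputable def blocks3774to3777 (q : ℕ) : ℕ :=
 cond (Nat.blt q 3775) (block3774)
 (cond (Nat.blt q 3776) (block3775)
 (block3776))

noncomputable def blocks3777to3780 (q : ℕ) : ℕ :=
 cond (Nat.blt q 3778) (block3777)
 (cond (Nat.blt q 3779) (block3778)
 (block3779))

noncomputable def blocks3780to3783 (q : ℕ) : ℕ :=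
 cond (Nat.blt q 3781) (block3780)
 (cond (Nat.blt q 3782) (block3781)
 (block3782))

noncomputable def blocks3741to3783 (q : ℕ) : ℕ :=
 cond (Nat.blt q 3762) (cond (Nat.blt q 3751) (cond (Nat.blt q 3746) (cond (Nat.blt q 3743) (blocks3741to3743 q)
 (blocks3743to3746 q))
 (cond (Nat.blt q 3748) (blocks3746to3748 q)
 (blocks3748to3751 q)))
 (cond (Nat.blt q 3756) (cond (Nat.blt q 3753) (blocks3751to3753 q)
 (blocks3753to3756 q))
 (cond (Nat.blt q 3759) (blocks3756to3759 q)
 (blocks3759to3762 q))))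
 (cond (Nat.blt q 3772) (cond (Nat.blt q 3767) (cond (Nat.blt q 3764) (blocks3762to3764 q)
 (blocks3764to3767 q))
 (cond (Nat.blt q 3769) (blocks3767to3769 q)
 (blocks3769to3772 q)))
 (cond (Nat.blt q 3777) (cond (Nat.blt q 3774) (blocks3772to3774 q)
 (blocks3774to3777 q))
 (cond (Nat.blt q 3780) (blocks3777to3780 q)
 (blocks3780to3783 q))))

noncomputable def blocks3783to3785 (q : ℕ) : ℕ :=
 cond (Nat.blt q 3784) (block3783)
 (block3784)

noncomputable def blocks3785to3788 (q : ℕ) : ℕ :=
 cond (Nat.blt q 3786) (block3785)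
 (cond (Nat.blt q 3787) (block3786)
 (block3787))

noncomputable def blocks3788to3790 (q : ℕ) : ℕ :=
 cond (Nat.blt q 3789) (block3788)
 (block3789)

noncomputable def blocks3790to3793 (q : ℕ) : ℕ :=
 cond (Nat.blt q 3791) (block3790)
 (cond (Nat.blt q 3792) (block3791)
 (block3792))

noncomputable def blocks3793to3795 (q : ℕ) : ℕ :=
 cond (Nat.blt q 3794) (block3793)
 (block3794)

noncomputable def blocks3795to3798 (q : ℕ) : ℕ :=
 cond (Nat.blt q 3796) (block3795)
 (cond (Nat.blt q 3797) (block3796)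
 (block3797))

noncomputable def blocks3798to3801 (q : ℕ) : ℕ :=
 cond (Nat.blt q 3799) (block3798)
 (cond (Nat.blt q 3800) (block3799)
 (block3800))

noncomputable def blocks3801to3804 (q : ℕ) : ℕ :=
 cond (Nat.blt q 3802) (block3801)
 (cond (Nat.blt q 3803) (block3802)
 (block3803))

noncomputable def blocks3804to3806 (q : ℕ) : ℕ :=
 cond (Nat.blt q 3805) (block3804)
 (block3805)

noncomputable def blocks3806to3809 (q : ℕ) : ℕ :=
 cond (Nat.blt q 3807) (block3806)
 (cond (Nat.blt q 3808) (block3807)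
 (block3808))

noncomputable def blocks3809to3812 (q : ℕ) : ℕ :=
 cond (Nat.blt q 3810) (block3809)
 (cond (Nat.blt q 3811) (block3810)
 (block3811))

noncomputable def blocks3812to3815 (q : ℕ) : ℕ :=
 cond (Nat.blt q 3813) (block3812)
 (cond (Nat.blt q 3814) (block3813)
 (block3814))

noncomputable def blocks3815to3817 (q : ℕ) : ℕ :=
 cond (Nat.blt q 3816) (block3815)
 (block3816)

noncomputable def blocks3817to3820 (q : ℕ) : ℕ :=
 cond (Nat.blt q 3818) (block3817)
 (cond (Nat.blt q 3819) (block3818)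
 (block3819))

noncomputable def blocks3820to3823 (q : ℕ) : ℕ :=
 cond (Nat.blt q 3821) (block3820)
 (cond (Nat.blt q 3822) (block3821)
 (block3822))

noncomputable def blocks3823to3826 (q : ℕ) : ℕ :=
 cond (Nat.blt q 3824) (block3823)
 (cond (Nat.blt q 3825) (block3824)
 (block3825))

noncomputable def blocks3783to3826 (q : ℕ) : ℕ :=
 cond (Nat.blt q 3804) (cond (Nat.blt q 3793) (cond (Nat.blt q 3788) (cond (Nat.blt q 3785) (blocks3783to3785 q)
 (blocks3785to3788 q))
 (cond (Nat.blt q 3790) (blocks3788to3790 q)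
 (blocks3790to3793 q)))
 (cond (Nat.blt q 3798) (cond (Nat.blt q 3795) (blocks3793to3795 q)
 (blocks3795to3798 q))
 (cond (Nat.blt q 3801) (blocks3798to3801 q)
 (blocks3801to3804 q))))
 (cond (Nat.blt q 3815) (cond (Nat.blt q 3809) (cond (Nat.blt q 3806) (blocks3804to3806 q)
 (blocks3806to3809 q))
 (cond (Nat.blt q 3812) (blocks3809to3812 q)
 (blocks3812to3815 q)))
 (cond (Nat.blt q 3820) (cond (Nat.blt q 3817) (blocks3815to3817 q)
 (blocks3817to3820 q))
 (cond (Nat.blt q 3823) (blocks3820to3823 q)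
 (blocks3823to3826 q))))

noncomputable def blocks3826to3828 (q : ℕ) : ℕ :=
 cond (Nat.blt q 3827) (block3826)
 (block3827)

noncomputable def blocks3828to3831 (q : ℕ) : ℕ :=
 cond (Nat.blt q 3829) (block3828)
 (cond (Nat.blt q 3830) (block3829)
 (block3830))

noncomputable def blocks3831to3833 (q : ℕ) : ℕ :=
 cond (Nat.blt q 3832) (block3831)
 (block3832)

noncomputable def blocks3833to3836 (q : ℕ) : ℕ :=
 cond (Nat.blt q 3834) (block3833)
 (cond (Nat.blt q 3835) (block3834)
 (block3835))

noncomputable def blocks3836to3838 (q : ℕ) : ℕ :=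
 cond (Nat.blt q 3837) (block3836)
 (block3837)

noncomputable def blocks3838to3841 (q : ℕ) : ℕ :=
 cond (Nat.blt q 3839) (block3838)
 (cond (Nat.blt q 3840) (block3839)
 (block3840))

noncomputable def blocks3841to3844 (q : ℕ) : ℕ :=
 cond (Nat.blt q 3842) (block3841)
 (cond (Nat.blt q 3843) (block3842)
 (block3843))

noncomputable def blocks3844to3847 (q : ℕ) : ℕ :=
 cond (Nat.blt q 3845) (block3844)
 (cond (Nat.blt q 3846) (block3845)
 (block3846))

noncomputable def blocks3847to3849 (q : ℕ) : ℕ :=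
 cond (Nat.blt q 3848) (block3847)
 (block3848)

noncomputable def blocks3849to3852 (q : ℕ) : ℕ :=
 cond (Nat.blt q 3850) (block3849)
 (cond (Nat.blt q 3851) (block3850)
 (block3851))

noncomputable def blocks3852to3854 (q : ℕ) : ℕ :=
 cond (Nat.blt q 3853) (block3852)
 (block3853)

noncomputable def blocks3854to3857 (q : ℕ) : ℕ :=
 cond (Nat.blt q 3855) (block3854)
 (cond (Nat.blt q 3856) (block3855)
 (block3856))

noncomputable def blocks3857to3859 (q : ℕ) : ℕ :=
 cond (Nat.blt q 3858) (block3857)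
 (block3858)

noncomputable def blocks3859to3862 (q : ℕ) : ℕ :=
 cond (Nat.blt q 3860) (block3859)
 (cond (Nat.blt q 3861) (block3860)
 (block3861))

noncomputable def blocks3862to3865 (q : ℕ) : ℕ :=
 cond (Nat.blt q 3863) (block3862)
 (cond (Nat.blt q 3864) (block3863)
 (block3864))

noncomputable def blocks3865to3868 (q : ℕ) : ℕ :=
 cond (Nat.blt q 3866) (block3865)
 (cond (Nat.blt q 3867) (block3866)
 (block3867))

noncomputable def blocks3826to3868 (q : ℕ) : ℕ :=
 cond (Nat.blt q 3847) (cond (Nat.blt q 3836) (cond (Nat.blt q 3831) (cond (Nat.blt q 3828) (blocks3826to3828 q)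
 (blocks3828to3831 q))
 (cond (Nat.blt q 3833) (blocks3831to3833 q)
 (blocks3833to3836 q)))
 (cond (Nat.blt q 3841) (cond (Nat.blt q 3838) (blocks3836to3838 q)
 (blocks3838to3841 q))
 (cond (Nat.blt q 3844) (blocks3841to3844 q)
 (blocks3844to3847 q))))
 (cond (Nat.blt q 3857) (cond (Nat.blt q 3852) (cond (Nat.blt q 3849) (blocks3847to3849 q)
 (blocks3849to3852 q))
 (cond (Nat.blt q 3854) (blocks3852to3854 q)
 (blocks3854to3857 q)))
 (cond (Nat.blt q 3862) (cond (Nat.blt q 3859) (blocks3857to3859 q)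
 (blocks3859to3862 q))
 (cond (Nat.blt q 3865) (blocks3862to3865 q)
 (blocks3865to3868 q))))

noncomputable def blocks3868to3870 (q : ℕ) : ℕ :=
 cond (Nat.blt q 3869) (block3868)
 (block3869)

noncomputable def blocks3870to3873 (q : ℕ) : ℕ :=
 cond (Nat.blt q 3871) (block3870)
 (cond (Nat.blt q 3872) (block3871)
 (block3872))

noncomputable def blocks3873to3875 (q : ℕ) : ℕ :=
 cond (Nat.blt q 3874) (block3873)
 (block3874)

noncomputable def blocks3875to3878 (q : ℕ) : ℕ :=
 cond (Nat.blt q 3876) (block3875)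
 (cond (Nat.blt q 3877) (block3876)
 (block3877))

noncomputable def blocks3878to3880 (q : ℕ) : ℕ :=
 cond (Nat.blt q 3879) (block3878)
 (block3879)

noncomputable def blocks3880to3883 (q : ℕ) : ℕ :=
 cond (Nat.blt q 3881) (block3880)
 (cond (Nat.blt q 3882) (block3881)
 (block3882))

noncomputable def blocks3883to3886 (q : ℕ) : ℕ :=
 cond (Nat.blt q 3884) (block3883)
 (cond (Nat.blt q 3885) (block3884)
 (block3885))

noncomputable def blocks3886to3889 (q : ℕ) : ℕ :=
 cond (Nat.blt q 3887) (block3886)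
 (cond (Nat.blt q 3888) (block3887)
 (block3888))

noncomputable def blocks3889to3891 (q : ℕ) : ℕ :=
 cond (Nat.blt q 3890) (block3889)
 (block3890)

noncomputable def blocks3891to3894 (q : ℕ) : ℕ :=
 cond (Nat.blt q 3892) (block3891)
 (cond (Nat.blt q 3893) (block3892)
 (block3893))

noncomputable def blocks3894to3897 (q : ℕ) : ℕ :=
 cond (Nat.blt q 3895) (block3894)
 (cond (Nat.blt q 3896) (block3895)
 (block3896))

noncomputable def blocks3897to3900 (q : ℕ) : ℕ :=
 cond (Nat.blt q 3898) (block3897)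
 (cond (Nat.blt q 3899) (block3898)
 (block3899))

noncomputable def blocks3900to3902 (q : ℕ) : ℕ :=
 cond (Nat.blt q 3901) (block3900)
 (block3901)

noncomputable def blocks3902to3905 (q : ℕ) : ℕ :=
 cond (Nat.blt q 3903) (block3902)
 (cond (Nat.blt q 3904) (block3903)
 (block3904))

noncomputable def blocks3905to3908 (q : ℕ) : ℕ :=
 cond (Nat.blt q 3906) (block3905)
 (cond (Nat.blt q 3907) (block3906)
 (block3907))

noncomputable def blocks3908to3911 (q : ℕ) : ℕ :=
 cond (Nat.blt q 3909) (block3908)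
 (cond (Nat.blt q 3910) (block3909)
 (block3910))

noncomputable def blocks3868to3911 (q : ℕ) : ℕ :=
 cond (Nat.blt q 3889) (cond (Nat.blt q 3878) (cond (Nat.blt q 3873) (cond (Nat.blt q 3870) (blocks3868to3870 q)
 (blocks3870to3873 q))
 (cond (Nat.blt q 3875) (blocks3873to3875 q)
 (blocks3875to3878 q)))
 (cond (Nat.blt q 3883) (cond (Nat.blt q 3880) (blocks3878to3880 q)
 (blocks3880to3883 q))
 (cond (Nat.blt q 3886) (blocks3883to3886 q)
 (blocks3886to3889 q))))
 (cond (Nat.blt q 3900) (cond (Nat.blt q 3894) (cond (Nat.blt q 3891) (blocks3889to3891 q)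
 (blocks3891to3894 q))
 (cond (Nat.blt q 3897) (blocks3894to3897 q)
 (blocks3897to3900 q)))
 (cond (Nat.blt q 3905) (cond (Nat.blt q 3902) (blocks3900to3902 q)
 (blocks3902to3905 q))
 (cond (Nat.blt q 3908) (blocks3905to3908 q)
 (blocks3908to3911 q))))

noncomputable def blocks3911to3913 (q : ℕ) : ℕ :=
 cond (Nat.blt q 3912) (block3911)
 (block3912)

noncomputable def blocks3913to3916 (q : ℕ) : ℕ :=
 cond (Nat.blt q 3914) (block3913)
 (cond (Nat.blt q 3915) (block3914)
 (block3915))

noncomputable def blocks3916to3918 (q : ℕ) : ℕ :=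
 cond (Nat.blt q 3917) (block3916)
 (block3917)

noncomputable def blocks3918to3921 (q : ℕ) : ℕ :=
 cond (Nat.blt q 3919) (block3918)
 (cond (Nat.blt q 3920) (block3919)
 (block3920))

noncomputable def blocks3921to3923 (q : ℕ) : ℕ :=
 cond (Nat.blt q 3922) (block3921)
 (block3922)

noncomputable def blocks3923to3926 (q : ℕ) : ℕ :=
 cond (Nat.blt q 3924) (block3923)
 (cond (Nat.blt q 3925) (block3924)
 (block3925))

noncomputable def blocks3926to3929 (q : ℕ) : ℕ :=
 cond (Nat.blt q 3927) (block3926)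
 (cond (Nat.blt q 3928) (block3927)
 (block3928))

noncomputable def blocks3929to3932 (q : ℕ) : ℕ :=
 cond (Nat.blt q 3930) (block3929)
 (cond (Nat.blt q 3931) (block3930)
 (block3931))

noncomputable def blocks3932to3934 (q : ℕ) : ℕ :=
 cond (Nat.blt q 3933) (block3932)
 (block3933)

noncomputable def blocks3934to3937 (q : ℕ) : ℕ :=
 cond (Nat.blt q 3935) (block3934)
 (cond (Nat.blt q 3936) (block3935)
 (block3936))

noncomputable def blocks3937to3939 (q : ℕ) : ℕ :=
 cond (Nat.blt q 3938) (block3937)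
 (block3938)

noncomputable def blocks3939to3942 (q : ℕ) : ℕ :=
 cond (Nat.blt q 3940) (block3939)
 (cond (Nat.blt q 3941) (block3940)
 (block3941))

noncomputable def blocks3942to3944 (q : ℕ) : ℕ :=
 cond (Nat.blt q 3943) (block3942)
 (block3943)

noncomputable def blocks3944to3947 (q : ℕ) : ℕ :=
 cond (Nat.blt q 3945) (block3944)
 (cond (Nat.blt q 3946) (block3945)
 (block3946))

noncomputable def blocks3947to3950 (q : ℕ) : ℕ :=
 cond (Nat.blt q 3948) (block3947)
 (cond (Nat.blt q 3949) (block3948)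
 (block3949))

noncomputable def blocks3950to3953 (q : ℕ) : ℕ :=
 cond (Nat.blt q 3951) (block3950)
 (cond (Nat.blt q 3952) (block3951)
 (block3952))

noncomputable def blocks3911to3953 (q : ℕ) : ℕ :=
 cond (Nat.blt q 3932) (cond (Nat.blt q 3921) (cond (Nat.blt q 3916) (cond (Nat.blt q 3913) (blocks3911to3913 q)
 (blocks3913to3916 q))
 (cond (Nat.blt q 3918) (blocks3916to3918 q)
 (blocks3918to3921 q)))
 (cond (Nat.blt q 3926) (cond (Nat.blt q 3923) (blocks3921to3923 q)
 (blocks3923to3926 q))
 (cond (Nat.blt q 3929) (blocks3926to3929 q)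
 (blocks3929to3932 q))))
 (cond (Nat.blt q 3942) (cond (Nat.blt q 3937) (cond (Nat.blt q 3934) (blocks3932to3934 q)
 (blocks3934to3937 q))
 (cond (Nat.blt q 3939) (blocks3937to3939 q)
 (blocks3939to3942 q)))
 (cond (Nat.blt q 3947) (cond (Nat.blt q 3944) (blocks3942to3944 q)
 (blocks3944to3947 q))
 (cond (Nat.blt q 3950) (blocks3947to3950 q)
 (blocks3950to3953 q))))

noncomputable def blocks3953to3955 (q : ℕ) : ℕ :=
 cond (Nat.blt q 3954) (block3953)
 (block3954)

noncomputable def blocks3955to3958 (q : ℕ) : ℕ :=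
 cond (Nat.blt q 3956) (block3955)
 (cond (Nat.blt q 3957) (block3956)
 (block3957))

noncomputable def blocks3958to3960 (q : ℕ) : ℕ :=
 cond (Nat.blt q 3959) (block3958)
 (block3959)

noncomputable def blocks3960to3963 (q : ℕ) : ℕ :=
 cond (Nat.blt q 3961) (block3960)
 (cond (Nat.blt q 3962) (block3961)
 (block3962))

noncomputable def blocks3963to3965 (q : ℕ) : ℕ :=
 cond (Nat.blt q 3964) (block3963)
 (block3964)

noncomputable def blocks3965to3968 (q : ℕ) : ℕ :=
 cond (Nat.blt q 3966) (block3965)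
 (cond (Nat.blt q 3967) (block3966)
 (block3967))

noncomputable def blocks3968to3971 (q : ℕ) : ℕ :=
 cond (Nat.blt q 3969) (block3968)
 (cond (Nat.blt q 3970) (block3969)
 (block3970))

noncomputable def blocks3971to3974 (q : ℕ) : ℕ :=
 cond (Nat.blt q 3972) (block3971)
 (cond (Nat.blt q 3973) (block3972)
 (block3973))

noncomputable def blocks3974to3976 (q : ℕ) : ℕ :=
 cond (Nat.blt q 3975) (block3974)
 (block3975)

noncomputable def blocks3976to3979 (q : ℕ) : ℕ :=
 cond (Nat.blt q 3977) (block3976)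
 (cond (Nat.blt q 3978) (block3977)
 (block3978))

noncomputable def blocks3979to3982 (q : ℕ) : ℕ :=
 cond (Nat.blt q 3980) (block3979)
 (cond (Nat.blt q 3981) (block3980)
 (block3981))

noncomputable def blocks3982to3985 (q : ℕ) : ℕ :=
 cond (Nat.blt q 3983) (block3982)
 (cond (Nat.blt q 3984) (block3983)
 (block3984))

noncomputable def blocks3985to3987 (q : ℕ) : ℕ :=
 cond (Nat.blt q 3986) (block3985)
 (block3986)

noncomputable def blocks3987to3990 (q : ℕ) : ℕ :=
 cond (Nat.blt q 3988) (block3987)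
 (cond (Nat.blt q 3989) (block3988)
 (block3989))

noncomputable def blocks3990to3993 (q : ℕ) : ℕ :=
 cond (Nat.blt q 3991) (block3990)
 (cond (Nat.blt q 3992) (block3991)
 (block3992))

noncomputable def blocks3993to3996 (q : ℕ) : ℕ :=
 cond (Nat.blt q 3994) (block3993)
 (cond (Nat.blt q 3995) (block3994)
 (block3995))

noncomputable def blocks3953to3996 (q : ℕ) : ℕ :=
 cond (Nat.blt q 3974) (cond (Nat.blt q 3963) (cond (Nat.blt q 3958) (cond (Nat.blt q 3955) (blocks3953to3955 q)
 (blocks3955to3958 q))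
 (cond (Nat.blt q 3960) (blocks3958to3960 q)
 (blocks3960to3963 q)))
 (cond (Nat.blt q 3968) (cond (Nat.blt q 3965) (blocks3963to3965 q)
 (blocks3965to3968 q))
 (cond (Nat.blt q 3971) (blocks3968to3971 q)
 (blocks3971to3974 q))))
 (cond (Nat.blt q 3985) (cond (Nat.blt q 3979) (cond (Nat.blt q 3976) (blocks3974to3976 q)
 (blocks3976to3979 q))
 (cond (Nat.blt q 3982) (blocks3979to3982 q)
 (blocks3982to3985 q)))
 (cond (Nat.blt q 3990) (cond (Nat.blt q 3987) (blocks3985to3987 q)
 (blocks3987to3990 q))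
 (cond (Nat.blt q 3993) (blocks3990to3993 q)
 (blocks3993to3996 q))))

noncomputable def blocks3996to3998 (q : ℕ) : ℕ :=
 cond (Nat.blt q 3997) (block3996)
 (block3997)

noncomputable def blocks3998to4001 (q : ℕ) : ℕ :=
 cond (Nat.blt q 3999) (block3998)
 (cond (Nat.blt q 4000) (block3999)
 (block4000))

noncomputable def blocks4001to4003 (q : ℕ) : ℕ :=
 cond (Nat.blt q 4002) (block4001)
 (block4002)

noncomputable def blocks4003to4006 (q : ℕ) : ℕ :=
 cond (Nat.blt q 4004) (block4003)
 (cond (Nat.blt q 4005) (block4004)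
 (block4005))

noncomputable def blocks4006to4008 (q : ℕ) : ℕ :=
 cond (Nat.blt q 4007) (block4006)
 (block4007)

noncomputable def blocks4008to4011 (q : ℕ) : ℕ :=
 cond (Nat.blt q 4009) (block4008)
 (cond (Nat.blt q 4010) (block4009)
 (block4010))

noncomputable def blocks4011to4014 (q : ℕ) : ℕ :=
 cond (Nat.blt q 4012) (block4011)
 (cond (Nat.blt q 4013) (block4012)
 (block4013))

noncomputable def blocks4014to4017 (q : ℕ) : ℕ :=
 cond (Nat.blt q 4015) (block4014)
 (cond (Nat.blt q 4016) (block4015)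
 (block4016))

noncomputable def blocks4017to4019 (q : ℕ) : ℕ :=
 cond (Nat.blt q 4018) (block4017)
 (block4018)

noncomputable def blocks4019to4022 (q : ℕ) : ℕ :=
 cond (Nat.blt q 4020) (block4019)
 (cond (Nat.blt q 4021) (block4020)
 (block4021))

noncomputable def blocks4022to4024 (q : ℕ) : ℕ :=
 cond (Nat.blt q 4023) (block4022)
 (block4023)

noncomputable def blocks4024to4027 (q : ℕ) : ℕ :=
 cond (Nat.blt q 4025) (block4024)
 (cond (Nat.blt q 4026) (block4025)
 (block4026))

noncomputable def blocks4027to4029 (q : ℕ) : ℕ :=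
 cond (Nat.blt q 4028) (block4027)
 (block4028)

noncomputable def blocks4029to4032 (q : ℕ) : ℕ :=
 cond (Nat.blt q 4030) (block4029)
 (cond (Nat.blt q 4031) (block4030)
 (block4031))

noncomputable def blocks4032to4035 (q : ℕ) : ℕ :=
 cond (Nat.blt q 4033) (block4032)
 (cond (Nat.blt q 4034) (block4033)
 (block4034))

noncomputable def blocks4035to4038 (q : ℕ) : ℕ :=
 cond (Nat.blt q 4036) (block4035)
 (cond (Nat.blt q 4037) (block4036)
 (block4037))

noncomputable def blocks3996to4038 (q : ℕ) : ℕ :=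
 cond (Nat.blt q 4017) (cond (Nat.blt q 4006) (cond (Nat.blt q 4001) (cond (Nat.blt q 3998) (blocks3996to3998 q)
 (blocks3998to4001 q))
 (cond (Nat.blt q 4003) (blocks4001to4003 q)
 (blocks4003to4006 q)))
 (cond (Nat.blt q 4011) (cond (Nat.blt q 4008) (blocks4006to4008 q)
 (blocks4008to4011 q))
 (cond (Nat.blt q 4014) (blocks4011to4014 q)
 (blocks4014to4017 q))))
 (cond (Nat.blt q 4027) (cond (Nat.blt q 4022) (cond (Nat.blt q 4019) (blocks4017to4019 q)
 (blocks4019to4022 q))
 (cond (Nat.blt q 4024) (blocks4022to4024 q)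
 (blocks4024to4027 q)))
 (cond (Nat.blt q 4032) (cond (Nat.blt q 4029) (blocks4027to4029 q)
 (blocks4029to4032 q))
 (cond (Nat.blt q 4035) (blocks4032to4035 q)
 (blocks4035to4038 q))))

noncomputable def blocks4038to4040 (q : ℕ) : ℕ :=
 cond (Nat.blt q 4039) (block4038)
 (block4039)

noncomputable def blocks4040to4043 (q : ℕ) : ℕ :=
 cond (Nat.blt q 4041) (block4040)
 (cond (Nat.blt q 4042) (block4041)
 (block4042))

noncomputable def blocks4043to4045 (q : ℕ) : ℕ :=
 cond (Nat.blt q 4044) (block4043)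
 (block4044)

noncomputable def blocks4045to4048 (q : ℕ) : ℕ :=
 cond (Nat.blt q 4046) (block4045)
 (cond (Nat.blt q 4047) (block4046)
 (block4047))

noncomputable def blocks4048to4050 (q : ℕ) : ℕ :=
 cond (Nat.blt q 4049) (block4048)
 (block4049)

noncomputable def blocks4050to4053 (q : ℕ) : ℕ :=
 cond (Nat.blt q 4051) (block4050)
 (cond (Nat.blt q 4052) (block4051)
 (block4052))

noncomputable def blocks4053to4056 (q : ℕ) : ℕ :=
 cond (Nat.blt q 4054) (block4053)
 (cond (Nat.blt q 4055) (block4054)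
 (block4055))

noncomputable def blocks4056to4059 (q : ℕ) : ℕ :=
 cond (Nat.blt q 4057) (block4056)
 (cond (Nat.blt q 4058) (block4057)
 (block4058))

noncomputable def blocks4059to4061 (q : ℕ) : ℕ :=
 cond (Nat.blt q 4060) (block4059)
 (block4060)

noncomputable def blocks4061to4064 (q : ℕ) : ℕ :=
 cond (Nat.blt q 4062) (block4061)
 (cond (Nat.blt q 4063) (block4062)
 (block4063))

noncomputable def blocks4064to4067 (q : ℕ) : ℕ :=
 cond (Nat.blt q 4065) (block4064)
 (cond (Nat.blt q 4066) (block4065)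
 (block4066))

noncomputable def blocks4067to4070 (q : ℕ) : ℕ :=
 cond (Nat.blt q 4068) (block4067)
 (cond (Nat.blt q 4069) (block4068)
 (block4069))

noncomputable def blocks4070to4072 (q : ℕ) : ℕ :=
 cond (Nat.blt q 4071) (block4070)
 (block4071)

noncomputable def blocks4072to4075 (q : ℕ) : ℕ :=
 cond (Nat.blt q 4073) (block4072)
 (cond (Nat.blt q 4074) (block4073)
 (block4074))

noncomputable def blocks4075to4078 (q : ℕ) : ℕ :=
 cond (Nat.blt q 4076) (block4075)
 (cond (Nat.blt q 4077) (block4076)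
 (block4077))

noncomputable def blocks4078to4081 (q : ℕ) : ℕ :=
 cond (Nat.blt q 4079) (block4078)
 (cond (Nat.blt q 4080) (block4079)
 (block4080))

noncomputable def blocks4038to4081 (q : ℕ) : ℕ :=
 cond (Nat.blt q 4059) (cond (Nat.blt q 4048) (cond (Nat.blt q 4043) (cond (Nat.blt q 4040) (blocks4038to4040 q)
 (blocks4040to4043 q))
 (cond (Nat.blt q 4045) (blocks4043to4045 q)
 (blocks4045to4048 q)))
 (cond (Nat.blt q 4053) (cond (Nat.blt q 4050) (blocks4048to4050 q)
 (blocks4050to4053 q))
 (cond (Nat.blt q 4056) (blocks4053to4056 q)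
 (blocks4056to4059 q))))
 (cond (Nat.blt q 4070) (cond (Nat.blt q 4064) (cond (Nat.blt q 4061) (blocks4059to4061 q)
 (blocks4061to4064 q))
 (cond (Nat.blt q 4067) (blocks4064to4067 q)
 (blocks4067to4070 q)))
 (cond (Nat.blt q 4075) (cond (Nat.blt q 4072) (blocks4070to4072 q)
 (blocks4072to4075 q))
 (cond (Nat.blt q 4078) (blocks4075to4078 q)
 (blocks4078to4081 q))))

noncomputable def blocks3401to4081 (q : ℕ) : ℕ :=
 cond (Nat.blt q 3741) (cond (Nat.blt q 3571) (cond (Nat.blt q 3486) (cond (Nat.blt q 3443) (blocks3401to3443 q)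
 (blocks3443to3486 q))
 (cond (Nat.blt q 3528) (blocks3486to3528 q)
 (blocks3528to3571 q)))
 (cond (Nat.blt q 3656) (cond (Nat.blt q 3613) (blocks3571to3613 q)
 (blocks3613to3656 q))
 (cond (Nat.blt q 3698) (blocks3656to3698 q)
 (blocks3698to3741 q))))
 (cond (Nat.blt q 3911) (cond (Nat.blt q 3826) (cond (Nat.blt q 3783) (blocks3741to3783 q)
 (blocks3783to3826 q))
 (cond (Nat.blt q 3868) (blocks3826to3868 q)
 (blocks3868to3911 q)))
 (cond (Nat.blt q 3996) (cond (Nat.blt q 3953) (blocks3911to3953 q)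
 (blocks3953to3996 q))
 (cond (Nat.blt q 4038) (blocks3996to4038 q)
 (blocks4038to4081 q))))

noncomputable def blocks4081to4083 (q : ℕ) : ℕ :=
 cond (Nat.blt q 4082) (block4081)
 (block4082)

noncomputable def blocks4083to4086 (q : ℕ) : ℕ :=
 cond (Nat.blt q 4084) (block4083)
 (cond (Nat.blt q 4085) (block4084)
 (block4085))

noncomputable def blocks4086to4088 (q : ℕ) : ℕ :=
 cond (Nat.blt q 4087) (block4086)
 (block4087)

noncomputable def blocks4088to4091 (q : ℕ) : ℕ :=
 cond (Nat.blt q 4089) (block4088)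
 (cond (Nat.blt q 4090) (block4089)
 (block4090))

noncomputable def blocks4091to4093 (q : ℕ) : ℕ :=
 cond (Nat.blt q 4092) (block4091)
 (block4092)

noncomputable def blocks4093to4096 (q : ℕ) : ℕ :=
 cond (Nat.blt q 4094) (block4093)
 (cond (Nat.blt q 4095) (block4094)
 (block4095))

noncomputable def blocks4096to4099 (q : ℕ) : ℕ :=
 cond (Nat.blt q 4097) (block4096)
 (cond (Nat.blt q 4098) (block4097)
 (block4098))

noncomputable def blocks4099to4102 (q : ℕ) : ℕ :=
 cond (Nat.blt q 4100) (block4099)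
 (cond (Nat.blt q 4101) (block4100)
 (block4101))

noncomputable def blocks4102to4104 (q : ℕ) : ℕ :=
 cond (Nat.blt q 4103) (block4102)
 (block4103)

noncomputable def blocks4104to4107 (q : ℕ) : ℕ :=
 cond (Nat.blt q 4105) (block4104)
 (cond (Nat.blt q 4106) (block4105)
 (block4106))

noncomputable def blocks4107to4109 (q : ℕ) : ℕ :=
 cond (Nat.blt q 4108) (block4107)
 (block4108)

noncomputable def blocks4109to4112 (q : ℕ) : ℕ :=
 cond (Nat.blt q 4110) (block4109)
 (cond (Nat.blt q 4111) (block4110)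
 (block4111))

noncomputable def blocks4112to4114 (q : ℕ) : ℕ :=
 cond (Nat.blt q 4113) (block4112)
 (block4113)

noncomputable def blocks4114to4117 (q : ℕ) : ℕ :=
 cond (Nat.blt q 4115) (block4114)
 (cond (Nat.blt q 4116) (block4115)
 (block4116))

noncomputable def blocks4117to4120 (q : ℕ) : ℕ :=
 cond (Nat.blt q 4118) (block4117)
 (cond (Nat.blt q 4119) (block4118)
 (block4119))

noncomputable def blocks4120to4123 (q : ℕ) : ℕ :=
 cond (Nat.blt q 4121) (block4120)
 (cond (Nat.blt q 4122) (block4121)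
 (block4122))

noncomputable def blocks4081to4123 (q : ℕ) : ℕ :=
 cond (Nat.blt q 4102) (cond (Nat.blt q 4091) (cond (Nat.blt q 4086) (cond (Nat.blt q 4083) (blocks4081to4083 q)
 (blocks4083to4086 q))
 (cond (Nat.blt q 4088) (blocks4086to4088 q)
 (blocks4088to4091 q)))
 (cond (Nat.blt q 4096) (cond (Nat.blt q 4093) (blocks4091to4093 q)
 (blocks4093to4096 q))
 (cond (Nat.blt q 4099) (blocks4096to4099 q)
 (blocks4099to4102 q))))
 (cond (Nat.blt q 4112) (cond (Nat.blt q 4107) (cond (Nat.blt q 4104) (blocks4102to4104 q)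
 (blocks4104to4107 q))
 (cond (Nat.blt q 4109) (blocks4107to4109 q)
 (blocks4109to4112 q)))
 (cond (Nat.blt q 4117) (cond (Nat.blt q 4114) (blocks4112to4114 q)
 (blocks4114to4117 q))
 (cond (Nat.blt q 4120) (blocks4117to4120 q)
 (blocks4120to4123 q))))

noncomputable def blocks4123to4125 (q : ℕ) : ℕ :=
 cond (Nat.blt q 4124) (block4123)
 (block4124)

noncomputable def blocks4125to4128 (q : ℕ) : ℕ :=
 cond (Nat.blt q 4126) (block4125)
 (cond (Nat.blt q 4127) (block4126)
 (block4127))

noncomputable def blocks4128to4130 (q : ℕ) : ℕ :=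
 cond (Nat.blt q 4129) (block4128)
 (block4129)

noncomputable def blocks4130to4133 (q : ℕ) : ℕ :=
 cond (Nat.blt q 4131) (block4130)
 (cond (Nat.blt q 4132) (block4131)
 (block4132))

noncomputable def blocks4133to4135 (q : ℕ) : ℕ :=
 cond (Nat.blt q 4134) (block4133)
 (block4134)

noncomputable def blocks4135to4138 (q : ℕ) : ℕ :=
 cond (Nat.blt q 4136) (block4135)
 (cond (Nat.blt q 4137) (block4136)
 (block4137))

noncomputable def blocks4138to4141 (q : ℕ) : ℕ :=
 cond (Nat.blt q 4139) (block4138)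
 (cond (Nat.blt q 4140) (block4139)
 (block4140))

noncomputable def blocks4141to4144 (q : ℕ) : ℕ :=
 cond (Nat.blt q 4142) (block4141)
 (cond (Nat.blt q 4143) (block4142)
 (block4143))

noncomputable def blocks4144to4146 (q : ℕ) : ℕ :=
 cond (Nat.blt q 4145) (block4144)
 (block4145)

noncomputable def blocks4146to4149 (q : ℕ) : ℕ :=
 cond (Nat.blt q 4147) (block4146)
 (cond (Nat.blt q 4148) (block4147)
 (block4148))

noncomputable def blocks4149to4152 (q : ℕ) : ℕ :=
 cond (Nat.blt q 4150) (block4149)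
 (cond (Nat.blt q 4151) (block4150)
 (block4151))

noncomputable def blocks4152to4155 (q : ℕ) : ℕ :=
 cond (Nat.blt q 4153) (block4152)
 (cond (Nat.blt q 4154) (block4153)
 (block4154))

noncomputable def blocks4155to4157 (q : ℕ) : ℕ :=
 cond (Nat.blt q 4156) (block4155)
 (block4156)

noncomputable def blocks4157to4160 (q : ℕ) : ℕ :=
 cond (Nat.blt q 4158) (block4157)
 (cond (Nat.blt q 4159) (block4158)
 (block4159))

noncomputable def blocks4160to4163 (q : ℕ) : ℕ :=
 cond (Nat.blt q 4161) (block4160)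
 (cond (Nat.blt q 4162) (block4161)
 (block4162))

noncomputable def blocks4163to4166 (q : ℕ) : ℕ :=
 cond (Nat.blt q 4164) (block4163)
 (cond (Nat.blt q 4165) (block4164)
 (block4165))

noncomputable def blocks4123to4166 (q : ℕ) : ℕ :=
 cond (Nat.blt q 4144) (cond (Nat.blt q 4133) (cond (Nat.blt q 4128) (cond (Nat.blt q 4125) (blocks4123to4125 q)
 (blocks4125to4128 q))
 (cond (Nat.blt q 4130) (blocks4128to4130 q)
 (blocks4130to4133 q)))
 (cond (Nat.blt q 4138) (cond (Nat.blt q 4135) (blocks4133to4135 q)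
 (blocks4135to4138 q))
 (cond (Nat.blt q 4141) (blocks4138to4141 q)
 (blocks4141to4144 q))))
 (cond (Nat.blt q 4155) (cond (Nat.blt q 4149) (cond (Nat.blt q 4146) (blocks4144to4146 q)
 (blocks4146to4149 q))
 (cond (Nat.blt q 4152) (blocks4149to4152 q)
 (blocks4152to4155 q)))
 (cond (Nat.blt q 4160) (cond (Nat.blt q 4157) (blocks4155to4157 q)
 (blocks4157to4160 q))
 (cond (Nat.blt q 4163) (blocks4160to4163 q)
 (blocks4163to4166 q))))

noncomputable def blocks4166to4168 (q : ℕ) : ℕ :=
 cond (Nat.blt q 4167) (block4166)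
 (block4167)

noncomputable def blocks4168to4171 (q : ℕ) : ℕ :=
 cond (Nat.blt q 4169) (block4168)
 (cond (Nat.blt q 4170) (block4169)
 (block4170))

noncomputable def blocks4171to4173 (q : ℕ) : ℕ :=
 cond (Nat.blt q 4172) (block4171)
 (block4172)

noncomputable def blocks4173to4176 (q : ℕ) : ℕ :=
 cond (Nat.blt q 4174) (block4173)
 (cond (Nat.blt q 4175) (block4174)
 (block4175))

noncomputable def blocks4176to4178 (q : ℕ) : ℕ :=
 cond (Nat.blt q 4177) (block4176)
 (block4177)

noncomputable def blocks4178to4181 (q : ℕ) : ℕ :=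
 cond (Nat.blt q 4179) (block4178)
 (cond (Nat.blt q 4180) (block4179)
 (block4180))

noncomputable def blocks4181to4184 (q : ℕ) : ℕ :=
 cond (Nat.blt q 4182) (block4181)
 (cond (Nat.blt q 4183) (block4182)
 (block4183))

noncomputable def blocks4184to4187 (q : ℕ) : ℕ :=
 cond (Nat.blt q 4185) (block4184)
 (cond (Nat.blt q 4186) (block4185)
 (block4186))

noncomputable def blocks4187to4189 (q : ℕ) : ℕ :=
 cond (Nat.blt q 4188) (block4187)
 (block4188)

noncomputable def blocks4189to4192 (q : ℕ) : ℕ :=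
 cond (Nat.blt q 4190) (block4189)
 (cond (Nat.blt q 4191) (block4190)
 (block4191))

noncomputable def blocks4192to4194 (q : ℕ) : ℕ :=
 cond (Nat.blt q 4193) (block4192)
 (block4193)

noncomputable def blocks4194to4197 (q : ℕ) : ℕ :=
 cond (Nat.blt q 4195) (block4194)
 (cond (Nat.blt q 4196) (block4195)
 (block4196))

noncomputable def blocks4197to4199 (q : ℕ) : ℕ :=
 cond (Nat.blt q 4198) (block4197)
 (block4198)

noncomputable def blocks4199to4202 (q : ℕ) : ℕ :=
 cond (Nat.blt q 4200) (block4199)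
 (cond (Nat.blt q 4201) (block4200)
 (block4201))

noncomputable def blocks4202to4205 (q : ℕ) : ℕ :=
 cond (Nat.blt q 4203) (block4202)
 (cond (Nat.blt q 4204) (block4203)
 (block4204))

noncomputable def blocks4205to4208 (q : ℕ) : ℕ :=
 cond (Nat.blt q 4206) (block4205)
 (cond (Nat.blt q 4207) (block4206)
 (block4207))

noncomputable def blocks4166to4208 (q : ℕ) : ℕ :=
 cond (Nat.blt q 4187) (cond (Nat.blt q 4176) (cond (Nat.blt q 4171) (cond (Nat.blt q 4168) (blocks4166to4168 q)
 (blocks4168to4171 q))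
 (cond (Nat.blt q 4173) (blocks4171to4173 q)
 (blocks4173to4176 q)))
 (cond (Nat.blt q 4181) (cond (Nat.blt q 4178) (blocks4176to4178 q)
 (blocks4178to4181 q))
 (cond (Nat.blt q 4184) (blocks4181to4184 q)
 (blocks4184to4187 q))))
 (cond (Nat.blt q 4197) (cond (Nat.blt q 4192) (cond (Nat.blt q 4189) (blocks4187to4189 q)
 (blocks4189to4192 q))
 (cond (Nat.blt q 4194) (blocks4192to4194 q)
 (blocks4194to4197 q)))
 (cond (Nat.blt q 4202) (cond (Nat.blt q 4199) (blocks4197to4199 q)
 (blocks4199to4202 q))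
 (cond (Nat.blt q 4205) (blocks4202to4205 q)
 (blocks4205to4208 q))))

noncomputable def blocks4208to4210 (q : ℕ) : ℕ :=
 cond (Nat.blt q 4209) (block4208)
 (block4209)

noncomputable def blocks4210to4213 (q : ℕ) : ℕ :=
 cond (Nat.blt q 4211) (block4210)
 (cond (Nat.blt q 4212) (block4211)
 (block4212))

noncomputable def blocks4213to4215 (q : ℕ) : ℕ :=
 cond (Nat.blt q 4214) (block4213)
 (block4214)

noncomputable def blocks4215to4218 (q : ℕ) : ℕ :=
 cond (Nat.blt q 4216) (block4215)
 (cond (Nat.blt q 4217) (block4216)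
 (block4217))

noncomputable def blocks4218to4220 (q : ℕ) : ℕ :=
 cond (Nat.blt q 4219) (block4218)
 (block4219)

noncomputable def blocks4220to4223 (q : ℕ) : ℕ :=
 cond (Nat.blt q 4221) (block4220)
 (cond (Nat.blt q 4222) (block4221)
 (block4222))

noncomputable def blocks4223to4226 (q : ℕ) : ℕ :=
 cond (Nat.blt q 4224) (block4223)
 (cond (Nat.blt q 4225) (block4224)
 (block4225))

noncomputable def blocks4226to4229 (q : ℕ) : ℕ :=
 cond (Nat.blt q 4227) (block4226)
 (cond (Nat.blt q 4228) (block4227)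
 (block4228))

noncomputable def blocks4229to4231 (q : ℕ) : ℕ :=
 cond (Nat.blt q 4230) (block4229)
 (block4230)

noncomputable def blocks4231to4234 (q : ℕ) : ℕ :=
 cond (Nat.blt q 4232) (block4231)
 (cond (Nat.blt q 4233) (block4232)
 (block4233))

noncomputable def blocks4234to4237 (q : ℕ) : ℕ :=
 cond (Nat.blt q 4235) (block4234)
 (cond (Nat.blt q 4236) (block4235)
 (block4236))

noncomputable def blocks4237to4240 (q : ℕ) : ℕ :=
 cond (Nat.blt q 4238) (block4237)
 (cond (Nat.blt q 4239) (block4238)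
 (block4239))

noncomputable def blocks4240to4242 (q : ℕ) : ℕ :=
 cond (Nat.blt q 4241) (block4240)
 (block4241)

noncomputable def blocks4242to4245 (q : ℕ) : ℕ :=
 cond (Nat.blt q 4243) (block4242)
 (cond (Nat.blt q 4244) (block4243)
 (block4244))

noncomputable def blocks4245to4248 (q : ℕ) : ℕ :=
 cond (Nat.blt q 4246) (block4245)
 (cond (Nat.blt q 4247) (block4246)
 (block4247))

noncomputable def blocks4248to4251 (q : ℕ) : ℕ :=
 cond (Nat.blt q 4249) (block4248)
 (cond (Nat.blt q 4250) (block4249)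
 (block4250))

noncomputable def blocks4208to4251 (q : ℕ) : ℕ :=
 cond (Nat.blt q 4229) (cond (Nat.blt q 4218) (cond (Nat.blt q 4213) (cond (Nat.blt q 4210) (blocks4208to4210 q)
 (blocks4210to4213 q))
 (cond (Nat.blt q 4215) (blocks4213to4215 q)
 (blocks4215to4218 q)))
 (cond (Nat.blt q 4223) (cond (Nat.blt q 4220) (blocks4218to4220 q)
 (blocks4220to4223 q))
 (cond (Nat.blt q 4226) (blocks4223to4226 q)
 (blocks4226to4229 q))))
 (cond (Nat.blt q 4240) (cond (Nat.blt q 4234) (cond (Nat.blt q 4231) (blocks4229to4231 q)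
 (blocks4231to4234 q))
 (cond (Nat.blt q 4237) (blocks4234to4237 q)
 (blocks4237to4240 q)))
 (cond (Nat.blt q 4245) (cond (Nat.blt q 4242) (blocks4240to4242 q)
 (blocks4242to4245 q))
 (cond (Nat.blt q 4248) (blocks4245to4248 q)
 (blocks4248to4251 q))))

noncomputable def blocks4251to4253 (q : ℕ) : ℕ :=
 cond (Nat.blt q 4252) (block4251)
 (block4252)

noncomputable def blocks4253to4256 (q : ℕ) : ℕ :=
 cond (Nat.blt q 4254) (block4253)
 (cond (Nat.blt q 4255) (block4254)
 (block4255))

noncomputable def blocks4256to4258 (q : ℕ) : ℕ :=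
 cond (Nat.blt q 4257) (block4256)
 (block4257)

noncomputable def blocks4258to4261 (q : ℕ) : ℕ :=
 cond (Nat.blt q 4259) (block4258)
 (cond (Nat.blt q 4260) (block4259)
 (block4260))

noncomputable def blocks4261to4263 (q : ℕ) : ℕ :=
 cond (Nat.blt q 4262) (block4261)
 (block4262)

noncomputable def blocks4263to4266 (q : ℕ) : ℕ :=
 cond (Nat.blt q 4264) (block4263)
 (cond (Nat.blt q 4265) (block4264)
 (block4265))

noncomputable def blocks4266to4269 (q : ℕ) : ℕ :=
 cond (Nat.blt q 4267) (block4266)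
 (cond (Nat.blt q 4268) (block4267)
 (block4268))

noncomputable def blocks4269to4272 (q : ℕ) : ℕ :=
 cond (Nat.blt q 4270) (block4269)
 (cond (Nat.blt q 4271) (block4270)
 (block4271))

noncomputable def blocks4272to4274 (q : ℕ) : ℕ :=
 cond (Nat.blt q 4273) (block4272)
 (block4273)

noncomputable def blocks4274to4277 (q : ℕ) : ℕ :=
 cond (Nat.blt q 4275) (block4274)
 (cond (Nat.blt q 4276) (block4275)
 (block4276))

noncomputable def blocks4277to4279 (q : ℕ) : ℕ :=
 cond (Nat.blt q 4278) (block4277)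
 (block4278)

noncomputable def blocks4279to4282 (q : ℕ) : ℕ :=
 cond (Nat.blt q 4280) (block4279)
 (cond (Nat.blt q 4281) (block4280)
 (block4281))

noncomputable def blocks4282to4284 (q : ℕ) : ℕ :=
 cond (Nat.blt q 4283) (block4282)
 (block4283)

noncomputable def blocks4284to4287 (q : ℕ) : ℕ :=
 cond (Nat.blt q 4285) (block4284)
 (cond (Nat.blt q 4286) (block4285)
 (block4286))

noncomputable def blocks4287to4290 (q : ℕ) : ℕ :=
 cond (Nat.blt q 4288) (block4287)
 (cond (Nat.blt q 4289) (block4288)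
 (block4289))

noncomputable def blocks4290to4293 (q : ℕ) : ℕ :=
 cond (Nat.blt q 4291) (block4290)
 (cond (Nat.blt q 4292) (block4291)
 (block4292))

noncomputable def blocks4251to4293 (q : ℕ) : ℕ :=
 cond (Nat.blt q 4272) (cond (Nat.blt q 4261) (cond (Nat.blt q 4256) (cond (Nat.blt q 4253) (blocks4251to4253 q)
 (blocks4253to4256 q))
 (cond (Nat.blt q 4258) (blocks4256to4258 q)
 (blocks4258to4261 q)))
 (cond (Nat.blt q 4266) (cond (Nat.blt q 4263) (blocks4261to4263 q)
 (blocks4263to4266 q))
 (cond (Nat.blt q 4269) (blocks4266to4269 q)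
 (blocks4269to4272 q))))
 (cond (Nat.blt q 4282) (cond (Nat.blt q 4277) (cond (Nat.blt q 4274) (blocks4272to4274 q)
 (blocks4274to4277 q))
 (cond (Nat.blt q 4279) (blocks4277to4279 q)
 (blocks4279to4282 q)))
 (cond (Nat.blt q 4287) (cond (Nat.blt q 4284) (blocks4282to4284 q)
 (blocks4284to4287 q))
 (cond (Nat.blt q 4290) (blocks4287to4290 q)
 (blocks4290to4293 q))))

noncomputable def blocks4293to4295 (q : ℕ) : ℕ :=
 cond (Nat.blt q 4294) (block4293)
 (block4294)

noncomputable def blocks4295to4298 (q : ℕ) : ℕ :=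
 cond (Nat.blt q 4296) (block4295)
 (cond (Nat.blt q 4297) (block4296)
 (block4297))

noncomputable def blocks4298to4300 (q : ℕ) : ℕ :=
 cond (Nat.blt q 4299) (block4298)
 (block4299)

noncomputable def blocks4300to4303 (q : ℕ) : ℕ :=
 cond (Nat.blt q 4301) (block4300)
 (cond (Nat.blt q 4302) (block4301)
 (block4302))

noncomputable def blocks4303to4305 (q : ℕ) : ℕ :=
 cond (Nat.blt q 4304) (block4303)
 (block4304)

noncomputable def blocks4305to4308 (q : ℕ) : ℕ :=
 cond (Nat.blt q 4306) (block4305)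
 (cond (Nat.blt q 4307) (block4306)
 (block4307))

noncomputable def blocks4308to4311 (q : ℕ) : ℕ :=
 cond (Nat.blt q 4309) (block4308)
 (cond (Nat.blt q 4310) (block4309)
 (block4310))

noncomputable def blocks4311to4314 (q : ℕ) : ℕ :=
 cond (Nat.blt q 4312) (block4311)
 (cond (Nat.blt q 4313) (block4312)
 (block4313))

noncomputable def blocks4314to4316 (q : ℕ) : ℕ :=
 cond (Nat.blt q 4315) (block4314)
 (block4315)

noncomputable def blocks4316to4319 (q : ℕ) : ℕ :=
 cond (Nat.blt q 4317) (block4316)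
 (cond (Nat.blt q 4318) (block4317)
 (block4318))

noncomputable def blocks4319to4322 (q : ℕ) : ℕ :=
 cond (Nat.blt q 4320) (block4319)
 (cond (Nat.blt q 4321) (block4320)
 (block4321))

noncomputable def blocks4322to4325 (q : ℕ) : ℕ :=
 cond (Nat.blt q 4323) (block4322)
 (cond (Nat.blt q 4324) (block4323)
 (block4324))

noncomputable def blocks4325to4327 (q : ℕ) : ℕ :=
 cond (Nat.blt q 4326) (block4325)
 (block4326)

noncomputable def blocks4327to4330 (q : ℕ) : ℕ :=
 cond (Nat.blt q 4328) (block4327)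
 (cond (Nat.blt q 4329) (block4328)
 (block4329))

noncomputable def blocks4330to4333 (q : ℕ) : ℕ :=
 cond (Nat.blt q 4331) (block4330)
 (cond (Nat.blt q 4332) (block4331)
 (block4332))

noncomputable def blocks4333to4336 (q : ℕ) : ℕ :=
 cond (Nat.blt q 4334) (block4333)
 (cond (Nat.blt q 4335) (block4334)
 (block4335))

noncomputable def blocks4293to4336 (q : ℕ) : ℕ :=
 cond (Nat.blt q 4314) (cond (Nat.blt q 4303) (cond (Nat.blt q 4298) (cond (Nat.blt q 4295) (blocks4293to4295 q)
 (blocks4295to4298 q))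
 (cond (Nat.blt q 4300) (blocks4298to4300 q)
 (blocks4300to4303 q)))
 (cond (Nat.blt q 4308) (cond (Nat.blt q 4305) (blocks4303to4305 q)
 (blocks4305to4308 q))
 (cond (Nat.blt q 4311) (blocks4308to4311 q)
 (blocks4311to4314 q))))
 (cond (Nat.blt q 4325) (cond (Nat.blt q 4319) (cond (Nat.blt q 4316) (blocks4314to4316 q)
 (blocks4316to4319 q))
 (cond (Nat.blt q 4322) (blocks4319to4322 q)
 (blocks4322to4325 q)))
 (cond (Nat.blt q 4330) (cond (Nat.blt q 4327) (blocks4325to4327 q)
 (blocks4327to4330 q))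
 (cond (Nat.blt q 4333) (blocks4330to4333 q)
 (blocks4333to4336 q))))

noncomputable def blocks4336to4338 (q : ℕ) : ℕ :=
 cond (Nat.blt q 4337) (block4336)
 (block4337)

noncomputable def blocks4338to4341 (q : ℕ) : ℕ :=
 cond (Nat.blt q 4339) (block4338)
 (cond (Nat.blt q 4340) (block4339)
 (block4340))

noncomputable def blocks4341to4343 (q : ℕ) : ℕ :=
 cond (Nat.blt q 4342) (block4341)
 (block4342)

noncomputable def blocks4343to4346 (q : ℕ) : ℕ :=
 cond (Nat.blt q 4344) (block4343)
 (cond (Nat.blt q 4345) (block4344)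
 (block4345))

noncomputable def blocks4346to4348 (q : ℕ) : ℕ :=
 cond (Nat.blt q 4347) (block4346)
 (block4347)

noncomputable def blocks4348to4351 (q : ℕ) : ℕ :=
 cond (Nat.blt q 4349) (block4348)
 (cond (Nat.blt q 4350) (block4349)
 (block4350))

noncomputable def blocks4351to4354 (q : ℕ) : ℕ :=
 cond (Nat.blt q 4352) (block4351)
 (cond (Nat.blt q 4353) (block4352)
 (block4353))

noncomputable def blocks4354to4357 (q : ℕ) : ℕ :=
 cond (Nat.blt q 4355) (block4354)
 (cond (Nat.blt q 4356) (block4355)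
 (block4356))

noncomputable def blocks4357to4359 (q : ℕ) : ℕ :=
 cond (Nat.blt q 4358) (block4357)
 (block4358)

noncomputable def blocks4359to4362 (q : ℕ) : ℕ :=
 cond (Nat.blt q 4360) (block4359)
 (cond (Nat.blt q 4361) (block4360)
 (block4361))

noncomputable def blocks4362to4364 (q : ℕ) : ℕ :=
 cond (Nat.blt q 4363) (block4362)
 (block4363)

noncomputable def blocks4364to4367 (q : ℕ) : ℕ :=
 cond (Nat.blt q 4365) (block4364)
 (cond (Nat.blt q 4366) (block4365)
 (block4366))

noncomputable def blocks4367to4369 (q : ℕ) : ℕ :=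
 cond (Nat.blt q 4368) (block4367)
 (block4368)

noncomputable def blocks4369to4372 (q : ℕ) : ℕ :=
 cond (Nat.blt q 4370) (block4369)
 (cond (Nat.blt q 4371) (block4370)
 (block4371))

noncomputable def blocks4372to4375 (q : ℕ) : ℕ :=
 cond (Nat.blt q 4373) (block4372)
 (cond (Nat.blt q 4374) (block4373)
 (block4374))

noncomputable def blocks4375to4378 (q : ℕ) : ℕ :=
 cond (Nat.blt q 4376) (block4375)
 (cond (Nat.blt q 4377) (block4376)
 (block4377))

noncomputable def blocks4336to4378 (q : ℕ) : ℕ :=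
 cond (Nat.blt q 4357) (cond (Nat.blt q 4346) (cond (Nat.blt q 4341) (cond (Nat.blt q 4338) (blocks4336to4338 q)
 (blocks4338to4341 q))
 (cond (Nat.blt q 4343) (blocks4341to4343 q)
 (blocks4343to4346 q)))
 (cond (Nat.blt q 4351) (cond (Nat.blt q 4348) (blocks4346to4348 q)
 (blocks4348to4351 q))
 (cond (Nat.blt q 4354) (blocks4351to4354 q)
 (blocks4354to4357 q))))
 (cond (Nat.blt q 4367) (cond (Nat.blt q 4362) (cond (Nat.blt q 4359) (blocks4357to4359 q)
 (blocks4359to4362 q))
 (cond (Nat.blt q 4364) (blocks4362to4364 q)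
 (blocks4364to4367 q)))
 (cond (Nat.blt q 4372) (cond (Nat.blt q 4369) (blocks4367to4369 q)
 (blocks4369to4372 q))
 (cond (Nat.blt q 4375) (blocks4372to4375 q)
 (blocks4375to4378 q))))

noncomputable def blocks4378to4380 (q : ℕ) : ℕ :=
 cond (Nat.blt q 4379) (block4378)
 (block4379)

noncomputable def blocks4380to4383 (q : ℕ) : ℕ :=
 cond (Nat.blt q 4381) (block4380)
 (cond (Nat.blt q 4382) (block4381)
 (block4382))

noncomputable def blocks4383to4385 (q : ℕ) : ℕ :=
 cond (Nat.blt q 4384) (block4383)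
 (block4384)

noncomputable def blocks4385to4388 (q : ℕ) : ℕ :=
 cond (Nat.blt q 4386) (block4385)
 (cond (Nat.blt q 4387) (block4386)
 (block4387))

noncomputable def blocks4388to4390 (q : ℕ) : ℕ :=
 cond (Nat.blt q 4389) (block4388)
 (block4389)

noncomputable def blocks4390to4393 (q : ℕ) : ℕ :=
 cond (Nat.blt q 4391) (block4390)
 (cond (Nat.blt q 4392) (block4391)
 (block4392))

noncomputable def blocks4393to4396 (q : ℕ) : ℕ :=
 cond (Nat.blt q 4394) (block4393)
 (cond (Nat.blt q 4395) (block4394)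
 (block4395))

noncomputable def blocks4396to4399 (q : ℕ) : ℕ :=
 cond (Nat.blt q 4397) (block4396)
 (cond (Nat.blt q 4398) (block4397)
 (block4398))

noncomputable def blocks4399to4401 (q : ℕ) : ℕ :=
 cond (Nat.blt q 4400) (block4399)
 (block4400)

noncomputable def blocks4401to4404 (q : ℕ) : ℕ :=
 cond (Nat.blt q 4402) (block4401)
 (cond (Nat.blt q 4403) (block4402)
 (block4403))

noncomputable def blocks4404to4407 (q : ℕ) : ℕ :=
 cond (Nat.blt q 4405) (block4404)
 (cond (Nat.blt q 4406) (block4405)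
 (block4406))

noncomputable def blocks4407to4410 (q : ℕ) : ℕ :=
 cond (Nat.blt q 4408) (block4407)
 (cond (Nat.blt q 4409) (block4408)
 (block4409))

noncomputable def blocks4410to4412 (q : ℕ) : ℕ :=
 cond (Nat.blt q 4411) (block4410)
 (block4411)

noncomputable def blocks4412to4415 (q : ℕ) : ℕ :=
 cond (Nat.blt q 4413) (block4412)
 (cond (Nat.blt q 4414) (block4413)
 (block4414))

noncomputable def blocks4415to4418 (q : ℕ) : ℕ :=
 cond (Nat.blt q 4416) (block4415)
 (cond (Nat.blt q 4417) (block4416)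
 (block4417))

noncomputable def blocks4418to4421 (q : ℕ) : ℕ :=
 cond (Nat.blt q 4419) (block4418)
 (cond (Nat.blt q 4420) (block4419)
 (block4420))

noncomputable def blocks4378to4421 (q : ℕ) : ℕ :=
 cond (Nat.blt q 4399) (cond (Nat.blt q 4388) (cond (Nat.blt q 4383) (cond (Nat.blt q 4380) (blocks4378to4380 q)
 (blocks4380to4383 q))
 (cond (Nat.blt q 4385) (blocks4383to4385 q)
 (blocks4385to4388 q)))
 (cond (Nat.blt q 4393) (cond (Nat.blt q 4390) (blocks4388to4390 q)
 (blocks4390to4393 q))
 (cond (Nat.blt q 4396) (blocks4393to4396 q)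
 (blocks4396to4399 q))))
 (cond (Nat.blt q 4410) (cond (Nat.blt q 4404) (cond (Nat.blt q 4401) (blocks4399to4401 q)
 (blocks4401to4404 q))
 (cond (Nat.blt q 4407) (blocks4404to4407 q)
 (blocks4407to4410 q)))
 (cond (Nat.blt q 4415) (cond (Nat.blt q 4412) (blocks4410to4412 q)
 (blocks4412to4415 q))
 (cond (Nat.blt q 4418) (blocks4415to4418 q)
 (blocks4418to4421 q))))

noncomputable def blocks4421to4423 (q : ℕ) : ℕ :=
 cond (Nat.blt q 4422) (block4421)
 (block4422)

noncomputable def blocks4423to4426 (q : ℕ) : ℕ :=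
 cond (Nat.blt q 4424) (block4423)
 (cond (Nat.blt q 4425) (block4424)
 (block4425))

noncomputable def blocks4426to4428 (q : ℕ) : ℕ :=
 cond (Nat.blt q 4427) (block4426)
 (block4427)

noncomputable def blocks4428to4431 (q : ℕ) : ℕ :=
 cond (Nat.blt q 4429) (block4428)
 (cond (Nat.blt q 4430) (block4429)
 (block4430))

noncomputable def blocks4431to4433 (q : ℕ) : ℕ :=
 cond (Nat.blt q 4432) (block4431)
 (block4432)

noncomputable def blocks4433to4436 (q : ℕ) : ℕ :=
 cond (Nat.blt q 4434) (block4433)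
 (cond (Nat.blt q 4435) (block4434)
 (block4435))

noncomputable def blocks4436to4439 (q : ℕ) : ℕ :=
 cond (Nat.blt q 4437) (block4436)
 (cond (Nat.blt q 4438) (block4437)
 (block4438))

noncomputable def blocks4439to4442 (q : ℕ) : ℕ :=
 cond (Nat.blt q 4440) (block4439)
 (cond (Nat.blt q 4441) (block4440)
 (block4441))

noncomputable def blocks4442to4444 (q : ℕ) : ℕ :=
 cond (Nat.blt q 4443) (block4442)
 (block4443)

noncomputable def blocks4444to4447 (q : ℕ) : ℕ :=
 cond (Nat.blt q 4445) (block4444)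
 (cond (Nat.blt q 4446) (block4445)
 (block4446))

noncomputable def blocks4447to4449 (q : ℕ) : ℕ :=
 cond (Nat.blt q 4448) (block4447)
 (block4448)

noncomputable def blocks4449to4452 (q : ℕ) : ℕ :=
 cond (Nat.blt q 4450) (block4449)
 (cond (Nat.blt q 4451) (block4450)
 (block4451))

noncomputable def blocks4452to4454 (q : ℕ) : ℕ :=
 cond (Nat.blt q 4453) (block4452)
 (block4453)

noncomputable def blocks4454to4457 (q : ℕ) : ℕ :=
 cond (Nat.blt q 4455) (block4454)
 (cond (Nat.blt q 4456) (block4455)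
 (block4456))

noncomputable def blocks4457to4460 (q : ℕ) : ℕ :=
 cond (Nat.blt q 4458) (block4457)
 (cond (Nat.blt q 4459) (block4458)
 (block4459))

noncomputable def blocks4460to4463 (q : ℕ) : ℕ :=
 cond (Nat.blt q 4461) (block4460)
 (cond (Nat.blt q 4462) (block4461)
 (block4462))

noncomputable def blocks4421to4463 (q : ℕ) : ℕ :=
 cond (Nat.blt q 4442) (cond (Nat.blt q 4431) (cond (Nat.blt q 4426) (cond (Nat.blt q 4423) (blocks4421to4423 q)
 (blocks4423to4426 q))
 (cond (Nat.blt q 4428) (blocks4426to4428 q)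
 (blocks4428to4431 q)))
 (cond (Nat.blt q 4436) (cond (Nat.blt q 4433) (blocks4431to4433 q)
 (blocks4433to4436 q))
 (cond (Nat.blt q 4439) (blocks4436to4439 q)
 (blocks4439to4442 q))))
 (cond (Nat.blt q 4452) (cond (Nat.blt q 4447) (cond (Nat.blt q 4444) (blocks4442to4444 q)
 (blocks4444to4447 q))
 (cond (Nat.blt q 4449) (blocks4447to4449 q)
 (blocks4449to4452 q)))
 (cond (Nat.blt q 4457) (cond (Nat.blt q 4454) (blocks4452to4454 q)
 (blocks4454to4457 q))
 (cond (Nat.blt q 4460) (blocks4457to4460 q)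
 (blocks4460to4463 q))))

noncomputable def blocks4463to4465 (q : ℕ) : ℕ :=
 cond (Nat.blt q 4464) (block4463)
 (block4464)

noncomputable def blocks4465to4468 (q : ℕ) : ℕ :=
 cond (Nat.blt q 4466) (block4465)
 (cond (Nat.blt q 4467) (block4466)
 (block4467))

noncomputable def blocks4468to4470 (q : ℕ) : ℕ :=
 cond (Nat.blt q 4469) (block4468)
 (block4469)

noncomputable def blocks4470to4473 (q : ℕ) : ℕ :=
 cond (Nat.blt q 4471) (block4470)
 (cond (Nat.blt q 4472) (block4471)
 (block4472))

noncomputable def blocks4473to4475 (q : ℕ) : ℕ :=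
 cond (Nat.blt q 4474) (block4473)
 (block4474)

noncomputable def blocks4475to4478 (q : ℕ) : ℕ :=
 cond (Nat.blt q 4476) (block4475)
 (cond (Nat.blt q 4477) (block4476)
 (block4477))

noncomputable def blocks4478to4481 (q : ℕ) : ℕ :=
 cond (Nat.blt q 4479) (block4478)
 (cond (Nat.blt q 4480) (block4479)
 (block4480))

noncomputable def blocks4481to4484 (q : ℕ) : ℕ :=
 cond (Nat.blt q 4482) (block4481)
 (cond (Nat.blt q 4483) (block4482)
 (block4483))

noncomputable def blocks4484to4486 (q : ℕ) : ℕ :=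
 cond (Nat.blt q 4485) (block4484)
 (block4485)

noncomputable def blocks4486to4489 (q : ℕ) : ℕ :=
 cond (Nat.blt q 4487) (block4486)
 (cond (Nat.blt q 4488) (block4487)
 (block4488))

noncomputable def blocks4489to4492 (q : ℕ) : ℕ :=
 cond (Nat.blt q 4490) (block4489)
 (cond (Nat.blt q 4491) (block4490)
 (block4491))

noncomputable def blocks4492to4495 (q : ℕ) : ℕ :=
 cond (Nat.blt q 4493) (block4492)
 (cond (Nat.blt q 4494) (block4493)
 (block4494))

noncomputable def blocks4495to4497 (q : ℕ) : ℕ :=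
 cond (Nat.blt q 4496) (block4495)
 (block4496)

noncomputable def blocks4497to4500 (q : ℕ) : ℕ :=
 cond (Nat.blt q 4498) (block4497)
 (cond (Nat.blt q 4499) (block4498)
 (block4499))

noncomputable def blocks4500to4503 (q : ℕ) : ℕ :=
 cond (Nat.blt q 4501) (block4500)
 (cond (Nat.blt q 4502) (block4501)
 (block4502))

noncomputable def blocks4503to4506 (q : ℕ) : ℕ :=
 cond (Nat.blt q 4504) (block4503)
 (cond (Nat.blt q 4505) (block4504)
 (block4505))

noncomputable def blocks4463to4506 (q : ℕ) : ℕ :=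
 cond (Nat.blt q 4484) (cond (Nat.blt q 4473) (cond (Nat.blt q 4468) (cond (Nat.blt q 4465) (blocks4463to4465 q)
 (blocks4465to4468 q))
 (cond (Nat.blt q 4470) (blocks4468to4470 q)
 (blocks4470to4473 q)))
 (cond (Nat.blt q 4478) (cond (Nat.blt q 4475) (blocks4473to4475 q)
 (blocks4475to4478 q))
 (cond (Nat.blt q 4481) (blocks4478to4481 q)
 (blocks4481to4484 q))))
 (cond (Nat.blt q 4495) (cond (Nat.blt q 4489) (cond (Nat.blt q 4486) (blocks4484to4486 q)
 (blocks4486to4489 q))
 (cond (Nat.blt q 4492) (blocks4489to4492 q)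
 (blocks4492to4495 q)))
 (cond (Nat.blt q 4500) (cond (Nat.blt q 4497) (blocks4495to4497 q)
 (blocks4497to4500 q))
 (cond (Nat.blt q 4503) (blocks4500to4503 q)
 (blocks4503to4506 q))))

noncomputable def blocks4506to4508 (q : ℕ) : ℕ :=
 cond (Nat.blt q 4507) (block4506)
 (block4507)

noncomputable def blocks4508to4511 (q : ℕ) : ℕ :=
 cond (Nat.blt q 4509) (block4508)
 (cond (Nat.blt q 4510) (block4509)
 (block4510))

noncomputable def blocks4511to4513 (q : ℕ) : ℕ :=
 cond (Nat.blt q 4512) (block4511)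
 (block4512)

noncomputable def blocks4513to4516 (q : ℕ) : ℕ :=
 cond (Nat.blt q 4514) (block4513)
 (cond (Nat.blt q 4515) (block4514)
 (block4515))

noncomputable def blocks4516to4518 (q : ℕ) : ℕ :=
 cond (Nat.blt q 4517) (block4516)
 (block4517)

noncomputable def blocks4518to4521 (q : ℕ) : ℕ :=
 cond (Nat.blt q 4519) (block4518)
 (cond (Nat.blt q 4520) (block4519)
 (block4520))

noncomputable def blocks4521to4524 (q : ℕ) : ℕ :=
 cond (Nat.blt q 4522) (block4521)
 (cond (Nat.blt q 4523) (block4522)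
 (block4523))

noncomputable def blocks4524to4527 (q : ℕ) : ℕ :=
 cond (Nat.blt q 4525) (block4524)
 (cond (Nat.blt q 4526) (block4525)
 (block4526))

noncomputable def blocks4527to4529 (q : ℕ) : ℕ :=
 cond (Nat.blt q 4528) (block4527)
 (block4528)

noncomputable def blocks4529to4532 (q : ℕ) : ℕ :=
 cond (Nat.blt q 4530) (block4529)
 (cond (Nat.blt q 4531) (block4530)
 (block4531))

noncomputable def blocks4532to4534 (q : ℕ) : ℕ :=
 cond (Nat.blt q 4533) (block4532)
 (block4533)

noncomputable def blocks4534to4537 (q : ℕ) : ℕ :=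
 cond (Nat.blt q 4535) (block4534)
 (cond (Nat.blt q 4536) (block4535)
 (block4536))

noncomputable def blocks4537to4539 (q : ℕ) : ℕ :=
 cond (Nat.blt q 4538) (block4537)
 (block4538)

noncomputable def blocks4539to4542 (q : ℕ) : ℕ :=
 cond (Nat.blt q 4540) (block4539)
 (cond (Nat.blt q 4541) (block4540)
 (block4541))

noncomputable def blocks4542to4545 (q : ℕ) : ℕ :=
 cond (Nat.blt q 4543) (block4542)
 (cond (Nat.blt q 4544) (block4543)
 (block4544))

noncomputable def blocks4545to4548 (q : ℕ) : ℕ :=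
 cond (Nat.blt q 4546) (block4545)
 (cond (Nat.blt q 4547) (block4546)
 (block4547))

noncomputable def blocks4506to4548 (q : ℕ) : ℕ :=
 cond (Nat.blt q 4527) (cond (Nat.blt q 4516) (cond (Nat.blt q 4511) (cond (Nat.blt q 4508) (blocks4506to4508 q)
 (blocks4508to4511 q))
 (cond (Nat.blt q 4513) (blocks4511to4513 q)
 (blocks4513to4516 q)))
 (cond (Nat.blt q 4521) (cond (Nat.blt q 4518) (blocks4516to4518 q)
 (blocks4518to4521 q))
 (cond (Nat.blt q 4524) (blocks4521to4524 q)
 (blocks4524to4527 q))))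
 (cond (Nat.blt q 4537) (cond (Nat.blt q 4532) (cond (Nat.blt q 4529) (blocks4527to4529 q)
 (blocks4529to4532 q))
 (cond (Nat.blt q 4534) (blocks4532to4534 q)
 (blocks4534to4537 q)))
 (cond (Nat.blt q 4542) (cond (Nat.blt q 4539) (blocks4537to4539 q)
 (blocks4539to4542 q))
 (cond (Nat.blt q 4545) (blocks4542to4545 q)
 (blocks4545to4548 q))))

noncomputable def blocks4548to4550 (q : ℕ) : ℕ :=
 cond (Nat.blt q 4549) (block4548)
 (block4549)

noncomputable def blocks4550to4553 (q : ℕ) : ℕ :=
 cond (Nat.blt q 4551) (block4550)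
 (cond (Nat.blt q 4552) (block4551)
 (block4552))

noncomputable def blocks4553to4555 (q : ℕ) : ℕ :=
 cond (Nat.blt q 4554) (block4553)
 (block4554)

noncomputable def blocks4555to4558 (q : ℕ) : ℕ :=
 cond (Nat.blt q 4556) (block4555)
 (cond (Nat.blt q 4557) (block4556)
 (block4557))

noncomputable def blocks4558to4560 (q : ℕ) : ℕ :=
 cond (Nat.blt q 4559) (block4558)
 (block4559)

noncomputable def blocks4560to4563 (q : ℕ) : ℕ :=
 cond (Nat.blt q 4561) (block4560)
 (cond (Nat.blt q 4562) (block4561)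
 (block4562))

noncomputable def blocks4563to4566 (q : ℕ) : ℕ :=
 cond (Nat.blt q 4564) (block4563)
 (cond (Nat.blt q 4565) (block4564)
 (block4565))

noncomputable def blocks4566to4569 (q : ℕ) : ℕ :=
 cond (Nat.blt q 4567) (block4566)
 (cond (Nat.blt q 4568) (block4567)
 (block4568))

noncomputable def blocks4569to4571 (q : ℕ) : ℕ :=
 cond (Nat.blt q 4570) (block4569)
 (block4570)

noncomputable def blocks4571to4574 (q : ℕ) : ℕ :=
 cond (Nat.blt q 4572) (block4571)
 (cond (Nat.blt q 4573) (block4572)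
 (block4573))

noncomputable def blocks4574to4577 (q : ℕ) : ℕ :=
 cond (Nat.blt q 4575) (block4574)
 (cond (Nat.blt q 4576) (block4575)
 (block4576))

noncomputable def blocks4577to4580 (q : ℕ) : ℕ :=
 cond (Nat.blt q 4578) (block4577)
 (cond (Nat.blt q 4579) (block4578)
 (block4579))

noncomputable def blocks4580to4582 (q : ℕ) : ℕ :=
 cond (Nat.blt q 4581) (block4580)
 (block4581)

noncomputable def blocks4582to4585 (q : ℕ) : ℕ :=
 cond (Nat.blt q 4583) (block4582)
 (cond (Nat.blt q 4584) (block4583)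
 (block4584))

noncomputable def blocks4585to4588 (q : ℕ) : ℕ :=
 cond (Nat.blt q 4586) (block4585)
 (cond (Nat.blt q 4587) (block4586)
 (block4587))

noncomputable def blocks4588to4591 (q : ℕ) : ℕ :=
 cond (Nat.blt q 4589) (block4588)
 (cond (Nat.blt q 4590) (block4589)
 (block4590))

noncomputable def blocks4548to4591 (q : ℕ) : ℕ :=
 cond (Nat.blt q 4569) (cond (Nat.blt q 4558) (cond (Nat.blt q 4553) (cond (Nat.blt q 4550) (blocks4548to4550 q)
 (blocks4550to4553 q))
 (cond (Nat.blt q 4555) (blocks4553to4555 q)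
 (blocks4555to4558 q)))
 (cond (Nat.blt q 4563) (cond (Nat.blt q 4560) (blocks4558to4560 q)
 (blocks4560to4563 q))
 (cond (Nat.blt q 4566) (blocks4563to4566 q)
 (blocks4566to4569 q))))
 (cond (Nat.blt q 4580) (cond (Nat.blt q 4574) (cond (Nat.blt q 4571) (blocks4569to4571 q)
 (blocks4571to4574 q))
 (cond (Nat.blt q 4577) (blocks4574to4577 q)
 (blocks4577to4580 q)))
 (cond (Nat.blt q 4585) (cond (Nat.blt q 4582) (blocks4580to4582 q)
 (blocks4582to4585 q))
 (cond (Nat.blt q 4588) (blocks4585to4588 q)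
 (blocks4588to4591 q))))

noncomputable def blocks4591to4593 (q : ℕ) : ℕ :=
 cond (Nat.blt q 4592) (block4591)
 (block4592)

noncomputable def blocks4593to4596 (q : ℕ) : ℕ :=
 cond (Nat.blt q 4594) (block4593)
 (cond (Nat.blt q 4595) (block4594)
 (block4595))

noncomputable def blocks4596to4598 (q : ℕ) : ℕ :=
 cond (Nat.blt q 4597) (block4596)
 (block4597)

noncomputable def blocks4598to4601 (q : ℕ) : ℕ :=
 cond (Nat.blt q 4599) (block4598)
 (cond (Nat.blt q 4600) (block4599)
 (block4600))

noncomputable def blocks4601to4603 (q : ℕ) : ℕ :=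
 cond (Nat.blt q 4602) (block4601)
 (block4602)

noncomputable def blocks4603to4606 (q : ℕ) : ℕ :=
 cond (Nat.blt q 4604) (block4603)
 (cond (Nat.blt q 4605) (block4604)
 (block4605))

noncomputable def blocks4606to4609 (q : ℕ) : ℕ :=
 cond (Nat.blt q 4607) (block4606)
 (cond (Nat.blt q 4608) (block4607)
 (block4608))

noncomputable def blocks4609to4612 (q : ℕ) : ℕ :=
 cond (Nat.blt q 4610) (block4609)
 (cond (Nat.blt q 4611) (block4610)
 (block4611))

noncomputable def blocks4612to4614 (q : ℕ) : ℕ :=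
 cond (Nat.blt q 4613) (block4612)
 (block4613)

noncomputable def blocks4614to4617 (q : ℕ) : ℕ :=
 cond (Nat.blt q 4615) (block4614)
 (cond (Nat.blt q 4616) (block4615)
 (block4616))

noncomputable def blocks4617to4619 (q : ℕ) : ℕ :=
 cond (Nat.blt q 4618) (block4617)
 (block4618)

noncomputable def blocks4619to4622 (q : ℕ) : ℕ :=
 cond (Nat.blt q 4620) (block4619)
 (cond (Nat.blt q 4621) (block4620)
 (block4621))

noncomputable def blocks4622to4624 (q : ℕ) : ℕ :=
 cond (Nat.blt q 4623) (block4622)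
 (block4623)

noncomputable def blocks4624to4627 (q : ℕ) : ℕ :=
 cond (Nat.blt q 4625) (block4624)
 (cond (Nat.blt q 4626) (block4625)
 (block4626))

noncomputable def blocks4627to4630 (q : ℕ) : ℕ :=
 cond (Nat.blt q 4628) (block4627)
 (cond (Nat.blt q 4629) (block4628)
 (block4629))

noncomputable def blocks4630to4633 (q : ℕ) : ℕ :=
 cond (Nat.blt q 4631) (block4630)
 (cond (Nat.blt q 4632) (block4631)
 (block4632))

noncomputable def blocks4591to4633 (q : ℕ) : ℕ :=
 cond (Nat.blt q 4612) (cond (Nat.blt q 4601) (cond (Nat.blt q 4596) (cond (Nat.blt q 4593) (blocks4591to4593 q)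
 (blocks4593to4596 q))
 (cond (Nat.blt q 4598) (blocks4596to4598 q)
 (blocks4598to4601 q)))
 (cond (Nat.blt q 4606) (cond (Nat.blt q 4603) (blocks4601to4603 q)
 (blocks4603to4606 q))
 (cond (Nat.blt q 4609) (blocks4606to4609 q)
 (blocks4609to4612 q))))
 (cond (Nat.blt q 4622) (cond (Nat.blt q 4617) (cond (Nat.blt q 4614) (blocks4612to4614 q)
 (blocks4614to4617 q))
 (cond (Nat.blt q 4619) (blocks4617to4619 q)
 (blocks4619to4622 q)))
 (cond (Nat.blt q 4627) (cond (Nat.blt q 4624) (blocks4622to4624 q)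
 (blocks4624to4627 q))
 (cond (Nat.blt q 4630) (blocks4627to4630 q)
 (blocks4630to4633 q))))

noncomputable def blocks4633to4635 (q : ℕ) : ℕ :=
 cond (Nat.blt q 4634) (block4633)
 (block4634)

noncomputable def blocks4635to4638 (q : ℕ) : ℕ :=
 cond (Nat.blt q 4636) (block4635)
 (cond (Nat.blt q 4637) (block4636)
 (block4637))

noncomputable def blocks4638to4640 (q : ℕ) : ℕ :=
 cond (Nat.blt q 4639) (block4638)
 (block4639)

noncomputable def blocks4640to4643 (q : ℕ) : ℕ :=
 cond (Nat.blt q 4641) (block4640)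
 (cond (Nat.blt q 4642) (block4641)
 (block4642))

noncomputable def blocks4643to4645 (q : ℕ) : ℕ :=
 cond (Nat.blt q 4644) (block4643)
 (block4644)

noncomputable def blocks4645to4648 (q : ℕ) : ℕ :=
 cond (Nat.blt q 4646) (block4645)
 (cond (Nat.blt q 4647) (block4646)
 (block4647))

noncomputable def blocks4648to4651 (q : ℕ) : ℕ :=
 cond (Nat.blt q 4649) (block4648)
 (cond (Nat.blt q 4650) (block4649)
 (block4650))

noncomputable def blocks4651to4654 (q : ℕ) : ℕ :=
 cond (Nat.blt q 4652) (block4651)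
 (cond (Nat.blt q 4653) (block4652)
 (block4653))

noncomputable def blocks4654to4656 (q : ℕ) : ℕ :=
 cond (Nat.blt q 4655) (block4654)
 (block4655)

noncomputable def blocks4656to4659 (q : ℕ) : ℕ :=
 cond (Nat.blt q 4657) (block4656)
 (cond (Nat.blt q 4658) (block4657)
 (block4658))

noncomputable def blocks4659to4662 (q : ℕ) : ℕ :=
 cond (Nat.blt q 4660) (block4659)
 (cond (Nat.blt q 4661) (block4660)
 (block4661))

noncomputable def blocks4662to4665 (q : ℕ) : ℕ :=
 cond (Nat.blt q 4663) (block4662)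
 (cond (Nat.blt q 4664) (block4663)
 (block4664))

noncomputable def blocks4665to4667 (q : ℕ) : ℕ :=
 cond (Nat.blt q 4666) (block4665)
 (block4666)

noncomputable def blocks4667to4670 (q : ℕ) : ℕ :=
 cond (Nat.blt q 4668) (block4667)
 (cond (Nat.blt q 4669) (block4668)
 (block4669))

noncomputable def blocks4670to4673 (q : ℕ) : ℕ :=
 cond (Nat.blt q 4671) (block4670)
 (cond (Nat.blt q 4672) (block4671)
 (block4672))

noncomputable def blocks4673to4676 (q : ℕ) : ℕ :=
 cond (Nat.blt q 4674) (block4673)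
 (cond (Nat.blt q 4675) (block4674)
 (block4675))

noncomputable def blocks4633to4676 (q : ℕ) : ℕ :=
 cond (Nat.blt q 4654) (cond (Nat.blt q 4643) (cond (Nat.blt q 4638) (cond (Nat.blt q 4635) (blocks4633to4635 q)
 (blocks4635to4638 q))
 (cond (Nat.blt q 4640) (blocks4638to4640 q)
 (blocks4640to4643 q)))
 (cond (Nat.blt q 4648) (cond (Nat.blt q 4645) (blocks4643to4645 q)
 (blocks4645to4648 q))
 (cond (Nat.blt q 4651) (blocks4648to4651 q)
 (blocks4651to4654 q))))
 (cond (Nat.blt q 4665) (cond (Nat.blt q 4659) (cond (Nat.blt q 4656) (blocks4654to4656 q)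
 (blocks4656to4659 q))
 (cond (Nat.blt q 4662) (blocks4659to4662 q)
 (blocks4662to4665 q)))
 (cond (Nat.blt q 4670) (cond (Nat.blt q 4667) (blocks4665to4667 q)
 (blocks4667to4670 q))
 (cond (Nat.blt q 4673) (blocks4670to4673 q)
 (blocks4673to4676 q))))

noncomputable def blocks4676to4678 (q : ℕ) : ℕ :=
 cond (Nat.blt q 4677) (block4676)
 (block4677)

noncomputable def blocks4678to4681 (q : ℕ) : ℕ :=
 cond (Nat.blt q 4679) (block4678)
 (cond (Nat.blt q 4680) (block4679)
 (block4680))

noncomputable def blocks4681to4683 (q : ℕ) : ℕ :=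
 cond (Nat.blt q 4682) (block4681)
 (block4682)

noncomputable def blocks4683to4686 (q : ℕ) : ℕ :=
 cond (Nat.blt q 4684) (block4683)
 (cond (Nat.blt q 4685) (block4684)
 (block4685))

noncomputable def blocks4686to4688 (q : ℕ) : ℕ :=
 cond (Nat.blt q 4687) (block4686)
 (block4687)

noncomputable def blocks4688to4691 (q : ℕ) : ℕ :=
 cond (Nat.blt q 4689) (block4688)
 (cond (Nat.blt q 4690) (block4689)
 (block4690))

noncomputable def blocks4691to4694 (q : ℕ) : ℕ :=
 cond (Nat.blt q 4692) (block4691)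
 (cond (Nat.blt q 4693) (block4692)
 (block4693))

noncomputable def blocks4694to4697 (q : ℕ) : ℕ :=
 cond (Nat.blt q 4695) (block4694)
 (cond (Nat.blt q 4696) (block4695)
 (block4696))

noncomputable def blocks4697to4699 (q : ℕ) : ℕ :=
 cond (Nat.blt q 4698) (block4697)
 (block4698)

noncomputable def blocks4699to4702 (q : ℕ) : ℕ :=
 cond (Nat.blt q 4700) (block4699)
 (cond (Nat.blt q 4701) (block4700)
 (block4701))

noncomputable def blocks4702to4704 (q : ℕ) : ℕ :=
 cond (Nat.blt q 4703) (block4702)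
 (block4703)

noncomputable def blocks4704to4707 (q : ℕ) : ℕ :=
 cond (Nat.blt q 4705) (block4704)
 (cond (Nat.blt q 4706) (block4705)
 (block4706))

noncomputable def blocks4707to4709 (q : ℕ) : ℕ :=
 cond (Nat.blt q 4708) (block4707)
 (block4708)

noncomputable def blocks4709to4712 (q : ℕ) : ℕ :=
 cond (Nat.blt q 4710) (block4709)
 (cond (Nat.blt q 4711) (block4710)
 (block4711))

noncomputable def blocks4712to4715 (q : ℕ) : ℕ :=
 cond (Nat.blt q 4713) (block4712)
 (cond (Nat.blt q 4714) (block4713)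
 (block4714))

noncomputable def blocks4715to4718 (q : ℕ) : ℕ :=
 cond (Nat.blt q 4716) (block4715)
 (cond (Nat.blt q 4717) (block4716)
 (block4717))

noncomputable def blocks4676to4718 (q : ℕ) : ℕ :=
 cond (Nat.blt q 4697) (cond (Nat.blt q 4686) (cond (Nat.blt q 4681) (cond (Nat.blt q 4678) (blocks4676to4678 q)
 (blocks4678to4681 q))
 (cond (Nat.blt q 4683) (blocks4681to4683 q)
 (blocks4683to4686 q)))
 (cond (Nat.blt q 4691) (cond (Nat.blt q 4688) (blocks4686to4688 q)
 (blocks4688to4691 q))
 (cond (Nat.blt q 4694) (blocks4691to4694 q)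
 (blocks4694to4697 q))))
 (cond (Nat.blt q 4707) (cond (Nat.blt q 4702) (cond (Nat.blt q 4699) (blocks4697to4699 q)
 (blocks4699to4702 q))
 (cond (Nat.blt q 4704) (blocks4702to4704 q)
 (blocks4704to4707 q)))
 (cond (Nat.blt q 4712) (cond (Nat.blt q 4709) (blocks4707to4709 q)
 (blocks4709to4712 q))
 (cond (Nat.blt q 4715) (blocks4712to4715 q)
 (blocks4715to4718 q))))

noncomputable def blocks4718to4720 (q : ℕ) : ℕ :=
 cond (Nat.blt q 4719) (block4718)
 (block4719)

noncomputable def blocks4720to4723 (q : ℕ) : ℕ :=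
 cond (Nat.blt q 4721) (block4720)
 (cond (Nat.blt q 4722) (block4721)
 (block4722))

noncomputable def blocks4723to4725 (q : ℕ) : ℕ :=
 cond (Nat.blt q 4724) (block4723)
 (block4724)

noncomputable def blocks4725to4728 (q : ℕ) : ℕ :=
 cond (Nat.blt q 4726) (block4725)
 (cond (Nat.blt q 4727) (block4726)
 (block4727))

noncomputable def blocks4728to4730 (q : ℕ) : ℕ :=
 cond (Nat.blt q 4729) (block4728)
 (block4729)

noncomputable def blocks4730to4733 (q : ℕ) : ℕ :=
 cond (Nat.blt q 4731) (block4730)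
 (cond (Nat.blt q 4732) (block4731)
 (block4732))

noncomputable def blocks4733to4736 (q : ℕ) : ℕ :=
 cond (Nat.blt q 4734) (block4733)
 (cond (Nat.blt q 4735) (block4734)
 (block4735))

noncomputable def blocks4736to4739 (q : ℕ) : ℕ :=
 cond (Nat.blt q 4737) (block4736)
 (cond (Nat.blt q 4738) (block4737)
 (block4738))

noncomputable def blocks4739to4741 (q : ℕ) : ℕ :=
 cond (Nat.blt q 4740) (block4739)
 (block4740)

noncomputable def blocks4741to4744 (q : ℕ) : ℕ :=
 cond (Nat.blt q 4742) (block4741)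
 (cond (Nat.blt q 4743) (block4742)
 (block4743))

noncomputable def blocks4744to4747 (q : ℕ) : ℕ :=
 cond (Nat.blt q 4745) (block4744)
 (cond (Nat.blt q 4746) (block4745)
 (block4746))

noncomputable def blocks4747to4750 (q : ℕ) : ℕ :=
 cond (Nat.blt q 4748) (block4747)
 (cond (Nat.blt q 4749) (block4748)
 (block4749))

noncomputable def blocks4750to4752 (q : ℕ) : ℕ :=
 cond (Nat.blt q 4751) (block4750)
 (block4751)

noncomputable def blocks4752to4755 (q : ℕ) : ℕ :=
 cond (Nat.blt q 4753) (block4752)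
 (cond (Nat.blt q 4754) (block4753)
 (block4754))

noncomputable def blocks4755to4758 (q : ℕ) : ℕ :=
 cond (Nat.blt q 4756) (block4755)
 (cond (Nat.blt q 4757) (block4756)
 (block4757))

noncomputable def blocks4758to4761 (q : ℕ) : ℕ :=
 cond (Nat.blt q 4759) (block4758)
 (cond (Nat.blt q 4760) (block4759)
 (block4760))

noncomputable def blocks4718to4761 (q : ℕ) : ℕ :=
 cond (Nat.blt q 4739) (cond (Nat.blt q 4728) (cond (Nat.blt q 4723) (cond (Nat.blt q 4720) (blocks4718to4720 q)
 (blocks4720to4723 q))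
 (cond (Nat.blt q 4725) (blocks4723to4725 q)
 (blocks4725to4728 q)))
 (cond (Nat.blt q 4733) (cond (Nat.blt q 4730) (blocks4728to4730 q)
 (blocks4730to4733 q))
 (cond (Nat.blt q 4736) (blocks4733to4736 q)
 (blocks4736to4739 q))))
 (cond (Nat.blt q 4750) (cond (Nat.blt q 4744) (cond (Nat.blt q 4741) (blocks4739to4741 q)
 (blocks4741to4744 q))
 (cond (Nat.blt q 4747) (blocks4744to4747 q)
 (blocks4747to4750 q)))
 (cond (Nat.blt q 4755) (cond (Nat.blt q 4752) (blocks4750to4752 q)
 (blocks4752to4755 q))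
 (cond (Nat.blt q 4758) (blocks4755to4758 q)
 (blocks4758to4761 q))))

noncomputable def blocks4081to4761 (q : ℕ) : ℕ :=
 cond (Nat.blt q 4421) (cond (Nat.blt q 4251) (cond (Nat.blt q 4166) (cond (Nat.blt q 4123) (blocks4081to4123 q)
 (blocks4123to4166 q))
 (cond (Nat.blt q 4208) (blocks4166to4208 q)
 (blocks4208to4251 q)))
 (cond (Nat.blt q 4336) (cond (Nat.blt q 4293) (blocks4251to4293 q)
 (blocks4293to4336 q))
 (cond (Nat.blt q 4378) (blocks4336to4378 q)
 (blocks4378to4421 q))))
 (cond (Nat.blt q 4591) (cond (Nat.blt q 4506) (cond (Nat.blt q 4463) (blocks4421to4463 q)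
 (blocks4463to4506 q))
 (cond (Nat.blt q 4548) (blocks4506to4548 q)
 (blocks4548to4591 q)))
 (cond (Nat.blt q 4676) (cond (Nat.blt q 4633) (blocks4591to4633 q)
 (blocks4633to4676 q))
 (cond (Nat.blt q 4718) (blocks4676to4718 q)
 (blocks4718to4761 q))))

noncomputable def blocks4761to4763 (q : ℕ) : ℕ :=
 cond (Nat.blt q 4762) (block4761)
 (block4762)

noncomputable def blocks4763to4766 (q : ℕ) : ℕ :=
 cond (Nat.blt q 4764) (block4763)
 (cond (Nat.blt q 4765) (block4764)
 (block4765))

noncomputable def blocks4766to4768 (q : ℕ) : ℕ :=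
 cond (Nat.blt q 4767) (block4766)
 (block4767)

noncomputable def blocks4768to4771 (q : ℕ) : ℕ :=
 cond (Nat.blt q 4769) (block4768)
 (cond (Nat.blt q 4770) (block4769)
 (block4770))

noncomputable def blocks4771to4773 (q : ℕ) : ℕ :=
 cond (Nat.blt q 4772) (block4771)
 (block4772)

noncomputable def blocks4773to4776 (q : ℕ) : ℕ :=
 cond (Nat.blt q 4774) (block4773)
 (cond (Nat.blt q 4775) (block4774)
 (block4775))

noncomputable def blocks4776to4779 (q : ℕ) : ℕ :=
 cond (Nat.blt q 4777) (block4776)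
 (cond (Nat.blt q 4778) (block4777)
 (block4778))

noncomputable def blocks4779to4782 (q : ℕ) : ℕ :=
 cond (Nat.blt q 4780) (block4779)
 (cond (Nat.blt q 4781) (block4780)
 (block4781))

noncomputable def blocks4782to4784 (q : ℕ) : ℕ :=
 cond (Nat.blt q 4783) (block4782)
 (block4783)

noncomputable def blocks4784to4787 (q : ℕ) : ℕ :=
 cond (Nat.blt q 4785) (block4784)
 (cond (Nat.blt q 4786) (block4785)
 (block4786))

noncomputable def blocks4787to4789 (q : ℕ) : ℕ :=
 cond (Nat.blt q 4788) (block4787)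
 (block4788)

noncomputable def blocks4789to4792 (q : ℕ) : ℕ :=
 cond (Nat.blt q 4790) (block4789)
 (cond (Nat.blt q 4791) (block4790)
 (block4791))

noncomputable def blocks4792to4794 (q : ℕ) : ℕ :=
 cond (Nat.blt q 4793) (block4792)
 (block4793)

noncomputable def blocks4794to4797 (q : ℕ) : ℕ :=
 cond (Nat.blt q 4795) (block4794)
 (cond (Nat.blt q 4796) (block4795)
 (block4796))

noncomputable def blocks4797to4800 (q : ℕ) : ℕ :=
 cond (Nat.blt q 4798) (block4797)
 (cond (Nat.blt q 4799) (block4798)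
 (block4799))

noncomputable def blocks4800to4803 (q : ℕ) : ℕ :=
 cond (Nat.blt q 4801) (block4800)
 (cond (Nat.blt q 4802) (block4801)
 (block4802))

noncomputable def blocks4761to4803 (q : ℕ) : ℕ :=
 cond (Nat.blt q 4782) (cond (Nat.blt q 4771) (cond (Nat.blt q 4766) (cond (Nat.blt q 4763) (blocks4761to4763 q)
 (blocks4763to4766 q))
 (cond (Nat.blt q 4768) (blocks4766to4768 q)
 (blocks4768to4771 q)))
 (cond (Nat.blt q 4776) (cond (Nat.blt q 4773) (blocks4771to4773 q)
 (blocks4773to4776 q))
 (cond (Nat.blt q 4779) (blocks4776to4779 q)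
 (blocks4779to4782 q))))
 (cond (Nat.blt q 4792) (cond (Nat.blt q 4787) (cond (Nat.blt q 4784) (blocks4782to4784 q)
 (blocks4784to4787 q))
 (cond (Nat.blt q 4789) (blocks4787to4789 q)
 (blocks4789to4792 q)))
 (cond (Nat.blt q 4797) (cond (Nat.blt q 4794) (blocks4792to4794 q)
 (blocks4794to4797 q))
 (cond (Nat.blt q 4800) (blocks4797to4800 q)
 (blocks4800to4803 q))))

noncomputable def blocks4803to4805 (q : ℕ) : ℕ :=
 cond (Nat.blt q 4804) (block4803)
 (block4804)

noncomputable def blocks4805to4808 (q : ℕ) : ℕ :=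
 cond (Nat.blt q 4806) (block4805)
 (cond (Nat.blt q 4807) (block4806)
 (block4807))

noncomputable def blocks4808to4810 (q : ℕ) : ℕ :=
 cond (Nat.blt q 4809) (block4808)
 (block4809)

noncomputable def blocks4810to4813 (q : ℕ) : ℕ :=
 cond (Nat.blt q 4811) (block4810)
 (cond (Nat.blt q 4812) (block4811)
 (block4812))

noncomputable def blocks4813to4815 (q : ℕ) : ℕ :=
 cond (Nat.blt q 4814) (block4813)
 (block4814)

noncomputable def blocks4815to4818 (q : ℕ) : ℕ :=
 cond (Nat.blt q 4816) (block4815)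
 (cond (Nat.blt q 4817) (block4816)
 (block4817))

noncomputable def blocks4818to4821 (q : ℕ) : ℕ :=
 cond (Nat.blt q 4819) (block4818)
 (cond (Nat.blt q 4820) (block4819)
 (block4820))

noncomputable def blocks4821to4824 (q : ℕ) : ℕ :=
 cond (Nat.blt q 4822) (block4821)
 (cond (Nat.blt q 4823) (block4822)
 (block4823))

noncomputable def blocks4824to4826 (q : ℕ) : ℕ :=
 cond (Nat.blt q 4825) (block4824)
 (block4825)

noncomputable def blocks4826to4829 (q : ℕ) : ℕ :=
 cond (Nat.blt q 4827) (block4826)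
 (cond (Nat.blt q 4828) (block4827)
 (block4828))

noncomputable def blocks4829to4832 (q : ℕ) : ℕ :=
 cond (Nat.blt q 4830) (block4829)
 (cond (Nat.blt q 4831) (block4830)
 (block4831))

noncomputable def blocks4832to4835 (q : ℕ) : ℕ :=
 cond (Nat.blt q 4833) (block4832)
 (cond (Nat.blt q 4834) (block4833)
 (block4834))

noncomputable def blocks4835to4837 (q : ℕ) : ℕ :=
 cond (Nat.blt q 4836) (block4835)
 (block4836)

noncomputable def blocks4837to4840 (q : ℕ) : ℕ :=
 cond (Nat.blt q 4838) (block4837)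
 (cond (Nat.blt q 4839) (block4838)
 (block4839))

noncomputable def blocks4840to4843 (q : ℕ) : ℕ :=
 cond (Nat.blt q 4841) (block4840)
 (cond (Nat.blt q 4842) (block4841)
 (block4842))

noncomputable def blocks4843to4846 (q : ℕ) : ℕ :=
 cond (Nat.blt q 4844) (block4843)
 (cond (Nat.blt q 4845) (block4844)
 (block4845))

noncomputable def blocks4803to4846 (q : ℕ) : ℕ :=
 cond (Nat.blt q 4824) (cond (Nat.blt q 4813) (cond (Nat.blt q 4808) (cond (Nat.blt q 4805) (blocks4803to4805 q)
 (blocks4805to4808 q))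
 (cond (Nat.blt q 4810) (blocks4808to4810 q)
 (blocks4810to4813 q)))
 (cond (Nat.blt q 4818) (cond (Nat.blt q 4815) (blocks4813to4815 q)
 (blocks4815to4818 q))
 (cond (Nat.blt q 4821) (blocks4818to4821 q)
 (blocks4821to4824 q))))
 (cond (Nat.blt q 4835) (cond (Nat.blt q 4829) (cond (Nat.blt q 4826) (blocks4824to4826 q)
 (blocks4826to4829 q))
 (cond (Nat.blt q 4832) (blocks4829to4832 q)
 (blocks4832to4835 q)))
 (cond (Nat.blt q 4840) (cond (Nat.blt q 4837) (blocks4835to4837 q)
 (blocks4837to4840 q))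
 (cond (Nat.blt q 4843) (blocks4840to4843 q)
 (blocks4843to4846 q))))

noncomputable def blocks4846to4848 (q : ℕ) : ℕ :=
 cond (Nat.blt q 4847) (block4846)
 (block4847)

noncomputable def blocks4848to4851 (q : ℕ) : ℕ :=
 cond (Nat.blt q 4849) (block4848)
 (cond (Nat.blt q 4850) (block4849)
 (block4850))

noncomputable def blocks4851to4853 (q : ℕ) : ℕ :=
 cond (Nat.blt q 4852) (block4851)
 (block4852)

noncomputable def blocks4853to4856 (q : ℕ) : ℕ :=
 cond (Nat.blt q 4854) (block4853)
 (cond (Nat.blt q 4855) (block4854)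
 (block4855))

noncomputable def blocks4856to4858 (q : ℕ) : ℕ :=
 cond (Nat.blt q 4857) (block4856)
 (block4857)

noncomputable def blocks4858to4861 (q : ℕ) : ℕ :=
 cond (Nat.blt q 4859) (block4858)
 (cond (Nat.blt q 4860) (block4859)
 (block4860))

noncomputable def blocks4861to4864 (q : ℕ) : ℕ :=
 cond (Nat.blt q 4862) (block4861)
 (cond (Nat.blt q 4863) (block4862)
 (block4863))

noncomputable def blocks4864to4867 (q : ℕ) : ℕ :=
 cond (Nat.blt q 4865) (block4864)
 (cond (Nat.blt q 4866) (block4865)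
 (block4866))

noncomputable def blocks4867to4869 (q : ℕ) : ℕ :=
 cond (Nat.blt q 4868) (block4867)
 (block4868)

noncomputable def blocks4869to4872 (q : ℕ) : ℕ :=
 cond (Nat.blt q 4870) (block4869)
 (cond (Nat.blt q 4871) (block4870)
 (block4871))

noncomputable def blocks4872to4874 (q : ℕ) : ℕ :=
 cond (Nat.blt q 4873) (block4872)
 (block4873)

noncomputable def blocks4874to4877 (q : ℕ) : ℕ :=
 cond (Nat.blt q 4875) (block4874)
 (cond (Nat.blt q 4876) (block4875)
 (block4876))

noncomputable def blocks4877to4879 (q : ℕ) : ℕ :=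
 cond (Nat.blt q 4878) (block4877)
 (block4878)

noncomputable def blocks4879to4882 (q : ℕ) : ℕ :=
 cond (Nat.blt q 4880) (block4879)
 (cond (Nat.blt q 4881) (block4880)
 (block4881))

noncomputable def blocks4882to4885 (q : ℕ) : ℕ :=
 cond (Nat.blt q 4883) (block4882)
 (cond (Nat.blt q 4884) (block4883)
 (block4884))

noncomputable def blocks4885to4888 (q : ℕ) : ℕ :=
 cond (Nat.blt q 4886) (block4885)
 (cond (Nat.blt q 4887) (block4886)
 (block4887))

noncomputable def blocks4846to4888 (q : ℕ) : ℕ :=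
 cond (Nat.blt q 4867) (cond (Nat.blt q 4856) (cond (Nat.blt q 4851) (cond (Nat.blt q 4848) (blocks4846to4848 q)
 (blocks4848to4851 q))
 (cond (Nat.blt q 4853) (blocks4851to4853 q)
 (blocks4853to4856 q)))
 (cond (Nat.blt q 4861) (cond (Nat.blt q 4858) (blocks4856to4858 q)
 (blocks4858to4861 q))
 (cond (Nat.blt q 4864) (blocks4861to4864 q)
 (blocks4864to4867 q))))
 (cond (Nat.blt q 4877) (cond (Nat.blt q 4872) (cond (Nat.blt q 4869) (blocks4867to4869 q)
 (blocks4869to4872 q))
 (cond (Nat.blt q 4874) (blocks4872to4874 q)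
 (blocks4874to4877 q)))
 (cond (Nat.blt q 4882) (cond (Nat.blt q 4879) (blocks4877to4879 q)
 (blocks4879to4882 q))
 (cond (Nat.blt q 4885) (blocks4882to4885 q)
 (blocks4885to4888 q))))

noncomputable def blocks4888to4890 (q : ℕ) : ℕ :=
 cond (Nat.blt q 4889) (block4888)
 (block4889)

noncomputable def blocks4890to4893 (q : ℕ) : ℕ :=
 cond (Nat.blt q 4891) (block4890)
 (cond (Nat.blt q 4892) (block4891)
 (block4892))

noncomputable def blocks4893to4895 (q : ℕ) : ℕ :=
 cond (Nat.blt q 4894) (block4893)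
 (block4894)

noncomputable def blocks4895to4898 (q : ℕ) : ℕ :=
 cond (Nat.blt q 4896) (block4895)
 (cond (Nat.blt q 4897) (block4896)
 (block4897))

noncomputable def blocks4898to4900 (q : ℕ) : ℕ :=
 cond (Nat.blt q 4899) (block4898)
 (block4899)

noncomputable def blocks4900to4903 (q : ℕ) : ℕ :=
 cond (Nat.blt q 4901) (block4900)
 (cond (Nat.blt q 4902) (block4901)
 (block4902))

noncomputable def blocks4903to4906 (q : ℕ) : ℕ :=
 cond (Nat.blt q 4904) (block4903)
 (cond (Nat.blt q 4905) (block4904)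
 (block4905))

noncomputable def blocks4906to4909 (q : ℕ) : ℕ :=
 cond (Nat.blt q 4907) (block4906)
 (cond (Nat.blt q 4908) (block4907)
 (block4908))

noncomputable def blocks4909to4911 (q : ℕ) : ℕ :=
 cond (Nat.blt q 4910) (block4909)
 (block4910)

noncomputable def blocks4911to4914 (q : ℕ) : ℕ :=
 cond (Nat.blt q 4912) (block4911)
 (cond (Nat.blt q 4913) (block4912)
 (block4913))

noncomputable def blocks4914to4917 (q : ℕ) : ℕ :=
 cond (Nat.blt q 4915) (block4914)
 (cond (Nat.blt q 4916) (block4915)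
 (block4916))

noncomputable def blocks4917to4920 (q : ℕ) : ℕ :=
 cond (Nat.blt q 4918) (block4917)
 (cond (Nat.blt q 4919) (block4918)
 (block4919))

noncomputable def blocks4920to4922 (q : ℕ) : ℕ :=
 cond (Nat.blt q 4921) (block4920)
 (block4921)

noncomputable def blocks4922to4925 (q : ℕ) : ℕ :=
 cond (Nat.blt q 4923) (block4922)
 (cond (Nat.blt q 4924) (block4923)
 (block4924))

noncomputable def blocks4925to4928 (q : ℕ) : ℕ :=
 cond (Nat.blt q 4926) (block4925)
 (cond (Nat.blt q 4927) (block4926)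
 (block4927))

noncomputable def blocks4928to4931 (q : ℕ) : ℕ :=
 cond (Nat.blt q 4929) (block4928)
 (cond (Nat.blt q 4930) (block4929)
 (block4930))

noncomputable def blocks4888to4931 (q : ℕ) : ℕ :=
 cond (Nat.blt q 4909) (cond (Nat.blt q 4898) (cond (Nat.blt q 4893) (cond (Nat.blt q 4890) (blocks4888to4890 q)
 (blocks4890to4893 q))
 (cond (Nat.blt q 4895) (blocks4893to4895 q)
 (blocks4895to4898 q)))
 (cond (Nat.blt q 4903) (cond (Nat.blt q 4900) (blocks4898to4900 q)
 (blocks4900to4903 q))
 (cond (Nat.blt q 4906) (blocks4903to4906 q)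
 (blocks4906to4909 q))))
 (cond (Nat.blt q 4920) (cond (Nat.blt q 4914) (cond (Nat.blt q 4911) (blocks4909to4911 q)
 (blocks4911to4914 q))
 (cond (Nat.blt q 4917) (blocks4914to4917 q)
 (blocks4917to4920 q)))
 (cond (Nat.blt q 4925) (cond (Nat.blt q 4922) (blocks4920to4922 q)
 (blocks4922to4925 q))
 (cond (Nat.blt q 4928) (blocks4925to4928 q)
 (blocks4928to4931 q))))

noncomputable def blocks4931to4933 (q : ℕ) : ℕ :=
 cond (Nat.blt q 4932) (block4931)
 (block4932)

noncomputable def blocks4933to4936 (q : ℕ) : ℕ :=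
 cond (Nat.blt q 4934) (block4933)
 (cond (Nat.blt q 4935) (block4934)
 (block4935))

noncomputable def blocks4936to4938 (q : ℕ) : ℕ :=
 cond (Nat.blt q 4937) (block4936)
 (block4937)

noncomputable def blocks4938to4941 (q : ℕ) : ℕ :=
 cond (Nat.blt q 4939) (block4938)
 (cond (Nat.blt q 4940) (block4939)
 (block4940))

noncomputable def blocks4941to4943 (q : ℕ) : ℕ :=
 cond (Nat.blt q 4942) (block4941)
 (block4942)

noncomputable def blocks4943to4946 (q : ℕ) : ℕ :=
 cond (Nat.blt q 4944) (block4943)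
 (cond (Nat.blt q 4945) (block4944)
 (block4945))

noncomputable def blocks4946to4949 (q : ℕ) : ℕ :=
 cond (Nat.blt q 4947) (block4946)
 (cond (Nat.blt q 4948) (block4947)
 (block4948))

noncomputable def blocks4949to4952 (q : ℕ) : ℕ :=
 cond (Nat.blt q 4950) (block4949)
 (cond (Nat.blt q 4951) (block4950)
 (block4951))

noncomputable def blocks4952to4954 (q : ℕ) : ℕ :=
 cond (Nat.blt q 4953) (block4952)
 (block4953)

noncomputable def blocks4954to4957 (q : ℕ) : ℕ :=
 cond (Nat.blt q 4955) (block4954)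
 (cond (Nat.blt q 4956) (block4955)
 (block4956))

noncomputable def blocks4957to4959 (q : ℕ) : ℕ :=
 cond (Nat.blt q 4958) (block4957)
 (block4958)

noncomputable def blocks4959to4962 (q : ℕ) : ℕ :=
 cond (Nat.blt q 4960) (block4959)
 (cond (Nat.blt q 4961) (block4960)
 (block4961))

noncomputable def blocks4962to4964 (q : ℕ) : ℕ :=
 cond (Nat.blt q 4963) (block4962)
 (block4963)

noncomputable def blocks4964to4967 (q : ℕ) : ℕ :=
 cond (Nat.blt q 4965) (block4964)
 (cond (Nat.blt q 4966) (block4965)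
 (block4966))

noncomputable def blocks4967to4970 (q : ℕ) : ℕ :=
 cond (Nat.blt q 4968) (block4967)
 (cond (Nat.blt q 4969) (block4968)
 (block4969))

noncomputable def blocks4970to4973 (q : ℕ) : ℕ :=
 cond (Nat.blt q 4971) (block4970)
 (cond (Nat.blt q 4972) (block4971)
 (block4972))

noncomputable def blocks4931to4973 (q : ℕ) : ℕ :=
 cond (Nat.blt q 4952) (cond (Nat.blt q 4941) (cond (Nat.blt q 4936) (cond (Nat.blt q 4933) (blocks4931to4933 q)
 (blocks4933to4936 q))
 (cond (Nat.blt q 4938) (blocks4936to4938 q)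
 (blocks4938to4941 q)))
 (cond (Nat.blt q 4946) (cond (Nat.blt q 4943) (blocks4941to4943 q)
 (blocks4943to4946 q))
 (cond (Nat.blt q 4949) (blocks4946to4949 q)
 (blocks4949to4952 q))))
 (cond (Nat.blt q 4962) (cond (Nat.blt q 4957) (cond (Nat.blt q 4954) (blocks4952to4954 q)
 (blocks4954to4957 q))
 (cond (Nat.blt q 4959) (blocks4957to4959 q)
 (blocks4959to4962 q)))
 (cond (Nat.blt q 4967) (cond (Nat.blt q 4964) (blocks4962to4964 q)
 (blocks4964to4967 q))
 (cond (Nat.blt q 4970) (blocks4967to4970 q)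
 (blocks4970to4973 q))))

noncomputable def blocks4973to4975 (q : ℕ) : ℕ :=
 cond (Nat.blt q 4974) (block4973)
 (block4974)

noncomputable def blocks4975to4978 (q : ℕ) : ℕ :=
 cond (Nat.blt q 4976) (block4975)
 (cond (Nat.blt q 4977) (block4976)
 (block4977))

noncomputable def blocks4978to4980 (q : ℕ) : ℕ :=
 cond (Nat.blt q 4979) (block4978)
 (block4979)

noncomputable def blocks4980to4983 (q : ℕ) : ℕ :=
 cond (Nat.blt q 4981) (block4980)
 (cond (Nat.blt q 4982) (block4981)
 (block4982))

noncomputable def blocks4983to4985 (q : ℕ) : ℕ :=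
 cond (Nat.blt q 4984) (block4983)
 (block4984)

noncomputable def blocks4985to4988 (q : ℕ) : ℕ :=
 cond (Nat.blt q 4986) (block4985)
 (cond (Nat.blt q 4987) (block4986)
 (block4987))

noncomputable def blocks4988to4991 (q : ℕ) : ℕ :=
 cond (Nat.blt q 4989) (block4988)
 (cond (Nat.blt q 4990) (block4989)
 (block4990))

noncomputable def blocks4991to4994 (q : ℕ) : ℕ :=
 cond (Nat.blt q 4992) (block4991)
 (cond (Nat.blt q 4993) (block4992)
 (block4993))

noncomputable def blocks4994to4996 (q : ℕ) : ℕ :=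
 cond (Nat.blt q 4995) (block4994)
 (block4995)

noncomputable def blocks4996to4999 (q : ℕ) : ℕ :=
 cond (Nat.blt q 4997) (block4996)
 (cond (Nat.blt q 4998) (block4997)
 (block4998))

noncomputable def blocks4999to5002 (q : ℕ) : ℕ :=
 cond (Nat.blt q 5000) (block4999)
 (cond (Nat.blt q 5001) (block5000)
 (block5001))

noncomputable def blocks5002to5005 (q : ℕ) : ℕ :=
 cond (Nat.blt q 5003) (block5002)
 (cond (Nat.blt q 5004) (block5003)
 (block5004))

noncomputable def blocks5005to5007 (q : ℕ) : ℕ :=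
 cond (Nat.blt q 5006) (block5005)
 (block5006)

noncomputable def blocks5007to5010 (q : ℕ) : ℕ :=
 cond (Nat.blt q 5008) (block5007)
 (cond (Nat.blt q 5009) (block5008)
 (block5009))

noncomputable def blocks5010to5013 (q : ℕ) : ℕ :=
 cond (Nat.blt q 5011) (block5010)
 (cond (Nat.blt q 5012) (block5011)
 (block5012))

noncomputable def blocks5013to5016 (q : ℕ) : ℕ :=
 cond (Nat.blt q 5014) (block5013)
 (cond (Nat.blt q 5015) (block5014)
 (block5015))

noncomputable def blocks4973to5016 (q : ℕ) : ℕ :=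
 cond (Nat.blt q 4994) (cond (Nat.blt q 4983) (cond (Nat.blt q 4978) (cond (Nat.blt q 4975) (blocks4973to4975 q)
 (blocks4975to4978 q))
 (cond (Nat.blt q 4980) (blocks4978to4980 q)
 (blocks4980to4983 q)))
 (cond (Nat.blt q 4988) (cond (Nat.blt q 4985) (blocks4983to4985 q)
 (blocks4985to4988 q))
 (cond (Nat.blt q 4991) (blocks4988to4991 q)
 (blocks4991to4994 q))))
 (cond (Nat.blt q 5005) (cond (Nat.blt q 4999) (cond (Nat.blt q 4996) (blocks4994to4996 q)
 (blocks4996to4999 q))
 (cond (Nat.blt q 5002) (blocks4999to5002 q)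
 (blocks5002to5005 q)))
 (cond (Nat.blt q 5010) (cond (Nat.blt q 5007) (blocks5005to5007 q)
 (blocks5007to5010 q))
 (cond (Nat.blt q 5013) (blocks5010to5013 q)
 (blocks5013to5016 q))))

noncomputable def blocks5016to5018 (q : ℕ) : ℕ :=
 cond (Nat.blt q 5017) (block5016)
 (block5017)

noncomputable def blocks5018to5021 (q : ℕ) : ℕ :=
 cond (Nat.blt q 5019) (block5018)
 (cond (Nat.blt q 5020) (block5019)
 (block5020))

noncomputable def blocks5021to5023 (q : ℕ) : ℕ :=
 cond (Nat.blt q 5022) (block5021)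
 (block5022)

noncomputable def blocks5023to5026 (q : ℕ) : ℕ :=
 cond (Nat.blt q 5024) (block5023)
 (cond (Nat.blt q 5025) (block5024)
 (block5025))

noncomputable def blocks5026to5028 (q : ℕ) : ℕ :=
 cond (Nat.blt q 5027) (block5026)
 (block5027)

noncomputable def blocks5028to5031 (q : ℕ) : ℕ :=
 cond (Nat.blt q 5029) (block5028)
 (cond (Nat.blt q 5030) (block5029)
 (block5030))

noncomputable def blocks5031to5034 (q : ℕ) : ℕ :=
 cond (Nat.blt q 5032) (block5031)
 (cond (Nat.blt q 5033) (block5032)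
 (block5033))

noncomputable def blocks5034to5037 (q : ℕ) : ℕ :=
 cond (Nat.blt q 5035) (block5034)
 (cond (Nat.blt q 5036) (block5035)
 (block5036))

noncomputable def blocks5037to5039 (q : ℕ) : ℕ :=
 cond (Nat.blt q 5038) (block5037)
 (block5038)

noncomputable def blocks5039to5042 (q : ℕ) : ℕ :=
 cond (Nat.blt q 5040) (block5039)
 (cond (Nat.blt q 5041) (block5040)
 (block5041))

noncomputable def blocks5042to5044 (q : ℕ) : ℕ :=
 cond (Nat.blt q 5043) (block5042)
 (block5043)

noncomputable def blocks5044to5047 (q : ℕ) : ℕ :=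
 cond (Nat.blt q 5045) (block5044)
 (cond (Nat.blt q 5046) (block5045)
 (block5046))

noncomputable def blocks5047to5049 (q : ℕ) : ℕ :=
 cond (Nat.blt q 5048) (block5047)
 (block5048)

noncomputable def blocks5049to5052 (q : ℕ) : ℕ :=
 cond (Nat.blt q 5050) (block5049)
 (cond (Nat.blt q 5051) (block5050)
 (block5051))

noncomputable def blocks5052to5055 (q : ℕ) : ℕ :=
 cond (Nat.blt q 5053) (block5052)
 (cond (Nat.blt q 5054) (block5053)
 (block5054))

noncomputable def blocks5055to5058 (q : ℕ) : ℕ :=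
 cond (Nat.blt q 5056) (block5055)
 (cond (Nat.blt q 5057) (block5056)
 (block5057))

noncomputable def blocks5016to5058 (q : ℕ) : ℕ :=
 cond (Nat.blt q 5037) (cond (Nat.blt q 5026) (cond (Nat.blt q 5021) (cond (Nat.blt q 5018) (blocks5016to5018 q)
 (blocks5018to5021 q))
 (cond (Nat.blt q 5023) (blocks5021to5023 q)
 (blocks5023to5026 q)))
 (cond (Nat.blt q 5031) (cond (Nat.blt q 5028) (blocks5026to5028 q)
 (blocks5028to5031 q))
 (cond (Nat.blt q 5034) (blocks5031to5034 q)
 (blocks5034to5037 q))))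
 (cond (Nat.blt q 5047) (cond (Nat.blt q 5042) (cond (Nat.blt q 5039) (blocks5037to5039 q)
 (blocks5039to5042 q))
 (cond (Nat.blt q 5044) (blocks5042to5044 q)
 (blocks5044to5047 q)))
 (cond (Nat.blt q 5052) (cond (Nat.blt q 5049) (blocks5047to5049 q)
 (blocks5049to5052 q))
 (cond (Nat.blt q 5055) (blocks5052to5055 q)
 (blocks5055to5058 q))))

noncomputable def blocks5058to5060 (q : ℕ) : ℕ :=
 cond (Nat.blt q 5059) (block5058)
 (block5059)

noncomputable def blocks5060to5063 (q : ℕ) : ℕ :=
 cond (Nat.blt q 5061) (block5060)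
 (cond (Nat.blt q 5062) (block5061)
 (block5062))

noncomputable def blocks5063to5065 (q : ℕ) : ℕ :=
 cond (Nat.blt q 5064) (block5063)
 (block5064)

noncomputable def blocks5065to5068 (q : ℕ) : ℕ :=
 cond (Nat.blt q 5066) (block5065)
 (cond (Nat.blt q 5067) (block5066)
 (block5067))

noncomputable def blocks5068to5070 (q : ℕ) : ℕ :=
 cond (Nat.blt q 5069) (block5068)
 (block5069)

noncomputable def blocks5070to5073 (q : ℕ) : ℕ :=
 cond (Nat.blt q 5071) (block5070)
 (cond (Nat.blt q 5072) (block5071)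
 (block5072))

noncomputable def blocks5073to5076 (q : ℕ) : ℕ :=
 cond (Nat.blt q 5074) (block5073)
 (cond (Nat.blt q 5075) (block5074)
 (block5075))

noncomputable def blocks5076to5079 (q : ℕ) : ℕ :=
 cond (Nat.blt q 5077) (block5076)
 (cond (Nat.blt q 5078) (block5077)
 (block5078))

noncomputable def blocks5079to5081 (q : ℕ) : ℕ :=
 cond (Nat.blt q 5080) (block5079)
 (block5080)

noncomputable def blocks5081to5084 (q : ℕ) : ℕ :=
 cond (Nat.blt q 5082) (block5081)
 (cond (Nat.blt q 5083) (block5082)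
 (block5083))

noncomputable def blocks5084to5087 (q : ℕ) : ℕ :=
 cond (Nat.blt q 5085) (block5084)
 (cond (Nat.blt q 5086) (block5085)
 (block5086))

noncomputable def blocks5087to5090 (q : ℕ) : ℕ :=
 cond (Nat.blt q 5088) (block5087)
 (cond (Nat.blt q 5089) (block5088)
 (block5089))

noncomputable def blocks5090to5092 (q : ℕ) : ℕ :=
 cond (Nat.blt q 5091) (block5090)
 (block5091)

noncomputable def blocks5092to5095 (q : ℕ) : ℕ :=
 cond (Nat.blt q 5093) (block5092)
 (cond (Nat.blt q 5094) (block5093)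
 (block5094))

noncomputable def blocks5095to5098 (q : ℕ) : ℕ :=
 cond (Nat.blt q 5096) (block5095)
 (cond (Nat.blt q 5097) (block5096)
 (block5097))

noncomputable def blocks5098to5101 (q : ℕ) : ℕ :=
 cond (Nat.blt q 5099) (block5098)
 (cond (Nat.blt q 5100) (block5099)
 (block5100))

noncomputable def blocks5058to5101 (q : ℕ) : ℕ :=
 cond (Nat.blt q 5079) (cond (Nat.blt q 5068) (cond (Nat.blt q 5063) (cond (Nat.blt q 5060) (blocks5058to5060 q)
 (blocks5060to5063 q))
 (cond (Nat.blt q 5065) (blocks5063to5065 q)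
 (blocks5065to5068 q)))
 (cond (Nat.blt q 5073) (cond (Nat.blt q 5070) (blocks5068to5070 q)
 (blocks5070to5073 q))
 (cond (Nat.blt q 5076) (blocks5073to5076 q)
 (blocks5076to5079 q))))
 (cond (Nat.blt q 5090) (cond (Nat.blt q 5084) (cond (Nat.blt q 5081) (blocks5079to5081 q)
 (blocks5081to5084 q))
 (cond (Nat.blt q 5087) (blocks5084to5087 q)
 (blocks5087to5090 q)))
 (cond (Nat.blt q 5095) (cond (Nat.blt q 5092) (blocks5090to5092 q)
 (blocks5092to5095 q))
 (cond (Nat.blt q 5098) (blocks5095to5098 q)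
 (blocks5098to5101 q))))

noncomputable def blocks5101to5103 (q : ℕ) : ℕ :=
 cond (Nat.blt q 5102) (block5101)
 (block5102)

noncomputable def blocks5103to5106 (q : ℕ) : ℕ :=
 cond (Nat.blt q 5104) (block5103)
 (cond (Nat.blt q 5105) (block5104)
 (block5105))

noncomputable def blocks5106to5108 (q : ℕ) : ℕ :=
 cond (Nat.blt q 5107) (block5106)
 (block5107)

noncomputable def blocks5108to5111 (q : ℕ) : ℕ :=
 cond (Nat.blt q 5109) (block5108)
 (cond (Nat.blt q 5110) (block5109)
 (block5110))

noncomputable def blocks5111to5113 (q : ℕ) : ℕ :=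
 cond (Nat.blt q 5112) (block5111)
 (block5112)

noncomputable def blocks5113to5116 (q : ℕ) : ℕ :=
 cond (Nat.blt q 5114) (block5113)
 (cond (Nat.blt q 5115) (block5114)
 (block5115))

noncomputable def blocks5116to5119 (q : ℕ) : ℕ :=
 cond (Nat.blt q 5117) (block5116)
 (cond (Nat.blt q 5118) (block5117)
 (block5118))

noncomputable def blocks5119to5122 (q : ℕ) : ℕ :=
 cond (Nat.blt q 5120) (block5119)
 (cond (Nat.blt q 5121) (block5120)
 (block5121))

noncomputable def blocks5122to5124 (q : ℕ) : ℕ :=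
 cond (Nat.blt q 5123) (block5122)
 (block5123)

noncomputable def blocks5124to5127 (q : ℕ) : ℕ :=
 cond (Nat.blt q 5125) (block5124)
 (cond (Nat.blt q 5126) (block5125)
 (block5126))

noncomputable def blocks5127to5129 (q : ℕ) : ℕ :=
 cond (Nat.blt q 5128) (block5127)
 (block5128)

noncomputable def blocks5129to5132 (q : ℕ) : ℕ :=
 cond (Nat.blt q 5130) (block5129)
 (cond (Nat.blt q 5131) (block5130)
 (block5131))

noncomputable def blocks5132to5134 (q : ℕ) : ℕ :=
 cond (Nat.blt q 5133) (block5132)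
 (block5133)

noncomputable def blocks5134to5137 (q : ℕ) : ℕ :=
 cond (Nat.blt q 5135) (block5134)
 (cond (Nat.blt q 5136) (block5135)
 (block5136))

noncomputable def blocks5137to5140 (q : ℕ) : ℕ :=
 cond (Nat.blt q 5138) (block5137)
 (cond (Nat.blt q 5139) (block5138)
 (block5139))

noncomputable def blocks5140to5143 (q : ℕ) : ℕ :=
 cond (Nat.blt q 5141) (block5140)
 (cond (Nat.blt q 5142) (block5141)
 (block5142))

noncomputable def blocks5101to5143 (q : ℕ) : ℕ :=
 cond (Nat.blt q 5122) (cond (Nat.blt q 5111) (cond (Nat.blt q 5106) (cond (Nat.blt q 5103) (blocks5101to5103 q)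
 (blocks5103to5106 q))
 (cond (Nat.blt q 5108) (blocks5106to5108 q)
 (blocks5108to5111 q)))
 (cond (Nat.blt q 5116) (cond (Nat.blt q 5113) (blocks5111to5113 q)
 (blocks5113to5116 q))
 (cond (Nat.blt q 5119) (blocks5116to5119 q)
 (blocks5119to5122 q))))
 (cond (Nat.blt q 5132) (cond (Nat.blt q 5127) (cond (Nat.blt q 5124) (blocks5122to5124 q)
 (blocks5124to5127 q))
 (cond (Nat.blt q 5129) (blocks5127to5129 q)
 (blocks5129to5132 q)))
 (cond (Nat.blt q 5137) (cond (Nat.blt q 5134) (blocks5132to5134 q)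
 (blocks5134to5137 q))
 (cond (Nat.blt q 5140) (blocks5137to5140 q)
 (blocks5140to5143 q))))

noncomputable def blocks5143to5145 (q : ℕ) : ℕ :=
 cond (Nat.blt q 5144) (block5143)
 (block5144)

noncomputable def blocks5145to5148 (q : ℕ) : ℕ :=
 cond (Nat.blt q 5146) (block5145)
 (cond (Nat.blt q 5147) (block5146)
 (block5147))

noncomputable def blocks5148to5150 (q : ℕ) : ℕ :=
 cond (Nat.blt q 5149) (block5148)
 (block5149)

noncomputable def blocks5150to5153 (q : ℕ) : ℕ :=
 cond (Nat.blt q 5151) (block5150)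
 (cond (Nat.blt q 5152) (block5151)
 (block5152))

noncomputable def blocks5153to5155 (q : ℕ) : ℕ :=
 cond (Nat.blt q 5154) (block5153)
 (block5154)

noncomputable def blocks5155to5158 (q : ℕ) : ℕ :=
 cond (Nat.blt q 5156) (block5155)
 (cond (Nat.blt q 5157) (block5156)
 (block5157))

noncomputable def blocks5158to5161 (q : ℕ) : ℕ :=
 cond (Nat.blt q 5159) (block5158)
 (cond (Nat.blt q 5160) (block5159)
 (block5160))

noncomputable def blocks5161to5164 (q : ℕ) : ℕ :=
 cond (Nat.blt q 5162) (block5161)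
 (cond (Nat.blt q 5163) (block5162)
 (block5163))

noncomputable def blocks5164to5166 (q : ℕ) : ℕ :=
 cond (Nat.blt q 5165) (block5164)
 (block5165)

noncomputable def blocks5166to5169 (q : ℕ) : ℕ :=
 cond (Nat.blt q 5167) (block5166)
 (cond (Nat.blt q 5168) (block5167)
 (block5168))

noncomputable def blocks5169to5172 (q : ℕ) : ℕ :=
 cond (Nat.blt q 5170) (block5169)
 (cond (Nat.blt q 5171) (block5170)
 (block5171))

noncomputable def blocks5172to5175 (q : ℕ) : ℕ :=
 cond (Nat.blt q 5173) (block5172)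
 (cond (Nat.blt q 5174) (block5173)
 (block5174))

noncomputable def blocks5175to5177 (q : ℕ) : ℕ :=
 cond (Nat.blt q 5176) (block5175)
 (block5176)

noncomputable def blocks5177to5180 (q : ℕ) : ℕ :=
 cond (Nat.blt q 5178) (block5177)
 (cond (Nat.blt q 5179) (block5178)
 (block5179))

noncomputable def blocks5180to5183 (q : ℕ) : ℕ :=
 cond (Nat.blt q 5181) (block5180)
 (cond (Nat.blt q 5182) (block5181)
 (block5182))

noncomputable def blocks5183to5186 (q : ℕ) : ℕ :=
 cond (Nat.blt q 5184) (block5183)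
 (cond (Nat.blt q 5185) (block5184)
 (block5185))

noncomputable def blocks5143to5186 (q : ℕ) : ℕ :=
 cond (Nat.blt q 5164) (cond (Nat.blt q 5153) (cond (Nat.blt q 5148) (cond (Nat.blt q 5145) (blocks5143to5145 q)
 (blocks5145to5148 q))
 (cond (Nat.blt q 5150) (blocks5148to5150 q)
 (blocks5150to5153 q)))
 (cond (Nat.blt q 5158) (cond (Nat.blt q 5155) (blocks5153to5155 q)
 (blocks5155to5158 q))
 (cond (Nat.blt q 5161) (blocks5158to5161 q)
 (blocks5161to5164 q))))
 (cond (Nat.blt q 5175) (cond (Nat.blt q 5169) (cond (Nat.blt q 5166) (blocks5164to5166 q)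
 (blocks5166to5169 q))
 (cond (Nat.blt q 5172) (blocks5169to5172 q)
 (blocks5172to5175 q)))
 (cond (Nat.blt q 5180) (cond (Nat.blt q 5177) (blocks5175to5177 q)
 (blocks5177to5180 q))
 (cond (Nat.blt q 5183) (blocks5180to5183 q)
 (blocks5183to5186 q))))

noncomputable def blocks5186to5188 (q : ℕ) : ℕ :=
 cond (Nat.blt q 5187) (block5186)
 (block5187)

noncomputable def blocks5188to5191 (q : ℕ) : ℕ :=
 cond (Nat.blt q 5189) (block5188)
 (cond (Nat.blt q 5190) (block5189)
 (block5190))

noncomputable def blocks5191to5193 (q : ℕ) : ℕ :=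
 cond (Nat.blt q 5192) (block5191)
 (block5192)

noncomputable def blocks5193to5196 (q : ℕ) : ℕ :=
 cond (Nat.blt q 5194) (block5193)
 (cond (Nat.blt q 5195) (block5194)
 (block5195))

noncomputable def blocks5196to5198 (q : ℕ) : ℕ :=
 cond (Nat.blt q 5197) (block5196)
 (block5197)

noncomputable def blocks5198to5201 (q : ℕ) : ℕ :=
 cond (Nat.blt q 5199) (block5198)
 (cond (Nat.blt q 5200) (block5199)
 (block5200))

noncomputable def blocks5201to5204 (q : ℕ) : ℕ :=
 cond (Nat.blt q 5202) (block5201)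
 (cond (Nat.blt q 5203) (block5202)
 (block5203))

noncomputable def blocks5204to5207 (q : ℕ) : ℕ :=
 cond (Nat.blt q 5205) (block5204)
 (cond (Nat.blt q 5206) (block5205)
 (block5206))

noncomputable def blocks5207to5209 (q : ℕ) : ℕ :=
 cond (Nat.blt q 5208) (block5207)
 (block5208)

noncomputable def blocks5209to5212 (q : ℕ) : ℕ :=
 cond (Nat.blt q 5210) (block5209)
 (cond (Nat.blt q 5211) (block5210)
 (block5211))

noncomputable def blocks5212to5214 (q : ℕ) : ℕ :=
 cond (Nat.blt q 5213) (block5212)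
 (block5213)

noncomputable def blocks5214to5217 (q : ℕ) : ℕ :=
 cond (Nat.blt q 5215) (block5214)
 (cond (Nat.blt q 5216) (block5215)
 (block5216))

noncomputable def blocks5217to5219 (q : ℕ) : ℕ :=
 cond (Nat.blt q 5218) (block5217)
 (block5218)

noncomputable def blocks5219to5222 (q : ℕ) : ℕ :=
 cond (Nat.blt q 5220) (block5219)
 (cond (Nat.blt q 5221) (block5220)
 (block5221))

noncomputable def blocks5222to5225 (q : ℕ) : ℕ :=
 cond (Nat.blt q 5223) (block5222)
 (cond (Nat.blt q 5224) (block5223)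
 (block5224))

noncomputable def blocks5225to5228 (q : ℕ) : ℕ :=
 cond (Nat.blt q 5226) (block5225)
 (cond (Nat.blt q 5227) (block5226)
 (block5227))

noncomputable def blocks5186to5228 (q : ℕ) : ℕ :=
 cond (Nat.blt q 5207) (cond (Nat.blt q 5196) (cond (Nat.blt q 5191) (cond (Nat.blt q 5188) (blocks5186to5188 q)
 (blocks5188to5191 q))
 (cond (Nat.blt q 5193) (blocks5191to5193 q)
 (blocks5193to5196 q)))
 (cond (Nat.blt q 5201) (cond (Nat.blt q 5198) (blocks5196to5198 q)
 (blocks5198to5201 q))
 (cond (Nat.blt q 5204) (blocks5201to5204 q)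
 (blocks5204to5207 q))))
 (cond (Nat.blt q 5217) (cond (Nat.blt q 5212) (cond (Nat.blt q 5209) (blocks5207to5209 q)
 (blocks5209to5212 q))
 (cond (Nat.blt q 5214) (blocks5212to5214 q)
 (blocks5214to5217 q)))
 (cond (Nat.blt q 5222) (cond (Nat.blt q 5219) (blocks5217to5219 q)
 (blocks5219to5222 q))
 (cond (Nat.blt q 5225) (blocks5222to5225 q)
 (blocks5225to5228 q))))

noncomputable def blocks5228to5230 (q : ℕ) : ℕ :=
 cond (Nat.blt q 5229) (block5228)
 (block5229)

noncomputable def blocks5230to5233 (q : ℕ) : ℕ :=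
 cond (Nat.blt q 5231) (block5230)
 (cond (Nat.blt q 5232) (block5231)
 (block5232))

noncomputable def blocks5233to5235 (q : ℕ) : ℕ :=
 cond (Nat.blt q 5234) (block5233)
 (block5234)

noncomputable def blocks5235to5238 (q : ℕ) : ℕ :=
 cond (Nat.blt q 5236) (block5235)
 (cond (Nat.blt q 5237) (block5236)
 (block5237))

noncomputable def blocks5238to5240 (q : ℕ) : ℕ :=
 cond (Nat.blt q 5239) (block5238)
 (block5239)

noncomputable def blocks5240to5243 (q : ℕ) : ℕ :=
 cond (Nat.blt q 5241) (block5240)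
 (cond (Nat.blt q 5242) (block5241)
 (block5242))

noncomputable def blocks5243to5246 (q : ℕ) : ℕ :=
 cond (Nat.blt q 5244) (block5243)
 (cond (Nat.blt q 5245) (block5244)
 (block5245))

noncomputable def blocks5246to5249 (q : ℕ) : ℕ :=
 cond (Nat.blt q 5247) (block5246)
 (cond (Nat.blt q 5248) (block5247)
 (block5248))

noncomputable def blocks5249to5251 (q : ℕ) : ℕ :=
 cond (Nat.blt q 5250) (block5249)
 (block5250)

noncomputable def blocks5251to5254 (q : ℕ) : ℕ :=
 cond (Nat.blt q 5252) (block5251)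
 (cond (Nat.blt q 5253) (block5252)
 (block5253))

noncomputable def blocks5254to5257 (q : ℕ) : ℕ :=
 cond (Nat.blt q 5255) (block5254)
 (cond (Nat.blt q 5256) (block5255)
 (block5256))

noncomputable def blocks5257to5260 (q : ℕ) : ℕ :=
 cond (Nat.blt q 5258) (block5257)
 (cond (Nat.blt q 5259) (block5258)
 (block5259))

noncomputable def blocks5260to5262 (q : ℕ) : ℕ :=
 cond (Nat.blt q 5261) (block5260)
 (block5261)

noncomputable def blocks5262to5265 (q : ℕ) : ℕ :=
 cond (Nat.blt q 5263) (block5262)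
 (cond (Nat.blt q 5264) (block5263)
 (block5264))

noncomputable def blocks5265to5268 (q : ℕ) : ℕ :=
 cond (Nat.blt q 5266) (block5265)
 (cond (Nat.blt q 5267) (block5266)
 (block5267))

noncomputable def blocks5268to5271 (q : ℕ) : ℕ :=
 cond (Nat.blt q 5269) (block5268)
 (cond (Nat.blt q 5270) (block5269)
 (block5270))

noncomputable def blocks5228to5271 (q : ℕ) : ℕ :=
 cond (Nat.blt q 5249) (cond (Nat.blt q 5238) (cond (Nat.blt q 5233) (cond (Nat.blt q 5230) (blocks5228to5230 q)
 (blocks5230to5233 q))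
 (cond (Nat.blt q 5235) (blocks5233to5235 q)
 (blocks5235to5238 q)))
 (cond (Nat.blt q 5243) (cond (Nat.blt q 5240) (blocks5238to5240 q)
 (blocks5240to5243 q))
 (cond (Nat.blt q 5246) (blocks5243to5246 q)
 (blocks5246to5249 q))))
 (cond (Nat.blt q 5260) (cond (Nat.blt q 5254) (cond (Nat.blt q 5251) (blocks5249to5251 q)
 (blocks5251to5254 q))
 (cond (Nat.blt q 5257) (blocks5254to5257 q)
 (blocks5257to5260 q)))
 (cond (Nat.blt q 5265) (cond (Nat.blt q 5262) (blocks5260to5262 q)
 (blocks5262to5265 q))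
 (cond (Nat.blt q 5268) (blocks5265to5268 q)
 (blocks5268to5271 q))))

noncomputable def blocks5271to5273 (q : ℕ) : ℕ :=
 cond (Nat.blt q 5272) (block5271)
 (block5272)

noncomputable def blocks5273to5276 (q : ℕ) : ℕ :=
 cond (Nat.blt q 5274) (block5273)
 (cond (Nat.blt q 5275) (block5274)
 (block5275))

noncomputable def blocks5276to5278 (q : ℕ) : ℕ :=
 cond (Nat.blt q 5277) (block5276)
 (block5277)

noncomputable def blocks5278to5281 (q : ℕ) : ℕ :=
 cond (Nat.blt q 5279) (block5278)
 (cond (Nat.blt q 5280) (block5279)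
 (block5280))

noncomputable def blocks5281to5283 (q : ℕ) : ℕ :=
 cond (Nat.blt q 5282) (block5281)
 (block5282)

noncomputable def blocks5283to5286 (q : ℕ) : ℕ :=
 cond (Nat.blt q 5284) (block5283)
 (cond (Nat.blt q 5285) (block5284)
 (block5285))

noncomputable def blocks5286to5289 (q : ℕ) : ℕ :=
 cond (Nat.blt q 5287) (block5286)
 (cond (Nat.blt q 5288) (block5287)
 (block5288))

noncomputable def blocks5289to5292 (q : ℕ) : ℕ :=
 cond (Nat.blt q 5290) (block5289)
 (cond (Nat.blt q 5291) (block5290)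
 (block5291))

noncomputable def blocks5292to5294 (q : ℕ) : ℕ :=
 cond (Nat.blt q 5293) (block5292)
 (block5293)

noncomputable def blocks5294to5297 (q : ℕ) : ℕ :=
 cond (Nat.blt q 5295) (block5294)
 (cond (Nat.blt q 5296) (block5295)
 (block5296))

noncomputable def blocks5297to5299 (q : ℕ) : ℕ :=
 cond (Nat.blt q 5298) (block5297)
 (block5298)

noncomputable def blocks5299to5302 (q : ℕ) : ℕ :=
 cond (Nat.blt q 5300) (block5299)
 (cond (Nat.blt q 5301) (block5300)
 (block5301))

noncomputable def blocks5302to5304 (q : ℕ) : ℕ :=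
 cond (Nat.blt q 5303) (block5302)
 (block5303)

noncomputable def blocks5304to5307 (q : ℕ) : ℕ :=
 cond (Nat.blt q 5305) (block5304)
 (cond (Nat.blt q 5306) (block5305)
 (block5306))

noncomputable def blocks5307to5310 (q : ℕ) : ℕ :=
 cond (Nat.blt q 5308) (block5307)
 (cond (Nat.blt q 5309) (block5308)
 (block5309))

noncomputable def blocks5310to5313 (q : ℕ) : ℕ :=
 cond (Nat.blt q 5311) (block5310)
 (cond (Nat.blt q 5312) (block5311)
 (block5312))

noncomputable def blocks5271to5313 (q : ℕ) : ℕ :=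
 cond (Nat.blt q 5292) (cond (Nat.blt q 5281) (cond (Nat.blt q 5276) (cond (Nat.blt q 5273) (blocks5271to5273 q)
 (blocks5273to5276 q))
 (cond (Nat.blt q 5278) (blocks5276to5278 q)
 (blocks5278to5281 q)))
 (cond (Nat.blt q 5286) (cond (Nat.blt q 5283) (blocks5281to5283 q)
 (blocks5283to5286 q))
 (cond (Nat.blt q 5289) (blocks5286to5289 q)
 (blocks5289to5292 q))))
 (cond (Nat.blt q 5302) (cond (Nat.blt q 5297) (cond (Nat.blt q 5294) (blocks5292to5294 q)
 (blocks5294to5297 q))
 (cond (Nat.blt q 5299) (blocks5297to5299 q)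
 (blocks5299to5302 q)))
 (cond (Nat.blt q 5307) (cond (Nat.blt q 5304) (blocks5302to5304 q)
 (blocks5304to5307 q))
 (cond (Nat.blt q 5310) (blocks5307to5310 q)
 (blocks5310to5313 q))))

noncomputable def blocks5313to5315 (q : ℕ) : ℕ :=
 cond (Nat.blt q 5314) (block5313)
 (block5314)

noncomputable def blocks5315to5318 (q : ℕ) : ℕ :=
 cond (Nat.blt q 5316) (block5315)
 (cond (Nat.blt q 5317) (block5316)
 (block5317))

noncomputable def blocks5318to5320 (q : ℕ) : ℕ :=
 cond (Nat.blt q 5319) (block5318)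
 (block5319)

noncomputable def blocks5320to5323 (q : ℕ) : ℕ :=
 cond (Nat.blt q 5321) (block5320)
 (cond (Nat.blt q 5322) (block5321)
 (block5322))

noncomputable def blocks5323to5325 (q : ℕ) : ℕ :=
 cond (Nat.blt q 5324) (block5323)
 (block5324)

noncomputable def blocks5325to5328 (q : ℕ) : ℕ :=
 cond (Nat.blt q 5326) (block5325)
 (cond (Nat.blt q 5327) (block5326)
 (block5327))

noncomputable def blocks5328to5331 (q : ℕ) : ℕ :=
 cond (Nat.blt q 5329) (block5328)
 (cond (Nat.blt q 5330) (block5329)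
 (block5330))

noncomputable def blocks5331to5334 (q : ℕ) : ℕ :=
 cond (Nat.blt q 5332) (block5331)
 (cond (Nat.blt q 5333) (block5332)
 (block5333))

noncomputable def blocks5334to5336 (q : ℕ) : ℕ :=
 cond (Nat.blt q 5335) (block5334)
 (block5335)

noncomputable def blocks5336to5339 (q : ℕ) : ℕ :=
 cond (Nat.blt q 5337) (block5336)
 (cond (Nat.blt q 5338) (block5337)
 (block5338))

noncomputable def blocks5339to5342 (q : ℕ) : ℕ :=
 cond (Nat.blt q 5340) (block5339)
 (cond (Nat.blt q 5341) (block5340)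
 (block5341))

noncomputable def blocks5342to5345 (q : ℕ) : ℕ :=
 cond (Nat.blt q 5343) (block5342)
 (cond (Nat.blt q 5344) (block5343)
 (block5344))

noncomputable def blocks5345to5347 (q : ℕ) : ℕ :=
 cond (Nat.blt q 5346) (block5345)
 (block5346)

noncomputable def blocks5347to5350 (q : ℕ) : ℕ :=
 cond (Nat.blt q 5348) (block5347)
 (cond (Nat.blt q 5349) (block5348)
 (block5349))

noncomputable def blocks5350to5353 (q : ℕ) : ℕ :=
 cond (Nat.blt q 5351) (block5350)
 (cond (Nat.blt q 5352) (block5351)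
 (block5352))

noncomputable def blocks5353to5356 (q : ℕ) : ℕ :=
 cond (Nat.blt q 5354) (block5353)
 (cond (Nat.blt q 5355) (block5354)
 (block5355))

noncomputable def blocks5313to5356 (q : ℕ) : ℕ :=
 cond (Nat.blt q 5334) (cond (Nat.blt q 5323) (cond (Nat.blt q 5318) (cond (Nat.blt q 5315) (blocks5313to5315 q)
 (blocks5315to5318 q))
 (cond (Nat.blt q 5320) (blocks5318to5320 q)
 (blocks5320to5323 q)))
 (cond (Nat.blt q 5328) (cond (Nat.blt q 5325) (blocks5323to5325 q)
 (blocks5325to5328 q))
 (cond (Nat.blt q 5331) (blocks5328to5331 q)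
 (blocks5331to5334 q))))
 (cond (Nat.blt q 5345) (cond (Nat.blt q 5339) (cond (Nat.blt q 5336) (blocks5334to5336 q)
 (blocks5336to5339 q))
 (cond (Nat.blt q 5342) (blocks5339to5342 q)
 (blocks5342to5345 q)))
 (cond (Nat.blt q 5350) (cond (Nat.blt q 5347) (blocks5345to5347 q)
 (blocks5347to5350 q))
 (cond (Nat.blt q 5353) (blocks5350to5353 q)
 (blocks5353to5356 q))))

noncomputable def blocks5356to5358 (q : ℕ) : ℕ :=
 cond (Nat.blt q 5357) (block5356)
 (block5357)

noncomputable def blocks5358to5361 (q : ℕ) : ℕ :=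
 cond (Nat.blt q 5359) (block5358)
 (cond (Nat.blt q 5360) (block5359)
 (block5360))

noncomputable def blocks5361to5363 (q : ℕ) : ℕ :=
 cond (Nat.blt q 5362) (block5361)
 (block5362)

noncomputable def blocks5363to5366 (q : ℕ) : ℕ :=
 cond (Nat.blt q 5364) (block5363)
 (cond (Nat.blt q 5365) (block5364)
 (block5365))

noncomputable def blocks5366to5368 (q : ℕ) : ℕ :=
 cond (Nat.blt q 5367) (block5366)
 (block5367)

noncomputable def blocks5368to5371 (q : ℕ) : ℕ :=
 cond (Nat.blt q 5369) (block5368)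
 (cond (Nat.blt q 5370) (block5369)
 (block5370))

noncomputable def blocks5371to5374 (q : ℕ) : ℕ :=
 cond (Nat.blt q 5372) (block5371)
 (cond (Nat.blt q 5373) (block5372)
 (block5373))

noncomputable def blocks5374to5377 (q : ℕ) : ℕ :=
 cond (Nat.blt q 5375) (block5374)
 (cond (Nat.blt q 5376) (block5375)
 (block5376))

noncomputable def blocks5377to5379 (q : ℕ) : ℕ :=
 cond (Nat.blt q 5378) (block5377)
 (block5378)

noncomputable def blocks5379to5382 (q : ℕ) : ℕ :=
 cond (Nat.blt q 5380) (block5379)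
 (cond (Nat.blt q 5381) (block5380)
 (block5381))

noncomputable def blocks5382to5385 (q : ℕ) : ℕ :=
 cond (Nat.blt q 5383) (block5382)
 (cond (Nat.blt q 5384) (block5383)
 (block5384))

noncomputable def blocks5385to5388 (q : ℕ) : ℕ :=
 cond (Nat.blt q 5386) (block5385)
 (cond (Nat.blt q 5387) (block5386)
 (block5387))

noncomputable def blocks5388to5390 (q : ℕ) : ℕ :=
 cond (Nat.blt q 5389) (block5388)
 (block5389)

noncomputable def blocks5390to5393 (q : ℕ) : ℕ :=
 cond (Nat.blt q 5391) (block5390)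
 (cond (Nat.blt q 5392) (block5391)
 (block5392))

noncomputable def blocks5393to5396 (q : ℕ) : ℕ :=
 cond (Nat.blt q 5394) (block5393)
 (cond (Nat.blt q 5395) (block5394)
 (block5395))

noncomputable def blocks5396to5399 (q : ℕ) : ℕ :=
 cond (Nat.blt q 5397) (block5396)
 (cond (Nat.blt q 5398) (block5397)
 (block5398))

noncomputable def blocks5356to5399 (q : ℕ) : ℕ :=
 cond (Nat.blt q 5377) (cond (Nat.blt q 5366) (cond (Nat.blt q 5361) (cond (Nat.blt q 5358) (blocks5356to5358 q)
 (blocks5358to5361 q))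
 (cond (Nat.blt q 5363) (blocks5361to5363 q)
 (blocks5363to5366 q)))
 (cond (Nat.blt q 5371) (cond (Nat.blt q 5368) (blocks5366to5368 q)
 (blocks5368to5371 q))
 (cond (Nat.blt q 5374) (blocks5371to5374 q)
 (blocks5374to5377 q))))
 (cond (Nat.blt q 5388) (cond (Nat.blt q 5382) (cond (Nat.blt q 5379) (blocks5377to5379 q)
 (blocks5379to5382 q))
 (cond (Nat.blt q 5385) (blocks5382to5385 q)
 (blocks5385to5388 q)))
 (cond (Nat.blt q 5393) (cond (Nat.blt q 5390) (blocks5388to5390 q)
 (blocks5390to5393 q))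
 (cond (Nat.blt q 5396) (blocks5393to5396 q)
 (blocks5396to5399 q))))

noncomputable def blocks5399to5401 (q : ℕ) : ℕ :=
 cond (Nat.blt q 5400) (block5399)
 (block5400)

noncomputable def blocks5401to5404 (q : ℕ) : ℕ :=
 cond (Nat.blt q 5402) (block5401)
 (cond (Nat.blt q 5403) (block5402)
 (block5403))

noncomputable def blocks5404to5406 (q : ℕ) : ℕ :=
 cond (Nat.blt q 5405) (block5404)
 (block5405)

noncomputable def blocks5406to5409 (q : ℕ) : ℕ :=
 cond (Nat.blt q 5407) (block5406)
 (cond (Nat.blt q 5408) (block5407)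
 (block5408))

noncomputable def blocks5409to5411 (q : ℕ) : ℕ :=
 cond (Nat.blt q 5410) (block5409)
 (block5410)

noncomputable def blocks5411to5414 (q : ℕ) : ℕ :=
 cond (Nat.blt q 5412) (block5411)
 (cond (Nat.blt q 5413) (block5412)
 (block5413))

noncomputable def blocks5414to5417 (q : ℕ) : ℕ :=
 cond (Nat.blt q 5415) (block5414)
 (cond (Nat.blt q 5416) (block5415)
 (block5416))

noncomputable def blocks5417to5420 (q : ℕ) : ℕ :=
 cond (Nat.blt q 5418) (block5417)
 (cond (Nat.blt q 5419) (block5418)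
 (block5419))

noncomputable def blocks5420to5422 (q : ℕ) : ℕ :=
 cond (Nat.blt q 5421) (block5420)
 (block5421)

noncomputable def blocks5422to5425 (q : ℕ) : ℕ :=
 cond (Nat.blt q 5423) (block5422)
 (cond (Nat.blt q 5424) (block5423)
 (block5424))

noncomputable def blocks5425to5428 (q : ℕ) : ℕ :=
 cond (Nat.blt q 5426) (block5425)
 (cond (Nat.blt q 5427) (block5426)
 (block5427))

noncomputable def blocks5428to5431 (q : ℕ) : ℕ :=
 cond (Nat.blt q 5429) (block5428)
 (cond (Nat.blt q 5430) (block5429)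
 (block5430))

noncomputable def blocks5431to5433 (q : ℕ) : ℕ :=
 cond (Nat.blt q 5432) (block5431)
 (block5432)

noncomputable def blocks5433to5436 (q : ℕ) : ℕ :=
 cond (Nat.blt q 5434) (block5433)
 (cond (Nat.blt q 5435) (block5434)
 (block5435))

noncomputable def blocks5436to5439 (q : ℕ) : ℕ :=
 cond (Nat.blt q 5437) (block5436)
 (cond (Nat.blt q 5438) (block5437)
 (block5438))

noncomputable def blocks5439to5442 (q : ℕ) : ℕ :=
 cond (Nat.blt q 5440) (block5439)
 (cond (Nat.blt q 5441) (block5440)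
 (block5441))

noncomputable def blocks5399to5442 (q : ℕ) : ℕ :=
 cond (Nat.blt q 5420) (cond (Nat.blt q 5409) (cond (Nat.blt q 5404) (cond (Nat.blt q 5401) (blocks5399to5401 q)
 (blocks5401to5404 q))
 (cond (Nat.blt q 5406) (blocks5404to5406 q)
 (blocks5406to5409 q)))
 (cond (Nat.blt q 5414) (cond (Nat.blt q 5411) (blocks5409to5411 q)
 (blocks5411to5414 q))
 (cond (Nat.blt q 5417) (blocks5414to5417 q)
 (blocks5417to5420 q))))
 (cond (Nat.blt q 5431) (cond (Nat.blt q 5425) (cond (Nat.blt q 5422) (blocks5420to5422 q)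
 (blocks5422to5425 q))
 (cond (Nat.blt q 5428) (blocks5425to5428 q)
 (blocks5428to5431 q)))
 (cond (Nat.blt q 5436) (cond (Nat.blt q 5433) (blocks5431to5433 q)
 (blocks5433to5436 q))
 (cond (Nat.blt q 5439) (blocks5436to5439 q)
 (blocks5439to5442 q))))

noncomputable def blocks4761to5442 (q : ℕ) : ℕ :=
 cond (Nat.blt q 5101) (cond (Nat.blt q 4931) (cond (Nat.blt q 4846) (cond (Nat.blt q 4803) (blocks4761to4803 q)
 (blocks4803to4846 q))
 (cond (Nat.blt q 4888) (blocks4846to4888 q)
 (blocks4888to4931 q)))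
 (cond (Nat.blt q 5016) (cond (Nat.blt q 4973) (blocks4931to4973 q)
 (blocks4973to5016 q))
 (cond (Nat.blt q 5058) (blocks5016to5058 q)
 (blocks5058to5101 q))))
 (cond (Nat.blt q 5271) (cond (Nat.blt q 5186) (cond (Nat.blt q 5143) (blocks5101to5143 q)
 (blocks5143to5186 q))
 (cond (Nat.blt q 5228) (blocks5186to5228 q)
 (blocks5228to5271 q)))
 (cond (Nat.blt q 5356) (cond (Nat.blt q 5313) (blocks5271to5313 q)
 (blocks5313to5356 q))
 (cond (Nat.blt q 5399) (blocks5356to5399 q)
 (blocks5399to5442 q))))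

noncomputable def blocks5442to5444 (q : ℕ) : ℕ :=
 cond (Nat.blt q 5443) (block5442)
 (block5443)

noncomputable def blocks5444to5447 (q : ℕ) : ℕ :=
 cond (Nat.blt q 5445) (block5444)
 (cond (Nat.blt q 5446) (block5445)
 (block5446))

noncomputable def blocks5447to5449 (q : ℕ) : ℕ :=
 cond (Nat.blt q 5448) (block5447)
 (block5448)

noncomputable def blocks5449to5452 (q : ℕ) : ℕ :=
 cond (Nat.blt q 5450) (block5449)
 (cond (Nat.blt q 5451) (block5450)
 (block5451))

noncomputable def blocks5452to5454 (q : ℕ) : ℕ :=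
 cond (Nat.blt q 5453) (block5452)
 (block5453)

noncomputable def blocks5454to5457 (q : ℕ) : ℕ :=
 cond (Nat.blt q 5455) (block5454)
 (cond (Nat.blt q 5456) (block5455)
 (block5456))

noncomputable def blocks5457to5460 (q : ℕ) : ℕ :=
 cond (Nat.blt q 5458) (block5457)
 (cond (Nat.blt q 5459) (block5458)
 (block5459))

noncomputable def blocks5460to5463 (q : ℕ) : ℕ :=
 cond (Nat.blt q 5461) (block5460)
 (cond (Nat.blt q 5462) (block5461)
 (block5462))

noncomputable def blocks5463to5465 (q : ℕ) : ℕ :=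
 cond (Nat.blt q 5464) (block5463)
 (block5464)

noncomputable def blocks5465to5468 (q : ℕ) : ℕ :=
 cond (Nat.blt q 5466) (block5465)
 (cond (Nat.blt q 5467) (block5466)
 (block5467))

noncomputable def blocks5468to5470 (q : ℕ) : ℕ :=
 cond (Nat.blt q 5469) (block5468)
 (block5469)

noncomputable def blocks5470to5473 (q : ℕ) : ℕ :=
 cond (Nat.blt q 5471) (block5470)
 (cond (Nat.blt q 5472) (block5471)
 (block5472))

noncomputable def blocks5473to5475 (q : ℕ) : ℕ :=
 cond (Nat.blt q 5474) (block5473)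
 (block5474)

noncomputable def blocks5475to5478 (q : ℕ) : ℕ :=
 cond (Nat.blt q 5476) (block5475)
 (cond (Nat.blt q 5477) (block5476)
 (block5477))

noncomputable def blocks5478to5481 (q : ℕ) : ℕ :=
 cond (Nat.blt q 5479) (block5478)
 (cond (Nat.blt q 5480) (block5479)
 (block5480))

noncomputable def blocks5481to5484 (q : ℕ) : ℕ :=
 cond (Nat.blt q 5482) (block5481)
 (cond (Nat.blt q 5483) (block5482)
 (block5483))

noncomputable def blocks5442to5484 (q : ℕ) : ℕ :=
 cond (Nat.blt q 5463) (cond (Nat.blt q 5452) (cond (Nat.blt q 5447) (cond (Nat.blt q 5444) (blocks5442to5444 q)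
 (blocks5444to5447 q))
 (cond (Nat.blt q 5449) (blocks5447to5449 q)
 (blocks5449to5452 q)))
 (cond (Nat.blt q 5457) (cond (Nat.blt q 5454) (blocks5452to5454 q)
 (blocks5454to5457 q))
 (cond (Nat.blt q 5460) (blocks5457to5460 q)
 (blocks5460to5463 q))))
 (cond (Nat.blt q 5473) (cond (Nat.blt q 5468) (cond (Nat.blt q 5465) (blocks5463to5465 q)
 (blocks5465to5468 q))
 (cond (Nat.blt q 5470) (blocks5468to5470 q)
 (blocks5470to5473 q)))
 (cond (Nat.blt q 5478) (cond (Nat.blt q 5475) (blocks5473to5475 q)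
 (blocks5475to5478 q))
 (cond (Nat.blt q 5481) (blocks5478to5481 q)
 (blocks5481to5484 q))))

noncomputable def blocks5484to5486 (q : ℕ) : ℕ :=
 cond (Nat.blt q 5485) (block5484)
 (block5485)

noncomputable def blocks5486to5489 (q : ℕ) : ℕ :=
 cond (Nat.blt q 5487) (block5486)
 (cond (Nat.blt q 5488) (block5487)
 (block5488))

noncomputable def blocks5489to5491 (q : ℕ) : ℕ :=
 cond (Nat.blt q 5490) (block5489)
 (block5490)

noncomputable def blocks5491to5494 (q : ℕ) : ℕ :=
 cond (Nat.blt q 5492) (block5491)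
 (cond (Nat.blt q 5493) (block5492)
 (block5493))

noncomputable def blocks5494to5496 (q : ℕ) : ℕ :=
 cond (Nat.blt q 5495) (block5494)
 (block5495)

noncomputable def blocks5496to5499 (q : ℕ) : ℕ :=
 cond (Nat.blt q 5497) (block5496)
 (cond (Nat.blt q 5498) (block5497)
 (block5498))

noncomputable def blocks5499to5502 (q : ℕ) : ℕ :=
 cond (Nat.blt q 5500) (block5499)
 (cond (Nat.blt q 5501) (block5500)
 (block5501))

noncomputable def blocks5502to5505 (q : ℕ) : ℕ :=
 cond (Nat.blt q 5503) (block5502)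
 (cond (Nat.blt q 5504) (block5503)
 (block5504))

noncomputable def blocks5505to5507 (q : ℕ) : ℕ :=
 cond (Nat.blt q 5506) (block5505)
 (block5506)

noncomputable def blocks5507to5510 (q : ℕ) : ℕ :=
 cond (Nat.blt q 5508) (block5507)
 (cond (Nat.blt q 5509) (block5508)
 (block5509))

noncomputable def blocks5510to5513 (q : ℕ) : ℕ :=
 cond (Nat.blt q 5511) (block5510)
 (cond (Nat.blt q 5512) (block5511)
 (block5512))

noncomputable def blocks5513to5516 (q : ℕ) : ℕ :=
 cond (Nat.blt q 5514) (block5513)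
 (cond (Nat.blt q 5515) (block5514)
 (block5515))

noncomputable def blocks5516to5518 (q : ℕ) : ℕ :=
 cond (Nat.blt q 5517) (block5516)
 (block5517)

noncomputable def blocks5518to5521 (q : ℕ) : ℕ :=
 cond (Nat.blt q 5519) (block5518)
 (cond (Nat.blt q 5520) (block5519)
 (block5520))

noncomputable def blocks5521to5524 (q : ℕ) : ℕ :=
 cond (Nat.blt q 5522) (block5521)
 (cond (Nat.blt q 5523) (block5522)
 (block5523))

noncomputable def blocks5524to5527 (q : ℕ) : ℕ :=
 cond (Nat.blt q 5525) (block5524)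
 (cond (Nat.blt q 5526) (block5525)
 (block5526))

noncomputable def blocks5484to5527 (q : ℕ) : ℕ :=
 cond (Nat.blt q 5505) (cond (Nat.blt q 5494) (cond (Nat.blt q 5489) (cond (Nat.blt q 5486) (blocks5484to5486 q)
 (blocks5486to5489 q))
 (cond (Nat.blt q 5491) (blocks5489to5491 q)
 (blocks5491to5494 q)))
 (cond (Nat.blt q 5499) (cond (Nat.blt q 5496) (blocks5494to5496 q)
 (blocks5496to5499 q))
 (cond (Nat.blt q 5502) (blocks5499to5502 q)
 (blocks5502to5505 q))))
 (cond (Nat.blt q 5516) (cond (Nat.blt q 5510) (cond (Nat.blt q 5507) (blocks5505to5507 q)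
 (blocks5507to5510 q))
 (cond (Nat.blt q 5513) (blocks5510to5513 q)
 (blocks5513to5516 q)))
 (cond (Nat.blt q 5521) (cond (Nat.blt q 5518) (blocks5516to5518 q)
 (blocks5518to5521 q))
 (cond (Nat.blt q 5524) (blocks5521to5524 q)
 (blocks5524to5527 q))))

noncomputable def blocks5527to5529 (q : ℕ) : ℕ :=
 cond (Nat.blt q 5528) (block5527)
 (block5528)

noncomputable def blocks5529to5532 (q : ℕ) : ℕ :=
 cond (Nat.blt q 5530) (block5529)
 (cond (Nat.blt q 5531) (block5530)
 (block5531))

noncomputable def blocks5532to5534 (q : ℕ) : ℕ :=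
 cond (Nat.blt q 5533) (block5532)
 (block5533)

noncomputable def blocks5534to5537 (q : ℕ) : ℕ :=
 cond (Nat.blt q 5535) (block5534)
 (cond (Nat.blt q 5536) (block5535)
 (block5536))

noncomputable def blocks5537to5539 (q : ℕ) : ℕ :=
 cond (Nat.blt q 5538) (block5537)
 (block5538)

noncomputable def blocks5539to5542 (q : ℕ) : ℕ :=
 cond (Nat.blt q 5540) (block5539)
 (cond (Nat.blt q 5541) (block5540)
 (block5541))

noncomputable def blocks5542to5545 (q : ℕ) : ℕ :=
 cond (Nat.blt q 5543) (block5542)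
 (cond (Nat.blt q 5544) (block5543)
 (block5544))

noncomputable def blocks5545to5548 (q : ℕ) : ℕ :=
 cond (Nat.blt q 5546) (block5545)
 (cond (Nat.blt q 5547) (block5546)
 (block5547))

noncomputable def blocks5548to5550 (q : ℕ) : ℕ :=
 cond (Nat.blt q 5549) (block5548)
 (block5549)

noncomputable def blocks5550to5553 (q : ℕ) : ℕ :=
 cond (Nat.blt q 5551) (block5550)
 (cond (Nat.blt q 5552) (block5551)
 (block5552))

noncomputable def blocks5553to5555 (q : ℕ) : ℕ :=
 cond (Nat.blt q 5554) (block5553)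
 (block5554)

noncomputable def blocks5555to5558 (q : ℕ) : ℕ :=
 cond (Nat.blt q 5556) (block5555)
 (cond (Nat.blt q 5557) (block5556)
 (block5557))

noncomputable def blocks5558to5560 (q : ℕ) : ℕ :=
 cond (Nat.blt q 5559) (block5558)
 (block5559)

noncomputable def blocks5560to5563 (q : ℕ) : ℕ :=
 cond (Nat.blt q 5561) (block5560)
 (cond (Nat.blt q 5562) (block5561)
 (block5562))

noncomputable def blocks5563to5566 (q : ℕ) : ℕ :=
 cond (Nat.blt q 5564) (block5563)
 (cond (Nat.blt q 5565) (block5564)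
 (block5565))

noncomputable def blocks5566to5569 (q : ℕ) : ℕ :=
 cond (Nat.blt q 5567) (block5566)
 (cond (Nat.blt q 5568) (block5567)
 (block5568))

noncomputable def blocks5527to5569 (q : ℕ) : ℕ :=
 cond (Nat.blt q 5548) (cond (Nat.blt q 5537) (cond (Nat.blt q 5532) (cond (Nat.blt q 5529) (blocks5527to5529 q)
 (blocks5529to5532 q))
 (cond (Nat.blt q 5534) (blocks5532to5534 q)
 (blocks5534to5537 q)))
 (cond (Nat.blt q 5542) (cond (Nat.blt q 5539) (blocks5537to5539 q)
 (blocks5539to5542 q))
 (cond (Nat.blt q 5545) (blocks5542to5545 q)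
 (blocks5545to5548 q))))
 (cond (Nat.blt q 5558) (cond (Nat.blt q 5553) (cond (Nat.blt q 5550) (blocks5548to5550 q)
 (blocks5550to5553 q))
 (cond (Nat.blt q 5555) (blocks5553to5555 q)
 (blocks5555to5558 q)))
 (cond (Nat.blt q 5563) (cond (Nat.blt q 5560) (blocks5558to5560 q)
 (blocks5560to5563 q))
 (cond (Nat.blt q 5566) (blocks5563to5566 q)
 (blocks5566to5569 q))))

noncomputable def blocks5569to5571 (q : ℕ) : ℕ :=
 cond (Nat.blt q 5570) (block5569)
 (block5570)

noncomputable def blocks5571to5574 (q : ℕ) : ℕ :=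
 cond (Nat.blt q 5572) (block5571)
 (cond (Nat.blt q 5573) (block5572)
 (block5573))

noncomputable def blocks5574to5576 (q : ℕ) : ℕ :=
 cond (Nat.blt q 5575) (block5574)
 (block5575)

noncomputable def blocks5576to5579 (q : ℕ) : ℕ :=
 cond (Nat.blt q 5577) (block5576)
 (cond (Nat.blt q 5578) (block5577)
 (block5578))

noncomputable def blocks5579to5581 (q : ℕ) : ℕ :=
 cond (Nat.blt q 5580) (block5579)
 (block5580)

noncomputable def blocks5581to5584 (q : ℕ) : ℕ :=
 cond (Nat.blt q 5582) (block5581)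
 (cond (Nat.blt q 5583) (block5582)
 (block5583))

noncomputable def blocks5584to5587 (q : ℕ) : ℕ :=
 cond (Nat.blt q 5585) (block5584)
 (cond (Nat.blt q 5586) (block5585)
 (block5586))

noncomputable def blocks5587to5590 (q : ℕ) : ℕ :=
 cond (Nat.blt q 5588) (block5587)
 (cond (Nat.blt q 5589) (block5588)
 (block5589))

noncomputable def blocks5590to5592 (q : ℕ) : ℕ :=
 cond (Nat.blt q 5591) (block5590)
 (block5591)

noncomputable def blocks5592to5595 (q : ℕ) : ℕ :=
 cond (Nat.blt q 5593) (block5592)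
 (cond (Nat.blt q 5594) (block5593)
 (block5594))

noncomputable def blocks5595to5598 (q : ℕ) : ℕ :=
 cond (Nat.blt q 5596) (block5595)
 (cond (Nat.blt q 5597) (block5596)
 (block5597))

noncomputable def blocks5598to5601 (q : ℕ) : ℕ :=
 cond (Nat.blt q 5599) (block5598)
 (cond (Nat.blt q 5600) (block5599)
 (block5600))

noncomputable def blocks5601to5603 (q : ℕ) : ℕ :=
 cond (Nat.blt q 5602) (block5601)
 (block5602)

noncomputable def blocks5603to5606 (q : ℕ) : ℕ :=
 cond (Nat.blt q 5604) (block5603)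
 (cond (Nat.blt q 5605) (block5604)
 (block5605))

noncomputable def blocks5606to5609 (q : ℕ) : ℕ :=
 cond (Nat.blt q 5607) (block5606)
 (cond (Nat.blt q 5608) (block5607)
 (block5608))

noncomputable def blocks5609to5612 (q : ℕ) : ℕ :=
 cond (Nat.blt q 5610) (block5609)
 (cond (Nat.blt q 5611) (block5610)
 (block5611))

noncomputable def blocks5569to5612 (q : ℕ) : ℕ :=
 cond (Nat.blt q 5590) (cond (Nat.blt q 5579) (cond (Nat.blt q 5574) (cond (Nat.blt q 5571) (blocks5569to5571 q)
 (blocks5571to5574 q))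
 (cond (Nat.blt q 5576) (blocks5574to5576 q)
 (blocks5576to5579 q)))
 (cond (Nat.blt q 5584) (cond (Nat.blt q 5581) (blocks5579to5581 q)
 (blocks5581to5584 q))
 (cond (Nat.blt q 5587) (blocks5584to5587 q)
 (blocks5587to5590 q))))
 (cond (Nat.blt q 5601) (cond (Nat.blt q 5595) (cond (Nat.blt q 5592) (blocks5590to5592 q)
 (blocks5592to5595 q))
 (cond (Nat.blt q 5598) (blocks5595to5598 q)
 (blocks5598to5601 q)))
 (cond (Nat.blt q 5606) (cond (Nat.blt q 5603) (blocks5601to5603 q)
 (blocks5603to5606 q))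
 (cond (Nat.blt q 5609) (blocks5606to5609 q)
 (blocks5609to5612 q))))

noncomputable def blocks5612to5614 (q : ℕ) : ℕ :=
 cond (Nat.blt q 5613) (block5612)
 (block5613)

noncomputable def blocks5614to5617 (q : ℕ) : ℕ :=
 cond (Nat.blt q 5615) (block5614)
 (cond (Nat.blt q 5616) (block5615)
 (block5616))

noncomputable def blocks5617to5619 (q : ℕ) : ℕ :=
 cond (Nat.blt q 5618) (block5617)
 (block5618)

noncomputable def blocks5619to5622 (q : ℕ) : ℕ :=
 cond (Nat.blt q 5620) (block5619)
 (cond (Nat.blt q 5621) (block5620)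
 (block5621))

noncomputable def blocks5622to5624 (q : ℕ) : ℕ :=
 cond (Nat.blt q 5623) (block5622)
 (block5623)

noncomputable def blocks5624to5627 (q : ℕ) : ℕ :=
 cond (Nat.blt q 5625) (block5624)
 (cond (Nat.blt q 5626) (block5625)
 (block5626))

noncomputable def blocks5627to5630 (q : ℕ) : ℕ :=
 cond (Nat.blt q 5628) (block5627)
 (cond (Nat.blt q 5629) (block5628)
 (block5629))

noncomputable def blocks5630to5633 (q : ℕ) : ℕ :=
 cond (Nat.blt q 5631) (block5630)
 (cond (Nat.blt q 5632) (block5631)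
 (block5632))

noncomputable def blocks5633to5635 (q : ℕ) : ℕ :=
 cond (Nat.blt q 5634) (block5633)
 (block5634)

noncomputable def blocks5635to5638 (q : ℕ) : ℕ :=
 cond (Nat.blt q 5636) (block5635)
 (cond (Nat.blt q 5637) (block5636)
 (block5637))

noncomputable def blocks5638to5640 (q : ℕ) : ℕ :=
 cond (Nat.blt q 5639) (block5638)
 (block5639)

noncomputable def blocks5640to5643 (q : ℕ) : ℕ :=
 cond (Nat.blt q 5641) (block5640)
 (cond (Nat.blt q 5642) (block5641)
 (block5642))

noncomputable def blocks5643to5645 (q : ℕ) : ℕ :=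
 cond (Nat.blt q 5644) (block5643)
 (block5644)

noncomputable def blocks5645to5648 (q : ℕ) : ℕ :=
 cond (Nat.blt q 5646) (block5645)
 (cond (Nat.blt q 5647) (block5646)
 (block5647))

noncomputable def blocks5648to5651 (q : ℕ) : ℕ :=
 cond (Nat.blt q 5649) (block5648)
 (cond (Nat.blt q 5650) (block5649)
 (block5650))

noncomputable def blocks5651to5654 (q : ℕ) : ℕ :=
 cond (Nat.blt q 5652) (block5651)
 (cond (Nat.blt q 5653) (block5652)
 (block5653))

noncomputable def blocks5612to5654 (q : ℕ) : ℕ :=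
 cond (Nat.blt q 5633) (cond (Nat.blt q 5622) (cond (Nat.blt q 5617) (cond (Nat.blt q 5614) (blocks5612to5614 q)
 (blocks5614to5617 q))
 (cond (Nat.blt q 5619) (blocks5617to5619 q)
 (blocks5619to5622 q)))
 (cond (Nat.blt q 5627) (cond (Nat.blt q 5624) (blocks5622to5624 q)
 (blocks5624to5627 q))
 (cond (Nat.blt q 5630) (blocks5627to5630 q)
 (blocks5630to5633 q))))
 (cond (Nat.blt q 5643) (cond (Nat.blt q 5638) (cond (Nat.blt q 5635) (blocks5633to5635 q)
 (blocks5635to5638 q))
 (cond (Nat.blt q 5640) (blocks5638to5640 q)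
 (blocks5640to5643 q)))
 (cond (Nat.blt q 5648) (cond (Nat.blt q 5645) (blocks5643to5645 q)
 (blocks5645to5648 q))
 (cond (Nat.blt q 5651) (blocks5648to5651 q)
 (blocks5651to5654 q))))

noncomputable def blocks5654to5656 (q : ℕ) : ℕ :=
 cond (Nat.blt q 5655) (block5654)
 (block5655)

noncomputable def blocks5656to5659 (q : ℕ) : ℕ :=
 cond (Nat.blt q 5657) (block5656)
 (cond (Nat.blt q 5658) (block5657)
 (block5658))

noncomputable def blocks5659to5661 (q : ℕ) : ℕ :=
 cond (Nat.blt q 5660) (block5659)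
 (block5660)

noncomputable def blocks5661to5664 (q : ℕ) : ℕ :=
 cond (Nat.blt q 5662) (block5661)
 (cond (Nat.blt q 5663) (block5662)
 (block5663))

noncomputable def blocks5664to5666 (q : ℕ) : ℕ :=
 cond (Nat.blt q 5665) (block5664)
 (block5665)

noncomputable def blocks5666to5669 (q : ℕ) : ℕ :=
 cond (Nat.blt q 5667) (block5666)
 (cond (Nat.blt q 5668) (block5667)
 (block5668))

noncomputable def blocks5669to5672 (q : ℕ) : ℕ :=
 cond (Nat.blt q 5670) (block5669)
 (cond (Nat.blt q 5671) (block5670)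
 (block5671))

noncomputable def blocks5672to5675 (q : ℕ) : ℕ :=
 cond (Nat.blt q 5673) (block5672)
 (cond (Nat.blt q 5674) (block5673)
 (block5674))

noncomputable def blocks5675to5677 (q : ℕ) : ℕ :=
 cond (Nat.blt q 5676) (block5675)
 (block5676)

noncomputable def blocks5677to5680 (q : ℕ) : ℕ :=
 cond (Nat.blt q 5678) (block5677)
 (cond (Nat.blt q 5679) (block5678)
 (block5679))

noncomputable def blocks5680to5683 (q : ℕ) : ℕ :=
 cond (Nat.blt q 5681) (block5680)
 (cond (Nat.blt q 5682) (block5681)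
 (block5682))

noncomputable def blocks5683to5686 (q : ℕ) : ℕ :=
 cond (Nat.blt q 5684) (block5683)
 (cond (Nat.blt q 5685) (block5684)
 (block5685))

noncomputable def blocks5686to5688 (q : ℕ) : ℕ :=
 cond (Nat.blt q 5687) (block5686)
 (block5687)

noncomputable def blocks5688to5691 (q : ℕ) : ℕ :=
 cond (Nat.blt q 5689) (block5688)
 (cond (Nat.blt q 5690) (block5689)
 (block5690))

noncomputable def blocks5691to5694 (q : ℕ) : ℕ :=
 cond (Nat.blt q 5692) (block5691)
 (cond (Nat.blt q 5693) (block5692)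
 (block5693))

noncomputable def blocks5694to5697 (q : ℕ) : ℕ :=
 cond (Nat.blt q 5695) (block5694)
 (cond (Nat.blt q 5696) (block5695)
 (block5696))

noncomputable def blocks5654to5697 (q : ℕ) : ℕ :=
 cond (Nat.blt q 5675) (cond (Nat.blt q 5664) (cond (Nat.blt q 5659) (cond (Nat.blt q 5656) (blocks5654to5656 q)
 (blocks5656to5659 q))
 (cond (Nat.blt q 5661) (blocks5659to5661 q)
 (blocks5661to5664 q)))
 (cond (Nat.blt q 5669) (cond (Nat.blt q 5666) (blocks5664to5666 q)
 (blocks5666to5669 q))
 (cond (Nat.blt q 5672) (blocks5669to5672 q)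
 (blocks5672to5675 q))))
 (cond (Nat.blt q 5686) (cond (Nat.blt q 5680) (cond (Nat.blt q 5677) (blocks5675to5677 q)
 (blocks5677to5680 q))
 (cond (Nat.blt q 5683) (blocks5680to5683 q)
 (blocks5683to5686 q)))
 (cond (Nat.blt q 5691) (cond (Nat.blt q 5688) (blocks5686to5688 q)
 (blocks5688to5691 q))
 (cond (Nat.blt q 5694) (blocks5691to5694 q)
 (blocks5694to5697 q))))

noncomputable def blocks5697to5699 (q : ℕ) : ℕ :=
 cond (Nat.blt q 5698) (block5697)
 (block5698)

noncomputable def blocks5699to5702 (q : ℕ) : ℕ :=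
 cond (Nat.blt q 5700) (block5699)
 (cond (Nat.blt q 5701) (block5700)
 (block5701))

noncomputable def blocks5702to5704 (q : ℕ) : ℕ :=
 cond (Nat.blt q 5703) (block5702)
 (block5703)

noncomputable def blocks5704to5707 (q : ℕ) : ℕ :=
 cond (Nat.blt q 5705) (block5704)
 (cond (Nat.blt q 5706) (block5705)
 (block5706))

noncomputable def blocks5707to5709 (q : ℕ) : ℕ :=
 cond (Nat.blt q 5708) (block5707)
 (block5708)

noncomputable def blocks5709to5712 (q : ℕ) : ℕ :=
 cond (Nat.blt q 5710) (block5709)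
 (cond (Nat.blt q 5711) (block5710)
 (block5711))

noncomputable def blocks5712to5715 (q : ℕ) : ℕ :=
 cond (Nat.blt q 5713) (block5712)
 (cond (Nat.blt q 5714) (block5713)
 (block5714))

noncomputable def blocks5715to5718 (q : ℕ) : ℕ :=
 cond (Nat.blt q 5716) (block5715)
 (cond (Nat.blt q 5717) (block5716)
 (block5717))

noncomputable def blocks5718to5720 (q : ℕ) : ℕ :=
 cond (Nat.blt q 5719) (block5718)
 (block5719)

noncomputable def blocks5720to5723 (q : ℕ) : ℕ :=
 cond (Nat.blt q 5721) (block5720)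
 (cond (Nat.blt q 5722) (block5721)
 (block5722))

noncomputable def blocks5723to5725 (q : ℕ) : ℕ :=
 cond (Nat.blt q 5724) (block5723)
 (block5724)

noncomputable def blocks5725to5728 (q : ℕ) : ℕ :=
 cond (Nat.blt q 5726) (block5725)
 (cond (Nat.blt q 5727) (block5726)
 (block5727))

noncomputable def blocks5728to5730 (q : ℕ) : ℕ :=
 cond (Nat.blt q 5729) (block5728)
 (block5729)

noncomputable def blocks5730to5733 (q : ℕ) : ℕ :=
 cond (Nat.blt q 5731) (block5730)
 (cond (Nat.blt q 5732) (block5731)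
 (block5732))

noncomputable def blocks5733to5736 (q : ℕ) : ℕ :=
 cond (Nat.blt q 5734) (block5733)
 (cond (Nat.blt q 5735) (block5734)
 (block5735))

noncomputable def blocks5736to5739 (q : ℕ) : ℕ :=
 cond (Nat.blt q 5737) (block5736)
 (cond (Nat.blt q 5738) (block5737)
 (block5738))

noncomputable def blocks5697to5739 (q : ℕ) : ℕ :=
 cond (Nat.blt q 5718) (cond (Nat.blt q 5707) (cond (Nat.blt q 5702) (cond (Nat.blt q 5699) (blocks5697to5699 q)
 (blocks5699to5702 q))
 (cond (Nat.blt q 5704) (blocks5702to5704 q)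
 (blocks5704to5707 q)))
 (cond (Nat.blt q 5712) (cond (Nat.blt q 5709) (blocks5707to5709 q)
 (blocks5709to5712 q))
 (cond (Nat.blt q 5715) (blocks5712to5715 q)
 (blocks5715to5718 q))))
 (cond (Nat.blt q 5728) (cond (Nat.blt q 5723) (cond (Nat.blt q 5720) (blocks5718to5720 q)
 (blocks5720to5723 q))
 (cond (Nat.blt q 5725) (blocks5723to5725 q)
 (blocks5725to5728 q)))
 (cond (Nat.blt q 5733) (cond (Nat.blt q 5730) (blocks5728to5730 q)
 (blocks5730to5733 q))
 (cond (Nat.blt q 5736) (blocks5733to5736 q)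
 (blocks5736to5739 q))))

noncomputable def blocks5739to5741 (q : ℕ) : ℕ :=
 cond (Nat.blt q 5740) (block5739)
 (block5740)

noncomputable def blocks5741to5744 (q : ℕ) : ℕ :=
 cond (Nat.blt q 5742) (block5741)
 (cond (Nat.blt q 5743) (block5742)
 (block5743))

noncomputable def blocks5744to5746 (q : ℕ) : ℕ :=
 cond (Nat.blt q 5745) (block5744)
 (block5745)

noncomputable def blocks5746to5749 (q : ℕ) : ℕ :=
 cond (Nat.blt q 5747) (block5746)
 (cond (Nat.blt q 5748) (block5747)
 (block5748))

noncomputable def blocks5749to5751 (q : ℕ) : ℕ :=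
 cond (Nat.blt q 5750) (block5749)
 (block5750)

noncomputable def blocks5751to5754 (q : ℕ) : ℕ :=
 cond (Nat.blt q 5752) (block5751)
 (cond (Nat.blt q 5753) (block5752)
 (block5753))

noncomputable def blocks5754to5757 (q : ℕ) : ℕ :=
 cond (Nat.blt q 5755) (block5754)
 (cond (Nat.blt q 5756) (block5755)
 (block5756))

noncomputable def blocks5757to5760 (q : ℕ) : ℕ :=
 cond (Nat.blt q 5758) (block5757)
 (cond (Nat.blt q 5759) (block5758)
 (block5759))

noncomputable def blocks5760to5762 (q : ℕ) : ℕ :=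
 cond (Nat.blt q 5761) (block5760)
 (block5761)

noncomputable def blocks5762to5765 (q : ℕ) : ℕ :=
 cond (Nat.blt q 5763) (block5762)
 (cond (Nat.blt q 5764) (block5763)
 (block5764))

noncomputable def blocks5765to5768 (q : ℕ) : ℕ :=
 cond (Nat.blt q 5766) (block5765)
 (cond (Nat.blt q 5767) (block5766)
 (block5767))

noncomputable def blocks5768to5771 (q : ℕ) : ℕ :=
 cond (Nat.blt q 5769) (block5768)
 (cond (Nat.blt q 5770) (block5769)
 (block5770))

noncomputable def blocks5771to5773 (q : ℕ) : ℕ :=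
 cond (Nat.blt q 5772) (block5771)
 (block5772)

noncomputable def blocks5773to5776 (q : ℕ) : ℕ :=
 cond (Nat.blt q 5774) (block5773)
 (cond (Nat.blt q 5775) (block5774)
 (block5775))

noncomputable def blocks5776to5779 (q : ℕ) : ℕ :=
 cond (Nat.blt q 5777) (block5776)
 (cond (Nat.blt q 5778) (block5777)
 (block5778))

noncomputable def blocks5779to5782 (q : ℕ) : ℕ :=
 cond (Nat.blt q 5780) (block5779)
 (cond (Nat.blt q 5781) (block5780)
 (block5781))

noncomputable def blocks5739to5782 (q : ℕ) : ℕ :=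
 cond (Nat.blt q 5760) (cond (Nat.blt q 5749) (cond (Nat.blt q 5744) (cond (Nat.blt q 5741) (blocks5739to5741 q)
 (blocks5741to5744 q))
 (cond (Nat.blt q 5746) (blocks5744to5746 q)
 (blocks5746to5749 q)))
 (cond (Nat.blt q 5754) (cond (Nat.blt q 5751) (blocks5749to5751 q)
 (blocks5751to5754 q))
 (cond (Nat.blt q 5757) (blocks5754to5757 q)
 (blocks5757to5760 q))))
 (cond (Nat.blt q 5771) (cond (Nat.blt q 5765) (cond (Nat.blt q 5762) (blocks5760to5762 q)
 (blocks5762to5765 q))
 (cond (Nat.blt q 5768) (blocks5765to5768 q)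
 (blocks5768to5771 q)))
 (cond (Nat.blt q 5776) (cond (Nat.blt q 5773) (blocks5771to5773 q)
 (blocks5773to5776 q))
 (cond (Nat.blt q 5779) (blocks5776to5779 q)
 (blocks5779to5782 q))))

noncomputable def blocks5782to5784 (q : ℕ) : ℕ :=
 cond (Nat.blt q 5783) (block5782)
 (block5783)

noncomputable def blocks5784to5787 (q : ℕ) : ℕ :=
 cond (Nat.blt q 5785) (block5784)
 (cond (Nat.blt q 5786) (block5785)
 (block5786))

noncomputable def blocks5787to5789 (q : ℕ) : ℕ :=
 cond (Nat.blt q 5788) (block5787)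
 (block5788)

noncomputable def blocks5789to5792 (q : ℕ) : ℕ :=
 cond (Nat.blt q 5790) (block5789)
 (cond (Nat.blt q 5791) (block5790)
 (block5791))

noncomputable def blocks5792to5794 (q : ℕ) : ℕ :=
 cond (Nat.blt q 5793) (block5792)
 (block5793)

noncomputable def blocks5794to5797 (q : ℕ) : ℕ :=
 cond (Nat.blt q 5795) (block5794)
 (cond (Nat.blt q 5796) (block5795)
 (block5796))

noncomputable def blocks5797to5800 (q : ℕ) : ℕ :=
 cond (Nat.blt q 5798) (block5797)
 (cond (Nat.blt q 5799) (block5798)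
 (block5799))

noncomputable def blocks5800to5803 (q : ℕ) : ℕ :=
 cond (Nat.blt q 5801) (block5800)
 (cond (Nat.blt q 5802) (block5801)
 (block5802))

noncomputable def blocks5803to5805 (q : ℕ) : ℕ :=
 cond (Nat.blt q 5804) (block5803)
 (block5804)

noncomputable def blocks5805to5808 (q : ℕ) : ℕ :=
 cond (Nat.blt q 5806) (block5805)
 (cond (Nat.blt q 5807) (block5806)
 (block5807))

noncomputable def blocks5808to5810 (q : ℕ) : ℕ :=
 cond (Nat.blt q 5809) (block5808)
 (block5809)

noncomputable def blocks5810to5813 (q : ℕ) : ℕ :=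
 cond (Nat.blt q 5811) (block5810)
 (cond (Nat.blt q 5812) (block5811)
 (block5812))

noncomputable def blocks5813to5815 (q : ℕ) : ℕ :=
 cond (Nat.blt q 5814) (block5813)
 (block5814)

noncomputable def blocks5815to5818 (q : ℕ) : ℕ :=
 cond (Nat.blt q 5816) (block5815)
 (cond (Nat.blt q 5817) (block5816)
 (block5817))

noncomputable def blocks5818to5821 (q : ℕ) : ℕ :=
 cond (Nat.blt q 5819) (block5818)
 (cond (Nat.blt q 5820) (block5819)
 (block5820))

noncomputable def blocks5821to5824 (q : ℕ) : ℕ :=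
 cond (Nat.blt q 5822) (block5821)
 (cond (Nat.blt q 5823) (block5822)
 (block5823))

noncomputable def blocks5782to5824 (q : ℕ) : ℕ :=
 cond (Nat.blt q 5803) (cond (Nat.blt q 5792) (cond (Nat.blt q 5787) (cond (Nat.blt q 5784) (blocks5782to5784 q)
 (blocks5784to5787 q))
 (cond (Nat.blt q 5789) (blocks5787to5789 q)
 (blocks5789to5792 q)))
 (cond (Nat.blt q 5797) (cond (Nat.blt q 5794) (blocks5792to5794 q)
 (blocks5794to5797 q))
 (cond (Nat.blt q 5800) (blocks5797to5800 q)
 (blocks5800to5803 q))))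
 (cond (Nat.blt q 5813) (cond (Nat.blt q 5808) (cond (Nat.blt q 5805) (blocks5803to5805 q)
 (blocks5805to5808 q))
 (cond (Nat.blt q 5810) (blocks5808to5810 q)
 (blocks5810to5813 q)))
 (cond (Nat.blt q 5818) (cond (Nat.blt q 5815) (blocks5813to5815 q)
 (blocks5815to5818 q))
 (cond (Nat.blt q 5821) (blocks5818to5821 q)
 (blocks5821to5824 q))))

noncomputable def blocks5824to5826 (q : ℕ) : ℕ :=
 cond (Nat.blt q 5825) (block5824)
 (block5825)

noncomputable def blocks5826to5829 (q : ℕ) : ℕ :=
 cond (Nat.blt q 5827) (block5826)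
 (cond (Nat.blt q 5828) (block5827)
 (block5828))

noncomputable def blocks5829to5831 (q : ℕ) : ℕ :=
 cond (Nat.blt q 5830) (block5829)
 (block5830)

noncomputable def blocks5831to5834 (q : ℕ) : ℕ :=
 cond (Nat.blt q 5832) (block5831)
 (cond (Nat.blt q 5833) (block5832)
 (block5833))

noncomputable def blocks5834to5836 (q : ℕ) : ℕ :=
 cond (Nat.blt q 5835) (block5834)
 (block5835)

noncomputable def blocks5836to5839 (q : ℕ) : ℕ :=
 cond (Nat.blt q 5837) (block5836)
 (cond (Nat.blt q 5838) (block5837)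
 (block5838))

noncomputable def blocks5839to5842 (q : ℕ) : ℕ :=
 cond (Nat.blt q 5840) (block5839)
 (cond (Nat.blt q 5841) (block5840)
 (block5841))

noncomputable def blocks5842to5845 (q : ℕ) : ℕ :=
 cond (Nat.blt q 5843) (block5842)
 (cond (Nat.blt q 5844) (block5843)
 (block5844))

noncomputable def blocks5845to5847 (q : ℕ) : ℕ :=
 cond (Nat.blt q 5846) (block5845)
 (block5846)

noncomputable def blocks5847to5850 (q : ℕ) : ℕ :=
 cond (Nat.blt q 5848) (block5847)
 (cond (Nat.blt q 5849) (block5848)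
 (block5849))

noncomputable def blocks5850to5853 (q : ℕ) : ℕ :=
 cond (Nat.blt q 5851) (block5850)
 (cond (Nat.blt q 5852) (block5851)
 (block5852))

noncomputable def blocks5853to5856 (q : ℕ) : ℕ :=
 cond (Nat.blt q 5854) (block5853)
 (cond (Nat.blt q 5855) (block5854)
 (block5855))

noncomputable def blocks5856to5858 (q : ℕ) : ℕ :=
 cond (Nat.blt q 5857) (block5856)
 (block5857)

noncomputable def blocks5858to5861 (q : ℕ) : ℕ :=
 cond (Nat.blt q 5859) (block5858)
 (cond (Nat.blt q 5860) (block5859)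
 (block5860))

noncomputable def blocks5861to5864 (q : ℕ) : ℕ :=
 cond (Nat.blt q 5862) (block5861)
 (cond (Nat.blt q 5863) (block5862)
 (block5863))

noncomputable def blocks5864to5867 (q : ℕ) : ℕ :=
 cond (Nat.blt q 5865) (block5864)
 (cond (Nat.blt q 5866) (block5865)
 (block5866))

noncomputable def blocks5824to5867 (q : ℕ) : ℕ :=
 cond (Nat.blt q 5845) (cond (Nat.blt q 5834) (cond (Nat.blt q 5829) (cond (Nat.blt q 5826) (blocks5824to5826 q)
 (blocks5826to5829 q))
 (cond (Nat.blt q 5831) (blocks5829to5831 q)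
 (blocks5831to5834 q)))
 (cond (Nat.blt q 5839) (cond (Nat.blt q 5836) (blocks5834to5836 q)
 (blocks5836to5839 q))
 (cond (Nat.blt q 5842) (blocks5839to5842 q)
 (blocks5842to5845 q))))
 (cond (Nat.blt q 5856) (cond (Nat.blt q 5850) (cond (Nat.blt q 5847) (blocks5845to5847 q)
 (blocks5847to5850 q))
 (cond (Nat.blt q 5853) (blocks5850to5853 q)
 (blocks5853to5856 q)))
 (cond (Nat.blt q 5861) (cond (Nat.blt q 5858) (blocks5856to5858 q)
 (blocks5858to5861 q))
 (cond (Nat.blt q 5864) (blocks5861to5864 q)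
 (blocks5864to5867 q))))

noncomputable def blocks5867to5869 (q : ℕ) : ℕ :=
 cond (Nat.blt q 5868) (block5867)
 (block5868)

noncomputable def blocks5869to5872 (q : ℕ) : ℕ :=
 cond (Nat.blt q 5870) (block5869)
 (cond (Nat.blt q 5871) (block5870)
 (block5871))

noncomputable def blocks5872to5874 (q : ℕ) : ℕ :=
 cond (Nat.blt q 5873) (block5872)
 (block5873)

noncomputable def blocks5874to5877 (q : ℕ) : ℕ :=
 cond (Nat.blt q 5875) (block5874)
 (cond (Nat.blt q 5876) (block5875)
 (block5876))

noncomputable def blocks5877to5879 (q : ℕ) : ℕ :=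
 cond (Nat.blt q 5878) (block5877)
 (block5878)

noncomputable def blocks5879to5882 (q : ℕ) : ℕ :=
 cond (Nat.blt q 5880) (block5879)
 (cond (Nat.blt q 5881) (block5880)
 (block5881))

noncomputable def blocks5882to5885 (q : ℕ) : ℕ :=
 cond (Nat.blt q 5883) (block5882)
 (cond (Nat.blt q 5884) (block5883)
 (block5884))

noncomputable def blocks5885to5888 (q : ℕ) : ℕ :=
 cond (Nat.blt q 5886) (block5885)
 (cond (Nat.blt q 5887) (block5886)
 (block5887))

noncomputable def blocks5888to5890 (q : ℕ) : ℕ :=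
 cond (Nat.blt q 5889) (block5888)
 (block5889)

noncomputable def blocks5890to5893 (q : ℕ) : ℕ :=
 cond (Nat.blt q 5891) (block5890)
 (cond (Nat.blt q 5892) (block5891)
 (block5892))

noncomputable def blocks5893to5895 (q : ℕ) : ℕ :=
 cond (Nat.blt q 5894) (block5893)
 (block5894)

noncomputable def blocks5895to5898 (q : ℕ) : ℕ :=
 cond (Nat.blt q 5896) (block5895)
 (cond (Nat.blt q 5897) (block5896)
 (block5897))

noncomputable def blocks5898to5900 (q : ℕ) : ℕ :=
 cond (Nat.blt q 5899) (block5898)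
 (block5899)

noncomputable def blocks5900to5903 (q : ℕ) : ℕ :=
 cond (Nat.blt q 5901) (block5900)
 (cond (Nat.blt q 5902) (block5901)
 (block5902))

noncomputable def blocks5903to5906 (q : ℕ) : ℕ :=
 cond (Nat.blt q 5904) (block5903)
 (cond (Nat.blt q 5905) (block5904)
 (block5905))

noncomputable def blocks5906to5909 (q : ℕ) : ℕ :=
 cond (Nat.blt q 5907) (block5906)
 (cond (Nat.blt q 5908) (block5907)
 (block5908))

noncomputable def blocks5867to5909 (q : ℕ) : ℕ :=
 cond (Nat.blt q 5888) (cond (Nat.blt q 5877) (cond (Nat.blt q 5872) (cond (Nat.blt q 5869) (blocks5867to5869 q)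
 (blocks5869to5872 q))
 (cond (Nat.blt q 5874) (blocks5872to5874 q)
 (blocks5874to5877 q)))
 (cond (Nat.blt q 5882) (cond (Nat.blt q 5879) (blocks5877to5879 q)
 (blocks5879to5882 q))
 (cond (Nat.blt q 5885) (blocks5882to5885 q)
 (blocks5885to5888 q))))
 (cond (Nat.blt q 5898) (cond (Nat.blt q 5893) (cond (Nat.blt q 5890) (blocks5888to5890 q)
 (blocks5890to5893 q))
 (cond (Nat.blt q 5895) (blocks5893to5895 q)
 (blocks5895to5898 q)))
 (cond (Nat.blt q 5903) (cond (Nat.blt q 5900) (blocks5898to5900 q)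
 (blocks5900to5903 q))
 (cond (Nat.blt q 5906) (blocks5903to5906 q)
 (blocks5906to5909 q))))

noncomputable def blocks5909to5911 (q : ℕ) : ℕ :=
 cond (Nat.blt q 5910) (block5909)
 (block5910)

noncomputable def blocks5911to5914 (q : ℕ) : ℕ :=
 cond (Nat.blt q 5912) (block5911)
 (cond (Nat.blt q 5913) (block5912)
 (block5913))

noncomputable def blocks5914to5916 (q : ℕ) : ℕ :=
 cond (Nat.blt q 5915) (block5914)
 (block5915)

noncomputable def blocks5916to5919 (q : ℕ) : ℕ :=
 cond (Nat.blt q 5917) (block5916)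
 (cond (Nat.blt q 5918) (block5917)
 (block5918))

noncomputable def blocks5919to5921 (q : ℕ) : ℕ :=
 cond (Nat.blt q 5920) (block5919)
 (block5920)

noncomputable def blocks5921to5924 (q : ℕ) : ℕ :=
 cond (Nat.blt q 5922) (block5921)
 (cond (Nat.blt q 5923) (block5922)
 (block5923))

noncomputable def blocks5924to5927 (q : ℕ) : ℕ :=
 cond (Nat.blt q 5925) (block5924)
 (cond (Nat.blt q 5926) (block5925)
 (block5926))

noncomputable def blocks5927to5930 (q : ℕ) : ℕ :=
 cond (Nat.blt q 5928) (block5927)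
 (cond (Nat.blt q 5929) (block5928)
 (block5929))

noncomputable def blocks5930to5932 (q : ℕ) : ℕ :=
 cond (Nat.blt q 5931) (block5930)
 (block5931)

noncomputable def blocks5932to5935 (q : ℕ) : ℕ :=
 cond (Nat.blt q 5933) (block5932)
 (cond (Nat.blt q 5934) (block5933)
 (block5934))

noncomputable def blocks5935to5938 (q : ℕ) : ℕ :=
 cond (Nat.blt q 5936) (block5935)
 (cond (Nat.blt q 5937) (block5936)
 (block5937))

noncomputable def blocks5938to5941 (q : ℕ) : ℕ :=
 cond (Nat.blt q 5939) (block5938)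
 (cond (Nat.blt q 5940) (block5939)
 (block5940))

noncomputable def blocks5941to5943 (q : ℕ) : ℕ :=
 cond (Nat.blt q 5942) (block5941)
 (block5942)

noncomputable def blocks5943to5946 (q : ℕ) : ℕ :=
 cond (Nat.blt q 5944) (block5943)
 (cond (Nat.blt q 5945) (block5944)
 (block5945))

noncomputable def blocks5946to5949 (q : ℕ) : ℕ :=
 cond (Nat.blt q 5947) (block5946)
 (cond (Nat.blt q 5948) (block5947)
 (block5948))

noncomputable def blocks5949to5952 (q : ℕ) : ℕ :=
 cond (Nat.blt q 5950) (block5949)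
 (cond (Nat.blt q 5951) (block5950)
 (block5951))

noncomputable def blocks5909to5952 (q : ℕ) : ℕ :=
 cond (Nat.blt q 5930) (cond (Nat.blt q 5919) (cond (Nat.blt q 5914) (cond (Nat.blt q 5911) (blocks5909to5911 q)
 (blocks5911to5914 q))
 (cond (Nat.blt q 5916) (blocks5914to5916 q)
 (blocks5916to5919 q)))
 (cond (Nat.blt q 5924) (cond (Nat.blt q 5921) (blocks5919to5921 q)
 (blocks5921to5924 q))
 (cond (Nat.blt q 5927) (blocks5924to5927 q)
 (blocks5927to5930 q))))
 (cond (Nat.blt q 5941) (cond (Nat.blt q 5935) (cond (Nat.blt q 5932) (blocks5930to5932 q)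
 (blocks5932to5935 q))
 (cond (Nat.blt q 5938) (blocks5935to5938 q)
 (blocks5938to5941 q)))
 (cond (Nat.blt q 5946) (cond (Nat.blt q 5943) (blocks5941to5943 q)
 (blocks5943to5946 q))
 (cond (Nat.blt q 5949) (blocks5946to5949 q)
 (blocks5949to5952 q))))

noncomputable def blocks5952to5954 (q : ℕ) : ℕ :=
 cond (Nat.blt q 5953) (block5952)
 (block5953)

noncomputable def blocks5954to5957 (q : ℕ) : ℕ :=
 cond (Nat.blt q 5955) (block5954)
 (cond (Nat.blt q 5956) (block5955)
 (block5956))

noncomputable def blocks5957to5959 (q : ℕ) : ℕ :=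
 cond (Nat.blt q 5958) (block5957)
 (block5958)

noncomputable def blocks5959to5962 (q : ℕ) : ℕ :=
 cond (Nat.blt q 5960) (block5959)
 (cond (Nat.blt q 5961) (block5960)
 (block5961))

noncomputable def blocks5962to5964 (q : ℕ) : ℕ :=
 cond (Nat.blt q 5963) (block5962)
 (block5963)

noncomputable def blocks5964to5967 (q : ℕ) : ℕ :=
 cond (Nat.blt q 5965) (block5964)
 (cond (Nat.blt q 5966) (block5965)
 (block5966))

noncomputable def blocks5967to5970 (q : ℕ) : ℕ :=
 cond (Nat.blt q 5968) (block5967)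
 (cond (Nat.blt q 5969) (block5968)
 (block5969))

noncomputable def blocks5970to5973 (q : ℕ) : ℕ :=
 cond (Nat.blt q 5971) (block5970)
 (cond (Nat.blt q 5972) (block5971)
 (block5972))

noncomputable def blocks5973to5975 (q : ℕ) : ℕ :=
 cond (Nat.blt q 5974) (block5973)
 (block5974)

noncomputable def blocks5975to5978 (q : ℕ) : ℕ :=
 cond (Nat.blt q 5976) (block5975)
 (cond (Nat.blt q 5977) (block5976)
 (block5977))

noncomputable def blocks5978to5980 (q : ℕ) : ℕ :=
 cond (Nat.blt q 5979) (block5978)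
 (block5979)

noncomputable def blocks5980to5983 (q : ℕ) : ℕ :=
 cond (Nat.blt q 5981) (block5980)
 (cond (Nat.blt q 5982) (block5981)
 (block5982))

noncomputable def blocks5983to5985 (q : ℕ) : ℕ :=
 cond (Nat.blt q 5984) (block5983)
 (block5984)

noncomputable def blocks5985to5988 (q : ℕ) : ℕ :=
 cond (Nat.blt q 5986) (block5985)
 (cond (Nat.blt q 5987) (block5986)
 (block5987))

noncomputable def blocks5988to5991 (q : ℕ) : ℕ :=
 cond (Nat.blt q 5989) (block5988)
 (cond (Nat.blt q 5990) (block5989)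
 (block5990))

noncomputable def blocks5991to5994 (q : ℕ) : ℕ :=
 cond (Nat.blt q 5992) (block5991)
 (cond (Nat.blt q 5993) (block5992)
 (block5993))

noncomputable def blocks5952to5994 (q : ℕ) : ℕ :=
 cond (Nat.blt q 5973) (cond (Nat.blt q 5962) (cond (Nat.blt q 5957) (cond (Nat.blt q 5954) (blocks5952to5954 q)
 (blocks5954to5957 q))
 (cond (Nat.blt q 5959) (blocks5957to5959 q)
 (blocks5959to5962 q)))
 (cond (Nat.blt q 5967) (cond (Nat.blt q 5964) (blocks5962to5964 q)
 (blocks5964to5967 q))
 (cond (Nat.blt q 5970) (blocks5967to5970 q)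
 (blocks5970to5973 q))))
 (cond (Nat.blt q 5983) (cond (Nat.blt q 5978) (cond (Nat.blt q 5975) (blocks5973to5975 q)
 (blocks5975to5978 q))
 (cond (Nat.blt q 5980) (blocks5978to5980 q)
 (blocks5980to5983 q)))
 (cond (Nat.blt q 5988) (cond (Nat.blt q 5985) (blocks5983to5985 q)
 (blocks5985to5988 q))
 (cond (Nat.blt q 5991) (blocks5988to5991 q)
 (blocks5991to5994 q))))

noncomputable def blocks5994to5996 (q : ℕ) : ℕ :=
 cond (Nat.blt q 5995) (block5994)
 (block5995)

noncomputable def blocks5996to5999 (q : ℕ) : ℕ :=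
 cond (Nat.blt q 5997) (block5996)
 (cond (Nat.blt q 5998) (block5997)
 (block5998))

noncomputable def blocks5999to6001 (q : ℕ) : ℕ :=
 cond (Nat.blt q 6000) (block5999)
 (block6000)

noncomputable def blocks6001to6004 (q : ℕ) : ℕ :=
 cond (Nat.blt q 6002) (block6001)
 (cond (Nat.blt q 6003) (block6002)
 (block6003))

noncomputable def blocks6004to6006 (q : ℕ) : ℕ :=
 cond (Nat.blt q 6005) (block6004)
 (block6005)

noncomputable def blocks6006to6009 (q : ℕ) : ℕ :=
 cond (Nat.blt q 6007) (block6006)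
 (cond (Nat.blt q 6008) (block6007)
 (block6008))

noncomputable def blocks6009to6012 (q : ℕ) : ℕ :=
 cond (Nat.blt q 6010) (block6009)
 (cond (Nat.blt q 6011) (block6010)
 (block6011))

noncomputable def blocks6012to6015 (q : ℕ) : ℕ :=
 cond (Nat.blt q 6013) (block6012)
 (cond (Nat.blt q 6014) (block6013)
 (block6014))

noncomputable def blocks6015to6017 (q : ℕ) : ℕ :=
 cond (Nat.blt q 6016) (block6015)
 (block6016)

noncomputable def blocks6017to6020 (q : ℕ) : ℕ :=
 cond (Nat.blt q 6018) (block6017)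
 (cond (Nat.blt q 6019) (block6018)
 (block6019))

noncomputable def blocks6020to6023 (q : ℕ) : ℕ :=
 cond (Nat.blt q 6021) (block6020)
 (cond (Nat.blt q 6022) (block6021)
 (block6022))

noncomputable def blocks6023to6026 (q : ℕ) : ℕ :=
 cond (Nat.blt q 6024) (block6023)
 (cond (Nat.blt q 6025) (block6024)
 (block6025))

noncomputable def blocks6026to6028 (q : ℕ) : ℕ :=
 cond (Nat.blt q 6027) (block6026)
 (block6027)

noncomputable def blocks6028to6031 (q : ℕ) : ℕ :=
 cond (Nat.blt q 6029) (block6028)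
 (cond (Nat.blt q 6030) (block6029)
 (block6030))

noncomputable def blocks6031to6034 (q : ℕ) : ℕ :=
 cond (Nat.blt q 6032) (block6031)
 (cond (Nat.blt q 6033) (block6032)
 (block6033))

noncomputable def blocks6034to6037 (q : ℕ) : ℕ :=
 cond (Nat.blt q 6035) (block6034)
 (cond (Nat.blt q 6036) (block6035)
 (block6036))

noncomputable def blocks5994to6037 (q : ℕ) : ℕ :=
 cond (Nat.blt q 6015) (cond (Nat.blt q 6004) (cond (Nat.blt q 5999) (cond (Nat.blt q 5996) (blocks5994to5996 q)
 (blocks5996to5999 q))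
 (cond (Nat.blt q 6001) (blocks5999to6001 q)
 (blocks6001to6004 q)))
 (cond (Nat.blt q 6009) (cond (Nat.blt q 6006) (blocks6004to6006 q)
 (blocks6006to6009 q))
 (cond (Nat.blt q 6012) (blocks6009to6012 q)
 (blocks6012to6015 q))))
 (cond (Nat.blt q 6026) (cond (Nat.blt q 6020) (cond (Nat.blt q 6017) (blocks6015to6017 q)
 (blocks6017to6020 q))
 (cond (Nat.blt q 6023) (blocks6020to6023 q)
 (blocks6023to6026 q)))
 (cond (Nat.blt q 6031) (cond (Nat.blt q 6028) (blocks6026to6028 q)
 (blocks6028to6031 q))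
 (cond (Nat.blt q 6034) (blocks6031to6034 q)
 (blocks6034to6037 q))))

noncomputable def blocks6037to6039 (q : ℕ) : ℕ :=
 cond (Nat.blt q 6038) (block6037)
 (block6038)

noncomputable def blocks6039to6042 (q : ℕ) : ℕ :=
 cond (Nat.blt q 6040) (block6039)
 (cond (Nat.blt q 6041) (block6040)
 (block6041))

noncomputable def blocks6042to6044 (q : ℕ) : ℕ :=
 cond (Nat.blt q 6043) (block6042)
 (block6043)

noncomputable def blocks6044to6047 (q : ℕ) : ℕ :=
 cond (Nat.blt q 6045) (block6044)
 (cond (Nat.blt q 6046) (block6045)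
 (block6046))

noncomputable def blocks6047to6049 (q : ℕ) : ℕ :=
 cond (Nat.blt q 6048) (block6047)
 (block6048)

noncomputable def blocks6049to6052 (q : ℕ) : ℕ :=
 cond (Nat.blt q 6050) (block6049)
 (cond (Nat.blt q 6051) (block6050)
 (block6051))

noncomputable def blocks6052to6055 (q : ℕ) : ℕ :=
 cond (Nat.blt q 6053) (block6052)
 (cond (Nat.blt q 6054) (block6053)
 (block6054))

noncomputable def blocks6055to6058 (q : ℕ) : ℕ :=
 cond (Nat.blt q 6056) (block6055)
 (cond (Nat.blt q 6057) (block6056)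
 (block6057))

noncomputable def blocks6058to6060 (q : ℕ) : ℕ :=
 cond (Nat.blt q 6059) (block6058)
 (block6059)

noncomputable def blocks6060to6063 (q : ℕ) : ℕ :=
 cond (Nat.blt q 6061) (block6060)
 (cond (Nat.blt q 6062) (block6061)
 (block6062))

noncomputable def blocks6063to6065 (q : ℕ) : ℕ :=
 cond (Nat.blt q 6064) (block6063)
 (block6064)

noncomputable def blocks6065to6068 (q : ℕ) : ℕ :=
 cond (Nat.blt q 6066) (block6065)
 (cond (Nat.blt q 6067) (block6066)
 (block6067))

noncomputable def blocks6068to6070 (q : ℕ) : ℕ :=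
 cond (Nat.blt q 6069) (block6068)
 (block6069)

noncomputable def blocks6070to6073 (q : ℕ) : ℕ :=
 cond (Nat.blt q 6071) (block6070)
 (cond (Nat.blt q 6072) (block6071)
 (block6072))

noncomputable def blocks6073to6076 (q : ℕ) : ℕ :=
 cond (Nat.blt q 6074) (block6073)
 (cond (Nat.blt q 6075) (block6074)
 (block6075))

noncomputable def blocks6076to6079 (q : ℕ) : ℕ :=
 cond (Nat.blt q 6077) (block6076)
 (cond (Nat.blt q 6078) (block6077)
 (block6078))

noncomputable def blocks6037to6079 (q : ℕ) : ℕ :=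
 cond (Nat.blt q 6058) (cond (Nat.blt q 6047) (cond (Nat.blt q 6042) (cond (Nat.blt q 6039) (blocks6037to6039 q)
 (blocks6039to6042 q))
 (cond (Nat.blt q 6044) (blocks6042to6044 q)
 (blocks6044to6047 q)))
 (cond (Nat.blt q 6052) (cond (Nat.blt q 6049) (blocks6047to6049 q)
 (blocks6049to6052 q))
 (cond (Nat.blt q 6055) (blocks6052to6055 q)
 (blocks6055to6058 q))))
 (cond (Nat.blt q 6068) (cond (Nat.blt q 6063) (cond (Nat.blt q 6060) (blocks6058to6060 q)
 (blocks6060to6063 q))
 (cond (Nat.blt q 6065) (blocks6063to6065 q)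
 (blocks6065to6068 q)))
 (cond (Nat.blt q 6073) (cond (Nat.blt q 6070) (blocks6068to6070 q)
 (blocks6070to6073 q))
 (cond (Nat.blt q 6076) (blocks6073to6076 q)
 (blocks6076to6079 q))))

noncomputable def blocks6079to6081 (q : ℕ) : ℕ :=
 cond (Nat.blt q 6080) (block6079)
 (block6080)

noncomputable def blocks6081to6084 (q : ℕ) : ℕ :=
 cond (Nat.blt q 6082) (block6081)
 (cond (Nat.blt q 6083) (block6082)
 (block6083))

noncomputable def blocks6084to6086 (q : ℕ) : ℕ :=
 cond (Nat.blt q 6085) (block6084)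
 (block6085)

noncomputable def blocks6086to6089 (q : ℕ) : ℕ :=
 cond (Nat.blt q 6087) (block6086)
 (cond (Nat.blt q 6088) (block6087)
 (block6088))

noncomputable def blocks6089to6091 (q : ℕ) : ℕ :=
 cond (Nat.blt q 6090) (block6089)
 (block6090)

noncomputable def blocks6091to6094 (q : ℕ) : ℕ :=
 cond (Nat.blt q 6092) (block6091)
 (cond (Nat.blt q 6093) (block6092)
 (block6093))

noncomputable def blocks6094to6097 (q : ℕ) : ℕ :=
 cond (Nat.blt q 6095) (block6094)
 (cond (Nat.blt q 6096) (block6095)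
 (block6096))

noncomputable def blocks6097to6100 (q : ℕ) : ℕ :=
 cond (Nat.blt q 6098) (block6097)
 (cond (Nat.blt q 6099) (block6098)
 (block6099))

noncomputable def blocks6100to6102 (q : ℕ) : ℕ :=
 cond (Nat.blt q 6101) (block6100)
 (block6101)

noncomputable def blocks6102to6105 (q : ℕ) : ℕ :=
 cond (Nat.blt q 6103) (block6102)
 (cond (Nat.blt q 6104) (block6103)
 (block6104))

noncomputable def blocks6105to6108 (q : ℕ) : ℕ :=
 cond (Nat.blt q 6106) (block6105)
 (cond (Nat.blt q 6107) (block6106)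
 (block6107))

noncomputable def blocks6108to6111 (q : ℕ) : ℕ :=
 cond (Nat.blt q 6109) (block6108)
 (cond (Nat.blt q 6110) (block6109)
 (block6110))

noncomputable def blocks6111to6113 (q : ℕ) : ℕ :=
 cond (Nat.blt q 6112) (block6111)
 (block6112)

noncomputable def blocks6113to6116 (q : ℕ) : ℕ :=
 cond (Nat.blt q 6114) (block6113)
 (cond (Nat.blt q 6115) (block6114)
 (block6115))

noncomputable def blocks6116to6119 (q : ℕ) : ℕ :=
 cond (Nat.blt q 6117) (block6116)
 (cond (Nat.blt q 6118) (block6117)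
 (block6118))

noncomputable def blocks6119to6122 (q : ℕ) : ℕ :=
 cond (Nat.blt q 6120) (block6119)
 (cond (Nat.blt q 6121) (block6120)
 (block6121))

noncomputable def blocks6079to6122 (q : ℕ) : ℕ :=
 cond (Nat.blt q 6100) (cond (Nat.blt q 6089) (cond (Nat.blt q 6084) (cond (Nat.blt q 6081) (blocks6079to6081 q)
 (blocks6081to6084 q))
 (cond (Nat.blt q 6086) (blocks6084to6086 q)
 (blocks6086to6089 q)))
 (cond (Nat.blt q 6094) (cond (Nat.blt q 6091) (blocks6089to6091 q)
 (blocks6091to6094 q))
 (cond (Nat.blt q 6097) (blocks6094to6097 q)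
 (blocks6097to6100 q))))
 (cond (Nat.blt q 6111) (cond (Nat.blt q 6105) (cond (Nat.blt q 6102) (blocks6100to6102 q)
 (blocks6102to6105 q))
 (cond (Nat.blt q 6108) (blocks6105to6108 q)
 (blocks6108to6111 q)))
 (cond (Nat.blt q 6116) (cond (Nat.blt q 6113) (blocks6111to6113 q)
 (blocks6113to6116 q))
 (cond (Nat.blt q 6119) (blocks6116to6119 q)
 (blocks6119to6122 q))))

noncomputable def blocks5442to6122 (q : ℕ) : ℕ :=
 cond (Nat.blt q 5782) (cond (Nat.blt q 5612) (cond (Nat.blt q 5527) (cond (Nat.blt q 5484) (blocks5442to5484 q)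
 (blocks5484to5527 q))
 (cond (Nat.blt q 5569) (blocks5527to5569 q)
 (blocks5569to5612 q)))
 (cond (Nat.blt q 5697) (cond (Nat.blt q 5654) (blocks5612to5654 q)
 (blocks5654to5697 q))
 (cond (Nat.blt q 5739) (blocks5697to5739 q)
 (blocks5739to5782 q))))
 (cond (Nat.blt q 5952) (cond (Nat.blt q 5867) (cond (Nat.blt q 5824) (blocks5782to5824 q)
 (blocks5824to5867 q))
 (cond (Nat.blt q 5909) (blocks5867to5909 q)
 (blocks5909to5952 q)))
 (cond (Nat.blt q 6037) (cond (Nat.blt q 5994) (blocks5952to5994 q)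
 (blocks5994to6037 q))
 (cond (Nat.blt q 6079) (blocks6037to6079 q)
 (blocks6079to6122 q))))

noncomputable def blocks6122to6124 (q : ℕ) : ℕ :=
 cond (Nat.blt q 6123) (block6122)
 (block6123)

noncomputable def blocks6124to6127 (q : ℕ) : ℕ :=
 cond (Nat.blt q 6125) (block6124)
 (cond (Nat.blt q 6126) (block6125)
 (block6126))

noncomputable def blocks6127to6129 (q : ℕ) : ℕ :=
 cond (Nat.blt q 6128) (block6127)
 (block6128)

noncomputable def blocks6129to6132 (q : ℕ) : ℕ :=
 cond (Nat.blt q 6130) (block6129)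
 (cond (Nat.blt q 6131) (block6130)
 (block6131))

noncomputable def blocks6132to6134 (q : ℕ) : ℕ :=
 cond (Nat.blt q 6133) (block6132)
 (block6133)

noncomputable def blocks6134to6137 (q : ℕ) : ℕ :=
 cond (Nat.blt q 6135) (block6134)
 (cond (Nat.blt q 6136) (block6135)
 (block6136))

noncomputable def blocks6137to6140 (q : ℕ) : ℕ :=
 cond (Nat.blt q 6138) (block6137)
 (cond (Nat.blt q 6139) (block6138)
 (block6139))

noncomputable def blocks6140to6143 (q : ℕ) : ℕ :=
 cond (Nat.blt q 6141) (block6140)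
 (cond (Nat.blt q 6142) (block6141)
 (block6142))

noncomputable def blocks6143to6145 (q : ℕ) : ℕ :=
 cond (Nat.blt q 6144) (block6143)
 (block6144)

noncomputable def blocks6145to6148 (q : ℕ) : ℕ :=
 cond (Nat.blt q 6146) (block6145)
 (cond (Nat.blt q 6147) (block6146)
 (block6147))

noncomputable def blocks6148to6150 (q : ℕ) : ℕ :=
 cond (Nat.blt q 6149) (block6148)
 (block6149)

noncomputable def blocks6150to6153 (q : ℕ) : ℕ :=
 cond (Nat.blt q 6151) (block6150)
 (cond (Nat.blt q 6152) (block6151)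
 (block6152))

noncomputable def blocks6153to6155 (q : ℕ) : ℕ :=
 cond (Nat.blt q 6154) (block6153)
 (block6154)

noncomputable def blocks6155to6158 (q : ℕ) : ℕ :=
 cond (Nat.blt q 6156) (block6155)
 (cond (Nat.blt q 6157) (block6156)
 (block6157))

noncomputable def blocks6158to6161 (q : ℕ) : ℕ :=
 cond (Nat.blt q 6159) (block6158)
 (cond (Nat.blt q 6160) (block6159)
 (block6160))

noncomputable def blocks6161to6164 (q : ℕ) : ℕ :=
 cond (Nat.blt q 6162) (block6161)
 (cond (Nat.blt q 6163) (block6162)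
 (block6163))

noncomputable def blocks6122to6164 (q : ℕ) : ℕ :=
 cond (Nat.blt q 6143) (cond (Nat.blt q 6132) (cond (Nat.blt q 6127) (cond (Nat.blt q 6124) (blocks6122to6124 q)
 (blocks6124to6127 q))
 (cond (Nat.blt q 6129) (blocks6127to6129 q)
 (blocks6129to6132 q)))
 (cond (Nat.blt q 6137) (cond (Nat.blt q 6134) (blocks6132to6134 q)
 (blocks6134to6137 q))
 (cond (Nat.blt q 6140) (blocks6137to6140 q)
 (blocks6140to6143 q))))
 (cond (Nat.blt q 6153) (cond (Nat.blt q 6148) (cond (Nat.blt q 6145) (blocks6143to6145 q)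
 (blocks6145to6148 q))
 (cond (Nat.blt q 6150) (blocks6148to6150 q)
 (blocks6150to6153 q)))
 (cond (Nat.blt q 6158) (cond (Nat.blt q 6155) (blocks6153to6155 q)
 (blocks6155to6158 q))
 (cond (Nat.blt q 6161) (blocks6158to6161 q)
 (blocks6161to6164 q))))

noncomputable def blocks6164to6166 (q : ℕ) : ℕ :=
 cond (Nat.blt q 6165) (block6164)
 (block6165)

noncomputable def blocks6166to6169 (q : ℕ) : ℕ :=
 cond (Nat.blt q 6167) (block6166)
 (cond (Nat.blt q 6168) (block6167)
 (block6168))

noncomputable def blocks6169to6171 (q : ℕ) : ℕ :=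
 cond (Nat.blt q 6170) (block6169)
 (block6170)

noncomputable def blocks6171to6174 (q : ℕ) : ℕ :=
 cond (Nat.blt q 6172) (block6171)
 (cond (Nat.blt q 6173) (block6172)
 (block6173))

noncomputable def blocks6174to6176 (q : ℕ) : ℕ :=
 cond (Nat.blt q 6175) (block6174)
 (block6175)

noncomputable def blocks6176to6179 (q : ℕ) : ℕ :=
 cond (Nat.blt q 6177) (block6176)
 (cond (Nat.blt q 6178) (block6177)
 (block6178))

noncomputable def blocks6179to6182 (q : ℕ) : ℕ :=
 cond (Nat.blt q 6180) (block6179)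
 (cond (Nat.blt q 6181) (block6180)
 (block6181))

noncomputable def blocks6182to6185 (q : ℕ) : ℕ :=
 cond (Nat.blt q 6183) (block6182)
 (cond (Nat.blt q 6184) (block6183)
 (block6184))

noncomputable def blocks6185to6187 (q : ℕ) : ℕ :=
 cond (Nat.blt q 6186) (block6185)
 (block6186)

noncomputable def blocks6187to6190 (q : ℕ) : ℕ :=
 cond (Nat.blt q 6188) (block6187)
 (cond (Nat.blt q 6189) (block6188)
 (block6189))

noncomputable def blocks6190to6193 (q : ℕ) : ℕ :=
 cond (Nat.blt q 6191) (block6190)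
 (cond (Nat.blt q 6192) (block6191)
 (block6192))

noncomputable def blocks6193to6196 (q : ℕ) : ℕ :=
 cond (Nat.blt q 6194) (block6193)
 (cond (Nat.blt q 6195) (block6194)
 (block6195))

noncomputable def blocks6196to6198 (q : ℕ) : ℕ :=
 cond (Nat.blt q 6197) (block6196)
 (block6197)

noncomputable def blocks6198to6201 (q : ℕ) : ℕ :=
 cond (Nat.blt q 6199) (block6198)
 (cond (Nat.blt q 6200) (block6199)
 (block6200))

noncomputable def blocks6201to6204 (q : ℕ) : ℕ :=
 cond (Nat.blt q 6202) (block6201)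
 (cond (Nat.blt q 6203) (block6202)
 (block6203))

noncomputable def blocks6204to6207 (q : ℕ) : ℕ :=
 cond (Nat.blt q 6205) (block6204)
 (cond (Nat.blt q 6206) (block6205)
 (block6206))

noncomputable def blocks6164to6207 (q : ℕ) : ℕ :=
 cond (Nat.blt q 6185) (cond (Nat.blt q 6174) (cond (Nat.blt q 6169) (cond (Nat.blt q 6166) (blocks6164to6166 q)
 (blocks6166to6169 q))
 (cond (Nat.blt q 6171) (blocks6169to6171 q)
 (blocks6171to6174 q)))
 (cond (Nat.blt q 6179) (cond (Nat.blt q 6176) (blocks6174to6176 q)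
 (blocks6176to6179 q))
 (cond (Nat.blt q 6182) (blocks6179to6182 q)
 (blocks6182to6185 q))))
 (cond (Nat.blt q 6196) (cond (Nat.blt q 6190) (cond (Nat.blt q 6187) (blocks6185to6187 q)
 (blocks6187to6190 q))
 (cond (Nat.blt q 6193) (blocks6190to6193 q)
 (blocks6193to6196 q)))
 (cond (Nat.blt q 6201) (cond (Nat.blt q 6198) (blocks6196to6198 q)
 (blocks6198to6201 q))
 (cond (Nat.blt q 6204) (blocks6201to6204 q)
 (blocks6204to6207 q))))

noncomputable def blocks6207to6209 (q : ℕ) : ℕ :=
 cond (Nat.blt q 6208) (block6207)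
 (block6208)

noncomputable def blocks6209to6212 (q : ℕ) : ℕ :=
 cond (Nat.blt q 6210) (block6209)
 (cond (Nat.blt q 6211) (block6210)
 (block6211))

noncomputable def blocks6212to6214 (q : ℕ) : ℕ :=
 cond (Nat.blt q 6213) (block6212)
 (block6213)

noncomputable def blocks6214to6217 (q : ℕ) : ℕ :=
 cond (Nat.blt q 6215) (block6214)
 (cond (Nat.blt q 6216) (block6215)
 (block6216))

noncomputable def blocks6217to6219 (q : ℕ) : ℕ :=
 cond (Nat.blt q 6218) (block6217)
 (block6218)

noncomputable def blocks6219to6222 (q : ℕ) : ℕ :=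
 cond (Nat.blt q 6220) (block6219)
 (cond (Nat.blt q 6221) (block6220)
 (block6221))

noncomputable def blocks6222to6225 (q : ℕ) : ℕ :=
 cond (Nat.blt q 6223) (block6222)
 (cond (Nat.blt q 6224) (block6223)
 (block6224))

noncomputable def blocks6225to6228 (q : ℕ) : ℕ :=
 cond (Nat.blt q 6226) (block6225)
 (cond (Nat.blt q 6227) (block6226)
 (block6227))

noncomputable def blocks6228to6230 (q : ℕ) : ℕ :=
 cond (Nat.blt q 6229) (block6228)
 (block6229)

noncomputable def blocks6230to6233 (q : ℕ) : ℕ :=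
 cond (Nat.blt q 6231) (block6230)
 (cond (Nat.blt q 6232) (block6231)
 (block6232))

noncomputable def blocks6233to6235 (q : ℕ) : ℕ :=
 cond (Nat.blt q 6234) (block6233)
 (block6234)

noncomputable def blocks6235to6238 (q : ℕ) : ℕ :=
 cond (Nat.blt q 6236) (block6235)
 (cond (Nat.blt q 6237) (block6236)
 (block6237))

noncomputable def blocks6238to6240 (q : ℕ) : ℕ :=
 cond (Nat.blt q 6239) (block6238)
 (block6239)

noncomputable def blocks6240to6243 (q : ℕ) : ℕ :=
 cond (Nat.blt q 6241) (block6240)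
 (cond (Nat.blt q 6242) (block6241)
 (block6242))

noncomputable def blocks6243to6246 (q : ℕ) : ℕ :=
 cond (Nat.blt q 6244) (block6243)
 (cond (Nat.blt q 6245) (block6244)
 (block6245))

noncomputable def blocks6246to6249 (q : ℕ) : ℕ :=
 cond (Nat.blt q 6247) (block6246)
 (cond (Nat.blt q 6248) (block6247)
 (block6248))

noncomputable def blocks6207to6249 (q : ℕ) : ℕ :=
 cond (Nat.blt q 6228) (cond (Nat.blt q 6217) (cond (Nat.blt q 6212) (cond (Nat.blt q 6209) (blocks6207to6209 q)
 (blocks6209to6212 q))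
 (cond (Nat.blt q 6214) (blocks6212to6214 q)
 (blocks6214to6217 q)))
 (cond (Nat.blt q 6222) (cond (Nat.blt q 6219) (blocks6217to6219 q)
 (blocks6219to6222 q))
 (cond (Nat.blt q 6225) (blocks6222to6225 q)
 (blocks6225to6228 q))))
 (cond (Nat.blt q 6238) (cond (Nat.blt q 6233) (cond (Nat.blt q 6230) (blocks6228to6230 q)
 (blocks6230to6233 q))
 (cond (Nat.blt q 6235) (blocks6233to6235 q)
 (blocks6235to6238 q)))
 (cond (Nat.blt q 6243) (cond (Nat.blt q 6240) (blocks6238to6240 q)
 (blocks6240to6243 q))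
 (cond (Nat.blt q 6246) (blocks6243to6246 q)
 (blocks6246to6249 q))))

noncomputable def blocks6249to6251 (q : ℕ) : ℕ :=
 cond (Nat.blt q 6250) (block6249)
 (block6250)

noncomputable def blocks6251to6254 (q : ℕ) : ℕ :=
 cond (Nat.blt q 6252) (block6251)
 (cond (Nat.blt q 6253) (block6252)
 (block6253))

noncomputable def blocks6254to6256 (q : ℕ) : ℕ :=
 cond (Nat.blt q 6255) (block6254)
 (block6255)

noncomputable def blocks6256to6259 (q : ℕ) : ℕ :=
 cond (Nat.blt q 6257) (block6256)
 (cond (Nat.blt q 6258) (block6257)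
 (block6258))

noncomputable def blocks6259to6261 (q : ℕ) : ℕ :=
 cond (Nat.blt q 6260) (block6259)
 (block6260)

noncomputable def blocks6261to6264 (q : ℕ) : ℕ :=
 cond (Nat.blt q 6262) (block6261)
 (cond (Nat.blt q 6263) (block6262)
 (block6263))

noncomputable def blocks6264to6267 (q : ℕ) : ℕ :=
 cond (Nat.blt q 6265) (block6264)
 (cond (Nat.blt q 6266) (block6265)
 (block6266))

noncomputable def blocks6267to6270 (q : ℕ) : ℕ :=
 cond (Nat.blt q 6268) (block6267)
 (cond (Nat.blt q 6269) (block6268)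
 (block6269))

noncomputable def blocks6270to6272 (q : ℕ) : ℕ :=
 cond (Nat.blt q 6271) (block6270)
 (block6271)

noncomputable def blocks6272to6275 (q : ℕ) : ℕ :=
 cond (Nat.blt q 6273) (block6272)
 (cond (Nat.blt q 6274) (block6273)
 (block6274))

noncomputable def blocks6275to6278 (q : ℕ) : ℕ :=
 cond (Nat.blt q 6276) (block6275)
 (cond (Nat.blt q 6277) (block6276)
 (block6277))

noncomputable def blocks6278to6281 (q : ℕ) : ℕ :=
 cond (Nat.blt q 6279) (block6278)
 (cond (Nat.blt q 6280) (block6279)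
 (block6280))

noncomputable def blocks6281to6283 (q : ℕ) : ℕ :=
 cond (Nat.blt q 6282) (block6281)
 (block6282)

noncomputable def blocks6283to6286 (q : ℕ) : ℕ :=
 cond (Nat.blt q 6284) (block6283)
 (cond (Nat.blt q 6285) (block6284)
 (block6285))

noncomputable def blocks6286to6289 (q : ℕ) : ℕ :=
 cond (Nat.blt q 6287) (block6286)
 (cond (Nat.blt q 6288) (block6287)
 (block6288))

noncomputable def blocks6289to6292 (q : ℕ) : ℕ :=
 cond (Nat.blt q 6290) (block6289)
 (cond (Nat.blt q 6291) (block6290)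
 (block6291))

noncomputable def blocks6249to6292 (q : ℕ) : ℕ :=
 cond (Nat.blt q 6270) (cond (Nat.blt q 6259) (cond (Nat.blt q 6254) (cond (Nat.blt q 6251) (blocks6249to6251 q)
 (blocks6251to6254 q))
 (cond (Nat.blt q 6256) (blocks6254to6256 q)
 (blocks6256to6259 q)))
 (cond (Nat.blt q 6264) (cond (Nat.blt q 6261) (blocks6259to6261 q)
 (blocks6261to6264 q))
 (cond (Nat.blt q 6267) (blocks6264to6267 q)
 (blocks6267to6270 q))))
 (cond (Nat.blt q 6281) (cond (Nat.blt q 6275) (cond (Nat.blt q 6272) (blocks6270to6272 q)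
 (blocks6272to6275 q))
 (cond (Nat.blt q 6278) (blocks6275to6278 q)
 (blocks6278to6281 q)))
 (cond (Nat.blt q 6286) (cond (Nat.blt q 6283) (blocks6281to6283 q)
 (blocks6283to6286 q))
 (cond (Nat.blt q 6289) (blocks6286to6289 q)
 (blocks6289to6292 q))))

noncomputable def blocks6292to6294 (q : ℕ) : ℕ :=
 cond (Nat.blt q 6293) (block6292)
 (block6293)

noncomputable def blocks6294to6297 (q : ℕ) : ℕ :=
 cond (Nat.blt q 6295) (block6294)
 (cond (Nat.blt q 6296) (block6295)
 (block6296))

noncomputable def blocks6297to6299 (q : ℕ) : ℕ :=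
 cond (Nat.blt q 6298) (block6297)
 (block6298)

noncomputable def blocks6299to6302 (q : ℕ) : ℕ :=
 cond (Nat.blt q 6300) (block6299)
 (cond (Nat.blt q 6301) (block6300)
 (block6301))

noncomputable def blocks6302to6304 (q : ℕ) : ℕ :=
 cond (Nat.blt q 6303) (block6302)
 (block6303)

noncomputable def blocks6304to6307 (q : ℕ) : ℕ :=
 cond (Nat.blt q 6305) (block6304)
 (cond (Nat.blt q 6306) (block6305)
 (block6306))

noncomputable def blocks6307to6310 (q : ℕ) : ℕ :=
 cond (Nat.blt q 6308) (block6307)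
 (cond (Nat.blt q 6309) (block6308)
 (block6309))

noncomputable def blocks6310to6313 (q : ℕ) : ℕ :=
 cond (Nat.blt q 6311) (block6310)
 (cond (Nat.blt q 6312) (block6311)
 (block6312))

noncomputable def blocks6313to6315 (q : ℕ) : ℕ :=
 cond (Nat.blt q 6314) (block6313)
 (block6314)

noncomputable def blocks6315to6318 (q : ℕ) : ℕ :=
 cond (Nat.blt q 6316) (block6315)
 (cond (Nat.blt q 6317) (block6316)
 (block6317))

noncomputable def blocks6318to6320 (q : ℕ) : ℕ :=
 cond (Nat.blt q 6319) (block6318)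
 (block6319)

noncomputable def blocks6320to6323 (q : ℕ) : ℕ :=
 cond (Nat.blt q 6321) (block6320)
 (cond (Nat.blt q 6322) (block6321)
 (block6322))

noncomputable def blocks6323to6325 (q : ℕ) : ℕ :=
 cond (Nat.blt q 6324) (block6323)
 (block6324)

noncomputable def blocks6325to6328 (q : ℕ) : ℕ :=
 cond (Nat.blt q 6326) (block6325)
 (cond (Nat.blt q 6327) (block6326)
 (block6327))

noncomputable def blocks6328to6331 (q : ℕ) : ℕ :=
 cond (Nat.blt q 6329) (block6328)
 (cond (Nat.blt q 6330) (block6329)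
 (block6330))

noncomputable def blocks6331to6334 (q : ℕ) : ℕ :=
 cond (Nat.blt q 6332) (block6331)
 (cond (Nat.blt q 6333) (block6332)
 (block6333))

noncomputable def blocks6292to6334 (q : ℕ) : ℕ :=
 cond (Nat.blt q 6313) (cond (Nat.blt q 6302) (cond (Nat.blt q 6297) (cond (Nat.blt q 6294) (blocks6292to6294 q)
 (blocks6294to6297 q))
 (cond (Nat.blt q 6299) (blocks6297to6299 q)
 (blocks6299to6302 q)))
 (cond (Nat.blt q 6307) (cond (Nat.blt q 6304) (blocks6302to6304 q)
 (blocks6304to6307 q))
 (cond (Nat.blt q 6310) (blocks6307to6310 q)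
 (blocks6310to6313 q))))
 (cond (Nat.blt q 6323) (cond (Nat.blt q 6318) (cond (Nat.blt q 6315) (blocks6313to6315 q)
 (blocks6315to6318 q))
 (cond (Nat.blt q 6320) (blocks6318to6320 q)
 (blocks6320to6323 q)))
 (cond (Nat.blt q 6328) (cond (Nat.blt q 6325) (blocks6323to6325 q)
 (blocks6325to6328 q))
 (cond (Nat.blt q 6331) (blocks6328to6331 q)
 (blocks6331to6334 q))))

noncomputable def blocks6334to6336 (q : ℕ) : ℕ :=
 cond (Nat.blt q 6335) (block6334)
 (block6335)

noncomputable def blocks6336to6339 (q : ℕ) : ℕ :=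
 cond (Nat.blt q 6337) (block6336)
 (cond (Nat.blt q 6338) (block6337)
 (block6338))

noncomputable def blocks6339to6341 (q : ℕ) : ℕ :=
 cond (Nat.blt q 6340) (block6339)
 (block6340)

noncomputable def blocks6341to6344 (q : ℕ) : ℕ :=
 cond (Nat.blt q 6342) (block6341)
 (cond (Nat.blt q 6343) (block6342)
 (block6343))

noncomputable def blocks6344to6346 (q : ℕ) : ℕ :=
 cond (Nat.blt q 6345) (block6344)
 (block6345)

noncomputable def blocks6346to6349 (q : ℕ) : ℕ :=
 cond (Nat.blt q 6347) (block6346)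
 (cond (Nat.blt q 6348) (block6347)
 (block6348))

noncomputable def blocks6349to6352 (q : ℕ) : ℕ :=
 cond (Nat.blt q 6350) (block6349)
 (cond (Nat.blt q 6351) (block6350)
 (block6351))

noncomputable def blocks6352to6355 (q : ℕ) : ℕ :=
 cond (Nat.blt q 6353) (block6352)
 (cond (Nat.blt q 6354) (block6353)
 (block6354))

noncomputable def blocks6355to6357 (q : ℕ) : ℕ :=
 cond (Nat.blt q 6356) (block6355)
 (block6356)

noncomputable def blocks6357to6360 (q : ℕ) : ℕ :=
 cond (Nat.blt q 6358) (block6357)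
 (cond (Nat.blt q 6359) (block6358)
 (block6359))

noncomputable def blocks6360to6363 (q : ℕ) : ℕ :=
 cond (Nat.blt q 6361) (block6360)
 (cond (Nat.blt q 6362) (block6361)
 (block6362))

noncomputable def blocks6363to6366 (q : ℕ) : ℕ :=
 cond (Nat.blt q 6364) (block6363)
 (cond (Nat.blt q 6365) (block6364)
 (block6365))

noncomputable def blocks6366to6368 (q : ℕ) : ℕ :=
 cond (Nat.blt q 6367) (block6366)
 (block6367)

noncomputable def blocks6368to6371 (q : ℕ) : ℕ :=
 cond (Nat.blt q 6369) (block6368)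
 (cond (Nat.blt q 6370) (block6369)
 (block6370))

noncomputable def blocks6371to6374 (q : ℕ) : ℕ :=
 cond (Nat.blt q 6372) (block6371)
 (cond (Nat.blt q 6373) (block6372)
 (block6373))

noncomputable def blocks6374to6377 (q : ℕ) : ℕ :=
 cond (Nat.blt q 6375) (block6374)
 (cond (Nat.blt q 6376) (block6375)
 (block6376))

noncomputable def blocks6334to6377 (q : ℕ) : ℕ :=
 cond (Nat.blt q 6355) (cond (Nat.blt q 6344) (cond (Nat.blt q 6339) (cond (Nat.blt q 6336) (blocks6334to6336 q)
 (blocks6336to6339 q))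
 (cond (Nat.blt q 6341) (blocks6339to6341 q)
 (blocks6341to6344 q)))
 (cond (Nat.blt q 6349) (cond (Nat.blt q 6346) (blocks6344to6346 q)
 (blocks6346to6349 q))
 (cond (Nat.blt q 6352) (blocks6349to6352 q)
 (blocks6352to6355 q))))
 (cond (Nat.blt q 6366) (cond (Nat.blt q 6360) (cond (Nat.blt q 6357) (blocks6355to6357 q)
 (blocks6357to6360 q))
 (cond (Nat.blt q 6363) (blocks6360to6363 q)
 (blocks6363to6366 q)))
 (cond (Nat.blt q 6371) (cond (Nat.blt q 6368) (blocks6366to6368 q)
 (blocks6368to6371 q))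
 (cond (Nat.blt q 6374) (blocks6371to6374 q)
 (blocks6374to6377 q))))

noncomputable def blocks6377to6379 (q : ℕ) : ℕ :=
 cond (Nat.blt q 6378) (block6377)
 (block6378)

noncomputable def blocks6379to6382 (q : ℕ) : ℕ :=
 cond (Nat.blt q 6380) (block6379)
 (cond (Nat.blt q 6381) (block6380)
 (block6381))

noncomputable def blocks6382to6384 (q : ℕ) : ℕ :=
 cond (Nat.blt q 6383) (block6382)
 (block6383)

noncomputable def blocks6384to6387 (q : ℕ) : ℕ :=
 cond (Nat.blt q 6385) (block6384)
 (cond (Nat.blt q 6386) (block6385)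
 (block6386))

noncomputable def blocks6387to6389 (q : ℕ) : ℕ :=
 cond (Nat.blt q 6388) (block6387)
 (block6388)

noncomputable def blocks6389to6392 (q : ℕ) : ℕ :=
 cond (Nat.blt q 6390) (block6389)
 (cond (Nat.blt q 6391) (block6390)
 (block6391))

noncomputable def blocks6392to6395 (q : ℕ) : ℕ :=
 cond (Nat.blt q 6393) (block6392)
 (cond (Nat.blt q 6394) (block6393)
 (block6394))

noncomputable def blocks6395to6398 (q : ℕ) : ℕ :=
 cond (Nat.blt q 6396) (block6395)
 (cond (Nat.blt q 6397) (block6396)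
 (block6397))

noncomputable def blocks6398to6400 (q : ℕ) : ℕ :=
 cond (Nat.blt q 6399) (block6398)
 (block6399)

noncomputable def blocks6400to6403 (q : ℕ) : ℕ :=
 cond (Nat.blt q 6401) (block6400)
 (cond (Nat.blt q 6402) (block6401)
 (block6402))

noncomputable def blocks6403to6405 (q : ℕ) : ℕ :=
 cond (Nat.blt q 6404) (block6403)
 (block6404)

noncomputable def blocks6405to6408 (q : ℕ) : ℕ :=
 cond (Nat.blt q 6406) (block6405)
 (cond (Nat.blt q 6407) (block6406)
 (block6407))

noncomputable def blocks6408to6410 (q : ℕ) : ℕ :=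
 cond (Nat.blt q 6409) (block6408)
 (block6409)

noncomputable def blocks6410to6413 (q : ℕ) : ℕ :=
 cond (Nat.blt q 6411) (block6410)
 (cond (Nat.blt q 6412) (block6411)
 (block6412))

noncomputable def blocks6413to6416 (q : ℕ) : ℕ :=
 cond (Nat.blt q 6414) (block6413)
 (cond (Nat.blt q 6415) (block6414)
 (block6415))

noncomputable def blocks6416to6419 (q : ℕ) : ℕ :=
 cond (Nat.blt q 6417) (block6416)
 (cond (Nat.blt q 6418) (block6417)
 (block6418))

noncomputable def blocks6377to6419 (q : ℕ) : ℕ :=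
 cond (Nat.blt q 6398) (cond (Nat.blt q 6387) (cond (Nat.blt q 6382) (cond (Nat.blt q 6379) (blocks6377to6379 q)
 (blocks6379to6382 q))
 (cond (Nat.blt q 6384) (blocks6382to6384 q)
 (blocks6384to6387 q)))
 (cond (Nat.blt q 6392) (cond (Nat.blt q 6389) (blocks6387to6389 q)
 (blocks6389to6392 q))
 (cond (Nat.blt q 6395) (blocks6392to6395 q)
 (blocks6395to6398 q))))
 (cond (Nat.blt q 6408) (cond (Nat.blt q 6403) (cond (Nat.blt q 6400) (blocks6398to6400 q)
 (blocks6400to6403 q))
 (cond (Nat.blt q 6405) (blocks6403to6405 q)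
 (blocks6405to6408 q)))
 (cond (Nat.blt q 6413) (cond (Nat.blt q 6410) (blocks6408to6410 q)
 (blocks6410to6413 q))
 (cond (Nat.blt q 6416) (blocks6413to6416 q)
 (blocks6416to6419 q))))

noncomputable def blocks6419to6421 (q : ℕ) : ℕ :=
 cond (Nat.blt q 6420) (block6419)
 (block6420)

noncomputable def blocks6421to6424 (q : ℕ) : ℕ :=
 cond (Nat.blt q 6422) (block6421)
 (cond (Nat.blt q 6423) (block6422)
 (block6423))

noncomputable def blocks6424to6426 (q : ℕ) : ℕ :=
 cond (Nat.blt q 6425) (block6424)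
 (block6425)

noncomputable def blocks6426to6429 (q : ℕ) : ℕ :=
 cond (Nat.blt q 6427) (block6426)
 (cond (Nat.blt q 6428) (block6427)
 (block6428))

noncomputable def blocks6429to6431 (q : ℕ) : ℕ :=
 cond (Nat.blt q 6430) (block6429)
 (block6430)

noncomputable def blocks6431to6434 (q : ℕ) : ℕ :=
 cond (Nat.blt q 6432) (block6431)
 (cond (Nat.blt q 6433) (block6432)
 (block6433))

noncomputable def blocks6434to6437 (q : ℕ) : ℕ :=
 cond (Nat.blt q 6435) (block6434)
 (cond (Nat.blt q 6436) (block6435)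
 (block6436))

noncomputable def blocks6437to6440 (q : ℕ) : ℕ :=
 cond (Nat.blt q 6438) (block6437)
 (cond (Nat.blt q 6439) (block6438)
 (block6439))

noncomputable def blocks6440to6442 (q : ℕ) : ℕ :=
 cond (Nat.blt q 6441) (block6440)
 (block6441)

noncomputable def blocks6442to6445 (q : ℕ) : ℕ :=
 cond (Nat.blt q 6443) (block6442)
 (cond (Nat.blt q 6444) (block6443)
 (block6444))

noncomputable def blocks6445to6448 (q : ℕ) : ℕ :=
 cond (Nat.blt q 6446) (block6445)
 (cond (Nat.blt q 6447) (block6446)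
 (block6447))

noncomputable def blocks6448to6451 (q : ℕ) : ℕ :=
 cond (Nat.blt q 6449) (block6448)
 (cond (Nat.blt q 6450) (block6449)
 (block6450))

noncomputable def blocks6451to6453 (q : ℕ) : ℕ :=
 cond (Nat.blt q 6452) (block6451)
 (block6452)

noncomputable def blocks6453to6456 (q : ℕ) : ℕ :=
 cond (Nat.blt q 6454) (block6453)
 (cond (Nat.blt q 6455) (block6454)
 (block6455))

noncomputable def blocks6456to6459 (q : ℕ) : ℕ :=
 cond (Nat.blt q 6457) (block6456)
 (cond (Nat.blt q 6458) (block6457)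
 (block6458))

noncomputable def blocks6459to6462 (q : ℕ) : ℕ :=
 cond (Nat.blt q 6460) (block6459)
 (cond (Nat.blt q 6461) (block6460)
 (block6461))

noncomputable def blocks6419to6462 (q : ℕ) : ℕ :=
 cond (Nat.blt q 6440) (cond (Nat.blt q 6429) (cond (Nat.blt q 6424) (cond (Nat.blt q 6421) (blocks6419to6421 q)
 (blocks6421to6424 q))
 (cond (Nat.blt q 6426) (blocks6424to6426 q)
 (blocks6426to6429 q)))
 (cond (Nat.blt q 6434) (cond (Nat.blt q 6431) (blocks6429to6431 q)
 (blocks6431to6434 q))
 (cond (Nat.blt q 6437) (blocks6434to6437 q)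
 (blocks6437to6440 q))))
 (cond (Nat.blt q 6451) (cond (Nat.blt q 6445) (cond (Nat.blt q 6442) (blocks6440to6442 q)
 (blocks6442to6445 q))
 (cond (Nat.blt q 6448) (blocks6445to6448 q)
 (blocks6448to6451 q)))
 (cond (Nat.blt q 6456) (cond (Nat.blt q 6453) (blocks6451to6453 q)
 (blocks6453to6456 q))
 (cond (Nat.blt q 6459) (blocks6456to6459 q)
 (blocks6459to6462 q))))

noncomputable def blocks6462to6464 (q : ℕ) : ℕ :=
 cond (Nat.blt q 6463) (block6462)
 (block6463)

noncomputable def blocks6464to6467 (q : ℕ) : ℕ :=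
 cond (Nat.blt q 6465) (block6464)
 (cond (Nat.blt q 6466) (block6465)
 (block6466))

noncomputable def blocks6467to6469 (q : ℕ) : ℕ :=
 cond (Nat.blt q 6468) (block6467)
 (block6468)

noncomputable def blocks6469to6472 (q : ℕ) : ℕ :=
 cond (Nat.blt q 6470) (block6469)
 (cond (Nat.blt q 6471) (block6470)
 (block6471))

noncomputable def blocks6472to6474 (q : ℕ) : ℕ :=
 cond (Nat.blt q 6473) (block6472)
 (block6473)

noncomputable def blocks6474to6477 (q : ℕ) : ℕ :=
 cond (Nat.blt q 6475) (block6474)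
 (cond (Nat.blt q 6476) (block6475)
 (block6476))

noncomputable def blocks6477to6480 (q : ℕ) : ℕ :=
 cond (Nat.blt q 6478) (block6477)
 (cond (Nat.blt q 6479) (block6478)
 (block6479))

noncomputable def blocks6480to6483 (q : ℕ) : ℕ :=
 cond (Nat.blt q 6481) (block6480)
 (cond (Nat.blt q 6482) (block6481)
 (block6482))

noncomputable def blocks6483to6485 (q : ℕ) : ℕ :=
 cond (Nat.blt q 6484) (block6483)
 (block6484)

noncomputable def blocks6485to6488 (q : ℕ) : ℕ :=
 cond (Nat.blt q 6486) (block6485)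
 (cond (Nat.blt q 6487) (block6486)
 (block6487))

noncomputable def blocks6488to6490 (q : ℕ) : ℕ :=
 cond (Nat.blt q 6489) (block6488)
 (block6489)

noncomputable def blocks6490to6493 (q : ℕ) : ℕ :=
 cond (Nat.blt q 6491) (block6490)
 (cond (Nat.blt q 6492) (block6491)
 (block6492))

noncomputable def blocks6493to6495 (q : ℕ) : ℕ :=
 cond (Nat.blt q 6494) (block6493)
 (block6494)

noncomputable def blocks6495to6498 (q : ℕ) : ℕ :=
 cond (Nat.blt q 6496) (block6495)
 (cond (Nat.blt q 6497) (block6496)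
 (block6497))

noncomputable def blocks6498to6501 (q : ℕ) : ℕ :=
 cond (Nat.blt q 6499) (block6498)
 (cond (Nat.blt q 6500) (block6499)
 (block6500))

noncomputable def blocks6501to6504 (q : ℕ) : ℕ :=
 cond (Nat.blt q 6502) (block6501)
 (cond (Nat.blt q 6503) (block6502)
 (block6503))

noncomputable def blocks6462to6504 (q : ℕ) : ℕ :=
 cond (Nat.blt q 6483) (cond (Nat.blt q 6472) (cond (Nat.blt q 6467) (cond (Nat.blt q 6464) (blocks6462to6464 q)
 (blocks6464to6467 q))
 (cond (Nat.blt q 6469) (blocks6467to6469 q)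
 (blocks6469to6472 q)))
 (cond (Nat.blt q 6477) (cond (Nat.blt q 6474) (blocks6472to6474 q)
 (blocks6474to6477 q))
 (cond (Nat.blt q 6480) (blocks6477to6480 q)
 (blocks6480to6483 q))))
 (cond (Nat.blt q 6493) (cond (Nat.blt q 6488) (cond (Nat.blt q 6485) (blocks6483to6485 q)
 (blocks6485to6488 q))
 (cond (Nat.blt q 6490) (blocks6488to6490 q)
 (blocks6490to6493 q)))
 (cond (Nat.blt q 6498) (cond (Nat.blt q 6495) (blocks6493to6495 q)
 (blocks6495to6498 q))
 (cond (Nat.blt q 6501) (blocks6498to6501 q)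
 (blocks6501to6504 q))))

noncomputable def blocks6504to6506 (q : ℕ) : ℕ :=
 cond (Nat.blt q 6505) (block6504)
 (block6505)

noncomputable def blocks6506to6509 (q : ℕ) : ℕ :=
 cond (Nat.blt q 6507) (block6506)
 (cond (Nat.blt q 6508) (block6507)
 (block6508))

noncomputable def blocks6509to6511 (q : ℕ) : ℕ :=
 cond (Nat.blt q 6510) (block6509)
 (block6510)

noncomputable def blocks6511to6514 (q : ℕ) : ℕ :=
 cond (Nat.blt q 6512) (block6511)
 (cond (Nat.blt q 6513) (block6512)
 (block6513))

noncomputable def blocks6514to6516 (q : ℕ) : ℕ :=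
 cond (Nat.blt q 6515) (block6514)
 (block6515)

noncomputable def blocks6516to6519 (q : ℕ) : ℕ :=
 cond (Nat.blt q 6517) (block6516)
 (cond (Nat.blt q 6518) (block6517)
 (block6518))

noncomputable def blocks6519to6522 (q : ℕ) : ℕ :=
 cond (Nat.blt q 6520) (block6519)
 (cond (Nat.blt q 6521) (block6520)
 (block6521))

noncomputable def blocks6522to6525 (q : ℕ) : ℕ :=
 cond (Nat.blt q 6523) (block6522)
 (cond (Nat.blt q 6524) (block6523)
 (block6524))

noncomputable def blocks6525to6527 (q : ℕ) : ℕ :=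
 cond (Nat.blt q 6526) (block6525)
 (block6526)

noncomputable def blocks6527to6530 (q : ℕ) : ℕ :=
 cond (Nat.blt q 6528) (block6527)
 (cond (Nat.blt q 6529) (block6528)
 (block6529))

noncomputable def blocks6530to6533 (q : ℕ) : ℕ :=
 cond (Nat.blt q 6531) (block6530)
 (cond (Nat.blt q 6532) (block6531)
 (block6532))

noncomputable def blocks6533to6536 (q : ℕ) : ℕ :=
 cond (Nat.blt q 6534) (block6533)
 (cond (Nat.blt q 6535) (block6534)
 (block6535))

noncomputable def blocks6536to6538 (q : ℕ) : ℕ :=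
 cond (Nat.blt q 6537) (block6536)
 (block6537)

noncomputable def blocks6538to6541 (q : ℕ) : ℕ :=
 cond (Nat.blt q 6539) (block6538)
 (cond (Nat.blt q 6540) (block6539)
 (block6540))

noncomputable def blocks6541to6544 (q : ℕ) : ℕ :=
 cond (Nat.blt q 6542) (block6541)
 (cond (Nat.blt q 6543) (block6542)
 (block6543))

noncomputable def blocks6544to6547 (q : ℕ) : ℕ :=
 cond (Nat.blt q 6545) (block6544)
 (cond (Nat.blt q 6546) (block6545)
 (block6546))

noncomputable def blocks6504to6547 (q : ℕ) : ℕ :=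
 cond (Nat.blt q 6525) (cond (Nat.blt q 6514) (cond (Nat.blt q 6509) (cond (Nat.blt q 6506) (blocks6504to6506 q)
 (blocks6506to6509 q))
 (cond (Nat.blt q 6511) (blocks6509to6511 q)
 (blocks6511to6514 q)))
 (cond (Nat.blt q 6519) (cond (Nat.blt q 6516) (blocks6514to6516 q)
 (blocks6516to6519 q))
 (cond (Nat.blt q 6522) (blocks6519to6522 q)
 (blocks6522to6525 q))))
 (cond (Nat.blt q 6536) (cond (Nat.blt q 6530) (cond (Nat.blt q 6527) (blocks6525to6527 q)
 (blocks6527to6530 q))
 (cond (Nat.blt q 6533) (blocks6530to6533 q)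
 (blocks6533to6536 q)))
 (cond (Nat.blt q 6541) (cond (Nat.blt q 6538) (blocks6536to6538 q)
 (blocks6538to6541 q))
 (cond (Nat.blt q 6544) (blocks6541to6544 q)
 (blocks6544to6547 q))))

noncomputable def blocks6547to6549 (q : ℕ) : ℕ :=
 cond (Nat.blt q 6548) (block6547)
 (block6548)

noncomputable def blocks6549to6552 (q : ℕ) : ℕ :=
 cond (Nat.blt q 6550) (block6549)
 (cond (Nat.blt q 6551) (block6550)
 (block6551))

noncomputable def blocks6552to6554 (q : ℕ) : ℕ :=
 cond (Nat.blt q 6553) (block6552)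
 (block6553)

noncomputable def blocks6554to6557 (q : ℕ) : ℕ :=
 cond (Nat.blt q 6555) (block6554)
 (cond (Nat.blt q 6556) (block6555)
 (block6556))

noncomputable def blocks6557to6559 (q : ℕ) : ℕ :=
 cond (Nat.blt q 6558) (block6557)
 (block6558)

noncomputable def blocks6559to6562 (q : ℕ) : ℕ :=
 cond (Nat.blt q 6560) (block6559)
 (cond (Nat.blt q 6561) (block6560)
 (block6561))

noncomputable def blocks6562to6565 (q : ℕ) : ℕ :=
 cond (Nat.blt q 6563) (block6562)
 (cond (Nat.blt q 6564) (block6563)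
 (block6564))

noncomputable def blocks6565to6568 (q : ℕ) : ℕ :=
 cond (Nat.blt q 6566) (block6565)
 (cond (Nat.blt q 6567) (block6566)
 (block6567))

noncomputable def blocks6568to6570 (q : ℕ) : ℕ :=
 cond (Nat.blt q 6569) (block6568)
 (block6569)

noncomputable def blocks6570to6573 (q : ℕ) : ℕ :=
 cond (Nat.blt q 6571) (block6570)
 (cond (Nat.blt q 6572) (block6571)
 (block6572))

noncomputable def blocks6573to6575 (q : ℕ) : ℕ :=
 cond (Nat.blt q 6574) (block6573)
 (block6574)

noncomputable def blocks6575to6578 (q : ℕ) : ℕ :=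
 cond (Nat.blt q 6576) (block6575)
 (cond (Nat.blt q 6577) (block6576)
 (block6577))

noncomputable def blocks6578to6580 (q : ℕ) : ℕ :=
 cond (Nat.blt q 6579) (block6578)
 (block6579)

noncomputable def blocks6580to6583 (q : ℕ) : ℕ :=
 cond (Nat.blt q 6581) (block6580)
 (cond (Nat.blt q 6582) (block6581)
 (block6582))

noncomputable def blocks6583to6586 (q : ℕ) : ℕ :=
 cond (Nat.blt q 6584) (block6583)
 (cond (Nat.blt q 6585) (block6584)
 (block6585))

noncomputable def blocks6586to6589 (q : ℕ) : ℕ :=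
 cond (Nat.blt q 6587) (block6586)
 (cond (Nat.blt q 6588) (block6587)
 (block6588))

noncomputable def blocks6547to6589 (q : ℕ) : ℕ :=
 cond (Nat.blt q 6568) (cond (Nat.blt q 6557) (cond (Nat.blt q 6552) (cond (Nat.blt q 6549) (blocks6547to6549 q)
 (blocks6549to6552 q))
 (cond (Nat.blt q 6554) (blocks6552to6554 q)
 (blocks6554to6557 q)))
 (cond (Nat.blt q 6562) (cond (Nat.blt q 6559) (blocks6557to6559 q)
 (blocks6559to6562 q))
 (cond (Nat.blt q 6565) (blocks6562to6565 q)
 (blocks6565to6568 q))))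
 (cond (Nat.blt q 6578) (cond (Nat.blt q 6573) (cond (Nat.blt q 6570) (blocks6568to6570 q)
 (blocks6570to6573 q))
 (cond (Nat.blt q 6575) (blocks6573to6575 q)
 (blocks6575to6578 q)))
 (cond (Nat.blt q 6583) (cond (Nat.blt q 6580) (blocks6578to6580 q)
 (blocks6580to6583 q))
 (cond (Nat.blt q 6586) (blocks6583to6586 q)
 (blocks6586to6589 q))))

noncomputable def blocks6589to6591 (q : ℕ) : ℕ :=
 cond (Nat.blt q 6590) (block6589)
 (block6590)

noncomputable def blocks6591to6594 (q : ℕ) : ℕ :=
 cond (Nat.blt q 6592) (block6591)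
 (cond (Nat.blt q 6593) (block6592)
 (block6593))

noncomputable def blocks6594to6596 (q : ℕ) : ℕ :=
 cond (Nat.blt q 6595) (block6594)
 (block6595)

noncomputable def blocks6596to6599 (q : ℕ) : ℕ :=
 cond (Nat.blt q 6597) (block6596)
 (cond (Nat.blt q 6598) (block6597)
 (block6598))

noncomputable def blocks6599to6601 (q : ℕ) : ℕ :=
 cond (Nat.blt q 6600) (block6599)
 (block6600)

noncomputable def blocks6601to6604 (q : ℕ) : ℕ :=
 cond (Nat.blt q 6602) (block6601)
 (cond (Nat.blt q 6603) (block6602)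
 (block6603))

noncomputable def blocks6604to6607 (q : ℕ) : ℕ :=
 cond (Nat.blt q 6605) (block6604)
 (cond (Nat.blt q 6606) (block6605)
 (block6606))

noncomputable def blocks6607to6610 (q : ℕ) : ℕ :=
 cond (Nat.blt q 6608) (block6607)
 (cond (Nat.blt q 6609) (block6608)
 (block6609))

noncomputable def blocks6610to6612 (q : ℕ) : ℕ :=
 cond (Nat.blt q 6611) (block6610)
 (block6611)

noncomputable def blocks6612to6615 (q : ℕ) : ℕ :=
 cond (Nat.blt q 6613) (block6612)
 (cond (Nat.blt q 6614) (block6613)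
 (block6614))

noncomputable def blocks6615to6618 (q : ℕ) : ℕ :=
 cond (Nat.blt q 6616) (block6615)
 (cond (Nat.blt q 6617) (block6616)
 (block6617))

noncomputable def blocks6618to6621 (q : ℕ) : ℕ :=
 cond (Nat.blt q 6619) (block6618)
 (cond (Nat.blt q 6620) (block6619)
 (block6620))

noncomputable def blocks6621to6623 (q : ℕ) : ℕ :=
 cond (Nat.blt q 6622) (block6621)
 (block6622)

noncomputable def blocks6623to6626 (q : ℕ) : ℕ :=
 cond (Nat.blt q 6624) (block6623)
 (cond (Nat.blt q 6625) (block6624)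
 (block6625))

noncomputable def blocks6626to6629 (q : ℕ) : ℕ :=
 cond (Nat.blt q 6627) (block6626)
 (cond (Nat.blt q 6628) (block6627)
 (block6628))

noncomputable def blocks6629to6632 (q : ℕ) : ℕ :=
 cond (Nat.blt q 6630) (block6629)
 (cond (Nat.blt q 6631) (block6630)
 (block6631))

noncomputable def blocks6589to6632 (q : ℕ) : ℕ :=
 cond (Nat.blt q 6610) (cond (Nat.blt q 6599) (cond (Nat.blt q 6594) (cond (Nat.blt q 6591) (blocks6589to6591 q)
 (blocks6591to6594 q))
 (cond (Nat.blt q 6596) (blocks6594to6596 q)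
 (blocks6596to6599 q)))
 (cond (Nat.blt q 6604) (cond (Nat.blt q 6601) (blocks6599to6601 q)
 (blocks6601to6604 q))
 (cond (Nat.blt q 6607) (blocks6604to6607 q)
 (blocks6607to6610 q))))
 (cond (Nat.blt q 6621) (cond (Nat.blt q 6615) (cond (Nat.blt q 6612) (blocks6610to6612 q)
 (blocks6612to6615 q))
 (cond (Nat.blt q 6618) (blocks6615to6618 q)
 (blocks6618to6621 q)))
 (cond (Nat.blt q 6626) (cond (Nat.blt q 6623) (blocks6621to6623 q)
 (blocks6623to6626 q))
 (cond (Nat.blt q 6629) (blocks6626to6629 q)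
 (blocks6629to6632 q))))

noncomputable def blocks6632to6634 (q : ℕ) : ℕ :=
 cond (Nat.blt q 6633) (block6632)
 (block6633)

noncomputable def blocks6634to6637 (q : ℕ) : ℕ :=
 cond (Nat.blt q 6635) (block6634)
 (cond (Nat.blt q 6636) (block6635)
 (block6636))

noncomputable def blocks6637to6639 (q : ℕ) : ℕ :=
 cond (Nat.blt q 6638) (block6637)
 (block6638)

noncomputable def blocks6639to6642 (q : ℕ) : ℕ :=
 cond (Nat.blt q 6640) (block6639)
 (cond (Nat.blt q 6641) (block6640)
 (block6641))

noncomputable def blocks6642to6644 (q : ℕ) : ℕ :=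
 cond (Nat.blt q 6643) (block6642)
 (block6643)

noncomputable def blocks6644to6647 (q : ℕ) : ℕ :=
 cond (Nat.blt q 6645) (block6644)
 (cond (Nat.blt q 6646) (block6645)
 (block6646))

noncomputable def blocks6647to6650 (q : ℕ) : ℕ :=
 cond (Nat.blt q 6648) (block6647)
 (cond (Nat.blt q 6649) (block6648)
 (block6649))

noncomputable def blocks6650to6653 (q : ℕ) : ℕ :=
 cond (Nat.blt q 6651) (block6650)
 (cond (Nat.blt q 6652) (block6651)
 (block6652))

noncomputable def blocks6653to6655 (q : ℕ) : ℕ :=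
 cond (Nat.blt q 6654) (block6653)
 (block6654)

noncomputable def blocks6655to6658 (q : ℕ) : ℕ :=
 cond (Nat.blt q 6656) (block6655)
 (cond (Nat.blt q 6657) (block6656)
 (block6657))

noncomputable def blocks6658to6660 (q : ℕ) : ℕ :=
 cond (Nat.blt q 6659) (block6658)
 (block6659)

noncomputable def blocks6660to6663 (q : ℕ) : ℕ :=
 cond (Nat.blt q 6661) (block6660)
 (cond (Nat.blt q 6662) (block6661)
 (block6662))

noncomputable def blocks6663to6665 (q : ℕ) : ℕ :=
 cond (Nat.blt q 6664) (block6663)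
 (block6664)

noncomputable def blocks6665to6668 (q : ℕ) : ℕ :=
 cond (Nat.blt q 6666) (block6665)
 (cond (Nat.blt q 6667) (block6666)
 (block6667))

noncomputable def blocks6668to6671 (q : ℕ) : ℕ :=
 cond (Nat.blt q 6669) (block6668)
 (cond (Nat.blt q 6670) (block6669)
 (block6670))

noncomputable def blocks6671to6674 (q : ℕ) : ℕ :=
 cond (Nat.blt q 6672) (block6671)
 (cond (Nat.blt q 6673) (block6672)
 (block6673))

noncomputable def blocks6632to6674 (q : ℕ) : ℕ :=
 cond (Nat.blt q 6653) (cond (Nat.blt q 6642) (cond (Nat.blt q 6637) (cond (Nat.blt q 6634) (blocks6632to6634 q)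
 (blocks6634to6637 q))
 (cond (Nat.blt q 6639) (blocks6637to6639 q)
 (blocks6639to6642 q)))
 (cond (Nat.blt q 6647) (cond (Nat.blt q 6644) (blocks6642to6644 q)
 (blocks6644to6647 q))
 (cond (Nat.blt q 6650) (blocks6647to6650 q)
 (blocks6650to6653 q))))
 (cond (Nat.blt q 6663) (cond (Nat.blt q 6658) (cond (Nat.blt q 6655) (blocks6653to6655 q)
 (blocks6655to6658 q))
 (cond (Nat.blt q 6660) (blocks6658to6660 q)
 (blocks6660to6663 q)))
 (cond (Nat.blt q 6668) (cond (Nat.blt q 6665) (blocks6663to6665 q)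
 (blocks6665to6668 q))
 (cond (Nat.blt q 6671) (blocks6668to6671 q)
 (blocks6671to6674 q))))

noncomputable def blocks6674to6676 (q : ℕ) : ℕ :=
 cond (Nat.blt q 6675) (block6674)
 (block6675)

noncomputable def blocks6676to6679 (q : ℕ) : ℕ :=
 cond (Nat.blt q 6677) (block6676)
 (cond (Nat.blt q 6678) (block6677)
 (block6678))

noncomputable def blocks6679to6681 (q : ℕ) : ℕ :=
 cond (Nat.blt q 6680) (block6679)
 (block6680)

noncomputable def blocks6681to6684 (q : ℕ) : ℕ :=
 cond (Nat.blt q 6682) (block6681)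
 (cond (Nat.blt q 6683) (block6682)
 (block6683))

noncomputable def blocks6684to6686 (q : ℕ) : ℕ :=
 cond (Nat.blt q 6685) (block6684)
 (block6685)

noncomputable def blocks6686to6689 (q : ℕ) : ℕ :=
 cond (Nat.blt q 6687) (block6686)
 (cond (Nat.blt q 6688) (block6687)
 (block6688))

noncomputable def blocks6689to6692 (q : ℕ) : ℕ :=
 cond (Nat.blt q 6690) (block6689)
 (cond (Nat.blt q 6691) (block6690)
 (block6691))

noncomputable def blocks6692to6695 (q : ℕ) : ℕ :=
 cond (Nat.blt q 6693) (block6692)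
 (cond (Nat.blt q 6694) (block6693)
 (block6694))

noncomputable def blocks6695to6697 (q : ℕ) : ℕ :=
 cond (Nat.blt q 6696) (block6695)
 (block6696)

noncomputable def blocks6697to6700 (q : ℕ) : ℕ :=
 cond (Nat.blt q 6698) (block6697)
 (cond (Nat.blt q 6699) (block6698)
 (block6699))

noncomputable def blocks6700to6703 (q : ℕ) : ℕ :=
 cond (Nat.blt q 6701) (block6700)
 (cond (Nat.blt q 6702) (block6701)
 (block6702))

noncomputable def blocks6703to6706 (q : ℕ) : ℕ :=
 cond (Nat.blt q 6704) (block6703)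
 (cond (Nat.blt q 6705) (block6704)
 (block6705))

noncomputable def blocks6706to6708 (q : ℕ) : ℕ :=
 cond (Nat.blt q 6707) (block6706)
 (block6707)

noncomputable def blocks6708to6711 (q : ℕ) : ℕ :=
 cond (Nat.blt q 6709) (block6708)
 (cond (Nat.blt q 6710) (block6709)
 (block6710))

noncomputable def blocks6711to6714 (q : ℕ) : ℕ :=
 cond (Nat.blt q 6712) (block6711)
 (cond (Nat.blt q 6713) (block6712)
 (block6713))

noncomputable def blocks6714to6717 (q : ℕ) : ℕ :=
 cond (Nat.blt q 6715) (block6714)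
 (cond (Nat.blt q 6716) (block6715)
 (block6716))

noncomputable def blocks6674to6717 (q : ℕ) : ℕ :=
 cond (Nat.blt q 6695) (cond (Nat.blt q 6684) (cond (Nat.blt q 6679) (cond (Nat.blt q 6676) (blocks6674to6676 q)
 (blocks6676to6679 q))
 (cond (Nat.blt q 6681) (blocks6679to6681 q)
 (blocks6681to6684 q)))
 (cond (Nat.blt q 6689) (cond (Nat.blt q 6686) (blocks6684to6686 q)
 (blocks6686to6689 q))
 (cond (Nat.blt q 6692) (blocks6689to6692 q)
 (blocks6692to6695 q))))
 (cond (Nat.blt q 6706) (cond (Nat.blt q 6700) (cond (Nat.blt q 6697) (blocks6695to6697 q)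
 (blocks6697to6700 q))
 (cond (Nat.blt q 6703) (blocks6700to6703 q)
 (blocks6703to6706 q)))
 (cond (Nat.blt q 6711) (cond (Nat.blt q 6708) (blocks6706to6708 q)
 (blocks6708to6711 q))
 (cond (Nat.blt q 6714) (blocks6711to6714 q)
 (blocks6714to6717 q))))

noncomputable def blocks6717to6719 (q : ℕ) : ℕ :=
 cond (Nat.blt q 6718) (block6717)
 (block6718)

noncomputable def blocks6719to6722 (q : ℕ) : ℕ :=
 cond (Nat.blt q 6720) (block6719)
 (cond (Nat.blt q 6721) (block6720)
 (block6721))

noncomputable def blocks6722to6724 (q : ℕ) : ℕ :=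
 cond (Nat.blt q 6723) (block6722)
 (block6723)

noncomputable def blocks6724to6727 (q : ℕ) : ℕ :=
 cond (Nat.blt q 6725) (block6724)
 (cond (Nat.blt q 6726) (block6725)
 (block6726))

noncomputable def blocks6727to6729 (q : ℕ) : ℕ :=
 cond (Nat.blt q 6728) (block6727)
 (block6728)

noncomputable def blocks6729to6732 (q : ℕ) : ℕ :=
 cond (Nat.blt q 6730) (block6729)
 (cond (Nat.blt q 6731) (block6730)
 (block6731))

noncomputable def blocks6732to6735 (q : ℕ) : ℕ :=
 cond (Nat.blt q 6733) (block6732)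
 (cond (Nat.blt q 6734) (block6733)
 (block6734))

noncomputable def blocks6735to6738 (q : ℕ) : ℕ :=
 cond (Nat.blt q 6736) (block6735)
 (cond (Nat.blt q 6737) (block6736)
 (block6737))

noncomputable def blocks6738to6740 (q : ℕ) : ℕ :=
 cond (Nat.blt q 6739) (block6738)
 (block6739)

noncomputable def blocks6740to6743 (q : ℕ) : ℕ :=
 cond (Nat.blt q 6741) (block6740)
 (cond (Nat.blt q 6742) (block6741)
 (block6742))

noncomputable def blocks6743to6745 (q : ℕ) : ℕ :=
 cond (Nat.blt q 6744) (block6743)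
 (block6744)

noncomputable def blocks6745to6748 (q : ℕ) : ℕ :=
 cond (Nat.blt q 6746) (block6745)
 (cond (Nat.blt q 6747) (block6746)
 (block6747))

noncomputable def blocks6748to6750 (q : ℕ) : ℕ :=
 cond (Nat.blt q 6749) (block6748)
 (block6749)

noncomputable def blocks6750to6753 (q : ℕ) : ℕ :=
 cond (Nat.blt q 6751) (block6750)
 (cond (Nat.blt q 6752) (block6751)
 (block6752))

noncomputable def blocks6753to6756 (q : ℕ) : ℕ :=
 cond (Nat.blt q 6754) (block6753)
 (cond (Nat.blt q 6755) (block6754)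
 (block6755))

noncomputable def blocks6756to6759 (q : ℕ) : ℕ :=
 cond (Nat.blt q 6757) (block6756)
 (cond (Nat.blt q 6758) (block6757)
 (block6758))

noncomputable def blocks6717to6759 (q : ℕ) : ℕ :=
 cond (Nat.blt q 6738) (cond (Nat.blt q 6727) (cond (Nat.blt q 6722) (cond (Nat.blt q 6719) (blocks6717to6719 q)
 (blocks6719to6722 q))
 (cond (Nat.blt q 6724) (blocks6722to6724 q)
 (blocks6724to6727 q)))
 (cond (Nat.blt q 6732) (cond (Nat.blt q 6729) (blocks6727to6729 q)
 (blocks6729to6732 q))
 (cond (Nat.blt q 6735) (blocks6732to6735 q)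
 (blocks6735to6738 q))))
 (cond (Nat.blt q 6748) (cond (Nat.blt q 6743) (cond (Nat.blt q 6740) (blocks6738to6740 q)
 (blocks6740to6743 q))
 (cond (Nat.blt q 6745) (blocks6743to6745 q)
 (blocks6745to6748 q)))
 (cond (Nat.blt q 6753) (cond (Nat.blt q 6750) (blocks6748to6750 q)
 (blocks6750to6753 q))
 (cond (Nat.blt q 6756) (blocks6753to6756 q)
 (blocks6756to6759 q))))

noncomputable def blocks6759to6761 (q : ℕ) : ℕ :=
 cond (Nat.blt q 6760) (block6759)
 (block6760)

noncomputable def blocks6761to6764 (q : ℕ) : ℕ :=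
 cond (Nat.blt q 6762) (block6761)
 (cond (Nat.blt q 6763) (block6762)
 (block6763))

noncomputable def blocks6764to6766 (q : ℕ) : ℕ :=
 cond (Nat.blt q 6765) (block6764)
 (block6765)

noncomputable def blocks6766to6769 (q : ℕ) : ℕ :=
 cond (Nat.blt q 6767) (block6766)
 (cond (Nat.blt q 6768) (block6767)
 (block6768))

noncomputable def blocks6769to6771 (q : ℕ) : ℕ :=
 cond (Nat.blt q 6770) (block6769)
 (block6770)

noncomputable def blocks6771to6774 (q : ℕ) : ℕ :=
 cond (Nat.blt q 6772) (block6771)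
 (cond (Nat.blt q 6773) (block6772)
 (block6773))

noncomputable def blocks6774to6777 (q : ℕ) : ℕ :=
 cond (Nat.blt q 6775) (block6774)
 (cond (Nat.blt q 6776) (block6775)
 (block6776))

noncomputable def blocks6777to6780 (q : ℕ) : ℕ :=
 cond (Nat.blt q 6778) (block6777)
 (cond (Nat.blt q 6779) (block6778)
 (block6779))

noncomputable def blocks6780to6782 (q : ℕ) : ℕ :=
 cond (Nat.blt q 6781) (block6780)
 (block6781)

noncomputable def blocks6782to6785 (q : ℕ) : ℕ :=
 cond (Nat.blt q 6783) (block6782)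
 (cond (Nat.blt q 6784) (block6783)
 (block6784))

noncomputable def blocks6785to6788 (q : ℕ) : ℕ :=
 cond (Nat.blt q 6786) (block6785)
 (cond (Nat.blt q 6787) (block6786)
 (block6787))

noncomputable def blocks6788to6791 (q : ℕ) : ℕ :=
 cond (Nat.blt q 6789) (block6788)
 (cond (Nat.blt q 6790) (block6789)
 (block6790))

noncomputable def blocks6791to6793 (q : ℕ) : ℕ :=
 cond (Nat.blt q 6792) (block6791)
 (block6792)

noncomputable def blocks6793to6796 (q : ℕ) : ℕ :=
 cond (Nat.blt q 6794) (block6793)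
 (cond (Nat.blt q 6795) (block6794)
 (block6795))

noncomputable def blocks6796to6799 (q : ℕ) : ℕ :=
 cond (Nat.blt q 6797) (block6796)
 (cond (Nat.blt q 6798) (block6797)
 (block6798))

noncomputable def blocks6799to6802 (q : ℕ) : ℕ :=
 cond (Nat.blt q 6800) (block6799)
 (cond (Nat.blt q 6801) (block6800)
 (block6801))

noncomputable def blocks6759to6802 (q : ℕ) : ℕ :=
 cond (Nat.blt q 6780) (cond (Nat.blt q 6769) (cond (Nat.blt q 6764) (cond (Nat.blt q 6761) (blocks6759to6761 q)
 (blocks6761to6764 q))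
 (cond (Nat.blt q 6766) (blocks6764to6766 q)
 (blocks6766to6769 q)))
 (cond (Nat.blt q 6774) (cond (Nat.blt q 6771) (blocks6769to6771 q)
 (blocks6771to6774 q))
 (cond (Nat.blt q 6777) (blocks6774to6777 q)
 (blocks6777to6780 q))))
 (cond (Nat.blt q 6791) (cond (Nat.blt q 6785) (cond (Nat.blt q 6782) (blocks6780to6782 q)
 (blocks6782to6785 q))
 (cond (Nat.blt q 6788) (blocks6785to6788 q)
 (blocks6788to6791 q)))
 (cond (Nat.blt q 6796) (cond (Nat.blt q 6793) (blocks6791to6793 q)
 (blocks6793to6796 q))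
 (cond (Nat.blt q 6799) (blocks6796to6799 q)
 (blocks6799to6802 q))))

noncomputable def blocks6122to6802 (q : ℕ) : ℕ :=
 cond (Nat.blt q 6462) (cond (Nat.blt q 6292) (cond (Nat.blt q 6207) (cond (Nat.blt q 6164) (blocks6122to6164 q)
 (blocks6164to6207 q))
 (cond (Nat.blt q 6249) (blocks6207to6249 q)
 (blocks6249to6292 q)))
 (cond (Nat.blt q 6377) (cond (Nat.blt q 6334) (blocks6292to6334 q)
 (blocks6334to6377 q))
 (cond (Nat.blt q 6419) (blocks6377to6419 q)
 (blocks6419to6462 q))))
 (cond (Nat.blt q 6632) (cond (Nat.blt q 6547) (cond (Nat.blt q 6504) (blocks6462to6504 q)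
 (blocks6504to6547 q))
 (cond (Nat.blt q 6589) (blocks6547to6589 q)
 (blocks6589to6632 q)))
 (cond (Nat.blt q 6717) (cond (Nat.blt q 6674) (blocks6632to6674 q)
 (blocks6674to6717 q))
 (cond (Nat.blt q 6759) (blocks6717to6759 q)
 (blocks6759to6802 q))))

noncomputable def blocks6802to6804 (q : ℕ) : ℕ :=
 cond (Nat.blt q 6803) (block6802)
 (block6803)

noncomputable def blocks6804to6807 (q : ℕ) : ℕ :=
 cond (Nat.blt q 6805) (block6804)
 (cond (Nat.blt q 6806) (block6805)
 (block6806))

noncomputable def blocks6807to6809 (q : ℕ) : ℕ :=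
 cond (Nat.blt q 6808) (block6807)
 (block6808)

noncomputable def blocks6809to6812 (q : ℕ) : ℕ :=
 cond (Nat.blt q 6810) (block6809)
 (cond (Nat.blt q 6811) (block6810)
 (block6811))

noncomputable def blocks6812to6814 (q : ℕ) : ℕ :=
 cond (Nat.blt q 6813) (block6812)
 (block6813)

noncomputable def blocks6814to6817 (q : ℕ) : ℕ :=
 cond (Nat.blt q 6815) (block6814)
 (cond (Nat.blt q 6816) (block6815)
 (block6816))

noncomputable def blocks6817to6820 (q : ℕ) : ℕ :=
 cond (Nat.blt q 6818) (block6817)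
 (cond (Nat.blt q 6819) (block6818)
 (block6819))

noncomputable def blocks6820to6823 (q : ℕ) : ℕ :=
 cond (Nat.blt q 6821) (block6820)
 (cond (Nat.blt q 6822) (block6821)
 (block6822))

noncomputable def blocks6823to6825 (q : ℕ) : ℕ :=
 cond (Nat.blt q 6824) (block6823)
 (block6824)

noncomputable def blocks6825to6828 (q : ℕ) : ℕ :=
 cond (Nat.blt q 6826) (block6825)
 (cond (Nat.blt q 6827) (block6826)
 (block6827))

noncomputable def blocks6828to6830 (q : ℕ) : ℕ :=
 cond (Nat.blt q 6829) (block6828)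
 (block6829)

noncomputable def blocks6830to6833 (q : ℕ) : ℕ :=
 cond (Nat.blt q 6831) (block6830)
 (cond (Nat.blt q 6832) (block6831)
 (block6832))

noncomputable def blocks6833to6835 (q : ℕ) : ℕ :=
 cond (Nat.blt q 6834) (block6833)
 (block6834)

noncomputable def blocks6835to6838 (q : ℕ) : ℕ :=
 cond (Nat.blt q 6836) (block6835)
 (cond (Nat.blt q 6837) (block6836)
 (block6837))

noncomputable def blocks6838to6841 (q : ℕ) : ℕ :=
 cond (Nat.blt q 6839) (block6838)
 (cond (Nat.blt q 6840) (block6839)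
 (block6840))

noncomputable def blocks6841to6844 (q : ℕ) : ℕ :=
 cond (Nat.blt q 6842) (block6841)
 (cond (Nat.blt q 6843) (block6842)
 (block6843))

noncomputable def blocks6802to6844 (q : ℕ) : ℕ :=
 cond (Nat.blt q 6823) (cond (Nat.blt q 6812) (cond (Nat.blt q 6807) (cond (Nat.blt q 6804) (blocks6802to6804 q)
 (blocks6804to6807 q))
 (cond (Nat.blt q 6809) (blocks6807to6809 q)
 (blocks6809to6812 q)))
 (cond (Nat.blt q 6817) (cond (Nat.blt q 6814) (blocks6812to6814 q)
 (blocks6814to6817 q))
 (cond (Nat.blt q 6820) (blocks6817to6820 q)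
 (blocks6820to6823 q))))
 (cond (Nat.blt q 6833) (cond (Nat.blt q 6828) (cond (Nat.blt q 6825) (blocks6823to6825 q)
 (blocks6825to6828 q))
 (cond (Nat.blt q 6830) (blocks6828to6830 q)
 (blocks6830to6833 q)))
 (cond (Nat.blt q 6838) (cond (Nat.blt q 6835) (blocks6833to6835 q)
 (blocks6835to6838 q))
 (cond (Nat.blt q 6841) (blocks6838to6841 q)
 (blocks6841to6844 q))))

noncomputable def blocks6844to6846 (q : ℕ) : ℕ :=
 cond (Nat.blt q 6845) (block6844)
 (block6845)

noncomputable def blocks6846to6849 (q : ℕ) : ℕ :=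
 cond (Nat.blt q 6847) (block6846)
 (cond (Nat.blt q 6848) (block6847)
 (block6848))

noncomputable def blocks6849to6851 (q : ℕ) : ℕ :=
 cond (Nat.blt q 6850) (block6849)
 (block6850)

noncomputable def blocks6851to6854 (q : ℕ) : ℕ :=
 cond (Nat.blt q 6852) (block6851)
 (cond (Nat.blt q 6853) (block6852)
 (block6853))

noncomputable def blocks6854to6856 (q : ℕ) : ℕ :=
 cond (Nat.blt q 6855) (block6854)
 (block6855)

noncomputable def blocks6856to6859 (q : ℕ) : ℕ :=
 cond (Nat.blt q 6857) (block6856)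
 (cond (Nat.blt q 6858) (block6857)
 (block6858))

noncomputable def blocks6859to6862 (q : ℕ) : ℕ :=
 cond (Nat.blt q 6860) (block6859)
 (cond (Nat.blt q 6861) (block6860)
 (block6861))

noncomputable def blocks6862to6865 (q : ℕ) : ℕ :=
 cond (Nat.blt q 6863) (block6862)
 (cond (Nat.blt q 6864) (block6863)
 (block6864))

noncomputable def blocks6865to6867 (q : ℕ) : ℕ :=
 cond (Nat.blt q 6866) (block6865)
 (block6866)

noncomputable def blocks6867to6870 (q : ℕ) : ℕ :=
 cond (Nat.blt q 6868) (block6867)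
 (cond (Nat.blt q 6869) (block6868)
 (block6869))

noncomputable def blocks6870to6873 (q : ℕ) : ℕ :=
 cond (Nat.blt q 6871) (block6870)
 (cond (Nat.blt q 6872) (block6871)
 (block6872))

noncomputable def blocks6873to6876 (q : ℕ) : ℕ :=
 cond (Nat.blt q 6874) (block6873)
 (cond (Nat.blt q 6875) (block6874)
 (block6875))

noncomputable def blocks6876to6878 (q : ℕ) : ℕ :=
 cond (Nat.blt q 6877) (block6876)
 (block6877)

noncomputable def blocks6878to6881 (q : ℕ) : ℕ :=
 cond (Nat.blt q 6879) (block6878)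
 (cond (Nat.blt q 6880) (block6879)
 (block6880))

noncomputable def blocks6881to6884 (q : ℕ) : ℕ :=
 cond (Nat.blt q 6882) (block6881)
 (cond (Nat.blt q 6883) (block6882)
 (block6883))

noncomputable def blocks6884to6887 (q : ℕ) : ℕ :=
 cond (Nat.blt q 6885) (block6884)
 (cond (Nat.blt q 6886) (block6885)
 (block6886))

noncomputable def blocks6844to6887 (q : ℕ) : ℕ :=
 cond (Nat.blt q 6865) (cond (Nat.blt q 6854) (cond (Nat.blt q 6849) (cond (Nat.blt q 6846) (blocks6844to6846 q)
 (blocks6846to6849 q))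
 (cond (Nat.blt q 6851) (blocks6849to6851 q)
 (blocks6851to6854 q)))
 (cond (Nat.blt q 6859) (cond (Nat.blt q 6856) (blocks6854to6856 q)
 (blocks6856to6859 q))
 (cond (Nat.blt q 6862) (blocks6859to6862 q)
 (blocks6862to6865 q))))
 (cond (Nat.blt q 6876) (cond (Nat.blt q 6870) (cond (Nat.blt q 6867) (blocks6865to6867 q)
 (blocks6867to6870 q))
 (cond (Nat.blt q 6873) (blocks6870to6873 q)
 (blocks6873to6876 q)))
 (cond (Nat.blt q 6881) (cond (Nat.blt q 6878) (blocks6876to6878 q)
 (blocks6878to6881 q))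
 (cond (Nat.blt q 6884) (blocks6881to6884 q)
 (blocks6884to6887 q))))

noncomputable def blocks6887to6889 (q : ℕ) : ℕ :=
 cond (Nat.blt q 6888) (block6887)
 (block6888)

noncomputable def blocks6889to6892 (q : ℕ) : ℕ :=
 cond (Nat.blt q 6890) (block6889)
 (cond (Nat.blt q 6891) (block6890)
 (block6891))

noncomputable def blocks6892to6894 (q : ℕ) : ℕ :=
 cond (Nat.blt q 6893) (block6892)
 (block6893)

noncomputable def blocks6894to6897 (q : ℕ) : ℕ :=
 cond (Nat.blt q 6895) (block6894)
 (cond (Nat.blt q 6896) (block6895)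
 (block6896))

noncomputable def blocks6897to6899 (q : ℕ) : ℕ :=
 cond (Nat.blt q 6898) (block6897)
 (block6898)

noncomputable def blocks6899to6902 (q : ℕ) : ℕ :=
 cond (Nat.blt q 6900) (block6899)
 (cond (Nat.blt q 6901) (block6900)
 (block6901))

noncomputable def blocks6902to6905 (q : ℕ) : ℕ :=
 cond (Nat.blt q 6903) (block6902)
 (cond (Nat.blt q 6904) (block6903)
 (block6904))

noncomputable def blocks6905to6908 (q : ℕ) : ℕ :=
 cond (Nat.blt q 6906) (block6905)
 (cond (Nat.blt q 6907) (block6906)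
 (block6907))

noncomputable def blocks6908to6910 (q : ℕ) : ℕ :=
 cond (Nat.blt q 6909) (block6908)
 (block6909)

noncomputable def blocks6910to6913 (q : ℕ) : ℕ :=
 cond (Nat.blt q 6911) (block6910)
 (cond (Nat.blt q 6912) (block6911)
 (block6912))

noncomputable def blocks6913to6915 (q : ℕ) : ℕ :=
 cond (Nat.blt q 6914) (block6913)
 (block6914)

noncomputable def blocks6915to6918 (q : ℕ) : ℕ :=
 cond (Nat.blt q 6916) (block6915)
 (cond (Nat.blt q 6917) (block6916)
 (block6917))

noncomputable def blocks6918to6920 (q : ℕ) : ℕ :=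
 cond (Nat.blt q 6919) (block6918)
 (block6919)

noncomputable def blocks6920to6923 (q : ℕ) : ℕ :=
 cond (Nat.blt q 6921) (block6920)
 (cond (Nat.blt q 6922) (block6921)
 (block6922))

noncomputable def blocks6923to6926 (q : ℕ) : ℕ :=
 cond (Nat.blt q 6924) (block6923)
 (cond (Nat.blt q 6925) (block6924)
 (block6925))

noncomputable def blocks6926to6929 (q : ℕ) : ℕ :=
 cond (Nat.blt q 6927) (block6926)
 (cond (Nat.blt q 6928) (block6927)
 (block6928))

noncomputable def blocks6887to6929 (q : ℕ) : ℕ :=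
 cond (Nat.blt q 6908) (cond (Nat.blt q 6897) (cond (Nat.blt q 6892) (cond (Nat.blt q 6889) (blocks6887to6889 q)
 (blocks6889to6892 q))
 (cond (Nat.blt q 6894) (blocks6892to6894 q)
 (blocks6894to6897 q)))
 (cond (Nat.blt q 6902) (cond (Nat.blt q 6899) (blocks6897to6899 q)
 (blocks6899to6902 q))
 (cond (Nat.blt q 6905) (blocks6902to6905 q)
 (blocks6905to6908 q))))
 (cond (Nat.blt q 6918) (cond (Nat.blt q 6913) (cond (Nat.blt q 6910) (blocks6908to6910 q)
 (blocks6910to6913 q))
 (cond (Nat.blt q 6915) (blocks6913to6915 q)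
 (blocks6915to6918 q)))
 (cond (Nat.blt q 6923) (cond (Nat.blt q 6920) (blocks6918to6920 q)
 (blocks6920to6923 q))
 (cond (Nat.blt q 6926) (blocks6923to6926 q)
 (blocks6926to6929 q))))

noncomputable def blocks6929to6931 (q : ℕ) : ℕ :=
 cond (Nat.blt q 6930) (block6929)
 (block6930)

noncomputable def blocks6931to6934 (q : ℕ) : ℕ :=
 cond (Nat.blt q 6932) (block6931)
 (cond (Nat.blt q 6933) (block6932)
 (block6933))

noncomputable def blocks6934to6936 (q : ℕ) : ℕ :=
 cond (Nat.blt q 6935) (block6934)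
 (block6935)

noncomputable def blocks6936to6939 (q : ℕ) : ℕ :=
 cond (Nat.blt q 6937) (block6936)
 (cond (Nat.blt q 6938) (block6937)
 (block6938))

noncomputable def blocks6939to6941 (q : ℕ) : ℕ :=
 cond (Nat.blt q 6940) (block6939)
 (block6940)

noncomputable def blocks6941to6944 (q : ℕ) : ℕ :=
 cond (Nat.blt q 6942) (block6941)
 (cond (Nat.blt q 6943) (block6942)
 (block6943))

noncomputable def blocks6944to6947 (q : ℕ) : ℕ :=
 cond (Nat.blt q 6945) (block6944)
 (cond (Nat.blt q 6946) (block6945)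
 (block6946))

noncomputable def blocks6947to6950 (q : ℕ) : ℕ :=
 cond (Nat.blt q 6948) (block6947)
 (cond (Nat.blt q 6949) (block6948)
 (block6949))

noncomputable def blocks6950to6952 (q : ℕ) : ℕ :=
 cond (Nat.blt q 6951) (block6950)
 (block6951)

noncomputable def blocks6952to6955 (q : ℕ) : ℕ :=
 cond (Nat.blt q 6953) (block6952)
 (cond (Nat.blt q 6954) (block6953)
 (block6954))

noncomputable def blocks6955to6958 (q : ℕ) : ℕ :=
 cond (Nat.blt q 6956) (block6955)
 (cond (Nat.blt q 6957) (block6956)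
 (block6957))

noncomputable def blocks6958to6961 (q : ℕ) : ℕ :=
 cond (Nat.blt q 6959) (block6958)
 (cond (Nat.blt q 6960) (block6959)
 (block6960))

noncomputable def blocks6961to6963 (q : ℕ) : ℕ :=
 cond (Nat.blt q 6962) (block6961)
 (block6962)

noncomputable def blocks6963to6966 (q : ℕ) : ℕ :=
 cond (Nat.blt q 6964) (block6963)
 (cond (Nat.blt q 6965) (block6964)
 (block6965))

noncomputable def blocks6966to6969 (q : ℕ) : ℕ :=
 cond (Nat.blt q 6967) (block6966)
 (cond (Nat.blt q 6968) (block6967)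
 (block6968))

noncomputable def blocks6969to6972 (q : ℕ) : ℕ :=
 cond (Nat.blt q 6970) (block6969)
 (cond (Nat.blt q 6971) (block6970)
 (block6971))

noncomputable def blocks6929to6972 (q : ℕ) : ℕ :=
 cond (Nat.blt q 6950) (cond (Nat.blt q 6939) (cond (Nat.blt q 6934) (cond (Nat.blt q 6931) (blocks6929to6931 q)
 (blocks6931to6934 q))
 (cond (Nat.blt q 6936) (blocks6934to6936 q)
 (blocks6936to6939 q)))
 (cond (Nat.blt q 6944) (cond (Nat.blt q 6941) (blocks6939to6941 q)
 (blocks6941to6944 q))
 (cond (Nat.blt q 6947) (blocks6944to6947 q)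
 (blocks6947to6950 q))))
 (cond (Nat.blt q 6961) (cond (Nat.blt q 6955) (cond (Nat.blt q 6952) (blocks6950to6952 q)
 (blocks6952to6955 q))
 (cond (Nat.blt q 6958) (blocks6955to6958 q)
 (blocks6958to6961 q)))
 (cond (Nat.blt q 6966) (cond (Nat.blt q 6963) (blocks6961to6963 q)
 (blocks6963to6966 q))
 (cond (Nat.blt q 6969) (blocks6966to6969 q)
 (blocks6969to6972 q))))

noncomputable def blocks6972to6974 (q : ℕ) : ℕ :=
 cond (Nat.blt q 6973) (block6972)
 (block6973)

noncomputable def blocks6974to6977 (q : ℕ) : ℕ :=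
 cond (Nat.blt q 6975) (block6974)
 (cond (Nat.blt q 6976) (block6975)
 (block6976))

noncomputable def blocks6977to6979 (q : ℕ) : ℕ :=
 cond (Nat.blt q 6978) (block6977)
 (block6978)

noncomputable def blocks6979to6982 (q : ℕ) : ℕ :=
 cond (Nat.blt q 6980) (block6979)
 (cond (Nat.blt q 6981) (block6980)
 (block6981))

noncomputable def blocks6982to6984 (q : ℕ) : ℕ :=
 cond (Nat.blt q 6983) (block6982)
 (block6983)

noncomputable def blocks6984to6987 (q : ℕ) : ℕ :=
 cond (Nat.blt q 6985) (block6984)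
 (cond (Nat.blt q 6986) (block6985)
 (block6986))

noncomputable def blocks6987to6990 (q : ℕ) : ℕ :=
 cond (Nat.blt q 6988) (block6987)
 (cond (Nat.blt q 6989) (block6988)
 (block6989))

noncomputable def blocks6990to6993 (q : ℕ) : ℕ :=
 cond (Nat.blt q 6991) (block6990)
 (cond (Nat.blt q 6992) (block6991)
 (block6992))

noncomputable def blocks6993to6995 (q : ℕ) : ℕ :=
 cond (Nat.blt q 6994) (block6993)
 (block6994)

noncomputable def blocks6995to6998 (q : ℕ) : ℕ :=
 cond (Nat.blt q 6996) (block6995)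
 (cond (Nat.blt q 6997) (block6996)
 (block6997))

noncomputable def blocks6998to7000 (q : ℕ) : ℕ :=
 cond (Nat.blt q 6999) (block6998)
 (block6999)

noncomputable def blocks7000to7003 (q : ℕ) : ℕ :=
 cond (Nat.blt q 7001) (block7000)
 (cond (Nat.blt q 7002) (block7001)
 (block7002))

noncomputable def blocks7003to7005 (q : ℕ) : ℕ :=
 cond (Nat.blt q 7004) (block7003)
 (block7004)

noncomputable def blocks7005to7008 (q : ℕ) : ℕ :=
 cond (Nat.blt q 7006) (block7005)
 (cond (Nat.blt q 7007) (block7006)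
 (block7007))

noncomputable def blocks7008to7011 (q : ℕ) : ℕ :=
 cond (Nat.blt q 7009) (block7008)
 (cond (Nat.blt q 7010) (block7009)
 (block7010))

noncomputable def blocks7011to7014 (q : ℕ) : ℕ :=
 cond (Nat.blt q 7012) (block7011)
 (cond (Nat.blt q 7013) (block7012)
 (block7013))

noncomputable def blocks6972to7014 (q : ℕ) : ℕ :=
 cond (Nat.blt q 6993) (cond (Nat.blt q 6982) (cond (Nat.blt q 6977) (cond (Nat.blt q 6974) (blocks6972to6974 q)
 (blocks6974to6977 q))
 (cond (Nat.blt q 6979) (blocks6977to6979 q)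
 (blocks6979to6982 q)))
 (cond (Nat.blt q 6987) (cond (Nat.blt q 6984) (blocks6982to6984 q)
 (blocks6984to6987 q))
 (cond (Nat.blt q 6990) (blocks6987to6990 q)
 (blocks6990to6993 q))))
 (cond (Nat.blt q 7003) (cond (Nat.blt q 6998) (cond (Nat.blt q 6995) (blocks6993to6995 q)
 (blocks6995to6998 q))
 (cond (Nat.blt q 7000) (blocks6998to7000 q)
 (blocks7000to7003 q)))
 (cond (Nat.blt q 7008) (cond (Nat.blt q 7005) (blocks7003to7005 q)
 (blocks7005to7008 q))
 (cond (Nat.blt q 7011) (blocks7008to7011 q)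
 (blocks7011to7014 q))))

noncomputable def blocks7014to7016 (q : ℕ) : ℕ :=
 cond (Nat.blt q 7015) (block7014)
 (block7015)

noncomputable def blocks7016to7019 (q : ℕ) : ℕ :=
 cond (Nat.blt q 7017) (block7016)
 (cond (Nat.blt q 7018) (block7017)
 (block7018))

noncomputable def blocks7019to7021 (q : ℕ) : ℕ :=
 cond (Nat.blt q 7020) (block7019)
 (block7020)

noncomputable def blocks7021to7024 (q : ℕ) : ℕ :=
 cond (Nat.blt q 7022) (block7021)
 (cond (Nat.blt q 7023) (block7022)
 (block7023))

noncomputable def blocks7024to7026 (q : ℕ) : ℕ :=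
 cond (Nat.blt q 7025) (block7024)
 (block7025)

noncomputable def blocks7026to7029 (q : ℕ) : ℕ :=
 cond (Nat.blt q 7027) (block7026)
 (cond (Nat.blt q 7028) (block7027)
 (block7028))

noncomputable def blocks7029to7032 (q : ℕ) : ℕ :=
 cond (Nat.blt q 7030) (block7029)
 (cond (Nat.blt q 7031) (block7030)
 (block7031))

noncomputable def blocks7032to7035 (q : ℕ) : ℕ :=
 cond (Nat.blt q 7033) (block7032)
 (cond (Nat.blt q 7034) (block7033)
 (block7034))

noncomputable def blocks7035to7037 (q : ℕ) : ℕ :=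
 cond (Nat.blt q 7036) (block7035)
 (block7036)

noncomputable def blocks7037to7040 (q : ℕ) : ℕ :=
 cond (Nat.blt q 7038) (block7037)
 (cond (Nat.blt q 7039) (block7038)
 (block7039))

noncomputable def blocks7040to7043 (q : ℕ) : ℕ :=
 cond (Nat.blt q 7041) (block7040)
 (cond (Nat.blt q 7042) (block7041)
 (block7042))

noncomputable def blocks7043to7046 (q : ℕ) : ℕ :=
 cond (Nat.blt q 7044) (block7043)
 (cond (Nat.blt q 7045) (block7044)
 (block7045))

noncomputable def blocks7046to7048 (q : ℕ) : ℕ :=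
 cond (Nat.blt q 7047) (block7046)
 (block7047)

noncomputable def blocks7048to7051 (q : ℕ) : ℕ :=
 cond (Nat.blt q 7049) (block7048)
 (cond (Nat.blt q 7050) (block7049)
 (block7050))

noncomputable def blocks7051to7054 (q : ℕ) : ℕ :=
 cond (Nat.blt q 7052) (block7051)
 (cond (Nat.blt q 7053) (block7052)
 (block7053))

noncomputable def blocks7054to7057 (q : ℕ) : ℕ :=
 cond (Nat.blt q 7055) (block7054)
 (cond (Nat.blt q 7056) (block7055)
 (block7056))

noncomputable def blocks7014to7057 (q : ℕ) : ℕ :=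
 cond (Nat.blt q 7035) (cond (Nat.blt q 7024) (cond (Nat.blt q 7019) (cond (Nat.blt q 7016) (blocks7014to7016 q)
 (blocks7016to7019 q))
 (cond (Nat.blt q 7021) (blocks7019to7021 q)
 (blocks7021to7024 q)))
 (cond (Nat.blt q 7029) (cond (Nat.blt q 7026) (blocks7024to7026 q)
 (blocks7026to7029 q))
 (cond (Nat.blt q 7032) (blocks7029to7032 q)
 (blocks7032to7035 q))))
 (cond (Nat.blt q 7046) (cond (Nat.blt q 7040) (cond (Nat.blt q 7037) (blocks7035to7037 q)
 (blocks7037to7040 q))
 (cond (Nat.blt q 7043) (blocks7040to7043 q)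
 (blocks7043to7046 q)))
 (cond (Nat.blt q 7051) (cond (Nat.blt q 7048) (blocks7046to7048 q)
 (blocks7048to7051 q))
 (cond (Nat.blt q 7054) (blocks7051to7054 q)
 (blocks7054to7057 q))))

noncomputable def blocks7057to7059 (q : ℕ) : ℕ :=
 cond (Nat.blt q 7058) (block7057)
 (block7058)

noncomputable def blocks7059to7062 (q : ℕ) : ℕ :=
 cond (Nat.blt q 7060) (block7059)
 (cond (Nat.blt q 7061) (block7060)
 (block7061))

noncomputable def blocks7062to7064 (q : ℕ) : ℕ :=
 cond (Nat.blt q 7063) (block7062)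
 (block7063)

noncomputable def blocks7064to7067 (q : ℕ) : ℕ :=
 cond (Nat.blt q 7065) (block7064)
 (cond (Nat.blt q 7066) (block7065)
 (block7066))

noncomputable def blocks7067to7069 (q : ℕ) : ℕ :=
 cond (Nat.blt q 7068) (block7067)
 (block7068)

noncomputable def blocks7069to7072 (q : ℕ) : ℕ :=
 cond (Nat.blt q 7070) (block7069)
 (cond (Nat.blt q 7071) (block7070)
 (block7071))

noncomputable def blocks7072to7075 (q : ℕ) : ℕ :=
 cond (Nat.blt q 7073) (block7072)
 (cond (Nat.blt q 7074) (block7073)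
 (block7074))

noncomputable def blocks7075to7078 (q : ℕ) : ℕ :=
 cond (Nat.blt q 7076) (block7075)
 (cond (Nat.blt q 7077) (block7076)
 (block7077))

noncomputable def blocks7078to7080 (q : ℕ) : ℕ :=
 cond (Nat.blt q 7079) (block7078)
 (block7079)

noncomputable def blocks7080to7083 (q : ℕ) : ℕ :=
 cond (Nat.blt q 7081) (block7080)
 (cond (Nat.blt q 7082) (block7081)
 (block7082))

noncomputable def blocks7083to7085 (q : ℕ) : ℕ :=
 cond (Nat.blt q 7084) (block7083)
 (block7084)

noncomputable def blocks7085to7088 (q : ℕ) : ℕ :=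
 cond (Nat.blt q 7086) (block7085)
 (cond (Nat.blt q 7087) (block7086)
 (block7087))

noncomputable def blocks7088to7090 (q : ℕ) : ℕ :=
 cond (Nat.blt q 7089) (block7088)
 (block7089)

noncomputable def blocks7090to7093 (q : ℕ) : ℕ :=
 cond (Nat.blt q 7091) (block7090)
 (cond (Nat.blt q 7092) (block7091)
 (block7092))

noncomputable def blocks7093to7096 (q : ℕ) : ℕ :=
 cond (Nat.blt q 7094) (block7093)
 (cond (Nat.blt q 7095) (block7094)
 (block7095))

noncomputable def blocks7096to7099 (q : ℕ) : ℕ :=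
 cond (Nat.blt q 7097) (block7096)
 (cond (Nat.blt q 7098) (block7097)
 (block7098))

noncomputable def blocks7057to7099 (q : ℕ) : ℕ :=
 cond (Nat.blt q 7078) (cond (Nat.blt q 7067) (cond (Nat.blt q 7062) (cond (Nat.blt q 7059) (blocks7057to7059 q)
 (blocks7059to7062 q))
 (cond (Nat.blt q 7064) (blocks7062to7064 q)
 (blocks7064to7067 q)))
 (cond (Nat.blt q 7072) (cond (Nat.blt q 7069) (blocks7067to7069 q)
 (blocks7069to7072 q))
 (cond (Nat.blt q 7075) (blocks7072to7075 q)
 (blocks7075to7078 q))))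
 (cond (Nat.blt q 7088) (cond (Nat.blt q 7083) (cond (Nat.blt q 7080) (blocks7078to7080 q)
 (blocks7080to7083 q))
 (cond (Nat.blt q 7085) (blocks7083to7085 q)
 (blocks7085to7088 q)))
 (cond (Nat.blt q 7093) (cond (Nat.blt q 7090) (blocks7088to7090 q)
 (blocks7090to7093 q))
 (cond (Nat.blt q 7096) (blocks7093to7096 q)
 (blocks7096to7099 q))))

noncomputable def blocks7099to7101 (q : ℕ) : ℕ :=
 cond (Nat.blt q 7100) (block7099)
 (block7100)

noncomputable def blocks7101to7104 (q : ℕ) : ℕ :=
 cond (Nat.blt q 7102) (block7101)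
 (cond (Nat.blt q 7103) (block7102)
 (block7103))

noncomputable def blocks7104to7106 (q : ℕ) : ℕ :=
 cond (Nat.blt q 7105) (block7104)
 (block7105)

noncomputable def blocks7106to7109 (q : ℕ) : ℕ :=
 cond (Nat.blt q 7107) (block7106)
 (cond (Nat.blt q 7108) (block7107)
 (block7108))

noncomputable def blocks7109to7111 (q : ℕ) : ℕ :=
 cond (Nat.blt q 7110) (block7109)
 (block7110)

noncomputable def blocks7111to7114 (q : ℕ) : ℕ :=
 cond (Nat.blt q 7112) (block7111)
 (cond (Nat.blt q 7113) (block7112)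
 (block7113))

noncomputable def blocks7114to7117 (q : ℕ) : ℕ :=
 cond (Nat.blt q 7115) (block7114)
 (cond (Nat.blt q 7116) (block7115)
 (block7116))

noncomputable def blocks7117to7120 (q : ℕ) : ℕ :=
 cond (Nat.blt q 7118) (block7117)
 (cond (Nat.blt q 7119) (block7118)
 (block7119))

noncomputable def blocks7120to7122 (q : ℕ) : ℕ :=
 cond (Nat.blt q 7121) (block7120)
 (block7121)

noncomputable def blocks7122to7125 (q : ℕ) : ℕ :=
 cond (Nat.blt q 7123) (block7122)
 (cond (Nat.blt q 7124) (block7123)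
 (block7124))

noncomputable def blocks7125to7128 (q : ℕ) : ℕ :=
 cond (Nat.blt q 7126) (block7125)
 (cond (Nat.blt q 7127) (block7126)
 (block7127))

noncomputable def blocks7128to7131 (q : ℕ) : ℕ :=
 cond (Nat.blt q 7129) (block7128)
 (cond (Nat.blt q 7130) (block7129)
 (block7130))

noncomputable def blocks7131to7133 (q : ℕ) : ℕ :=
 cond (Nat.blt q 7132) (block7131)
 (block7132)

noncomputable def blocks7133to7136 (q : ℕ) : ℕ :=
 cond (Nat.blt q 7134) (block7133)
 (cond (Nat.blt q 7135) (block7134)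
 (block7135))

noncomputable def blocks7136to7139 (q : ℕ) : ℕ :=
 cond (Nat.blt q 7137) (block7136)
 (cond (Nat.blt q 7138) (block7137)
 (block7138))

noncomputable def blocks7139to7142 (q : ℕ) : ℕ :=
 cond (Nat.blt q 7140) (block7139)
 (cond (Nat.blt q 7141) (block7140)
 (block7141))

noncomputable def blocks7099to7142 (q : ℕ) : ℕ :=
 cond (Nat.blt q 7120) (cond (Nat.blt q 7109) (cond (Nat.blt q 7104) (cond (Nat.blt q 7101) (blocks7099to7101 q)
 (blocks7101to7104 q))
 (cond (Nat.blt q 7106) (blocks7104to7106 q)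
 (blocks7106to7109 q)))
 (cond (Nat.blt q 7114) (cond (Nat.blt q 7111) (blocks7109to7111 q)
 (blocks7111to7114 q))
 (cond (Nat.blt q 7117) (blocks7114to7117 q)
 (blocks7117to7120 q))))
 (cond (Nat.blt q 7131) (cond (Nat.blt q 7125) (cond (Nat.blt q 7122) (blocks7120to7122 q)
 (blocks7122to7125 q))
 (cond (Nat.blt q 7128) (blocks7125to7128 q)
 (blocks7128to7131 q)))
 (cond (Nat.blt q 7136) (cond (Nat.blt q 7133) (blocks7131to7133 q)
 (blocks7133to7136 q))
 (cond (Nat.blt q 7139) (blocks7136to7139 q)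
 (blocks7139to7142 q))))

noncomputable def blocks7142to7144 (q : ℕ) : ℕ :=
 cond (Nat.blt q 7143) (block7142)
 (block7143)

noncomputable def blocks7144to7147 (q : ℕ) : ℕ :=
 cond (Nat.blt q 7145) (block7144)
 (cond (Nat.blt q 7146) (block7145)
 (block7146))

noncomputable def blocks7147to7149 (q : ℕ) : ℕ :=
 cond (Nat.blt q 7148) (block7147)
 (block7148)

noncomputable def blocks7149to7152 (q : ℕ) : ℕ :=
 cond (Nat.blt q 7150) (block7149)
 (cond (Nat.blt q 7151) (block7150)
 (block7151))

noncomputable def blocks7152to7154 (q : ℕ) : ℕ :=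
 cond (Nat.blt q 7153) (block7152)
 (block7153)

noncomputable def blocks7154to7157 (q : ℕ) : ℕ :=
 cond (Nat.blt q 7155) (block7154)
 (cond (Nat.blt q 7156) (block7155)
 (block7156))

noncomputable def blocks7157to7160 (q : ℕ) : ℕ :=
 cond (Nat.blt q 7158) (block7157)
 (cond (Nat.blt q 7159) (block7158)
 (block7159))

noncomputable def blocks7160to7163 (q : ℕ) : ℕ :=
 cond (Nat.blt q 7161) (block7160)
 (cond (Nat.blt q 7162) (block7161)
 (block7162))

noncomputable def blocks7163to7165 (q : ℕ) : ℕ :=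
 cond (Nat.blt q 7164) (block7163)
 (block7164)

noncomputable def blocks7165to7168 (q : ℕ) : ℕ :=
 cond (Nat.blt q 7166) (block7165)
 (cond (Nat.blt q 7167) (block7166)
 (block7167))

noncomputable def blocks7168to7170 (q : ℕ) : ℕ :=
 cond (Nat.blt q 7169) (block7168)
 (block7169)

noncomputable def blocks7170to7173 (q : ℕ) : ℕ :=
 cond (Nat.blt q 7171) (block7170)
 (cond (Nat.blt q 7172) (block7171)
 (block7172))

noncomputable def blocks7173to7175 (q : ℕ) : ℕ :=
 cond (Nat.blt q 7174) (block7173)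
 (block7174)

noncomputable def blocks7175to7178 (q : ℕ) : ℕ :=
 cond (Nat.blt q 7176) (block7175)
 (cond (Nat.blt q 7177) (block7176)
 (block7177))

noncomputable def blocks7178to7181 (q : ℕ) : ℕ :=
 cond (Nat.blt q 7179) (block7178)
 (cond (Nat.blt q 7180) (block7179)
 (block7180))

noncomputable def blocks7181to7184 (q : ℕ) : ℕ :=
 cond (Nat.blt q 7182) (block7181)
 (cond (Nat.blt q 7183) (block7182)
 (block7183))

noncomputable def blocks7142to7184 (q : ℕ) : ℕ :=
 cond (Nat.blt q 7163) (cond (Nat.blt q 7152) (cond (Nat.blt q 7147) (cond (Nat.blt q 7144) (blocks7142to7144 q)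
 (blocks7144to7147 q))
 (cond (Nat.blt q 7149) (blocks7147to7149 q)
 (blocks7149to7152 q)))
 (cond (Nat.blt q 7157) (cond (Nat.blt q 7154) (blocks7152to7154 q)
 (blocks7154to7157 q))
 (cond (Nat.blt q 7160) (blocks7157to7160 q)
 (blocks7160to7163 q))))
 (cond (Nat.blt q 7173) (cond (Nat.blt q 7168) (cond (Nat.blt q 7165) (blocks7163to7165 q)
 (blocks7165to7168 q))
 (cond (Nat.blt q 7170) (blocks7168to7170 q)
 (blocks7170to7173 q)))
 (cond (Nat.blt q 7178) (cond (Nat.blt q 7175) (blocks7173to7175 q)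
 (blocks7175to7178 q))
 (cond (Nat.blt q 7181) (blocks7178to7181 q)
 (blocks7181to7184 q))))

noncomputable def blocks7184to7186 (q : ℕ) : ℕ :=
 cond (Nat.blt q 7185) (block7184)
 (block7185)

noncomputable def blocks7186to7189 (q : ℕ) : ℕ :=
 cond (Nat.blt q 7187) (block7186)
 (cond (Nat.blt q 7188) (block7187)
 (block7188))

noncomputable def blocks7189to7191 (q : ℕ) : ℕ :=
 cond (Nat.blt q 7190) (block7189)
 (block7190)

noncomputable def blocks7191to7194 (q : ℕ) : ℕ :=
 cond (Nat.blt q 7192) (block7191)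
 (cond (Nat.blt q 7193) (block7192)
 (block7193))

noncomputable def blocks7194to7196 (q : ℕ) : ℕ :=
 cond (Nat.blt q 7195) (block7194)
 (block7195)

noncomputable def blocks7196to7199 (q : ℕ) : ℕ :=
 cond (Nat.blt q 7197) (block7196)
 (cond (Nat.blt q 7198) (block7197)
 (block7198))

noncomputable def blocks7199to7202 (q : ℕ) : ℕ :=
 cond (Nat.blt q 7200) (block7199)
 (cond (Nat.blt q 7201) (block7200)
 (block7201))

noncomputable def blocks7202to7205 (q : ℕ) : ℕ :=
 cond (Nat.blt q 7203) (block7202)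
 (cond (Nat.blt q 7204) (block7203)
 (block7204))

noncomputable def blocks7205to7207 (q : ℕ) : ℕ :=
 cond (Nat.blt q 7206) (block7205)
 (block7206)

noncomputable def blocks7207to7210 (q : ℕ) : ℕ :=
 cond (Nat.blt q 7208) (block7207)
 (cond (Nat.blt q 7209) (block7208)
 (block7209))

noncomputable def blocks7210to7213 (q : ℕ) : ℕ :=
 cond (Nat.blt q 7211) (block7210)
 (cond (Nat.blt q 7212) (block7211)
 (block7212))

noncomputable def blocks7213to7216 (q : ℕ) : ℕ :=
 cond (Nat.blt q 7214) (block7213)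
 (cond (Nat.blt q 7215) (block7214)
 (block7215))

noncomputable def blocks7216to7218 (q : ℕ) : ℕ :=
 cond (Nat.blt q 7217) (block7216)
 (block7217)

noncomputable def blocks7218to7221 (q : ℕ) : ℕ :=
 cond (Nat.blt q 7219) (block7218)
 (cond (Nat.blt q 7220) (block7219)
 (block7220))

noncomputable def blocks7221to7224 (q : ℕ) : ℕ :=
 cond (Nat.blt q 7222) (block7221)
 (cond (Nat.blt q 7223) (block7222)
 (block7223))

noncomputable def blocks7224to7227 (q : ℕ) : ℕ :=
 cond (Nat.blt q 7225) (block7224)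
 (cond (Nat.blt q 7226) (block7225)
 (block7226))

noncomputable def blocks7184to7227 (q : ℕ) : ℕ :=
 cond (Nat.blt q 7205) (cond (Nat.blt q 7194) (cond (Nat.blt q 7189) (cond (Nat.blt q 7186) (blocks7184to7186 q)
 (blocks7186to7189 q))
 (cond (Nat.blt q 7191) (blocks7189to7191 q)
 (blocks7191to7194 q)))
 (cond (Nat.blt q 7199) (cond (Nat.blt q 7196) (blocks7194to7196 q)
 (blocks7196to7199 q))
 (cond (Nat.blt q 7202) (blocks7199to7202 q)
 (blocks7202to7205 q))))
 (cond (Nat.blt q 7216) (cond (Nat.blt q 7210) (cond (Nat.blt q 7207) (blocks7205to7207 q)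
 (blocks7207to7210 q))
 (cond (Nat.blt q 7213) (blocks7210to7213 q)
 (blocks7213to7216 q)))
 (cond (Nat.blt q 7221) (cond (Nat.blt q 7218) (blocks7216to7218 q)
 (blocks7218to7221 q))
 (cond (Nat.blt q 7224) (blocks7221to7224 q)
 (blocks7224to7227 q))))

noncomputable def blocks7227to7229 (q : ℕ) : ℕ :=
 cond (Nat.blt q 7228) (block7227)
 (block7228)

noncomputable def blocks7229to7232 (q : ℕ) : ℕ :=
 cond (Nat.blt q 7230) (block7229)
 (cond (Nat.blt q 7231) (block7230)
 (block7231))

noncomputable def blocks7232to7234 (q : ℕ) : ℕ :=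
 cond (Nat.blt q 7233) (block7232)
 (block7233)

noncomputable def blocks7234to7237 (q : ℕ) : ℕ :=
 cond (Nat.blt q 7235) (block7234)
 (cond (Nat.blt q 7236) (block7235)
 (block7236))

noncomputable def blocks7237to7239 (q : ℕ) : ℕ :=
 cond (Nat.blt q 7238) (block7237)
 (block7238)

noncomputable def blocks7239to7242 (q : ℕ) : ℕ :=
 cond (Nat.blt q 7240) (block7239)
 (cond (Nat.blt q 7241) (block7240)
 (block7241))

noncomputable def blocks7242to7245 (q : ℕ) : ℕ :=
 cond (Nat.blt q 7243) (block7242)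
 (cond (Nat.blt q 7244) (block7243)
 (block7244))

noncomputable def blocks7245to7248 (q : ℕ) : ℕ :=
 cond (Nat.blt q 7246) (block7245)
 (cond (Nat.blt q 7247) (block7246)
 (block7247))

noncomputable def blocks7248to7250 (q : ℕ) : ℕ :=
 cond (Nat.blt q 7249) (block7248)
 (block7249)

noncomputable def blocks7250to7253 (q : ℕ) : ℕ :=
 cond (Nat.blt q 7251) (block7250)
 (cond (Nat.blt q 7252) (block7251)
 (block7252))

noncomputable def blocks7253to7255 (q : ℕ) : ℕ :=
 cond (Nat.blt q 7254) (block7253)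
 (block7254)

noncomputable def blocks7255to7258 (q : ℕ) : ℕ :=
 cond (Nat.blt q 7256) (block7255)
 (cond (Nat.blt q 7257) (block7256)
 (block7257))

noncomputable def blocks7258to7260 (q : ℕ) : ℕ :=
 cond (Nat.blt q 7259) (block7258)
 (block7259)

noncomputable def blocks7260to7263 (q : ℕ) : ℕ :=
 cond (Nat.blt q 7261) (block7260)
 (cond (Nat.blt q 7262) (block7261)
 (block7262))

noncomputable def blocks7263to7266 (q : ℕ) : ℕ :=
 cond (Nat.blt q 7264) (block7263)
 (cond (Nat.blt q 7265) (block7264)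
 (block7265))

noncomputable def blocks7266to7269 (q : ℕ) : ℕ :=
 cond (Nat.blt q 7267) (block7266)
 (cond (Nat.blt q 7268) (block7267)
 (block7268))

noncomputable def blocks7227to7269 (q : ℕ) : ℕ :=
 cond (Nat.blt q 7248) (cond (Nat.blt q 7237) (cond (Nat.blt q 7232) (cond (Nat.blt q 7229) (blocks7227to7229 q)
 (blocks7229to7232 q))
 (cond (Nat.blt q 7234) (blocks7232to7234 q)
 (blocks7234to7237 q)))
 (cond (Nat.blt q 7242) (cond (Nat.blt q 7239) (blocks7237to7239 q)
 (blocks7239to7242 q))
 (cond (Nat.blt q 7245) (blocks7242to7245 q)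
 (blocks7245to7248 q))))
 (cond (Nat.blt q 7258) (cond (Nat.blt q 7253) (cond (Nat.blt q 7250) (blocks7248to7250 q)
 (blocks7250to7253 q))
 (cond (Nat.blt q 7255) (blocks7253to7255 q)
 (blocks7255to7258 q)))
 (cond (Nat.blt q 7263) (cond (Nat.blt q 7260) (blocks7258to7260 q)
 (blocks7260to7263 q))
 (cond (Nat.blt q 7266) (blocks7263to7266 q)
 (blocks7266to7269 q))))

noncomputable def blocks7269to7271 (q : ℕ) : ℕ :=
 cond (Nat.blt q 7270) (block7269)
 (block7270)

noncomputable def blocks7271to7274 (q : ℕ) : ℕ :=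
 cond (Nat.blt q 7272) (block7271)
 (cond (Nat.blt q 7273) (block7272)
 (block7273))

noncomputable def blocks7274to7276 (q : ℕ) : ℕ :=
 cond (Nat.blt q 7275) (block7274)
 (block7275)

noncomputable def blocks7276to7279 (q : ℕ) : ℕ :=
 cond (Nat.blt q 7277) (block7276)
 (cond (Nat.blt q 7278) (block7277)
 (block7278))

noncomputable def blocks7279to7281 (q : ℕ) : ℕ :=
 cond (Nat.blt q 7280) (block7279)
 (block7280)

noncomputable def blocks7281to7284 (q : ℕ) : ℕ :=
 cond (Nat.blt q 7282) (block7281)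
 (cond (Nat.blt q 7283) (block7282)
 (block7283))

noncomputable def blocks7284to7287 (q : ℕ) : ℕ :=
 cond (Nat.blt q 7285) (block7284)
 (cond (Nat.blt q 7286) (block7285)
 (block7286))

noncomputable def blocks7287to7290 (q : ℕ) : ℕ :=
 cond (Nat.blt q 7288) (block7287)
 (cond (Nat.blt q 7289) (block7288)
 (block7289))

noncomputable def blocks7290to7292 (q : ℕ) : ℕ :=
 cond (Nat.blt q 7291) (block7290)
 (block7291)

noncomputable def blocks7292to7295 (q : ℕ) : ℕ :=
 cond (Nat.blt q 7293) (block7292)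
 (cond (Nat.blt q 7294) (block7293)
 (block7294))

noncomputable def blocks7295to7298 (q : ℕ) : ℕ :=
 cond (Nat.blt q 7296) (block7295)
 (cond (Nat.blt q 7297) (block7296)
 (block7297))

noncomputable def blocks7298to7301 (q : ℕ) : ℕ :=
 cond (Nat.blt q 7299) (block7298)
 (cond (Nat.blt q 7300) (block7299)
 (block7300))

noncomputable def blocks7301to7303 (q : ℕ) : ℕ :=
 cond (Nat.blt q 7302) (block7301)
 (block7302)

noncomputable def blocks7303to7306 (q : ℕ) : ℕ :=
 cond (Nat.blt q 7304) (block7303)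
 (cond (Nat.blt q 7305) (block7304)
 (block7305))

noncomputable def blocks7306to7309 (q : ℕ) : ℕ :=
 cond (Nat.blt q 7307) (block7306)
 (cond (Nat.blt q 7308) (block7307)
 (block7308))

noncomputable def blocks7309to7312 (q : ℕ) : ℕ :=
 cond (Nat.blt q 7310) (block7309)
 (cond (Nat.blt q 7311) (block7310)
 (block7311))

noncomputable def blocks7269to7312 (q : ℕ) : ℕ :=
 cond (Nat.blt q 7290) (cond (Nat.blt q 7279) (cond (Nat.blt q 7274) (cond (Nat.blt q 7271) (blocks7269to7271 q)
 (blocks7271to7274 q))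
 (cond (Nat.blt q 7276) (blocks7274to7276 q)
 (blocks7276to7279 q)))
 (cond (Nat.blt q 7284) (cond (Nat.blt q 7281) (blocks7279to7281 q)
 (blocks7281to7284 q))
 (cond (Nat.blt q 7287) (blocks7284to7287 q)
 (blocks7287to7290 q))))
 (cond (Nat.blt q 7301) (cond (Nat.blt q 7295) (cond (Nat.blt q 7292) (blocks7290to7292 q)
 (blocks7292to7295 q))
 (cond (Nat.blt q 7298) (blocks7295to7298 q)
 (blocks7298to7301 q)))
 (cond (Nat.blt q 7306) (cond (Nat.blt q 7303) (blocks7301to7303 q)
 (blocks7303to7306 q))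
 (cond (Nat.blt q 7309) (blocks7306to7309 q)
 (blocks7309to7312 q))))

noncomputable def blocks7312to7314 (q : ℕ) : ℕ :=
 cond (Nat.blt q 7313) (block7312)
 (block7313)

noncomputable def blocks7314to7317 (q : ℕ) : ℕ :=
 cond (Nat.blt q 7315) (block7314)
 (cond (Nat.blt q 7316) (block7315)
 (block7316))

noncomputable def blocks7317to7319 (q : ℕ) : ℕ :=
 cond (Nat.blt q 7318) (block7317)
 (block7318)

noncomputable def blocks7319to7322 (q : ℕ) : ℕ :=
 cond (Nat.blt q 7320) (block7319)
 (cond (Nat.blt q 7321) (block7320)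
 (block7321))

noncomputable def blocks7322to7324 (q : ℕ) : ℕ :=
 cond (Nat.blt q 7323) (block7322)
 (block7323)

noncomputable def blocks7324to7327 (q : ℕ) : ℕ :=
 cond (Nat.blt q 7325) (block7324)
 (cond (Nat.blt q 7326) (block7325)
 (block7326))

noncomputable def blocks7327to7330 (q : ℕ) : ℕ :=
 cond (Nat.blt q 7328) (block7327)
 (cond (Nat.blt q 7329) (block7328)
 (block7329))

noncomputable def blocks7330to7333 (q : ℕ) : ℕ :=
 cond (Nat.blt q 7331) (block7330)
 (cond (Nat.blt q 7332) (block7331)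
 (block7332))

noncomputable def blocks7333to7335 (q : ℕ) : ℕ :=
 cond (Nat.blt q 7334) (block7333)
 (block7334)

noncomputable def blocks7335to7338 (q : ℕ) : ℕ :=
 cond (Nat.blt q 7336) (block7335)
 (cond (Nat.blt q 7337) (block7336)
 (block7337))

noncomputable def blocks7338to7340 (q : ℕ) : ℕ :=
 cond (Nat.blt q 7339) (block7338)
 (block7339)

noncomputable def blocks7340to7343 (q : ℕ) : ℕ :=
 cond (Nat.blt q 7341) (block7340)
 (cond (Nat.blt q 7342) (block7341)
 (block7342))

noncomputable def blocks7343to7345 (q : ℕ) : ℕ :=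
 cond (Nat.blt q 7344) (block7343)
 (block7344)

noncomputable def blocks7345to7348 (q : ℕ) : ℕ :=
 cond (Nat.blt q 7346) (block7345)
 (cond (Nat.blt q 7347) (block7346)
 (block7347))

noncomputable def blocks7348to7351 (q : ℕ) : ℕ :=
 cond (Nat.blt q 7349) (block7348)
 (cond (Nat.blt q 7350) (block7349)
 (block7350))

noncomputable def blocks7351to7354 (q : ℕ) : ℕ :=
 cond (Nat.blt q 7352) (block7351)
 (cond (Nat.blt q 7353) (block7352)
 (block7353))

noncomputable def blocks7312to7354 (q : ℕ) : ℕ :=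
 cond (Nat.blt q 7333) (cond (Nat.blt q 7322) (cond (Nat.blt q 7317) (cond (Nat.blt q 7314) (blocks7312to7314 q)
 (blocks7314to7317 q))
 (cond (Nat.blt q 7319) (blocks7317to7319 q)
 (blocks7319to7322 q)))
 (cond (Nat.blt q 7327) (cond (Nat.blt q 7324) (blocks7322to7324 q)
 (blocks7324to7327 q))
 (cond (Nat.blt q 7330) (blocks7327to7330 q)
 (blocks7330to7333 q))))
 (cond (Nat.blt q 7343) (cond (Nat.blt q 7338) (cond (Nat.blt q 7335) (blocks7333to7335 q)
 (blocks7335to7338 q))
 (cond (Nat.blt q 7340) (blocks7338to7340 q)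
 (blocks7340to7343 q)))
 (cond (Nat.blt q 7348) (cond (Nat.blt q 7345) (blocks7343to7345 q)
 (blocks7345to7348 q))
 (cond (Nat.blt q 7351) (blocks7348to7351 q)
 (blocks7351to7354 q))))

noncomputable def blocks7354to7356 (q : ℕ) : ℕ :=
 cond (Nat.blt q 7355) (block7354)
 (block7355)

noncomputable def blocks7356to7359 (q : ℕ) : ℕ :=
 cond (Nat.blt q 7357) (block7356)
 (cond (Nat.blt q 7358) (block7357)
 (block7358))

noncomputable def blocks7359to7361 (q : ℕ) : ℕ :=
 cond (Nat.blt q 7360) (block7359)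
 (block7360)

noncomputable def blocks7361to7364 (q : ℕ) : ℕ :=
 cond (Nat.blt q 7362) (block7361)
 (cond (Nat.blt q 7363) (block7362)
 (block7363))

noncomputable def blocks7364to7366 (q : ℕ) : ℕ :=
 cond (Nat.blt q 7365) (block7364)
 (block7365)

noncomputable def blocks7366to7369 (q : ℕ) : ℕ :=
 cond (Nat.blt q 7367) (block7366)
 (cond (Nat.blt q 7368) (block7367)
 (block7368))

noncomputable def blocks7369to7372 (q : ℕ) : ℕ :=
 cond (Nat.blt q 7370) (block7369)
 (cond (Nat.blt q 7371) (block7370)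
 (block7371))

noncomputable def blocks7372to7375 (q : ℕ) : ℕ :=
 cond (Nat.blt q 7373) (block7372)
 (cond (Nat.blt q 7374) (block7373)
 (block7374))

noncomputable def blocks7375to7377 (q : ℕ) : ℕ :=
 cond (Nat.blt q 7376) (block7375)
 (block7376)

noncomputable def blocks7377to7380 (q : ℕ) : ℕ :=
 cond (Nat.blt q 7378) (block7377)
 (cond (Nat.blt q 7379) (block7378)
 (block7379))

noncomputable def blocks7380to7383 (q : ℕ) : ℕ :=
 cond (Nat.blt q 7381) (block7380)
 (cond (Nat.blt q 7382) (block7381)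
 (block7382))

noncomputable def blocks7383to7386 (q : ℕ) : ℕ :=
 cond (Nat.blt q 7384) (block7383)
 (cond (Nat.blt q 7385) (block7384)
 (block7385))

noncomputable def blocks7386to7388 (q : ℕ) : ℕ :=
 cond (Nat.blt q 7387) (block7386)
 (block7387)

noncomputable def blocks7388to7391 (q : ℕ) : ℕ :=
 cond (Nat.blt q 7389) (block7388)
 (cond (Nat.blt q 7390) (block7389)
 (block7390))

noncomputable def blocks7391to7394 (q : ℕ) : ℕ :=
 cond (Nat.blt q 7392) (block7391)
 (cond (Nat.blt q 7393) (block7392)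
 (block7393))

noncomputable def blocks7394to7397 (q : ℕ) : ℕ :=
 cond (Nat.blt q 7395) (block7394)
 (cond (Nat.blt q 7396) (block7395)
 (block7396))

noncomputable def blocks7354to7397 (q : ℕ) : ℕ :=
 cond (Nat.blt q 7375) (cond (Nat.blt q 7364) (cond (Nat.blt q 7359) (cond (Nat.blt q 7356) (blocks7354to7356 q)
 (blocks7356to7359 q))
 (cond (Nat.blt q 7361) (blocks7359to7361 q)
 (blocks7361to7364 q)))
 (cond (Nat.blt q 7369) (cond (Nat.blt q 7366) (blocks7364to7366 q)
 (blocks7366to7369 q))
 (cond (Nat.blt q 7372) (blocks7369to7372 q)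
 (blocks7372to7375 q))))
 (cond (Nat.blt q 7386) (cond (Nat.blt q 7380) (cond (Nat.blt q 7377) (blocks7375to7377 q)
 (blocks7377to7380 q))
 (cond (Nat.blt q 7383) (blocks7380to7383 q)
 (blocks7383to7386 q)))
 (cond (Nat.blt q 7391) (cond (Nat.blt q 7388) (blocks7386to7388 q)
 (blocks7388to7391 q))
 (cond (Nat.blt q 7394) (blocks7391to7394 q)
 (blocks7394to7397 q))))

noncomputable def blocks7397to7399 (q : ℕ) : ℕ :=
 cond (Nat.blt q 7398) (block7397)
 (block7398)

noncomputable def blocks7399to7402 (q : ℕ) : ℕ :=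
 cond (Nat.blt q 7400) (block7399)
 (cond (Nat.blt q 7401) (block7400)
 (block7401))

noncomputable def blocks7402to7404 (q : ℕ) : ℕ :=
 cond (Nat.blt q 7403) (block7402)
 (block7403)

noncomputable def blocks7404to7407 (q : ℕ) : ℕ :=
 cond (Nat.blt q 7405) (block7404)
 (cond (Nat.blt q 7406) (block7405)
 (block7406))

noncomputable def blocks7407to7409 (q : ℕ) : ℕ :=
 cond (Nat.blt q 7408) (block7407)
 (block7408)

noncomputable def blocks7409to7412 (q : ℕ) : ℕ :=
 cond (Nat.blt q 7410) (block7409)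
 (cond (Nat.blt q 7411) (block7410)
 (block7411))

noncomputable def blocks7412to7415 (q : ℕ) : ℕ :=
 cond (Nat.blt q 7413) (block7412)
 (cond (Nat.blt q 7414) (block7413)
 (block7414))

noncomputable def blocks7415to7418 (q : ℕ) : ℕ :=
 cond (Nat.blt q 7416) (block7415)
 (cond (Nat.blt q 7417) (block7416)
 (block7417))

noncomputable def blocks7418to7420 (q : ℕ) : ℕ :=
 cond (Nat.blt q 7419) (block7418)
 (block7419)

noncomputable def blocks7420to7423 (q : ℕ) : ℕ :=
 cond (Nat.blt q 7421) (block7420)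
 (cond (Nat.blt q 7422) (block7421)
 (block7422))

noncomputable def blocks7423to7425 (q : ℕ) : ℕ :=
 cond (Nat.blt q 7424) (block7423)
 (block7424)

noncomputable def blocks7425to7428 (q : ℕ) : ℕ :=
 cond (Nat.blt q 7426) (block7425)
 (cond (Nat.blt q 7427) (block7426)
 (block7427))

noncomputable def blocks7428to7430 (q : ℕ) : ℕ :=
 cond (Nat.blt q 7429) (block7428)
 (block7429)

noncomputable def blocks7430to7433 (q : ℕ) : ℕ :=
 cond (Nat.blt q 7431) (block7430)
 (cond (Nat.blt q 7432) (block7431)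
 (block7432))

noncomputable def blocks7433to7436 (q : ℕ) : ℕ :=
 cond (Nat.blt q 7434) (block7433)
 (cond (Nat.blt q 7435) (block7434)
 (block7435))

noncomputable def blocks7436to7439 (q : ℕ) : ℕ :=
 cond (Nat.blt q 7437) (block7436)
 (cond (Nat.blt q 7438) (block7437)
 (block7438))

noncomputable def blocks7397to7439 (q : ℕ) : ℕ :=
 cond (Nat.blt q 7418) (cond (Nat.blt q 7407) (cond (Nat.blt q 7402) (cond (Nat.blt q 7399) (blocks7397to7399 q)
 (blocks7399to7402 q))
 (cond (Nat.blt q 7404) (blocks7402to7404 q)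
 (blocks7404to7407 q)))
 (cond (Nat.blt q 7412) (cond (Nat.blt q 7409) (blocks7407to7409 q)
 (blocks7409to7412 q))
 (cond (Nat.blt q 7415) (blocks7412to7415 q)
 (blocks7415to7418 q))))
 (cond (Nat.blt q 7428) (cond (Nat.blt q 7423) (cond (Nat.blt q 7420) (blocks7418to7420 q)
 (blocks7420to7423 q))
 (cond (Nat.blt q 7425) (blocks7423to7425 q)
 (blocks7425to7428 q)))
 (cond (Nat.blt q 7433) (cond (Nat.blt q 7430) (blocks7428to7430 q)
 (blocks7430to7433 q))
 (cond (Nat.blt q 7436) (blocks7433to7436 q)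
 (blocks7436to7439 q))))

noncomputable def blocks7439to7441 (q : ℕ) : ℕ :=
 cond (Nat.blt q 7440) (block7439)
 (block7440)

noncomputable def blocks7441to7444 (q : ℕ) : ℕ :=
 cond (Nat.blt q 7442) (block7441)
 (cond (Nat.blt q 7443) (block7442)
 (block7443))

noncomputable def blocks7444to7446 (q : ℕ) : ℕ :=
 cond (Nat.blt q 7445) (block7444)
 (block7445)

noncomputable def blocks7446to7449 (q : ℕ) : ℕ :=
 cond (Nat.blt q 7447) (block7446)
 (cond (Nat.blt q 7448) (block7447)
 (block7448))

noncomputable def blocks7449to7451 (q : ℕ) : ℕ :=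
 cond (Nat.blt q 7450) (block7449)
 (block7450)

noncomputable def blocks7451to7454 (q : ℕ) : ℕ :=
 cond (Nat.blt q 7452) (block7451)
 (cond (Nat.blt q 7453) (block7452)
 (block7453))

noncomputable def blocks7454to7457 (q : ℕ) : ℕ :=
 cond (Nat.blt q 7455) (block7454)
 (cond (Nat.blt q 7456) (block7455)
 (block7456))

noncomputable def blocks7457to7460 (q : ℕ) : ℕ :=
 cond (Nat.blt q 7458) (block7457)
 (cond (Nat.blt q 7459) (block7458)
 (block7459))

noncomputable def blocks7460to7462 (q : ℕ) : ℕ :=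
 cond (Nat.blt q 7461) (block7460)
 (block7461)

noncomputable def blocks7462to7465 (q : ℕ) : ℕ :=
 cond (Nat.blt q 7463) (block7462)
 (cond (Nat.blt q 7464) (block7463)
 (block7464))

noncomputable def blocks7465to7468 (q : ℕ) : ℕ :=
 cond (Nat.blt q 7466) (block7465)
 (cond (Nat.blt q 7467) (block7466)
 (block7467))

noncomputable def blocks7468to7471 (q : ℕ) : ℕ :=
 cond (Nat.blt q 7469) (block7468)
 (cond (Nat.blt q 7470) (block7469)
 (block7470))

noncomputable def blocks7471to7473 (q : ℕ) : ℕ :=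
 cond (Nat.blt q 7472) (block7471)
 (block7472)

noncomputable def blocks7473to7476 (q : ℕ) : ℕ :=
 cond (Nat.blt q 7474) (block7473)
 (cond (Nat.blt q 7475) (block7474)
 (block7475))

noncomputable def blocks7476to7479 (q : ℕ) : ℕ :=
 cond (Nat.blt q 7477) (block7476)
 (cond (Nat.blt q 7478) (block7477)
 (block7478))

noncomputable def blocks7479to7482 (q : ℕ) : ℕ :=
 cond (Nat.blt q 7480) (block7479)
 (cond (Nat.blt q 7481) (block7480)
 (block7481))

noncomputable def blocks7439to7482 (q : ℕ) : ℕ :=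
 cond (Nat.blt q 7460) (cond (Nat.blt q 7449) (cond (Nat.blt q 7444) (cond (Nat.blt q 7441) (blocks7439to7441 q)
 (blocks7441to7444 q))
 (cond (Nat.blt q 7446) (blocks7444to7446 q)
 (blocks7446to7449 q)))
 (cond (Nat.blt q 7454) (cond (Nat.blt q 7451) (blocks7449to7451 q)
 (blocks7451to7454 q))
 (cond (Nat.blt q 7457) (blocks7454to7457 q)
 (blocks7457to7460 q))))
 (cond (Nat.blt q 7471) (cond (Nat.blt q 7465) (cond (Nat.blt q 7462) (blocks7460to7462 q)
 (blocks7462to7465 q))
 (cond (Nat.blt q 7468) (blocks7465to7468 q)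
 (blocks7468to7471 q)))
 (cond (Nat.blt q 7476) (cond (Nat.blt q 7473) (blocks7471to7473 q)
 (blocks7473to7476 q))
 (cond (Nat.blt q 7479) (blocks7476to7479 q)
 (blocks7479to7482 q))))

noncomputable def blocks6802to7482 (q : ℕ) : ℕ :=
 cond (Nat.blt q 7142) (cond (Nat.blt q 6972) (cond (Nat.blt q 6887) (cond (Nat.blt q 6844) (blocks6802to6844 q)
 (blocks6844to6887 q))
 (cond (Nat.blt q 6929) (blocks6887to6929 q)
 (blocks6929to6972 q)))
 (cond (Nat.blt q 7057) (cond (Nat.blt q 7014) (blocks6972to7014 q)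
 (blocks7014to7057 q))
 (cond (Nat.blt q 7099) (blocks7057to7099 q)
 (blocks7099to7142 q))))
 (cond (Nat.blt q 7312) (cond (Nat.blt q 7227) (cond (Nat.blt q 7184) (blocks7142to7184 q)
 (blocks7184to7227 q))
 (cond (Nat.blt q 7269) (blocks7227to7269 q)
 (blocks7269to7312 q)))
 (cond (Nat.blt q 7397) (cond (Nat.blt q 7354) (blocks7312to7354 q)
 (blocks7354to7397 q))
 (cond (Nat.blt q 7439) (blocks7397to7439 q)
 (blocks7439to7482 q))))

noncomputable def blocks7482to7484 (q : ℕ) : ℕ :=
 cond (Nat.blt q 7483) (block7482)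
 (block7483)

noncomputable def blocks7484to7487 (q : ℕ) : ℕ :=
 cond (Nat.blt q 7485) (block7484)
 (cond (Nat.blt q 7486) (block7485)
 (block7486))

noncomputable def blocks7487to7489 (q : ℕ) : ℕ :=
 cond (Nat.blt q 7488) (block7487)
 (block7488)

noncomputable def blocks7489to7492 (q : ℕ) : ℕ :=
 cond (Nat.blt q 7490) (block7489)
 (cond (Nat.blt q 7491) (block7490)
 (block7491))

noncomputable def blocks7492to7494 (q : ℕ) : ℕ :=
 cond (Nat.blt q 7493) (block7492)
 (block7493)

noncomputable def blocks7494to7497 (q : ℕ) : ℕ :=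
 cond (Nat.blt q 7495) (block7494)
 (cond (Nat.blt q 7496) (block7495)
 (block7496))

noncomputable def blocks7497to7500 (q : ℕ) : ℕ :=
 cond (Nat.blt q 7498) (block7497)
 (cond (Nat.blt q 7499) (block7498)
 (block7499))

noncomputable def blocks7500to7503 (q : ℕ) : ℕ :=
 cond (Nat.blt q 7501) (block7500)
 (cond (Nat.blt q 7502) (block7501)
 (block7502))

noncomputable def blocks7503to7505 (q : ℕ) : ℕ :=
 cond (Nat.blt q 7504) (block7503)
 (block7504)

noncomputable def blocks7505to7508 (q : ℕ) : ℕ :=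
 cond (Nat.blt q 7506) (block7505)
 (cond (Nat.blt q 7507) (block7506)
 (block7507))

noncomputable def blocks7508to7510 (q : ℕ) : ℕ :=
 cond (Nat.blt q 7509) (block7508)
 (block7509)

noncomputable def blocks7510to7513 (q : ℕ) : ℕ :=
 cond (Nat.blt q 7511) (block7510)
 (cond (Nat.blt q 7512) (block7511)
 (block7512))

noncomputable def blocks7513to7515 (q : ℕ) : ℕ :=
 cond (Nat.blt q 7514) (block7513)
 (block7514)

noncomputable def blocks7515to7518 (q : ℕ) : ℕ :=
 cond (Nat.blt q 7516) (block7515)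
 (cond (Nat.blt q 7517) (block7516)
 (block7517))

noncomputable def blocks7518to7521 (q : ℕ) : ℕ :=
 cond (Nat.blt q 7519) (block7518)
 (cond (Nat.blt q 7520) (block7519)
 (block7520))

noncomputable def blocks7521to7524 (q : ℕ) : ℕ :=
 cond (Nat.blt q 7522) (block7521)
 (cond (Nat.blt q 7523) (block7522)
 (block7523))

noncomputable def blocks7482to7524 (q : ℕ) : ℕ :=
 cond (Nat.blt q 7503) (cond (Nat.blt q 7492) (cond (Nat.blt q 7487) (cond (Nat.blt q 7484) (blocks7482to7484 q)
 (blocks7484to7487 q))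
 (cond (Nat.blt q 7489) (blocks7487to7489 q)
 (blocks7489to7492 q)))
 (cond (Nat.blt q 7497) (cond (Nat.blt q 7494) (blocks7492to7494 q)
 (blocks7494to7497 q))
 (cond (Nat.blt q 7500) (blocks7497to7500 q)
 (blocks7500to7503 q))))
 (cond (Nat.blt q 7513) (cond (Nat.blt q 7508) (cond (Nat.blt q 7505) (blocks7503to7505 q)
 (blocks7505to7508 q))
 (cond (Nat.blt q 7510) (blocks7508to7510 q)
 (blocks7510to7513 q)))
 (cond (Nat.blt q 7518) (cond (Nat.blt q 7515) (blocks7513to7515 q)
 (blocks7515to7518 q))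
 (cond (Nat.blt q 7521) (blocks7518to7521 q)
 (blocks7521to7524 q))))

noncomputable def blocks7524to7526 (q : ℕ) : ℕ :=
 cond (Nat.blt q 7525) (block7524)
 (block7525)

noncomputable def blocks7526to7529 (q : ℕ) : ℕ :=
 cond (Nat.blt q 7527) (block7526)
 (cond (Nat.blt q 7528) (block7527)
 (block7528))

noncomputable def blocks7529to7531 (q : ℕ) : ℕ :=
 cond (Nat.blt q 7530) (block7529)
 (block7530)

noncomputable def blocks7531to7534 (q : ℕ) : ℕ :=
 cond (Nat.blt q 7532) (block7531)
 (cond (Nat.blt q 7533) (block7532)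
 (block7533))

noncomputable def blocks7534to7536 (q : ℕ) : ℕ :=
 cond (Nat.blt q 7535) (block7534)
 (block7535)

noncomputable def blocks7536to7539 (q : ℕ) : ℕ :=
 cond (Nat.blt q 7537) (block7536)
 (cond (Nat.blt q 7538) (block7537)
 (block7538))

noncomputable def blocks7539to7542 (q : ℕ) : ℕ :=
 cond (Nat.blt q 7540) (block7539)
 (cond (Nat.blt q 7541) (block7540)
 (block7541))

noncomputable def blocks7542to7545 (q : ℕ) : ℕ :=
 cond (Nat.blt q 7543) (block7542)
 (cond (Nat.blt q 7544) (block7543)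
 (block7544))

noncomputable def blocks7545to7547 (q : ℕ) : ℕ :=
 cond (Nat.blt q 7546) (block7545)
 (block7546)

noncomputable def blocks7547to7550 (q : ℕ) : ℕ :=
 cond (Nat.blt q 7548) (block7547)
 (cond (Nat.blt q 7549) (block7548)
 (block7549))

noncomputable def blocks7550to7553 (q : ℕ) : ℕ :=
 cond (Nat.blt q 7551) (block7550)
 (cond (Nat.blt q 7552) (block7551)
 (block7552))

noncomputable def blocks7553to7556 (q : ℕ) : ℕ :=
 cond (Nat.blt q 7554) (block7553)
 (cond (Nat.blt q 7555) (block7554)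
 (block7555))

noncomputable def blocks7556to7558 (q : ℕ) : ℕ :=
 cond (Nat.blt q 7557) (block7556)
 (block7557)

noncomputable def blocks7558to7561 (q : ℕ) : ℕ :=
 cond (Nat.blt q 7559) (block7558)
 (cond (Nat.blt q 7560) (block7559)
 (block7560))

noncomputable def blocks7561to7564 (q : ℕ) : ℕ :=
 cond (Nat.blt q 7562) (block7561)
 (cond (Nat.blt q 7563) (block7562)
 (block7563))

noncomputable def blocks7564to7567 (q : ℕ) : ℕ :=
 cond (Nat.blt q 7565) (block7564)
 (cond (Nat.blt q 7566) (block7565)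
 (block7566))

noncomputable def blocks7524to7567 (q : ℕ) : ℕ :=
 cond (Nat.blt q 7545) (cond (Nat.blt q 7534) (cond (Nat.blt q 7529) (cond (Nat.blt q 7526) (blocks7524to7526 q)
 (blocks7526to7529 q))
 (cond (Nat.blt q 7531) (blocks7529to7531 q)
 (blocks7531to7534 q)))
 (cond (Nat.blt q 7539) (cond (Nat.blt q 7536) (blocks7534to7536 q)
 (blocks7536to7539 q))
 (cond (Nat.blt q 7542) (blocks7539to7542 q)
 (blocks7542to7545 q))))
 (cond (Nat.blt q 7556) (cond (Nat.blt q 7550) (cond (Nat.blt q 7547) (blocks7545to7547 q)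
 (blocks7547to7550 q))
 (cond (Nat.blt q 7553) (blocks7550to7553 q)
 (blocks7553to7556 q)))
 (cond (Nat.blt q 7561) (cond (Nat.blt q 7558) (blocks7556to7558 q)
 (blocks7558to7561 q))
 (cond (Nat.blt q 7564) (blocks7561to7564 q)
 (blocks7564to7567 q))))

noncomputable def blocks7567to7569 (q : ℕ) : ℕ :=
 cond (Nat.blt q 7568) (block7567)
 (block7568)

noncomputable def blocks7569to7572 (q : ℕ) : ℕ :=
 cond (Nat.blt q 7570) (block7569)
 (cond (Nat.blt q 7571) (block7570)
 (block7571))

noncomputable def blocks7572to7574 (q : ℕ) : ℕ :=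
 cond (Nat.blt q 7573) (block7572)
 (block7573)

noncomputable def blocks7574to7577 (q : ℕ) : ℕ :=
 cond (Nat.blt q 7575) (block7574)
 (cond (Nat.blt q 7576) (block7575)
 (block7576))

noncomputable def blocks7577to7579 (q : ℕ) : ℕ :=
 cond (Nat.blt q 7578) (block7577)
 (block7578)

noncomputable def blocks7579to7582 (q : ℕ) : ℕ :=
 cond (Nat.blt q 7580) (block7579)
 (cond (Nat.blt q 7581) (block7580)
 (block7581))

noncomputable def blocks7582to7585 (q : ℕ) : ℕ :=
 cond (Nat.blt q 7583) (block7582)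
 (cond (Nat.blt q 7584) (block7583)
 (block7584))

noncomputable def blocks7585to7588 (q : ℕ) : ℕ :=
 cond (Nat.blt q 7586) (block7585)
 (cond (Nat.blt q 7587) (block7586)
 (block7587))

noncomputable def blocks7588to7590 (q : ℕ) : ℕ :=
 cond (Nat.blt q 7589) (block7588)
 (block7589)

noncomputable def blocks7590to7593 (q : ℕ) : ℕ :=
 cond (Nat.blt q 7591) (block7590)
 (cond (Nat.blt q 7592) (block7591)
 (block7592))

noncomputable def blocks7593to7595 (q : ℕ) : ℕ :=
 cond (Nat.blt q 7594) (block7593)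
 (block7594)

noncomputable def blocks7595to7598 (q : ℕ) : ℕ :=
 cond (Nat.blt q 7596) (block7595)
 (cond (Nat.blt q 7597) (block7596)
 (block7597))

noncomputable def blocks7598to7600 (q : ℕ) : ℕ :=
 cond (Nat.blt q 7599) (block7598)
 (block7599)

noncomputable def blocks7600to7603 (q : ℕ) : ℕ :=
 cond (Nat.blt q 7601) (block7600)
 (cond (Nat.blt q 7602) (block7601)
 (block7602))

noncomputable def blocks7603to7606 (q : ℕ) : ℕ :=
 cond (Nat.blt q 7604) (block7603)
 (cond (Nat.blt q 7605) (block7604)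
 (block7605))

noncomputable def blocks7606to7609 (q : ℕ) : ℕ :=
 cond (Nat.blt q 7607) (block7606)
 (cond (Nat.blt q 7608) (block7607)
 (block7608))

noncomputable def blocks7567to7609 (q : ℕ) : ℕ :=
 cond (Nat.blt q 7588) (cond (Nat.blt q 7577) (cond (Nat.blt q 7572) (cond (Nat.blt q 7569) (blocks7567to7569 q)
 (blocks7569to7572 q))
 (cond (Nat.blt q 7574) (blocks7572to7574 q)
 (blocks7574to7577 q)))
 (cond (Nat.blt q 7582) (cond (Nat.blt q 7579) (blocks7577to7579 q)
 (blocks7579to7582 q))
 (cond (Nat.blt q 7585) (blocks7582to7585 q)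
 (blocks7585to7588 q))))
 (cond (Nat.blt q 7598) (cond (Nat.blt q 7593) (cond (Nat.blt q 7590) (blocks7588to7590 q)
 (blocks7590to7593 q))
 (cond (Nat.blt q 7595) (blocks7593to7595 q)
 (blocks7595to7598 q)))
 (cond (Nat.blt q 7603) (cond (Nat.blt q 7600) (blocks7598to7600 q)
 (blocks7600to7603 q))
 (cond (Nat.blt q 7606) (blocks7603to7606 q)
 (blocks7606to7609 q))))

noncomputable def blocks7609to7611 (q : ℕ) : ℕ :=
 cond (Nat.blt q 7610) (block7609)
 (block7610)

noncomputable def blocks7611to7614 (q : ℕ) : ℕ :=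
 cond (Nat.blt q 7612) (block7611)
 (cond (Nat.blt q 7613) (block7612)
 (block7613))

noncomputable def blocks7614to7616 (q : ℕ) : ℕ :=
 cond (Nat.blt q 7615) (block7614)
 (block7615)

noncomputable def blocks7616to7619 (q : ℕ) : ℕ :=
 cond (Nat.blt q 7617) (block7616)
 (cond (Nat.blt q 7618) (block7617)
 (block7618))

noncomputable def blocks7619to7621 (q : ℕ) : ℕ :=
 cond (Nat.blt q 7620) (block7619)
 (block7620)

noncomputable def blocks7621to7624 (q : ℕ) : ℕ :=
 cond (Nat.blt q 7622) (block7621)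
 (cond (Nat.blt q 7623) (block7622)
 (block7623))

noncomputable def blocks7624to7627 (q : ℕ) : ℕ :=
 cond (Nat.blt q 7625) (block7624)
 (cond (Nat.blt q 7626) (block7625)
 (block7626))

noncomputable def blocks7627to7630 (q : ℕ) : ℕ :=
 cond (Nat.blt q 7628) (block7627)
 (cond (Nat.blt q 7629) (block7628)
 (block7629))

noncomputable def blocks7630to7632 (q : ℕ) : ℕ :=
 cond (Nat.blt q 7631) (block7630)
 (block7631)

noncomputable def blocks7632to7635 (q : ℕ) : ℕ :=
 cond (Nat.blt q 7633) (block7632)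
 (cond (Nat.blt q 7634) (block7633)
 (block7634))

noncomputable def blocks7635to7638 (q : ℕ) : ℕ :=
 cond (Nat.blt q 7636) (block7635)
 (cond (Nat.blt q 7637) (block7636)
 (block7637))

noncomputable def blocks7638to7641 (q : ℕ) : ℕ :=
 cond (Nat.blt q 7639) (block7638)
 (cond (Nat.blt q 7640) (block7639)
 (block7640))

noncomputable def blocks7641to7643 (q : ℕ) : ℕ :=
 cond (Nat.blt q 7642) (block7641)
 (block7642)

noncomputable def blocks7643to7646 (q : ℕ) : ℕ :=
 cond (Nat.blt q 7644) (block7643)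
 (cond (Nat.blt q 7645) (block7644)
 (block7645))

noncomputable def blocks7646to7649 (q : ℕ) : ℕ :=
 cond (Nat.blt q 7647) (block7646)
 (cond (Nat.blt q 7648) (block7647)
 (block7648))

noncomputable def blocks7649to7652 (q : ℕ) : ℕ :=
 cond (Nat.blt q 7650) (block7649)
 (cond (Nat.blt q 7651) (block7650)
 (block7651))

noncomputable def blocks7609to7652 (q : ℕ) : ℕ :=
 cond (Nat.blt q 7630) (cond (Nat.blt q 7619) (cond (Nat.blt q 7614) (cond (Nat.blt q 7611) (blocks7609to7611 q)
 (blocks7611to7614 q))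
 (cond (Nat.blt q 7616) (blocks7614to7616 q)
 (blocks7616to7619 q)))
 (cond (Nat.blt q 7624) (cond (Nat.blt q 7621) (blocks7619to7621 q)
 (blocks7621to7624 q))
 (cond (Nat.blt q 7627) (blocks7624to7627 q)
 (blocks7627to7630 q))))
 (cond (Nat.blt q 7641) (cond (Nat.blt q 7635) (cond (Nat.blt q 7632) (blocks7630to7632 q)
 (blocks7632to7635 q))
 (cond (Nat.blt q 7638) (blocks7635to7638 q)
 (blocks7638to7641 q)))
 (cond (Nat.blt q 7646) (cond (Nat.blt q 7643) (blocks7641to7643 q)
 (blocks7643to7646 q))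
 (cond (Nat.blt q 7649) (blocks7646to7649 q)
 (blocks7649to7652 q))))

noncomputable def blocks7652to7654 (q : ℕ) : ℕ :=
 cond (Nat.blt q 7653) (block7652)
 (block7653)

noncomputable def blocks7654to7657 (q : ℕ) : ℕ :=
 cond (Nat.blt q 7655) (block7654)
 (cond (Nat.blt q 7656) (block7655)
 (block7656))

noncomputable def blocks7657to7659 (q : ℕ) : ℕ :=
 cond (Nat.blt q 7658) (block7657)
 (block7658)

noncomputable def blocks7659to7662 (q : ℕ) : ℕ :=
 cond (Nat.blt q 7660) (block7659)
 (cond (Nat.blt q 7661) (block7660)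
 (block7661))

noncomputable def blocks7662to7664 (q : ℕ) : ℕ :=
 cond (Nat.blt q 7663) (block7662)
 (block7663)

noncomputable def blocks7664to7667 (q : ℕ) : ℕ :=
 cond (Nat.blt q 7665) (block7664)
 (cond (Nat.blt q 7666) (block7665)
 (block7666))

noncomputable def blocks7667to7670 (q : ℕ) : ℕ :=
 cond (Nat.blt q 7668) (block7667)
 (cond (Nat.blt q 7669) (block7668)
 (block7669))

noncomputable def blocks7670to7673 (q : ℕ) : ℕ :=
 cond (Nat.blt q 7671) (block7670)
 (cond (Nat.blt q 7672) (block7671)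
 (block7672))

noncomputable def blocks7673to7675 (q : ℕ) : ℕ :=
 cond (Nat.blt q 7674) (block7673)
 (block7674)

noncomputable def blocks7675to7678 (q : ℕ) : ℕ :=
 cond (Nat.blt q 7676) (block7675)
 (cond (Nat.blt q 7677) (block7676)
 (block7677))

noncomputable def blocks7678to7680 (q : ℕ) : ℕ :=
 cond (Nat.blt q 7679) (block7678)
 (block7679)

noncomputable def blocks7680to7683 (q : ℕ) : ℕ :=
 cond (Nat.blt q 7681) (block7680)
 (cond (Nat.blt q 7682) (block7681)
 (block7682))

noncomputable def blocks7683to7685 (q : ℕ) : ℕ :=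
 cond (Nat.blt q 7684) (block7683)
 (block7684)

noncomputable def blocks7685to7688 (q : ℕ) : ℕ :=
 cond (Nat.blt q 7686) (block7685)
 (cond (Nat.blt q 7687) (block7686)
 (block7687))

noncomputable def blocks7688to7691 (q : ℕ) : ℕ :=
 cond (Nat.blt q 7689) (block7688)
 (cond (Nat.blt q 7690) (block7689)
 (block7690))

noncomputable def blocks7691to7694 (q : ℕ) : ℕ :=
 cond (Nat.blt q 7692) (block7691)
 (cond (Nat.blt q 7693) (block7692)
 (block7693))

noncomputable def blocks7652to7694 (q : ℕ) : ℕ :=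
 cond (Nat.blt q 7673) (cond (Nat.blt q 7662) (cond (Nat.blt q 7657) (cond (Nat.blt q 7654) (blocks7652to7654 q)
 (blocks7654to7657 q))
 (cond (Nat.blt q 7659) (blocks7657to7659 q)
 (blocks7659to7662 q)))
 (cond (Nat.blt q 7667) (cond (Nat.blt q 7664) (blocks7662to7664 q)
 (blocks7664to7667 q))
 (cond (Nat.blt q 7670) (blocks7667to7670 q)
 (blocks7670to7673 q))))
 (cond (Nat.blt q 7683) (cond (Nat.blt q 7678) (cond (Nat.blt q 7675) (blocks7673to7675 q)
 (blocks7675to7678 q))
 (cond (Nat.blt q 7680) (blocks7678to7680 q)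
 (blocks7680to7683 q)))
 (cond (Nat.blt q 7688) (cond (Nat.blt q 7685) (blocks7683to7685 q)
 (blocks7685to7688 q))
 (cond (Nat.blt q 7691) (blocks7688to7691 q)
 (blocks7691to7694 q))))

noncomputable def blocks7694to7696 (q : ℕ) : ℕ :=
 cond (Nat.blt q 7695) (block7694)
 (block7695)

noncomputable def blocks7696to7699 (q : ℕ) : ℕ :=
 cond (Nat.blt q 7697) (block7696)
 (cond (Nat.blt q 7698) (block7697)
 (block7698))

noncomputable def blocks7699to7701 (q : ℕ) : ℕ :=
 cond (Nat.blt q 7700) (block7699)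
 (block7700)

noncomputable def blocks7701to7704 (q : ℕ) : ℕ :=
 cond (Nat.blt q 7702) (block7701)
 (cond (Nat.blt q 7703) (block7702)
 (block7703))

noncomputable def blocks7704to7706 (q : ℕ) : ℕ :=
 cond (Nat.blt q 7705) (block7704)
 (block7705)

noncomputable def blocks7706to7709 (q : ℕ) : ℕ :=
 cond (Nat.blt q 7707) (block7706)
 (cond (Nat.blt q 7708) (block7707)
 (block7708))

noncomputable def blocks7709to7712 (q : ℕ) : ℕ :=
 cond (Nat.blt q 7710) (block7709)
 (cond (Nat.blt q 7711) (block7710)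
 (block7711))

noncomputable def blocks7712to7715 (q : ℕ) : ℕ :=
 cond (Nat.blt q 7713) (block7712)
 (cond (Nat.blt q 7714) (block7713)
 (block7714))

noncomputable def blocks7715to7717 (q : ℕ) : ℕ :=
 cond (Nat.blt q 7716) (block7715)
 (block7716)

noncomputable def blocks7717to7720 (q : ℕ) : ℕ :=
 cond (Nat.blt q 7718) (block7717)
 (cond (Nat.blt q 7719) (block7718)
 (block7719))

noncomputable def blocks7720to7723 (q : ℕ) : ℕ :=
 cond (Nat.blt q 7721) (block7720)
 (cond (Nat.blt q 7722) (block7721)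
 (block7722))

noncomputable def blocks7723to7726 (q : ℕ) : ℕ :=
 cond (Nat.blt q 7724) (block7723)
 (cond (Nat.blt q 7725) (block7724)
 (block7725))

noncomputable def blocks7726to7728 (q : ℕ) : ℕ :=
 cond (Nat.blt q 7727) (block7726)
 (block7727)

noncomputable def blocks7728to7731 (q : ℕ) : ℕ :=
 cond (Nat.blt q 7729) (block7728)
 (cond (Nat.blt q 7730) (block7729)
 (block7730))

noncomputable def blocks7731to7734 (q : ℕ) : ℕ :=
 cond (Nat.blt q 7732) (block7731)
 (cond (Nat.blt q 7733) (block7732)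
 (block7733))

noncomputable def blocks7734to7737 (q : ℕ) : ℕ :=
 cond (Nat.blt q 7735) (block7734)
 (cond (Nat.blt q 7736) (block7735)
 (block7736))

noncomputable def blocks7694to7737 (q : ℕ) : ℕ :=
 cond (Nat.blt q 7715) (cond (Nat.blt q 7704) (cond (Nat.blt q 7699) (cond (Nat.blt q 7696) (blocks7694to7696 q)
 (blocks7696to7699 q))
 (cond (Nat.blt q 7701) (blocks7699to7701 q)
 (blocks7701to7704 q)))
 (cond (Nat.blt q 7709) (cond (Nat.blt q 7706) (blocks7704to7706 q)
 (blocks7706to7709 q))
 (cond (Nat.blt q 7712) (blocks7709to7712 q)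
 (blocks7712to7715 q))))
 (cond (Nat.blt q 7726) (cond (Nat.blt q 7720) (cond (Nat.blt q 7717) (blocks7715to7717 q)
 (blocks7717to7720 q))
 (cond (Nat.blt q 7723) (blocks7720to7723 q)
 (blocks7723to7726 q)))
 (cond (Nat.blt q 7731) (cond (Nat.blt q 7728) (blocks7726to7728 q)
 (blocks7728to7731 q))
 (cond (Nat.blt q 7734) (blocks7731to7734 q)
 (blocks7734to7737 q))))

noncomputable def blocks7737to7739 (q : ℕ) : ℕ :=
 cond (Nat.blt q 7738) (block7737)
 (block7738)

noncomputable def blocks7739to7742 (q : ℕ) : ℕ :=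
 cond (Nat.blt q 7740) (block7739)
 (cond (Nat.blt q 7741) (block7740)
 (block7741))

noncomputable def blocks7742to7744 (q : ℕ) : ℕ :=
 cond (Nat.blt q 7743) (block7742)
 (block7743)

noncomputable def blocks7744to7747 (q : ℕ) : ℕ :=
 cond (Nat.blt q 7745) (block7744)
 (cond (Nat.blt q 7746) (block7745)
 (block7746))

noncomputable def blocks7747to7749 (q : ℕ) : ℕ :=
 cond (Nat.blt q 7748) (block7747)
 (block7748)

noncomputable def blocks7749to7752 (q : ℕ) : ℕ :=
 cond (Nat.blt q 7750) (block7749)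
 (cond (Nat.blt q 7751) (block7750)
 (block7751))

noncomputable def blocks7752to7755 (q : ℕ) : ℕ :=
 cond (Nat.blt q 7753) (block7752)
 (cond (Nat.blt q 7754) (block7753)
 (block7754))

noncomputable def blocks7755to7758 (q : ℕ) : ℕ :=
 cond (Nat.blt q 7756) (block7755)
 (cond (Nat.blt q 7757) (block7756)
 (block7757))

noncomputable def blocks7758to7760 (q : ℕ) : ℕ :=
 cond (Nat.blt q 7759) (block7758)
 (block7759)

noncomputable def blocks7760to7763 (q : ℕ) : ℕ :=
 cond (Nat.blt q 7761) (block7760)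
 (cond (Nat.blt q 7762) (block7761)
 (block7762))

noncomputable def blocks7763to7765 (q : ℕ) : ℕ :=
 cond (Nat.blt q 7764) (block7763)
 (block7764)

noncomputable def blocks7765to7768 (q : ℕ) : ℕ :=
 cond (Nat.blt q 7766) (block7765)
 (cond (Nat.blt q 7767) (block7766)
 (block7767))

noncomputable def blocks7768to7770 (q : ℕ) : ℕ :=
 cond (Nat.blt q 7769) (block7768)
 (block7769)

noncomputable def blocks7770to7773 (q : ℕ) : ℕ :=
 cond (Nat.blt q 7771) (block7770)
 (cond (Nat.blt q 7772) (block7771)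
 (block7772))

noncomputable def blocks7773to7776 (q : ℕ) : ℕ :=
 cond (Nat.blt q 7774) (block7773)
 (cond (Nat.blt q 7775) (block7774)
 (block7775))

noncomputable def blocks7776to7779 (q : ℕ) : ℕ :=
 cond (Nat.blt q 7777) (block7776)
 (cond (Nat.blt q 7778) (block7777)
 (block7778))

noncomputable def blocks7737to7779 (q : ℕ) : ℕ :=
 cond (Nat.blt q 7758) (cond (Nat.blt q 7747) (cond (Nat.blt q 7742) (cond (Nat.blt q 7739) (blocks7737to7739 q)
 (blocks7739to7742 q))
 (cond (Nat.blt q 7744) (blocks7742to7744 q)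
 (blocks7744to7747 q)))
 (cond (Nat.blt q 7752) (cond (Nat.blt q 7749) (blocks7747to7749 q)
 (blocks7749to7752 q))
 (cond (Nat.blt q 7755) (blocks7752to7755 q)
 (blocks7755to7758 q))))
 (cond (Nat.blt q 7768) (cond (Nat.blt q 7763) (cond (Nat.blt q 7760) (blocks7758to7760 q)
 (blocks7760to7763 q))
 (cond (Nat.blt q 7765) (blocks7763to7765 q)
 (blocks7765to7768 q)))
 (cond (Nat.blt q 7773) (cond (Nat.blt q 7770) (blocks7768to7770 q)
 (blocks7770to7773 q))
 (cond (Nat.blt q 7776) (blocks7773to7776 q)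
 (blocks7776to7779 q))))

noncomputable def blocks7779to7781 (q : ℕ) : ℕ :=
 cond (Nat.blt q 7780) (block7779)
 (block7780)

noncomputable def blocks7781to7784 (q : ℕ) : ℕ :=
 cond (Nat.blt q 7782) (block7781)
 (cond (Nat.blt q 7783) (block7782)
 (block7783))

noncomputable def blocks7784to7786 (q : ℕ) : ℕ :=
 cond (Nat.blt q 7785) (block7784)
 (block7785)

noncomputable def blocks7786to7789 (q : ℕ) : ℕ :=
 cond (Nat.blt q 7787) (block7786)
 (cond (Nat.blt q 7788) (block7787)
 (block7788))

noncomputable def blocks7789to7791 (q : ℕ) : ℕ :=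
 cond (Nat.blt q 7790) (block7789)
 (block7790)

noncomputable def blocks7791to7794 (q : ℕ) : ℕ :=
 cond (Nat.blt q 7792) (block7791)
 (cond (Nat.blt q 7793) (block7792)
 (block7793))

noncomputable def blocks7794to7797 (q : ℕ) : ℕ :=
 cond (Nat.blt q 7795) (block7794)
 (cond (Nat.blt q 7796) (block7795)
 (block7796))

noncomputable def blocks7797to7800 (q : ℕ) : ℕ :=
 cond (Nat.blt q 7798) (block7797)
 (cond (Nat.blt q 7799) (block7798)
 (block7799))

noncomputable def blocks7800to7802 (q : ℕ) : ℕ :=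
 cond (Nat.blt q 7801) (block7800)
 (block7801)

noncomputable def blocks7802to7805 (q : ℕ) : ℕ :=
 cond (Nat.blt q 7803) (block7802)
 (cond (Nat.blt q 7804) (block7803)
 (block7804))

noncomputable def blocks7805to7808 (q : ℕ) : ℕ :=
 cond (Nat.blt q 7806) (block7805)
 (cond (Nat.blt q 7807) (block7806)
 (block7807))

noncomputable def blocks7808to7811 (q : ℕ) : ℕ :=
 cond (Nat.blt q 7809) (block7808)
 (cond (Nat.blt q 7810) (block7809)
 (block7810))

noncomputable def blocks7811to7813 (q : ℕ) : ℕ :=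
 cond (Nat.blt q 7812) (block7811)
 (block7812)

noncomputable def blocks7813to7816 (q : ℕ) : ℕ :=
 cond (Nat.blt q 7814) (block7813)
 (cond (Nat.blt q 7815) (block7814)
 (block7815))

noncomputable def blocks7816to7819 (q : ℕ) : ℕ :=
 cond (Nat.blt q 7817) (block7816)
 (cond (Nat.blt q 7818) (block7817)
 (block7818))

noncomputable def blocks7819to7822 (q : ℕ) : ℕ :=
 cond (Nat.blt q 7820) (block7819)
 (cond (Nat.blt q 7821) (block7820)
 (block7821))

noncomputable def blocks7779to7822 (q : ℕ) : ℕ :=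
 cond (Nat.blt q 7800) (cond (Nat.blt q 7789) (cond (Nat.blt q 7784) (cond (Nat.blt q 7781) (blocks7779to7781 q)
 (blocks7781to7784 q))
 (cond (Nat.blt q 7786) (blocks7784to7786 q)
 (blocks7786to7789 q)))
 (cond (Nat.blt q 7794) (cond (Nat.blt q 7791) (blocks7789to7791 q)
 (blocks7791to7794 q))
 (cond (Nat.blt q 7797) (blocks7794to7797 q)
 (blocks7797to7800 q))))
 (cond (Nat.blt q 7811) (cond (Nat.blt q 7805) (cond (Nat.blt q 7802) (blocks7800to7802 q)
 (blocks7802to7805 q))
 (cond (Nat.blt q 7808) (blocks7805to7808 q)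
 (blocks7808to7811 q)))
 (cond (Nat.blt q 7816) (cond (Nat.blt q 7813) (blocks7811to7813 q)
 (blocks7813to7816 q))
 (cond (Nat.blt q 7819) (blocks7816to7819 q)
 (blocks7819to7822 q))))

noncomputable def blocks7822to7824 (q : ℕ) : ℕ :=
 cond (Nat.blt q 7823) (block7822)
 (block7823)

noncomputable def blocks7824to7827 (q : ℕ) : ℕ :=
 cond (Nat.blt q 7825) (block7824)
 (cond (Nat.blt q 7826) (block7825)
 (block7826))

noncomputable def blocks7827to7829 (q : ℕ) : ℕ :=
 cond (Nat.blt q 7828) (block7827)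
 (block7828)

noncomputable def blocks7829to7832 (q : ℕ) : ℕ :=
 cond (Nat.blt q 7830) (block7829)
 (cond (Nat.blt q 7831) (block7830)
 (block7831))

noncomputable def blocks7832to7834 (q : ℕ) : ℕ :=
 cond (Nat.blt q 7833) (block7832)
 (block7833)

noncomputable def blocks7834to7837 (q : ℕ) : ℕ :=
 cond (Nat.blt q 7835) (block7834)
 (cond (Nat.blt q 7836) (block7835)
 (block7836))

noncomputable def blocks7837to7840 (q : ℕ) : ℕ :=
 cond (Nat.blt q 7838) (block7837)
 (cond (Nat.blt q 7839) (block7838)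
 (block7839))

noncomputable def blocks7840to7843 (q : ℕ) : ℕ :=
 cond (Nat.blt q 7841) (block7840)
 (cond (Nat.blt q 7842) (block7841)
 (block7842))

noncomputable def blocks7843to7845 (q : ℕ) : ℕ :=
 cond (Nat.blt q 7844) (block7843)
 (block7844)

noncomputable def blocks7845to7848 (q : ℕ) : ℕ :=
 cond (Nat.blt q 7846) (block7845)
 (cond (Nat.blt q 7847) (block7846)
 (block7847))

noncomputable def blocks7848to7850 (q : ℕ) : ℕ :=
 cond (Nat.blt q 7849) (block7848)
 (block7849)

noncomputable def blocks7850to7853 (q : ℕ) : ℕ :=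
 cond (Nat.blt q 7851) (block7850)
 (cond (Nat.blt q 7852) (block7851)
 (block7852))

noncomputable def blocks7853to7855 (q : ℕ) : ℕ :=
 cond (Nat.blt q 7854) (block7853)
 (block7854)

noncomputable def blocks7855to7858 (q : ℕ) : ℕ :=
 cond (Nat.blt q 7856) (block7855)
 (cond (Nat.blt q 7857) (block7856)
 (block7857))

noncomputable def blocks7858to7861 (q : ℕ) : ℕ :=
 cond (Nat.blt q 7859) (block7858)
 (cond (Nat.blt q 7860) (block7859)
 (block7860))

noncomputable def blocks7861to7864 (q : ℕ) : ℕ :=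
 cond (Nat.blt q 7862) (block7861)
 (cond (Nat.blt q 7863) (block7862)
 (block7863))

noncomputable def blocks7822to7864 (q : ℕ) : ℕ :=
 cond (Nat.blt q 7843) (cond (Nat.blt q 7832) (cond (Nat.blt q 7827) (cond (Nat.blt q 7824) (blocks7822to7824 q)
 (blocks7824to7827 q))
 (cond (Nat.blt q 7829) (blocks7827to7829 q)
 (blocks7829to7832 q)))
 (cond (Nat.blt q 7837) (cond (Nat.blt q 7834) (blocks7832to7834 q)
 (blocks7834to7837 q))
 (cond (Nat.blt q 7840) (blocks7837to7840 q)
 (blocks7840to7843 q))))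
 (cond (Nat.blt q 7853) (cond (Nat.blt q 7848) (cond (Nat.blt q 7845) (blocks7843to7845 q)
 (blocks7845to7848 q))
 (cond (Nat.blt q 7850) (blocks7848to7850 q)
 (blocks7850to7853 q)))
 (cond (Nat.blt q 7858) (cond (Nat.blt q 7855) (blocks7853to7855 q)
 (blocks7855to7858 q))
 (cond (Nat.blt q 7861) (blocks7858to7861 q)
 (blocks7861to7864 q))))

noncomputable def blocks7864to7866 (q : ℕ) : ℕ :=
 cond (Nat.blt q 7865) (block7864)
 (block7865)

noncomputable def blocks7866to7869 (q : ℕ) : ℕ :=
 cond (Nat.blt q 7867) (block7866)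
 (cond (Nat.blt q 7868) (block7867)
 (block7868))

noncomputable def blocks7869to7871 (q : ℕ) : ℕ :=
 cond (Nat.blt q 7870) (block7869)
 (block7870)

noncomputable def blocks7871to7874 (q : ℕ) : ℕ :=
 cond (Nat.blt q 7872) (block7871)
 (cond (Nat.blt q 7873) (block7872)
 (block7873))

noncomputable def blocks7874to7876 (q : ℕ) : ℕ :=
 cond (Nat.blt q 7875) (block7874)
 (block7875)

noncomputable def blocks7876to7879 (q : ℕ) : ℕ :=
 cond (Nat.blt q 7877) (block7876)
 (cond (Nat.blt q 7878) (block7877)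
 (block7878))

noncomputable def blocks7879to7882 (q : ℕ) : ℕ :=
 cond (Nat.blt q 7880) (block7879)
 (cond (Nat.blt q 7881) (block7880)
 (block7881))

noncomputable def blocks7882to7885 (q : ℕ) : ℕ :=
 cond (Nat.blt q 7883) (block7882)
 (cond (Nat.blt q 7884) (block7883)
 (block7884))

noncomputable def blocks7885to7887 (q : ℕ) : ℕ :=
 cond (Nat.blt q 7886) (block7885)
 (block7886)

noncomputable def blocks7887to7890 (q : ℕ) : ℕ :=
 cond (Nat.blt q 7888) (block7887)
 (cond (Nat.blt q 7889) (block7888)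
 (block7889))

noncomputable def blocks7890to7893 (q : ℕ) : ℕ :=
 cond (Nat.blt q 7891) (block7890)
 (cond (Nat.blt q 7892) (block7891)
 (block7892))

noncomputable def blocks7893to7896 (q : ℕ) : ℕ :=
 cond (Nat.blt q 7894) (block7893)
 (cond (Nat.blt q 7895) (block7894)
 (block7895))

noncomputable def blocks7896to7898 (q : ℕ) : ℕ :=
 cond (Nat.blt q 7897) (block7896)
 (block7897)

noncomputable def blocks7898to7901 (q : ℕ) : ℕ :=
 cond (Nat.blt q 7899) (block7898)
 (cond (Nat.blt q 7900) (block7899)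
 (block7900))

noncomputable def blocks7901to7904 (q : ℕ) : ℕ :=
 cond (Nat.blt q 7902) (block7901)
 (cond (Nat.blt q 7903) (block7902)
 (block7903))

noncomputable def blocks7904to7907 (q : ℕ) : ℕ :=
 cond (Nat.blt q 7905) (block7904)
 (cond (Nat.blt q 7906) (block7905)
 (block7906))

noncomputable def blocks7864to7907 (q : ℕ) : ℕ :=
 cond (Nat.blt q 7885) (cond (Nat.blt q 7874) (cond (Nat.blt q 7869) (cond (Nat.blt q 7866) (blocks7864to7866 q)
 (blocks7866to7869 q))
 (cond (Nat.blt q 7871) (blocks7869to7871 q)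
 (blocks7871to7874 q)))
 (cond (Nat.blt q 7879) (cond (Nat.blt q 7876) (blocks7874to7876 q)
 (blocks7876to7879 q))
 (cond (Nat.blt q 7882) (blocks7879to7882 q)
 (blocks7882to7885 q))))
 (cond (Nat.blt q 7896) (cond (Nat.blt q 7890) (cond (Nat.blt q 7887) (blocks7885to7887 q)
 (blocks7887to7890 q))
 (cond (Nat.blt q 7893) (blocks7890to7893 q)
 (blocks7893to7896 q)))
 (cond (Nat.blt q 7901) (cond (Nat.blt q 7898) (blocks7896to7898 q)
 (blocks7898to7901 q))
 (cond (Nat.blt q 7904) (blocks7901to7904 q)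
 (blocks7904to7907 q))))

noncomputable def blocks7907to7909 (q : ℕ) : ℕ :=
 cond (Nat.blt q 7908) (block7907)
 (block7908)

noncomputable def blocks7909to7912 (q : ℕ) : ℕ :=
 cond (Nat.blt q 7910) (block7909)
 (cond (Nat.blt q 7911) (block7910)
 (block7911))

noncomputable def blocks7912to7914 (q : ℕ) : ℕ :=
 cond (Nat.blt q 7913) (block7912)
 (block7913)

noncomputable def blocks7914to7917 (q : ℕ) : ℕ :=
 cond (Nat.blt q 7915) (block7914)
 (cond (Nat.blt q 7916) (block7915)
 (block7916))

noncomputable def blocks7917to7919 (q : ℕ) : ℕ :=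
 cond (Nat.blt q 7918) (block7917)
 (block7918)

noncomputable def blocks7919to7922 (q : ℕ) : ℕ :=
 cond (Nat.blt q 7920) (block7919)
 (cond (Nat.blt q 7921) (block7920)
 (block7921))

noncomputable def blocks7922to7925 (q : ℕ) : ℕ :=
 cond (Nat.blt q 7923) (block7922)
 (cond (Nat.blt q 7924) (block7923)
 (block7924))

noncomputable def blocks7925to7928 (q : ℕ) : ℕ :=
 cond (Nat.blt q 7926) (block7925)
 (cond (Nat.blt q 7927) (block7926)
 (block7927))

noncomputable def blocks7928to7930 (q : ℕ) : ℕ :=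
 cond (Nat.blt q 7929) (block7928)
 (block7929)

noncomputable def blocks7930to7933 (q : ℕ) : ℕ :=
 cond (Nat.blt q 7931) (block7930)
 (cond (Nat.blt q 7932) (block7931)
 (block7932))

noncomputable def blocks7933to7935 (q : ℕ) : ℕ :=
 cond (Nat.blt q 7934) (block7933)
 (block7934)

noncomputable def blocks7935to7938 (q : ℕ) : ℕ :=
 cond (Nat.blt q 7936) (block7935)
 (cond (Nat.blt q 7937) (block7936)
 (block7937))

noncomputable def blocks7938to7940 (q : ℕ) : ℕ :=
 cond (Nat.blt q 7939) (block7938)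
 (block7939)

noncomputable def blocks7940to7943 (q : ℕ) : ℕ :=
 cond (Nat.blt q 7941) (block7940)
 (cond (Nat.blt q 7942) (block7941)
 (block7942))

noncomputable def blocks7943to7946 (q : ℕ) : ℕ :=
 cond (Nat.blt q 7944) (block7943)
 (cond (Nat.blt q 7945) (block7944)
 (block7945))

noncomputable def blocks7946to7949 (q : ℕ) : ℕ :=
 cond (Nat.blt q 7947) (block7946)
 (cond (Nat.blt q 7948) (block7947)
 (block7948))

noncomputable def blocks7907to7949 (q : ℕ) : ℕ :=
 cond (Nat.blt q 7928) (cond (Nat.blt q 7917) (cond (Nat.blt q 7912) (cond (Nat.blt q 7909) (blocks7907to7909 q)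
 (blocks7909to7912 q))
 (cond (Nat.blt q 7914) (blocks7912to7914 q)
 (blocks7914to7917 q)))
 (cond (Nat.blt q 7922) (cond (Nat.blt q 7919) (blocks7917to7919 q)
 (blocks7919to7922 q))
 (cond (Nat.blt q 7925) (blocks7922to7925 q)
 (blocks7925to7928 q))))
 (cond (Nat.blt q 7938) (cond (Nat.blt q 7933) (cond (Nat.blt q 7930) (blocks7928to7930 q)
 (blocks7930to7933 q))
 (cond (Nat.blt q 7935) (blocks7933to7935 q)
 (blocks7935to7938 q)))
 (cond (Nat.blt q 7943) (cond (Nat.blt q 7940) (blocks7938to7940 q)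
 (blocks7940to7943 q))
 (cond (Nat.blt q 7946) (blocks7943to7946 q)
 (blocks7946to7949 q))))

noncomputable def blocks7949to7951 (q : ℕ) : ℕ :=
 cond (Nat.blt q 7950) (block7949)
 (block7950)

noncomputable def blocks7951to7954 (q : ℕ) : ℕ :=
 cond (Nat.blt q 7952) (block7951)
 (cond (Nat.blt q 7953) (block7952)
 (block7953))

noncomputable def blocks7954to7956 (q : ℕ) : ℕ :=
 cond (Nat.blt q 7955) (block7954)
 (block7955)

noncomputable def blocks7956to7959 (q : ℕ) : ℕ :=
 cond (Nat.blt q 7957) (block7956)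
 (cond (Nat.blt q 7958) (block7957)
 (block7958))

noncomputable def blocks7959to7961 (q : ℕ) : ℕ :=
 cond (Nat.blt q 7960) (block7959)
 (block7960)

noncomputable def blocks7961to7964 (q : ℕ) : ℕ :=
 cond (Nat.blt q 7962) (block7961)
 (cond (Nat.blt q 7963) (block7962)
 (block7963))

noncomputable def blocks7964to7967 (q : ℕ) : ℕ :=
 cond (Nat.blt q 7965) (block7964)
 (cond (Nat.blt q 7966) (block7965)
 (block7966))

noncomputable def blocks7967to7970 (q : ℕ) : ℕ :=
 cond (Nat.blt q 7968) (block7967)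
 (cond (Nat.blt q 7969) (block7968)
 (block7969))

noncomputable def blocks7970to7972 (q : ℕ) : ℕ :=
 cond (Nat.blt q 7971) (block7970)
 (block7971)

noncomputable def blocks7972to7975 (q : ℕ) : ℕ :=
 cond (Nat.blt q 7973) (block7972)
 (cond (Nat.blt q 7974) (block7973)
 (block7974))

noncomputable def blocks7975to7978 (q : ℕ) : ℕ :=
 cond (Nat.blt q 7976) (block7975)
 (cond (Nat.blt q 7977) (block7976)
 (block7977))

noncomputable def blocks7978to7981 (q : ℕ) : ℕ :=
 cond (Nat.blt q 7979) (block7978)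
 (cond (Nat.blt q 7980) (block7979)
 (block7980))

noncomputable def blocks7981to7983 (q : ℕ) : ℕ :=
 cond (Nat.blt q 7982) (block7981)
 (block7982)

noncomputable def blocks7983to7986 (q : ℕ) : ℕ :=
 cond (Nat.blt q 7984) (block7983)
 (cond (Nat.blt q 7985) (block7984)
 (block7985))

noncomputable def blocks7986to7989 (q : ℕ) : ℕ :=
 cond (Nat.blt q 7987) (block7986)
 (cond (Nat.blt q 7988) (block7987)
 (block7988))

noncomputable def blocks7989to7992 (q : ℕ) : ℕ :=
 cond (Nat.blt q 7990) (block7989)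
 (cond (Nat.blt q 7991) (block7990)
 (block7991))

noncomputable def blocks7949to7992 (q : ℕ) : ℕ :=
 cond (Nat.blt q 7970) (cond (Nat.blt q 7959) (cond (Nat.blt q 7954) (cond (Nat.blt q 7951) (blocks7949to7951 q)
 (blocks7951to7954 q))
 (cond (Nat.blt q 7956) (blocks7954to7956 q)
 (blocks7956to7959 q)))
 (cond (Nat.blt q 7964) (cond (Nat.blt q 7961) (blocks7959to7961 q)
 (blocks7961to7964 q))
 (cond (Nat.blt q 7967) (blocks7964to7967 q)
 (blocks7967to7970 q))))
 (cond (Nat.blt q 7981) (cond (Nat.blt q 7975) (cond (Nat.blt q 7972) (blocks7970to7972 q)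
 (blocks7972to7975 q))
 (cond (Nat.blt q 7978) (blocks7975to7978 q)
 (blocks7978to7981 q)))
 (cond (Nat.blt q 7986) (cond (Nat.blt q 7983) (blocks7981to7983 q)
 (blocks7983to7986 q))
 (cond (Nat.blt q 7989) (blocks7986to7989 q)
 (blocks7989to7992 q))))

noncomputable def blocks7992to7994 (q : ℕ) : ℕ :=
 cond (Nat.blt q 7993) (block7992)
 (block7993)

noncomputable def blocks7994to7997 (q : ℕ) : ℕ :=
 cond (Nat.blt q 7995) (block7994)
 (cond (Nat.blt q 7996) (block7995)
 (block7996))

noncomputable def blocks7997to7999 (q : ℕ) : ℕ :=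
 cond (Nat.blt q 7998) (block7997)
 (block7998)

noncomputable def blocks7999to8002 (q : ℕ) : ℕ :=
 cond (Nat.blt q 8000) (block7999)
 (cond (Nat.blt q 8001) (block8000)
 (block8001))

noncomputable def blocks8002to8004 (q : ℕ) : ℕ :=
 cond (Nat.blt q 8003) (block8002)
 (block8003)

noncomputable def blocks8004to8007 (q : ℕ) : ℕ :=
 cond (Nat.blt q 8005) (block8004)
 (cond (Nat.blt q 8006) (block8005)
 (block8006))

noncomputable def blocks8007to8010 (q : ℕ) : ℕ :=
 cond (Nat.blt q 8008) (block8007)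
 (cond (Nat.blt q 8009) (block8008)
 (block8009))

noncomputable def blocks8010to8013 (q : ℕ) : ℕ :=
 cond (Nat.blt q 8011) (block8010)
 (cond (Nat.blt q 8012) (block8011)
 (block8012))

noncomputable def blocks8013to8015 (q : ℕ) : ℕ :=
 cond (Nat.blt q 8014) (block8013)
 (block8014)

noncomputable def blocks8015to8018 (q : ℕ) : ℕ :=
 cond (Nat.blt q 8016) (block8015)
 (cond (Nat.blt q 8017) (block8016)
 (block8017))

noncomputable def blocks8018to8020 (q : ℕ) : ℕ :=
 cond (Nat.blt q 8019) (block8018)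
 (block8019)

noncomputable def blocks8020to8023 (q : ℕ) : ℕ :=
 cond (Nat.blt q 8021) (block8020)
 (cond (Nat.blt q 8022) (block8021)
 (block8022))

noncomputable def blocks8023to8025 (q : ℕ) : ℕ :=
 cond (Nat.blt q 8024) (block8023)
 (block8024)

noncomputable def blocks8025to8028 (q : ℕ) : ℕ :=
 cond (Nat.blt q 8026) (block8025)
 (cond (Nat.blt q 8027) (block8026)
 (block8027))

noncomputable def blocks8028to8031 (q : ℕ) : ℕ :=
 cond (Nat.blt q 8029) (block8028)
 (cond (Nat.blt q 8030) (block8029)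
 (block8030))

noncomputable def blocks8031to8034 (q : ℕ) : ℕ :=
 cond (Nat.blt q 8032) (block8031)
 (cond (Nat.blt q 8033) (block8032)
 (block8033))

noncomputable def blocks7992to8034 (q : ℕ) : ℕ :=
 cond (Nat.blt q 8013) (cond (Nat.blt q 8002) (cond (Nat.blt q 7997) (cond (Nat.blt q 7994) (blocks7992to7994 q)
 (blocks7994to7997 q))
 (cond (Nat.blt q 7999) (blocks7997to7999 q)
 (blocks7999to8002 q)))
 (cond (Nat.blt q 8007) (cond (Nat.blt q 8004) (blocks8002to8004 q)
 (blocks8004to8007 q))
 (cond (Nat.blt q 8010) (blocks8007to8010 q)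
 (blocks8010to8013 q))))
 (cond (Nat.blt q 8023) (cond (Nat.blt q 8018) (cond (Nat.blt q 8015) (blocks8013to8015 q)
 (blocks8015to8018 q))
 (cond (Nat.blt q 8020) (blocks8018to8020 q)
 (blocks8020to8023 q)))
 (cond (Nat.blt q 8028) (cond (Nat.blt q 8025) (blocks8023to8025 q)
 (blocks8025to8028 q))
 (cond (Nat.blt q 8031) (blocks8028to8031 q)
 (blocks8031to8034 q))))

noncomputable def blocks8034to8036 (q : ℕ) : ℕ :=
 cond (Nat.blt q 8035) (block8034)
 (block8035)

noncomputable def blocks8036to8039 (q : ℕ) : ℕ :=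
 cond (Nat.blt q 8037) (block8036)
 (cond (Nat.blt q 8038) (block8037)
 (block8038))

noncomputable def blocks8039to8041 (q : ℕ) : ℕ :=
 cond (Nat.blt q 8040) (block8039)
 (block8040)

noncomputable def blocks8041to8044 (q : ℕ) : ℕ :=
 cond (Nat.blt q 8042) (block8041)
 (cond (Nat.blt q 8043) (block8042)
 (block8043))

noncomputable def blocks8044to8046 (q : ℕ) : ℕ :=
 cond (Nat.blt q 8045) (block8044)
 (block8045)

noncomputable def blocks8046to8049 (q : ℕ) : ℕ :=
 cond (Nat.blt q 8047) (block8046)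
 (cond (Nat.blt q 8048) (block8047)
 (block8048))

noncomputable def blocks8049to8052 (q : ℕ) : ℕ :=
 cond (Nat.blt q 8050) (block8049)
 (cond (Nat.blt q 8051) (block8050)
 (block8051))

noncomputable def blocks8052to8055 (q : ℕ) : ℕ :=
 cond (Nat.blt q 8053) (block8052)
 (cond (Nat.blt q 8054) (block8053)
 (block8054))

noncomputable def blocks8055to8057 (q : ℕ) : ℕ :=
 cond (Nat.blt q 8056) (block8055)
 (block8056)

noncomputable def blocks8057to8060 (q : ℕ) : ℕ :=
 cond (Nat.blt q 8058) (block8057)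
 (cond (Nat.blt q 8059) (block8058)
 (block8059))

noncomputable def blocks8060to8063 (q : ℕ) : ℕ :=
 cond (Nat.blt q 8061) (block8060)
 (cond (Nat.blt q 8062) (block8061)
 (block8062))

noncomputable def blocks8063to8066 (q : ℕ) : ℕ :=
 cond (Nat.blt q 8064) (block8063)
 (cond (Nat.blt q 8065) (block8064)
 (block8065))

noncomputable def blocks8066to8068 (q : ℕ) : ℕ :=
 cond (Nat.blt q 8067) (block8066)
 (block8067)

noncomputable def blocks8068to8071 (q : ℕ) : ℕ :=
 cond (Nat.blt q 8069) (block8068)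
 (cond (Nat.blt q 8070) (block8069)
 (block8070))

noncomputable def blocks8071to8074 (q : ℕ) : ℕ :=
 cond (Nat.blt q 8072) (block8071)
 (cond (Nat.blt q 8073) (block8072)
 (block8073))

noncomputable def blocks8074to8077 (q : ℕ) : ℕ :=
 cond (Nat.blt q 8075) (block8074)
 (cond (Nat.blt q 8076) (block8075)
 (block8076))

noncomputable def blocks8034to8077 (q : ℕ) : ℕ :=
 cond (Nat.blt q 8055) (cond (Nat.blt q 8044) (cond (Nat.blt q 8039) (cond (Nat.blt q 8036) (blocks8034to8036 q)
 (blocks8036to8039 q))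
 (cond (Nat.blt q 8041) (blocks8039to8041 q)
 (blocks8041to8044 q)))
 (cond (Nat.blt q 8049) (cond (Nat.blt q 8046) (blocks8044to8046 q)
 (blocks8046to8049 q))
 (cond (Nat.blt q 8052) (blocks8049to8052 q)
 (blocks8052to8055 q))))
 (cond (Nat.blt q 8066) (cond (Nat.blt q 8060) (cond (Nat.blt q 8057) (blocks8055to8057 q)
 (blocks8057to8060 q))
 (cond (Nat.blt q 8063) (blocks8060to8063 q)
 (blocks8063to8066 q)))
 (cond (Nat.blt q 8071) (cond (Nat.blt q 8068) (blocks8066to8068 q)
 (blocks8068to8071 q))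
 (cond (Nat.blt q 8074) (blocks8071to8074 q)
 (blocks8074to8077 q))))

noncomputable def blocks8077to8079 (q : ℕ) : ℕ :=
 cond (Nat.blt q 8078) (block8077)
 (block8078)

noncomputable def blocks8079to8082 (q : ℕ) : ℕ :=
 cond (Nat.blt q 8080) (block8079)
 (cond (Nat.blt q 8081) (block8080)
 (block8081))

noncomputable def blocks8082to8084 (q : ℕ) : ℕ :=
 cond (Nat.blt q 8083) (block8082)
 (block8083)

noncomputable def blocks8084to8087 (q : ℕ) : ℕ :=
 cond (Nat.blt q 8085) (block8084)
 (cond (Nat.blt q 8086) (block8085)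
 (block8086))

noncomputable def blocks8087to8089 (q : ℕ) : ℕ :=
 cond (Nat.blt q 8088) (block8087)
 (block8088)

noncomputable def blocks8089to8092 (q : ℕ) : ℕ :=
 cond (Nat.blt q 8090) (block8089)
 (cond (Nat.blt q 8091) (block8090)
 (block8091))

noncomputable def blocks8092to8095 (q : ℕ) : ℕ :=
 cond (Nat.blt q 8093) (block8092)
 (cond (Nat.blt q 8094) (block8093)
 (block8094))

noncomputable def blocks8095to8098 (q : ℕ) : ℕ :=
 cond (Nat.blt q 8096) (block8095)
 (cond (Nat.blt q 8097) (block8096)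
 (block8097))

noncomputable def blocks8098to8100 (q : ℕ) : ℕ :=
 cond (Nat.blt q 8099) (block8098)
 (block8099)

noncomputable def blocks8100to8103 (q : ℕ) : ℕ :=
 cond (Nat.blt q 8101) (block8100)
 (cond (Nat.blt q 8102) (block8101)
 (block8102))

noncomputable def blocks8103to8106 (q : ℕ) : ℕ :=
 cond (Nat.blt q 8104) (block8103)
 (cond (Nat.blt q 8105) (block8104)
 (block8105))

noncomputable def blocks8106to8109 (q : ℕ) : ℕ :=
 cond (Nat.blt q 8107) (block8106)
 (cond (Nat.blt q 8108) (block8107)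
 (block8108))

noncomputable def blocks8109to8111 (q : ℕ) : ℕ :=
 cond (Nat.blt q 8110) (block8109)
 (block8110)

noncomputable def blocks8111to8114 (q : ℕ) : ℕ :=
 cond (Nat.blt q 8112) (block8111)
 (cond (Nat.blt q 8113) (block8112)
 (block8113))

noncomputable def blocks8114to8117 (q : ℕ) : ℕ :=
 cond (Nat.blt q 8115) (block8114)
 (cond (Nat.blt q 8116) (block8115)
 (block8116))

noncomputable def blocks8117to8120 (q : ℕ) : ℕ :=
 cond (Nat.blt q 8118) (block8117)
 (cond (Nat.blt q 8119) (block8118)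
 (block8119))

noncomputable def blocks8077to8120 (q : ℕ) : ℕ :=
 cond (Nat.blt q 8098) (cond (Nat.blt q 8087) (cond (Nat.blt q 8082) (cond (Nat.blt q 8079) (blocks8077to8079 q)
 (blocks8079to8082 q))
 (cond (Nat.blt q 8084) (blocks8082to8084 q)
 (blocks8084to8087 q)))
 (cond (Nat.blt q 8092) (cond (Nat.blt q 8089) (blocks8087to8089 q)
 (blocks8089to8092 q))
 (cond (Nat.blt q 8095) (blocks8092to8095 q)
 (blocks8095to8098 q))))
 (cond (Nat.blt q 8109) (cond (Nat.blt q 8103) (cond (Nat.blt q 8100) (blocks8098to8100 q)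
 (blocks8100to8103 q))
 (cond (Nat.blt q 8106) (blocks8103to8106 q)
 (blocks8106to8109 q)))
 (cond (Nat.blt q 8114) (cond (Nat.blt q 8111) (blocks8109to8111 q)
 (blocks8111to8114 q))
 (cond (Nat.blt q 8117) (blocks8114to8117 q)
 (blocks8117to8120 q))))

noncomputable def blocks8120to8122 (q : ℕ) : ℕ :=
 cond (Nat.blt q 8121) (block8120)
 (block8121)

noncomputable def blocks8122to8125 (q : ℕ) : ℕ :=
 cond (Nat.blt q 8123) (block8122)
 (cond (Nat.blt q 8124) (block8123)
 (block8124))

noncomputable def blocks8125to8127 (q : ℕ) : ℕ :=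
 cond (Nat.blt q 8126) (block8125)
 (block8126)

noncomputable def blocks8127to8130 (q : ℕ) : ℕ :=
 cond (Nat.blt q 8128) (block8127)
 (cond (Nat.blt q 8129) (block8128)
 (block8129))

noncomputable def blocks8130to8132 (q : ℕ) : ℕ :=
 cond (Nat.blt q 8131) (block8130)
 (block8131)

noncomputable def blocks8132to8135 (q : ℕ) : ℕ :=
 cond (Nat.blt q 8133) (block8132)
 (cond (Nat.blt q 8134) (block8133)
 (block8134))

noncomputable def blocks8135to8138 (q : ℕ) : ℕ :=
 cond (Nat.blt q 8136) (block8135)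
 (cond (Nat.blt q 8137) (block8136)
 (block8137))

noncomputable def blocks8138to8141 (q : ℕ) : ℕ :=
 cond (Nat.blt q 8139) (block8138)
 (cond (Nat.blt q 8140) (block8139)
 (block8140))

noncomputable def blocks8141to8143 (q : ℕ) : ℕ :=
 cond (Nat.blt q 8142) (block8141)
 (block8142)

noncomputable def blocks8143to8146 (q : ℕ) : ℕ :=
 cond (Nat.blt q 8144) (block8143)
 (cond (Nat.blt q 8145) (block8144)
 (block8145))

noncomputable def blocks8146to8149 (q : ℕ) : ℕ :=
 cond (Nat.blt q 8147) (block8146)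
 (cond (Nat.blt q 8148) (block8147)
 (block8148))

noncomputable def blocks8149to8152 (q : ℕ) : ℕ :=
 cond (Nat.blt q 8150) (block8149)
 (cond (Nat.blt q 8151) (block8150)
 (block8151))

noncomputable def blocks8152to8154 (q : ℕ) : ℕ :=
 cond (Nat.blt q 8153) (block8152)
 (block8153)

noncomputable def blocks8154to8157 (q : ℕ) : ℕ :=
 cond (Nat.blt q 8155) (block8154)
 (cond (Nat.blt q 8156) (block8155)
 (block8156))

noncomputable def blocks8157to8160 (q : ℕ) : ℕ :=
 cond (Nat.blt q 8158) (block8157)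
 (cond (Nat.blt q 8159) (block8158)
 (block8159))

noncomputable def blocks8160to8163 (q : ℕ) : ℕ :=
 cond (Nat.blt q 8161) (block8160)
 (cond (Nat.blt q 8162) (block8161)
 (block8162))

noncomputable def blocks8120to8163 (q : ℕ) : ℕ :=
 cond (Nat.blt q 8141) (cond (Nat.blt q 8130) (cond (Nat.blt q 8125) (cond (Nat.blt q 8122) (blocks8120to8122 q)
 (blocks8122to8125 q))
 (cond (Nat.blt q 8127) (blocks8125to8127 q)
 (blocks8127to8130 q)))
 (cond (Nat.blt q 8135) (cond (Nat.blt q 8132) (blocks8130to8132 q)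
 (blocks8132to8135 q))
 (cond (Nat.blt q 8138) (blocks8135to8138 q)
 (blocks8138to8141 q))))
 (cond (Nat.blt q 8152) (cond (Nat.blt q 8146) (cond (Nat.blt q 8143) (blocks8141to8143 q)
 (blocks8143to8146 q))
 (cond (Nat.blt q 8149) (blocks8146to8149 q)
 (blocks8149to8152 q)))
 (cond (Nat.blt q 8157) (cond (Nat.blt q 8154) (blocks8152to8154 q)
 (blocks8154to8157 q))
 (cond (Nat.blt q 8160) (blocks8157to8160 q)
 (blocks8160to8163 q))))

noncomputable def blocks7482to8163 (q : ℕ) : ℕ :=
 cond (Nat.blt q 7822) (cond (Nat.blt q 7652) (cond (Nat.blt q 7567) (cond (Nat.blt q 7524) (blocks7482to7524 q)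
 (blocks7524to7567 q))
 (cond (Nat.blt q 7609) (blocks7567to7609 q)
 (blocks7609to7652 q)))
 (cond (Nat.blt q 7737) (cond (Nat.blt q 7694) (blocks7652to7694 q)
 (blocks7694to7737 q))
 (cond (Nat.blt q 7779) (blocks7737to7779 q)
 (blocks7779to7822 q))))
 (cond (Nat.blt q 7992) (cond (Nat.blt q 7907) (cond (Nat.blt q 7864) (blocks7822to7864 q)
 (blocks7864to7907 q))
 (cond (Nat.blt q 7949) (blocks7907to7949 q)
 (blocks7949to7992 q)))
 (cond (Nat.blt q 8077) (cond (Nat.blt q 8034) (blocks7992to8034 q)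
 (blocks8034to8077 q))
 (cond (Nat.blt q 8120) (blocks8077to8120 q)
 (blocks8120to8163 q))))

noncomputable def blocks8163to8165 (q : ℕ) : ℕ :=
 cond (Nat.blt q 8164) (block8163)
 (block8164)

noncomputable def blocks8165to8168 (q : ℕ) : ℕ :=
 cond (Nat.blt q 8166) (block8165)
 (cond (Nat.blt q 8167) (block8166)
 (block8167))

noncomputable def blocks8168to8170 (q : ℕ) : ℕ :=
 cond (Nat.blt q 8169) (block8168)
 (block8169)

noncomputable def blocks8170to8173 (q : ℕ) : ℕ :=
 cond (Nat.blt q 8171) (block8170)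
 (cond (Nat.blt q 8172) (block8171)
 (block8172))

noncomputable def blocks8173to8175 (q : ℕ) : ℕ :=
 cond (Nat.blt q 8174) (block8173)
 (block8174)

noncomputable def blocks8175to8178 (q : ℕ) : ℕ :=
 cond (Nat.blt q 8176) (block8175)
 (cond (Nat.blt q 8177) (block8176)
 (block8177))

noncomputable def blocks8178to8181 (q : ℕ) : ℕ :=
 cond (Nat.blt q 8179) (block8178)
 (cond (Nat.blt q 8180) (block8179)
 (block8180))

noncomputable def blocks8181to8184 (q : ℕ) : ℕ :=
 cond (Nat.blt q 8182) (block8181)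
 (cond (Nat.blt q 8183) (block8182)
 (block8183))

noncomputable def blocks8184to8186 (q : ℕ) : ℕ :=
 cond (Nat.blt q 8185) (block8184)
 (block8185)

noncomputable def blocks8186to8189 (q : ℕ) : ℕ :=
 cond (Nat.blt q 8187) (block8186)
 (cond (Nat.blt q 8188) (block8187)
 (block8188))

noncomputable def blocks8189to8191 (q : ℕ) : ℕ :=
 cond (Nat.blt q 8190) (block8189)
 (block8190)

noncomputable def blocks8191to8194 (q : ℕ) : ℕ :=
 cond (Nat.blt q 8192) (block8191)
 (cond (Nat.blt q 8193) (block8192)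
 (block8193))

noncomputable def blocks8194to8196 (q : ℕ) : ℕ :=
 cond (Nat.blt q 8195) (block8194)
 (block8195)

noncomputable def blocks8196to8199 (q : ℕ) : ℕ :=
 cond (Nat.blt q 8197) (block8196)
 (cond (Nat.blt q 8198) (block8197)
 (block8198))

noncomputable def blocks8199to8202 (q : ℕ) : ℕ :=
 cond (Nat.blt q 8200) (block8199)
 (cond (Nat.blt q 8201) (block8200)
 (block8201))

noncomputable def blocks8202to8205 (q : ℕ) : ℕ :=
 cond (Nat.blt q 8203) (block8202)
 (cond (Nat.blt q 8204) (block8203)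
 (block8204))

noncomputable def blocks8163to8205 (q : ℕ) : ℕ :=
 cond (Nat.blt q 8184) (cond (Nat.blt q 8173) (cond (Nat.blt q 8168) (cond (Nat.blt q 8165) (blocks8163to8165 q)
 (blocks8165to8168 q))
 (cond (Nat.blt q 8170) (blocks8168to8170 q)
 (blocks8170to8173 q)))
 (cond (Nat.blt q 8178) (cond (Nat.blt q 8175) (blocks8173to8175 q)
 (blocks8175to8178 q))
 (cond (Nat.blt q 8181) (blocks8178to8181 q)
 (blocks8181to8184 q))))
 (cond (Nat.blt q 8194) (cond (Nat.blt q 8189) (cond (Nat.blt q 8186) (blocks8184to8186 q)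
 (blocks8186to8189 q))
 (cond (Nat.blt q 8191) (blocks8189to8191 q)
 (blocks8191to8194 q)))
 (cond (Nat.blt q 8199) (cond (Nat.blt q 8196) (blocks8194to8196 q)
 (blocks8196to8199 q))
 (cond (Nat.blt q 8202) (blocks8199to8202 q)
 (blocks8202to8205 q))))

noncomputable def blocks8205to8207 (q : ℕ) : ℕ :=
 cond (Nat.blt q 8206) (block8205)
 (block8206)

noncomputable def blocks8207to8210 (q : ℕ) : ℕ :=
 cond (Nat.blt q 8208) (block8207)
 (cond (Nat.blt q 8209) (block8208)
 (block8209))

noncomputable def blocks8210to8212 (q : ℕ) : ℕ :=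
 cond (Nat.blt q 8211) (block8210)
 (block8211)

noncomputable def blocks8212to8215 (q : ℕ) : ℕ :=
 cond (Nat.blt q 8213) (block8212)
 (cond (Nat.blt q 8214) (block8213)
 (block8214))

noncomputable def blocks8215to8217 (q : ℕ) : ℕ :=
 cond (Nat.blt q 8216) (block8215)
 (block8216)

noncomputable def blocks8217to8220 (q : ℕ) : ℕ :=
 cond (Nat.blt q 8218) (block8217)
 (cond (Nat.blt q 8219) (block8218)
 (block8219))

noncomputable def blocks8220to8223 (q : ℕ) : ℕ :=
 cond (Nat.blt q 8221) (block8220)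
 (cond (Nat.blt q 8222) (block8221)
 (block8222))

noncomputable def blocks8223to8226 (q : ℕ) : ℕ :=
 cond (Nat.blt q 8224) (block8223)
 (cond (Nat.blt q 8225) (block8224)
 (block8225))

noncomputable def blocks8226to8228 (q : ℕ) : ℕ :=
 cond (Nat.blt q 8227) (block8226)
 (block8227)

noncomputable def blocks8228to8231 (q : ℕ) : ℕ :=
 cond (Nat.blt q 8229) (block8228)
 (cond (Nat.blt q 8230) (block8229)
 (block8230))

noncomputable def blocks8231to8234 (q : ℕ) : ℕ :=
 cond (Nat.blt q 8232) (block8231)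
 (cond (Nat.blt q 8233) (block8232)
 (block8233))

noncomputable def blocks8234to8237 (q : ℕ) : ℕ :=
 cond (Nat.blt q 8235) (block8234)
 (cond (Nat.blt q 8236) (block8235)
 (block8236))

noncomputable def blocks8237to8239 (q : ℕ) : ℕ :=
 cond (Nat.blt q 8238) (block8237)
 (block8238)

noncomputable def blocks8239to8242 (q : ℕ) : ℕ :=
 cond (Nat.blt q 8240) (block8239)
 (cond (Nat.blt q 8241) (block8240)
 (block8241))

noncomputable def blocks8242to8245 (q : ℕ) : ℕ :=
 cond (Nat.blt q 8243) (block8242)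
 (cond (Nat.blt q 8244) (block8243)
 (block8244))

noncomputable def blocks8245to8248 (q : ℕ) : ℕ :=
 cond (Nat.blt q 8246) (block8245)
 (cond (Nat.blt q 8247) (block8246)
 (block8247))

noncomputable def blocks8205to8248 (q : ℕ) : ℕ :=
 cond (Nat.blt q 8226) (cond (Nat.blt q 8215) (cond (Nat.blt q 8210) (cond (Nat.blt q 8207) (blocks8205to8207 q)
 (blocks8207to8210 q))
 (cond (Nat.blt q 8212) (blocks8210to8212 q)
 (blocks8212to8215 q)))
 (cond (Nat.blt q 8220) (cond (Nat.blt q 8217) (blocks8215to8217 q)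
 (blocks8217to8220 q))
 (cond (Nat.blt q 8223) (blocks8220to8223 q)
 (blocks8223to8226 q))))
 (cond (Nat.blt q 8237) (cond (Nat.blt q 8231) (cond (Nat.blt q 8228) (blocks8226to8228 q)
 (blocks8228to8231 q))
 (cond (Nat.blt q 8234) (blocks8231to8234 q)
 (blocks8234to8237 q)))
 (cond (Nat.blt q 8242) (cond (Nat.blt q 8239) (blocks8237to8239 q)
 (blocks8239to8242 q))
 (cond (Nat.blt q 8245) (blocks8242to8245 q)
 (blocks8245to8248 q))))

noncomputable def blocks8248to8250 (q : ℕ) : ℕ :=
 cond (Nat.blt q 8249) (block8248)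
 (block8249)

noncomputable def blocks8250to8253 (q : ℕ) : ℕ :=
 cond (Nat.blt q 8251) (block8250)
 (cond (Nat.blt q 8252) (block8251)
 (block8252))

noncomputable def blocks8253to8255 (q : ℕ) : ℕ :=
 cond (Nat.blt q 8254) (block8253)
 (block8254)

noncomputable def blocks8255to8258 (q : ℕ) : ℕ :=
 cond (Nat.blt q 8256) (block8255)
 (cond (Nat.blt q 8257) (block8256)
 (block8257))

noncomputable def blocks8258to8260 (q : ℕ) : ℕ :=
 cond (Nat.blt q 8259) (block8258)
 (block8259)

noncomputable def blocks8260to8263 (q : ℕ) : ℕ :=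
 cond (Nat.blt q 8261) (block8260)
 (cond (Nat.blt q 8262) (block8261)
 (block8262))

noncomputable def blocks8263to8266 (q : ℕ) : ℕ :=
 cond (Nat.blt q 8264) (block8263)
 (cond (Nat.blt q 8265) (block8264)
 (block8265))

noncomputable def blocks8266to8269 (q : ℕ) : ℕ :=
 cond (Nat.blt q 8267) (block8266)
 (cond (Nat.blt q 8268) (block8267)
 (block8268))

noncomputable def blocks8269to8271 (q : ℕ) : ℕ :=
 cond (Nat.blt q 8270) (block8269)
 (block8270)

noncomputable def blocks8271to8274 (q : ℕ) : ℕ :=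
 cond (Nat.blt q 8272) (block8271)
 (cond (Nat.blt q 8273) (block8272)
 (block8273))

noncomputable def blocks8274to8276 (q : ℕ) : ℕ :=
 cond (Nat.blt q 8275) (block8274)
 (block8275)

noncomputable def blocks8276to8279 (q : ℕ) : ℕ :=
 cond (Nat.blt q 8277) (block8276)
 (cond (Nat.blt q 8278) (block8277)
 (block8278))

noncomputable def blocks8279to8281 (q : ℕ) : ℕ :=
 cond (Nat.blt q 8280) (block8279)
 (block8280)

noncomputable def blocks8281to8284 (q : ℕ) : ℕ :=
 cond (Nat.blt q 8282) (block8281)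
 (cond (Nat.blt q 8283) (block8282)
 (block8283))

noncomputable def blocks8284to8287 (q : ℕ) : ℕ :=
 cond (Nat.blt q 8285) (block8284)
 (cond (Nat.blt q 8286) (block8285)
 (block8286))

noncomputable def blocks8287to8290 (q : ℕ) : ℕ :=
 cond (Nat.blt q 8288) (block8287)
 (cond (Nat.blt q 8289) (block8288)
 (block8289))

noncomputable def blocks8248to8290 (q : ℕ) : ℕ :=
 cond (Nat.blt q 8269) (cond (Nat.blt q 8258) (cond (Nat.blt q 8253) (cond (Nat.blt q 8250) (blocks8248to8250 q)
 (blocks8250to8253 q))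
 (cond (Nat.blt q 8255) (blocks8253to8255 q)
 (blocks8255to8258 q)))
 (cond (Nat.blt q 8263) (cond (Nat.blt q 8260) (blocks8258to8260 q)
 (blocks8260to8263 q))
 (cond (Nat.blt q 8266) (blocks8263to8266 q)
 (blocks8266to8269 q))))
 (cond (Nat.blt q 8279) (cond (Nat.blt q 8274) (cond (Nat.blt q 8271) (blocks8269to8271 q)
 (blocks8271to8274 q))
 (cond (Nat.blt q 8276) (blocks8274to8276 q)
 (blocks8276to8279 q)))
 (cond (Nat.blt q 8284) (cond (Nat.blt q 8281) (blocks8279to8281 q)
 (blocks8281to8284 q))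
 (cond (Nat.blt q 8287) (blocks8284to8287 q)
 (blocks8287to8290 q))))

noncomputable def blocks8290to8292 (q : ℕ) : ℕ :=
 cond (Nat.blt q 8291) (block8290)
 (block8291)

noncomputable def blocks8292to8295 (q : ℕ) : ℕ :=
 cond (Nat.blt q 8293) (block8292)
 (cond (Nat.blt q 8294) (block8293)
 (block8294))

noncomputable def blocks8295to8297 (q : ℕ) : ℕ :=
 cond (Nat.blt q 8296) (block8295)
 (block8296)

noncomputable def blocks8297to8300 (q : ℕ) : ℕ :=
 cond (Nat.blt q 8298) (block8297)
 (cond (Nat.blt q 8299) (block8298)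
 (block8299))

noncomputable def blocks8300to8302 (q : ℕ) : ℕ :=
 cond (Nat.blt q 8301) (block8300)
 (block8301)

noncomputable def blocks8302to8305 (q : ℕ) : ℕ :=
 cond (Nat.blt q 8303) (block8302)
 (cond (Nat.blt q 8304) (block8303)
 (block8304))

noncomputable def blocks8305to8308 (q : ℕ) : ℕ :=
 cond (Nat.blt q 8306) (block8305)
 (cond (Nat.blt q 8307) (block8306)
 (block8307))

noncomputable def blocks8308to8311 (q : ℕ) : ℕ :=
 cond (Nat.blt q 8309) (block8308)
 (cond (Nat.blt q 8310) (block8309)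
 (block8310))

noncomputable def blocks8311to8313 (q : ℕ) : ℕ :=
 cond (Nat.blt q 8312) (block8311)
 (block8312)

noncomputable def blocks8313to8316 (q : ℕ) : ℕ :=
 cond (Nat.blt q 8314) (block8313)
 (cond (Nat.blt q 8315) (block8314)
 (block8315))

noncomputable def blocks8316to8319 (q : ℕ) : ℕ :=
 cond (Nat.blt q 8317) (block8316)
 (cond (Nat.blt q 8318) (block8317)
 (block8318))

noncomputable def blocks8319to8322 (q : ℕ) : ℕ :=
 cond (Nat.blt q 8320) (block8319)
 (cond (Nat.blt q 8321) (block8320)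
 (block8321))

noncomputable def blocks8322to8324 (q : ℕ) : ℕ :=
 cond (Nat.blt q 8323) (block8322)
 (block8323)

noncomputable def blocks8324to8327 (q : ℕ) : ℕ :=
 cond (Nat.blt q 8325) (block8324)
 (cond (Nat.blt q 8326) (block8325)
 (block8326))

noncomputable def blocks8327to8330 (q : ℕ) : ℕ :=
 cond (Nat.blt q 8328) (block8327)
 (cond (Nat.blt q 8329) (block8328)
 (block8329))

noncomputable def blocks8330to8333 (q : ℕ) : ℕ :=
 cond (Nat.blt q 8331) (block8330)
 (cond (Nat.blt q 8332) (block8331)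
 (block8332))

noncomputable def blocks8290to8333 (q : ℕ) : ℕ :=
 cond (Nat.blt q 8311) (cond (Nat.blt q 8300) (cond (Nat.blt q 8295) (cond (Nat.blt q 8292) (blocks8290to8292 q)
 (blocks8292to8295 q))
 (cond (Nat.blt q 8297) (blocks8295to8297 q)
 (blocks8297to8300 q)))
 (cond (Nat.blt q 8305) (cond (Nat.blt q 8302) (blocks8300to8302 q)
 (blocks8302to8305 q))
 (cond (Nat.blt q 8308) (blocks8305to8308 q)
 (blocks8308to8311 q))))
 (cond (Nat.blt q 8322) (cond (Nat.blt q 8316) (cond (Nat.blt q 8313) (blocks8311to8313 q)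
 (blocks8313to8316 q))
 (cond (Nat.blt q 8319) (blocks8316to8319 q)
 (blocks8319to8322 q)))
 (cond (Nat.blt q 8327) (cond (Nat.blt q 8324) (blocks8322to8324 q)
 (blocks8324to8327 q))
 (cond (Nat.blt q 8330) (blocks8327to8330 q)
 (blocks8330to8333 q))))

noncomputable def blocks8333to8335 (q : ℕ) : ℕ :=
 cond (Nat.blt q 8334) (block8333)
 (block8334)

noncomputable def blocks8335to8338 (q : ℕ) : ℕ :=
 cond (Nat.blt q 8336) (block8335)
 (cond (Nat.blt q 8337) (block8336)
 (block8337))

noncomputable def blocks8338to8340 (q : ℕ) : ℕ :=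
 cond (Nat.blt q 8339) (block8338)
 (block8339)

noncomputable def blocks8340to8343 (q : ℕ) : ℕ :=
 cond (Nat.blt q 8341) (block8340)
 (cond (Nat.blt q 8342) (block8341)
 (block8342))

noncomputable def blocks8343to8345 (q : ℕ) : ℕ :=
 cond (Nat.blt q 8344) (block8343)
 (block8344)

noncomputable def blocks8345to8348 (q : ℕ) : ℕ :=
 cond (Nat.blt q 8346) (block8345)
 (cond (Nat.blt q 8347) (block8346)
 (block8347))

noncomputable def blocks8348to8351 (q : ℕ) : ℕ :=
 cond (Nat.blt q 8349) (block8348)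
 (cond (Nat.blt q 8350) (block8349)
 (block8350))

noncomputable def blocks8351to8354 (q : ℕ) : ℕ :=
 cond (Nat.blt q 8352) (block8351)
 (cond (Nat.blt q 8353) (block8352)
 (block8353))

noncomputable def blocks8354to8356 (q : ℕ) : ℕ :=
 cond (Nat.blt q 8355) (block8354)
 (block8355)

noncomputable def blocks8356to8359 (q : ℕ) : ℕ :=
 cond (Nat.blt q 8357) (block8356)
 (cond (Nat.blt q 8358) (block8357)
 (block8358))

noncomputable def blocks8359to8361 (q : ℕ) : ℕ :=
 cond (Nat.blt q 8360) (block8359)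
 (block8360)

noncomputable def blocks8361to8364 (q : ℕ) : ℕ :=
 cond (Nat.blt q 8362) (block8361)
 (cond (Nat.blt q 8363) (block8362)
 (block8363))

noncomputable def blocks8364to8366 (q : ℕ) : ℕ :=
 cond (Nat.blt q 8365) (block8364)
 (block8365)

noncomputable def blocks8366to8369 (q : ℕ) : ℕ :=
 cond (Nat.blt q 8367) (block8366)
 (cond (Nat.blt q 8368) (block8367)
 (block8368))

noncomputable def blocks8369to8372 (q : ℕ) : ℕ :=
 cond (Nat.blt q 8370) (block8369)
 (cond (Nat.blt q 8371) (block8370)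
 (block8371))

noncomputable def blocks8372to8375 (q : ℕ) : ℕ :=
 cond (Nat.blt q 8373) (block8372)
 (cond (Nat.blt q 8374) (block8373)
 (block8374))

noncomputable def blocks8333to8375 (q : ℕ) : ℕ :=
 cond (Nat.blt q 8354) (cond (Nat.blt q 8343) (cond (Nat.blt q 8338) (cond (Nat.blt q 8335) (blocks8333to8335 q)
 (blocks8335to8338 q))
 (cond (Nat.blt q 8340) (blocks8338to8340 q)
 (blocks8340to8343 q)))
 (cond (Nat.blt q 8348) (cond (Nat.blt q 8345) (blocks8343to8345 q)
 (blocks8345to8348 q))
 (cond (Nat.blt q 8351) (blocks8348to8351 q)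
 (blocks8351to8354 q))))
 (cond (Nat.blt q 8364) (cond (Nat.blt q 8359) (cond (Nat.blt q 8356) (blocks8354to8356 q)
 (blocks8356to8359 q))
 (cond (Nat.blt q 8361) (blocks8359to8361 q)
 (blocks8361to8364 q)))
 (cond (Nat.blt q 8369) (cond (Nat.blt q 8366) (blocks8364to8366 q)
 (blocks8366to8369 q))
 (cond (Nat.blt q 8372) (blocks8369to8372 q)
 (blocks8372to8375 q))))

noncomputable def blocks8375to8377 (q : ℕ) : ℕ :=
 cond (Nat.blt q 8376) (block8375)
 (block8376)

noncomputable def blocks8377to8380 (q : ℕ) : ℕ :=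
 cond (Nat.blt q 8378) (block8377)
 (cond (Nat.blt q 8379) (block8378)
 (block8379))

noncomputable def blocks8380to8382 (q : ℕ) : ℕ :=
 cond (Nat.blt q 8381) (block8380)
 (block8381)

noncomputable def blocks8382to8385 (q : ℕ) : ℕ :=
 cond (Nat.blt q 8383) (block8382)
 (cond (Nat.blt q 8384) (block8383)
 (block8384))

noncomputable def blocks8385to8387 (q : ℕ) : ℕ :=
 cond (Nat.blt q 8386) (block8385)
 (block8386)

noncomputable def blocks8387to8390 (q : ℕ) : ℕ :=
 cond (Nat.blt q 8388) (block8387)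
 (cond (Nat.blt q 8389) (block8388)
 (block8389))

noncomputable def blocks8390to8393 (q : ℕ) : ℕ :=
 cond (Nat.blt q 8391) (block8390)
 (cond (Nat.blt q 8392) (block8391)
 (block8392))

noncomputable def blocks8393to8396 (q : ℕ) : ℕ :=
 cond (Nat.blt q 8394) (block8393)
 (cond (Nat.blt q 8395) (block8394)
 (block8395))

noncomputable def blocks8396to8398 (q : ℕ) : ℕ :=
 cond (Nat.blt q 8397) (block8396)
 (block8397)

noncomputable def blocks8398to8401 (q : ℕ) : ℕ :=
 cond (Nat.blt q 8399) (block8398)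
 (cond (Nat.blt q 8400) (block8399)
 (block8400))

noncomputable def blocks8401to8404 (q : ℕ) : ℕ :=
 cond (Nat.blt q 8402) (block8401)
 (cond (Nat.blt q 8403) (block8402)
 (block8403))

noncomputable def blocks8404to8407 (q : ℕ) : ℕ :=
 cond (Nat.blt q 8405) (block8404)
 (cond (Nat.blt q 8406) (block8405)
 (block8406))

noncomputable def blocks8407to8409 (q : ℕ) : ℕ :=
 cond (Nat.blt q 8408) (block8407)
 (block8408)

noncomputable def blocks8409to8412 (q : ℕ) : ℕ :=
 cond (Nat.blt q 8410) (block8409)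
 (cond (Nat.blt q 8411) (block8410)
 (block8411))

noncomputable def blocks8412to8415 (q : ℕ) : ℕ :=
 cond (Nat.blt q 8413) (block8412)
 (cond (Nat.blt q 8414) (block8413)
 (block8414))

noncomputable def blocks8415to8418 (q : ℕ) : ℕ :=
 cond (Nat.blt q 8416) (block8415)
 (cond (Nat.blt q 8417) (block8416)
 (block8417))

noncomputable def blocks8375to8418 (q : ℕ) : ℕ :=
 cond (Nat.blt q 8396) (cond (Nat.blt q 8385) (cond (Nat.blt q 8380) (cond (Nat.blt q 8377) (blocks8375to8377 q)
 (blocks8377to8380 q))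
 (cond (Nat.blt q 8382) (blocks8380to8382 q)
 (blocks8382to8385 q)))
 (cond (Nat.blt q 8390) (cond (Nat.blt q 8387) (blocks8385to8387 q)
 (blocks8387to8390 q))
 (cond (Nat.blt q 8393) (blocks8390to8393 q)
 (blocks8393to8396 q))))
 (cond (Nat.blt q 8407) (cond (Nat.blt q 8401) (cond (Nat.blt q 8398) (blocks8396to8398 q)
 (blocks8398to8401 q))
 (cond (Nat.blt q 8404) (blocks8401to8404 q)
 (blocks8404to8407 q)))
 (cond (Nat.blt q 8412) (cond (Nat.blt q 8409) (blocks8407to8409 q)
 (blocks8409to8412 q))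
 (cond (Nat.blt q 8415) (blocks8412to8415 q)
 (blocks8415to8418 q))))

noncomputable def blocks8418to8420 (q : ℕ) : ℕ :=
 cond (Nat.blt q 8419) (block8418)
 (block8419)

noncomputable def blocks8420to8423 (q : ℕ) : ℕ :=
 cond (Nat.blt q 8421) (block8420)
 (cond (Nat.blt q 8422) (block8421)
 (block8422))

noncomputable def blocks8423to8425 (q : ℕ) : ℕ :=
 cond (Nat.blt q 8424) (block8423)
 (block8424)

noncomputable def blocks8425to8428 (q : ℕ) : ℕ :=
 cond (Nat.blt q 8426) (block8425)
 (cond (Nat.blt q 8427) (block8426)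
 (block8427))

noncomputable def blocks8428to8430 (q : ℕ) : ℕ :=
 cond (Nat.blt q 8429) (block8428)
 (block8429)

noncomputable def blocks8430to8433 (q : ℕ) : ℕ :=
 cond (Nat.blt q 8431) (block8430)
 (cond (Nat.blt q 8432) (block8431)
 (block8432))

noncomputable def blocks8433to8436 (q : ℕ) : ℕ :=
 cond (Nat.blt q 8434) (block8433)
 (cond (Nat.blt q 8435) (block8434)
 (block8435))

noncomputable def blocks8436to8439 (q : ℕ) : ℕ :=
 cond (Nat.blt q 8437) (block8436)
 (cond (Nat.blt q 8438) (block8437)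
 (block8438))

noncomputable def blocks8439to8441 (q : ℕ) : ℕ :=
 cond (Nat.blt q 8440) (block8439)
 (block8440)

noncomputable def blocks8441to8444 (q : ℕ) : ℕ :=
 cond (Nat.blt q 8442) (block8441)
 (cond (Nat.blt q 8443) (block8442)
 (block8443))

noncomputable def blocks8444to8446 (q : ℕ) : ℕ :=
 cond (Nat.blt q 8445) (block8444)
 (block8445)

noncomputable def blocks8446to8449 (q : ℕ) : ℕ :=
 cond (Nat.blt q 8447) (block8446)
 (cond (Nat.blt q 8448) (block8447)
 (block8448))

noncomputable def blocks8449to8451 (q : ℕ) : ℕ :=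
 cond (Nat.blt q 8450) (block8449)
 (block8450)

noncomputable def blocks8451to8454 (q : ℕ) : ℕ :=
 cond (Nat.blt q 8452) (block8451)
 (cond (Nat.blt q 8453) (block8452)
 (block8453))

noncomputable def blocks8454to8457 (q : ℕ) : ℕ :=
 cond (Nat.blt q 8455) (block8454)
 (cond (Nat.blt q 8456) (block8455)
 (block8456))

noncomputable def blocks8457to8460 (q : ℕ) : ℕ :=
 cond (Nat.blt q 8458) (block8457)
 (cond (Nat.blt q 8459) (block8458)
 (block8459))

noncomputable def blocks8418to8460 (q : ℕ) : ℕ :=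
 cond (Nat.blt q 8439) (cond (Nat.blt q 8428) (cond (Nat.blt q 8423) (cond (Nat.blt q 8420) (blocks8418to8420 q)
 (blocks8420to8423 q))
 (cond (Nat.blt q 8425) (blocks8423to8425 q)
 (blocks8425to8428 q)))
 (cond (Nat.blt q 8433) (cond (Nat.blt q 8430) (blocks8428to8430 q)
 (blocks8430to8433 q))
 (cond (Nat.blt q 8436) (blocks8433to8436 q)
 (blocks8436to8439 q))))
 (cond (Nat.blt q 8449) (cond (Nat.blt q 8444) (cond (Nat.blt q 8441) (blocks8439to8441 q)
 (blocks8441to8444 q))
 (cond (Nat.blt q 8446) (blocks8444to8446 q)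
 (blocks8446to8449 q)))
 (cond (Nat.blt q 8454) (cond (Nat.blt q 8451) (blocks8449to8451 q)
 (blocks8451to8454 q))
 (cond (Nat.blt q 8457) (blocks8454to8457 q)
 (blocks8457to8460 q))))

noncomputable def blocks8460to8462 (q : ℕ) : ℕ :=
 cond (Nat.blt q 8461) (block8460)
 (block8461)

noncomputable def blocks8462to8465 (q : ℕ) : ℕ :=
 cond (Nat.blt q 8463) (block8462)
 (cond (Nat.blt q 8464) (block8463)
 (block8464))

noncomputable def blocks8465to8467 (q : ℕ) : ℕ :=
 cond (Nat.blt q 8466) (block8465)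
 (block8466)

noncomputable def blocks8467to8470 (q : ℕ) : ℕ :=
 cond (Nat.blt q 8468) (block8467)
 (cond (Nat.blt q 8469) (block8468)
 (block8469))

noncomputable def blocks8470to8472 (q : ℕ) : ℕ :=
 cond (Nat.blt q 8471) (block8470)
 (block8471)

noncomputable def blocks8472to8475 (q : ℕ) : ℕ :=
 cond (Nat.blt q 8473) (block8472)
 (cond (Nat.blt q 8474) (block8473)
 (block8474))

noncomputable def blocks8475to8478 (q : ℕ) : ℕ :=
 cond (Nat.blt q 8476) (block8475)
 (cond (Nat.blt q 8477) (block8476)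
 (block8477))

noncomputable def blocks8478to8481 (q : ℕ) : ℕ :=
 cond (Nat.blt q 8479) (block8478)
 (cond (Nat.blt q 8480) (block8479)
 (block8480))

noncomputable def blocks8481to8483 (q : ℕ) : ℕ :=
 cond (Nat.blt q 8482) (block8481)
 (block8482)

noncomputable def blocks8483to8486 (q : ℕ) : ℕ :=
 cond (Nat.blt q 8484) (block8483)
 (cond (Nat.blt q 8485) (block8484)
 (block8485))

noncomputable def blocks8486to8489 (q : ℕ) : ℕ :=
 cond (Nat.blt q 8487) (block8486)
 (cond (Nat.blt q 8488) (block8487)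
 (block8488))

noncomputable def blocks8489to8492 (q : ℕ) : ℕ :=
 cond (Nat.blt q 8490) (block8489)
 (cond (Nat.blt q 8491) (block8490)
 (block8491))

noncomputable def blocks8492to8494 (q : ℕ) : ℕ :=
 cond (Nat.blt q 8493) (block8492)
 (block8493)

noncomputable def blocks8494to8497 (q : ℕ) : ℕ :=
 cond (Nat.blt q 8495) (block8494)
 (cond (Nat.blt q 8496) (block8495)
 (block8496))

noncomputable def blocks8497to8500 (q : ℕ) : ℕ :=
 cond (Nat.blt q 8498) (block8497)
 (cond (Nat.blt q 8499) (block8498)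
 (block8499))

noncomputable def blocks8500to8503 (q : ℕ) : ℕ :=
 cond (Nat.blt q 8501) (block8500)
 (cond (Nat.blt q 8502) (block8501)
 (block8502))

noncomputable def blocks8460to8503 (q : ℕ) : ℕ :=
 cond (Nat.blt q 8481) (cond (Nat.blt q 8470) (cond (Nat.blt q 8465) (cond (Nat.blt q 8462) (blocks8460to8462 q)
 (blocks8462to8465 q))
 (cond (Nat.blt q 8467) (blocks8465to8467 q)
 (blocks8467to8470 q)))
 (cond (Nat.blt q 8475) (cond (Nat.blt q 8472) (blocks8470to8472 q)
 (blocks8472to8475 q))
 (cond (Nat.blt q 8478) (blocks8475to8478 q)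
 (blocks8478to8481 q))))
 (cond (Nat.blt q 8492) (cond (Nat.blt q 8486) (cond (Nat.blt q 8483) (blocks8481to8483 q)
 (blocks8483to8486 q))
 (cond (Nat.blt q 8489) (blocks8486to8489 q)
 (blocks8489to8492 q)))
 (cond (Nat.blt q 8497) (cond (Nat.blt q 8494) (blocks8492to8494 q)
 (blocks8494to8497 q))
 (cond (Nat.blt q 8500) (blocks8497to8500 q)
 (blocks8500to8503 q))))

noncomputable def blocks8503to8505 (q : ℕ) : ℕ :=
 cond (Nat.blt q 8504) (block8503)
 (block8504)

noncomputable def blocks8505to8508 (q : ℕ) : ℕ :=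
 cond (Nat.blt q 8506) (block8505)
 (cond (Nat.blt q 8507) (block8506)
 (block8507))

noncomputable def blocks8508to8510 (q : ℕ) : ℕ :=
 cond (Nat.blt q 8509) (block8508)
 (block8509)

noncomputable def blocks8510to8513 (q : ℕ) : ℕ :=
 cond (Nat.blt q 8511) (block8510)
 (cond (Nat.blt q 8512) (block8511)
 (block8512))

noncomputable def blocks8513to8515 (q : ℕ) : ℕ :=
 cond (Nat.blt q 8514) (block8513)
 (block8514)

noncomputable def blocks8515to8518 (q : ℕ) : ℕ :=
 cond (Nat.blt q 8516) (block8515)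
 (cond (Nat.blt q 8517) (block8516)
 (block8517))

noncomputable def blocks8518to8521 (q : ℕ) : ℕ :=
 cond (Nat.blt q 8519) (block8518)
 (cond (Nat.blt q 8520) (block8519)
 (block8520))

noncomputable def blocks8521to8524 (q : ℕ) : ℕ :=
 cond (Nat.blt q 8522) (block8521)
 (cond (Nat.blt q 8523) (block8522)
 (block8523))

noncomputable def blocks8524to8526 (q : ℕ) : ℕ :=
 cond (Nat.blt q 8525) (block8524)
 (block8525)

noncomputable def blocks8526to8529 (q : ℕ) : ℕ :=
 cond (Nat.blt q 8527) (block8526)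
 (cond (Nat.blt q 8528) (block8527)
 (block8528))

noncomputable def blocks8529to8531 (q : ℕ) : ℕ :=
 cond (Nat.blt q 8530) (block8529)
 (block8530)

noncomputable def blocks8531to8534 (q : ℕ) : ℕ :=
 cond (Nat.blt q 8532) (block8531)
 (cond (Nat.blt q 8533) (block8532)
 (block8533))

noncomputable def blocks8534to8536 (q : ℕ) : ℕ :=
 cond (Nat.blt q 8535) (block8534)
 (block8535)

noncomputable def blocks8536to8539 (q : ℕ) : ℕ :=
 cond (Nat.blt q 8537) (block8536)
 (cond (Nat.blt q 8538) (block8537)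
 (block8538))

noncomputable def blocks8539to8542 (q : ℕ) : ℕ :=
 cond (Nat.blt q 8540) (block8539)
 (cond (Nat.blt q 8541) (block8540)
 (block8541))

noncomputable def blocks8542to8545 (q : ℕ) : ℕ :=
 cond (Nat.blt q 8543) (block8542)
 (cond (Nat.blt q 8544) (block8543)
 (block8544))

noncomputable def blocks8503to8545 (q : ℕ) : ℕ :=
 cond (Nat.blt q 8524) (cond (Nat.blt q 8513) (cond (Nat.blt q 8508) (cond (Nat.blt q 8505) (blocks8503to8505 q)
 (blocks8505to8508 q))
 (cond (Nat.blt q 8510) (blocks8508to8510 q)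
 (blocks8510to8513 q)))
 (cond (Nat.blt q 8518) (cond (Nat.blt q 8515) (blocks8513to8515 q)
 (blocks8515to8518 q))
 (cond (Nat.blt q 8521) (blocks8518to8521 q)
 (blocks8521to8524 q))))
 (cond (Nat.blt q 8534) (cond (Nat.blt q 8529) (cond (Nat.blt q 8526) (blocks8524to8526 q)
 (blocks8526to8529 q))
 (cond (Nat.blt q 8531) (blocks8529to8531 q)
 (blocks8531to8534 q)))
 (cond (Nat.blt q 8539) (cond (Nat.blt q 8536) (blocks8534to8536 q)
 (blocks8536to8539 q))
 (cond (Nat.blt q 8542) (blocks8539to8542 q)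
 (blocks8542to8545 q))))

noncomputable def blocks8545to8547 (q : ℕ) : ℕ :=
 cond (Nat.blt q 8546) (block8545)
 (block8546)

noncomputable def blocks8547to8550 (q : ℕ) : ℕ :=
 cond (Nat.blt q 8548) (block8547)
 (cond (Nat.blt q 8549) (block8548)
 (block8549))

noncomputable def blocks8550to8552 (q : ℕ) : ℕ :=
 cond (Nat.blt q 8551) (block8550)
 (block8551)

noncomputable def blocks8552to8555 (q : ℕ) : ℕ :=
 cond (Nat.blt q 8553) (block8552)
 (cond (Nat.blt q 8554) (block8553)
 (block8554))

noncomputable def blocks8555to8557 (q : ℕ) : ℕ :=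
 cond (Nat.blt q 8556) (block8555)
 (block8556)

noncomputable def blocks8557to8560 (q : ℕ) : ℕ :=
 cond (Nat.blt q 8558) (block8557)
 (cond (Nat.blt q 8559) (block8558)
 (block8559))

noncomputable def blocks8560to8563 (q : ℕ) : ℕ :=
 cond (Nat.blt q 8561) (block8560)
 (cond (Nat.blt q 8562) (block8561)
 (block8562))

noncomputable def blocks8563to8566 (q : ℕ) : ℕ :=
 cond (Nat.blt q 8564) (block8563)
 (cond (Nat.blt q 8565) (block8564)
 (block8565))

noncomputable def blocks8566to8568 (q : ℕ) : ℕ :=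
 cond (Nat.blt q 8567) (block8566)
 (block8567)

noncomputable def blocks8568to8571 (q : ℕ) : ℕ :=
 cond (Nat.blt q 8569) (block8568)
 (cond (Nat.blt q 8570) (block8569)
 (block8570))

noncomputable def blocks8571to8574 (q : ℕ) : ℕ :=
 cond (Nat.blt q 8572) (block8571)
 (cond (Nat.blt q 8573) (block8572)
 (block8573))

noncomputable def blocks8574to8577 (q : ℕ) : ℕ :=
 cond (Nat.blt q 8575) (block8574)
 (cond (Nat.blt q 8576) (block8575)
 (block8576))

noncomputable def blocks8577to8579 (q : ℕ) : ℕ :=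
 cond (Nat.blt q 8578) (block8577)
 (block8578)

noncomputable def blocks8579to8582 (q : ℕ) : ℕ :=
 cond (Nat.blt q 8580) (block8579)
 (cond (Nat.blt q 8581) (block8580)
 (block8581))

noncomputable def blocks8582to8585 (q : ℕ) : ℕ :=
 cond (Nat.blt q 8583) (block8582)
 (cond (Nat.blt q 8584) (block8583)
 (block8584))

noncomputable def blocks8585to8588 (q : ℕ) : ℕ :=
 cond (Nat.blt q 8586) (block8585)
 (cond (Nat.blt q 8587) (block8586)
 (block8587))

noncomputable def blocks8545to8588 (q : ℕ) : ℕ :=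
 cond (Nat.blt q 8566) (cond (Nat.blt q 8555) (cond (Nat.blt q 8550) (cond (Nat.blt q 8547) (blocks8545to8547 q)
 (blocks8547to8550 q))
 (cond (Nat.blt q 8552) (blocks8550to8552 q)
 (blocks8552to8555 q)))
 (cond (Nat.blt q 8560) (cond (Nat.blt q 8557) (blocks8555to8557 q)
 (blocks8557to8560 q))
 (cond (Nat.blt q 8563) (blocks8560to8563 q)
 (blocks8563to8566 q))))
 (cond (Nat.blt q 8577) (cond (Nat.blt q 8571) (cond (Nat.blt q 8568) (blocks8566to8568 q)
 (blocks8568to8571 q))
 (cond (Nat.blt q 8574) (blocks8571to8574 q)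
 (blocks8574to8577 q)))
 (cond (Nat.blt q 8582) (cond (Nat.blt q 8579) (blocks8577to8579 q)
 (blocks8579to8582 q))
 (cond (Nat.blt q 8585) (blocks8582to8585 q)
 (blocks8585to8588 q))))

noncomputable def blocks8588to8590 (q : ℕ) : ℕ :=
 cond (Nat.blt q 8589) (block8588)
 (block8589)

noncomputable def blocks8590to8593 (q : ℕ) : ℕ :=
 cond (Nat.blt q 8591) (block8590)
 (cond (Nat.blt q 8592) (block8591)
 (block8592))

noncomputable def blocks8593to8595 (q : ℕ) : ℕ :=
 cond (Nat.blt q 8594) (block8593)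
 (block8594)

noncomputable def blocks8595to8598 (q : ℕ) : ℕ :=
 cond (Nat.blt q 8596) (block8595)
 (cond (Nat.blt q 8597) (block8596)
 (block8597))

noncomputable def blocks8598to8600 (q : ℕ) : ℕ :=
 cond (Nat.blt q 8599) (block8598)
 (block8599)

noncomputable def blocks8600to8603 (q : ℕ) : ℕ :=
 cond (Nat.blt q 8601) (block8600)
 (cond (Nat.blt q 8602) (block8601)
 (block8602))

noncomputable def blocks8603to8606 (q : ℕ) : ℕ :=
 cond (Nat.blt q 8604) (block8603)
 (cond (Nat.blt q 8605) (block8604)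
 (block8605))

noncomputable def blocks8606to8609 (q : ℕ) : ℕ :=
 cond (Nat.blt q 8607) (block8606)
 (cond (Nat.blt q 8608) (block8607)
 (block8608))

noncomputable def blocks8609to8611 (q : ℕ) : ℕ :=
 cond (Nat.blt q 8610) (block8609)
 (block8610)

noncomputable def blocks8611to8614 (q : ℕ) : ℕ :=
 cond (Nat.blt q 8612) (block8611)
 (cond (Nat.blt q 8613) (block8612)
 (block8613))

noncomputable def blocks8614to8616 (q : ℕ) : ℕ :=
 cond (Nat.blt q 8615) (block8614)
 (block8615)

noncomputable def blocks8616to8619 (q : ℕ) : ℕ :=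
 cond (Nat.blt q 8617) (block8616)
 (cond (Nat.blt q 8618) (block8617)
 (block8618))

noncomputable def blocks8619to8621 (q : ℕ) : ℕ :=
 cond (Nat.blt q 8620) (block8619)
 (block8620)

noncomputable def blocks8621to8624 (q : ℕ) : ℕ :=
 cond (Nat.blt q 8622) (block8621)
 (cond (Nat.blt q 8623) (block8622)
 (block8623))

noncomputable def blocks8624to8627 (q : ℕ) : ℕ :=
 cond (Nat.blt q 8625) (block8624)
 (cond (Nat.blt q 8626) (block8625)
 (block8626))

noncomputable def blocks8627to8630 (q : ℕ) : ℕ :=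
 cond (Nat.blt q 8628) (block8627)
 (cond (Nat.blt q 8629) (block8628)
 (block8629))

noncomputable def blocks8588to8630 (q : ℕ) : ℕ :=
 cond (Nat.blt q 8609) (cond (Nat.blt q 8598) (cond (Nat.blt q 8593) (cond (Nat.blt q 8590) (blocks8588to8590 q)
 (blocks8590to8593 q))
 (cond (Nat.blt q 8595) (blocks8593to8595 q)
 (blocks8595to8598 q)))
 (cond (Nat.blt q 8603) (cond (Nat.blt q 8600) (blocks8598to8600 q)
 (blocks8600to8603 q))
 (cond (Nat.blt q 8606) (blocks8603to8606 q)
 (blocks8606to8609 q))))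
 (cond (Nat.blt q 8619) (cond (Nat.blt q 8614) (cond (Nat.blt q 8611) (blocks8609to8611 q)
 (blocks8611to8614 q))
 (cond (Nat.blt q 8616) (blocks8614to8616 q)
 (blocks8616to8619 q)))
 (cond (Nat.blt q 8624) (cond (Nat.blt q 8621) (blocks8619to8621 q)
 (blocks8621to8624 q))
 (cond (Nat.blt q 8627) (blocks8624to8627 q)
 (blocks8627to8630 q))))

noncomputable def blocks8630to8632 (q : ℕ) : ℕ :=
 cond (Nat.blt q 8631) (block8630)
 (block8631)

noncomputable def blocks8632to8635 (q : ℕ) : ℕ :=
 cond (Nat.blt q 8633) (block8632)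
 (cond (Nat.blt q 8634) (block8633)
 (block8634))

noncomputable def blocks8635to8637 (q : ℕ) : ℕ :=
 cond (Nat.blt q 8636) (block8635)
 (block8636)

noncomputable def blocks8637to8640 (q : ℕ) : ℕ :=
 cond (Nat.blt q 8638) (block8637)
 (cond (Nat.blt q 8639) (block8638)
 (block8639))

noncomputable def blocks8640to8642 (q : ℕ) : ℕ :=
 cond (Nat.blt q 8641) (block8640)
 (block8641)

noncomputable def blocks8642to8645 (q : ℕ) : ℕ :=
 cond (Nat.blt q 8643) (block8642)
 (cond (Nat.blt q 8644) (block8643)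
 (block8644))

noncomputable def blocks8645to8648 (q : ℕ) : ℕ :=
 cond (Nat.blt q 8646) (block8645)
 (cond (Nat.blt q 8647) (block8646)
 (block8647))

noncomputable def blocks8648to8651 (q : ℕ) : ℕ :=
 cond (Nat.blt q 8649) (block8648)
 (cond (Nat.blt q 8650) (block8649)
 (block8650))

noncomputable def blocks8651to8653 (q : ℕ) : ℕ :=
 cond (Nat.blt q 8652) (block8651)
 (block8652)

noncomputable def blocks8653to8656 (q : ℕ) : ℕ :=
 cond (Nat.blt q 8654) (block8653)
 (cond (Nat.blt q 8655) (block8654)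
 (block8655))

noncomputable def blocks8656to8659 (q : ℕ) : ℕ :=
 cond (Nat.blt q 8657) (block8656)
 (cond (Nat.blt q 8658) (block8657)
 (block8658))

noncomputable def blocks8659to8662 (q : ℕ) : ℕ :=
 cond (Nat.blt q 8660) (block8659)
 (cond (Nat.blt q 8661) (block8660)
 (block8661))

noncomputable def blocks8662to8664 (q : ℕ) : ℕ :=
 cond (Nat.blt q 8663) (block8662)
 (block8663)

noncomputable def blocks8664to8667 (q : ℕ) : ℕ :=
 cond (Nat.blt q 8665) (block8664)
 (cond (Nat.blt q 8666) (block8665)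
 (block8666))

noncomputable def blocks8667to8670 (q : ℕ) : ℕ :=
 cond (Nat.blt q 8668) (block8667)
 (cond (Nat.blt q 8669) (block8668)
 (block8669))

noncomputable def blocks8670to8673 (q : ℕ) : ℕ :=
 cond (Nat.blt q 8671) (block8670)
 (cond (Nat.blt q 8672) (block8671)
 (block8672))

noncomputable def blocks8630to8673 (q : ℕ) : ℕ :=
 cond (Nat.blt q 8651) (cond (Nat.blt q 8640) (cond (Nat.blt q 8635) (cond (Nat.blt q 8632) (blocks8630to8632 q)
 (blocks8632to8635 q))
 (cond (Nat.blt q 8637) (blocks8635to8637 q)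
 (blocks8637to8640 q)))
 (cond (Nat.blt q 8645) (cond (Nat.blt q 8642) (blocks8640to8642 q)
 (blocks8642to8645 q))
 (cond (Nat.blt q 8648) (blocks8645to8648 q)
 (blocks8648to8651 q))))
 (cond (Nat.blt q 8662) (cond (Nat.blt q 8656) (cond (Nat.blt q 8653) (blocks8651to8653 q)
 (blocks8653to8656 q))
 (cond (Nat.blt q 8659) (blocks8656to8659 q)
 (blocks8659to8662 q)))
 (cond (Nat.blt q 8667) (cond (Nat.blt q 8664) (blocks8662to8664 q)
 (blocks8664to8667 q))
 (cond (Nat.blt q 8670) (blocks8667to8670 q)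
 (blocks8670to8673 q))))

noncomputable def blocks8673to8675 (q : ℕ) : ℕ :=
 cond (Nat.blt q 8674) (block8673)
 (block8674)

noncomputable def blocks8675to8678 (q : ℕ) : ℕ :=
 cond (Nat.blt q 8676) (block8675)
 (cond (Nat.blt q 8677) (block8676)
 (block8677))

noncomputable def blocks8678to8680 (q : ℕ) : ℕ :=
 cond (Nat.blt q 8679) (block8678)
 (block8679)

noncomputable def blocks8680to8683 (q : ℕ) : ℕ :=
 cond (Nat.blt q 8681) (block8680)
 (cond (Nat.blt q 8682) (block8681)
 (block8682))

noncomputable def blocks8683to8685 (q : ℕ) : ℕ :=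
 cond (Nat.blt q 8684) (block8683)
 (block8684)

noncomputable def blocks8685to8688 (q : ℕ) : ℕ :=
 cond (Nat.blt q 8686) (block8685)
 (cond (Nat.blt q 8687) (block8686)
 (block8687))

noncomputable def blocks8688to8691 (q : ℕ) : ℕ :=
 cond (Nat.blt q 8689) (block8688)
 (cond (Nat.blt q 8690) (block8689)
 (block8690))

noncomputable def blocks8691to8694 (q : ℕ) : ℕ :=
 cond (Nat.blt q 8692) (block8691)
 (cond (Nat.blt q 8693) (block8692)
 (block8693))

noncomputable def blocks8694to8696 (q : ℕ) : ℕ :=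
 cond (Nat.blt q 8695) (block8694)
 (block8695)

noncomputable def blocks8696to8699 (q : ℕ) : ℕ :=
 cond (Nat.blt q 8697) (block8696)
 (cond (Nat.blt q 8698) (block8697)
 (block8698))

noncomputable def blocks8699to8701 (q : ℕ) : ℕ :=
 cond (Nat.blt q 8700) (block8699)
 (block8700)

noncomputable def blocks8701to8704 (q : ℕ) : ℕ :=
 cond (Nat.blt q 8702) (block8701)
 (cond (Nat.blt q 8703) (block8702)
 (block8703))

noncomputable def blocks8704to8706 (q : ℕ) : ℕ :=
 cond (Nat.blt q 8705) (block8704)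
 (block8705)

noncomputable def blocks8706to8709 (q : ℕ) : ℕ :=
 cond (Nat.blt q 8707) (block8706)
 (cond (Nat.blt q 8708) (block8707)
 (block8708))

noncomputable def blocks8709to8712 (q : ℕ) : ℕ :=
 cond (Nat.blt q 8710) (block8709)
 (cond (Nat.blt q 8711) (block8710)
 (block8711))

noncomputable def blocks8712to8715 (q : ℕ) : ℕ :=
 cond (Nat.blt q 8713) (block8712)
 (cond (Nat.blt q 8714) (block8713)
 (block8714))

noncomputable def blocks8673to8715 (q : ℕ) : ℕ :=
 cond (Nat.blt q 8694) (cond (Nat.blt q 8683) (cond (Nat.blt q 8678) (cond (Nat.blt q 8675) (blocks8673to8675 q)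
 (blocks8675to8678 q))
 (cond (Nat.blt q 8680) (blocks8678to8680 q)
 (blocks8680to8683 q)))
 (cond (Nat.blt q 8688) (cond (Nat.blt q 8685) (blocks8683to8685 q)
 (blocks8685to8688 q))
 (cond (Nat.blt q 8691) (blocks8688to8691 q)
 (blocks8691to8694 q))))
 (cond (Nat.blt q 8704) (cond (Nat.blt q 8699) (cond (Nat.blt q 8696) (blocks8694to8696 q)
 (blocks8696to8699 q))
 (cond (Nat.blt q 8701) (blocks8699to8701 q)
 (blocks8701to8704 q)))
 (cond (Nat.blt q 8709) (cond (Nat.blt q 8706) (blocks8704to8706 q)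
 (blocks8706to8709 q))
 (cond (Nat.blt q 8712) (blocks8709to8712 q)
 (blocks8712to8715 q))))

noncomputable def blocks8715to8717 (q : ℕ) : ℕ :=
 cond (Nat.blt q 8716) (block8715)
 (block8716)

noncomputable def blocks8717to8720 (q : ℕ) : ℕ :=
 cond (Nat.blt q 8718) (block8717)
 (cond (Nat.blt q 8719) (block8718)
 (block8719))

noncomputable def blocks8720to8722 (q : ℕ) : ℕ :=
 cond (Nat.blt q 8721) (block8720)
 (block8721)

noncomputable def blocks8722to8725 (q : ℕ) : ℕ :=
 cond (Nat.blt q 8723) (block8722)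
 (cond (Nat.blt q 8724) (block8723)
 (block8724))

noncomputable def blocks8725to8727 (q : ℕ) : ℕ :=
 cond (Nat.blt q 8726) (block8725)
 (block8726)

noncomputable def blocks8727to8730 (q : ℕ) : ℕ :=
 cond (Nat.blt q 8728) (block8727)
 (cond (Nat.blt q 8729) (block8728)
 (block8729))

noncomputable def blocks8730to8733 (q : ℕ) : ℕ :=
 cond (Nat.blt q 8731) (block8730)
 (cond (Nat.blt q 8732) (block8731)
 (block8732))

noncomputable def blocks8733to8736 (q : ℕ) : ℕ :=
 cond (Nat.blt q 8734) (block8733)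
 (cond (Nat.blt q 8735) (block8734)
 (block8735))

noncomputable def blocks8736to8738 (q : ℕ) : ℕ :=
 cond (Nat.blt q 8737) (block8736)
 (block8737)

noncomputable def blocks8738to8741 (q : ℕ) : ℕ :=
 cond (Nat.blt q 8739) (block8738)
 (cond (Nat.blt q 8740) (block8739)
 (block8740))

noncomputable def blocks8741to8744 (q : ℕ) : ℕ :=
 cond (Nat.blt q 8742) (block8741)
 (cond (Nat.blt q 8743) (block8742)
 (block8743))

noncomputable def blocks8744to8747 (q : ℕ) : ℕ :=
 cond (Nat.blt q 8745) (block8744)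
 (cond (Nat.blt q 8746) (block8745)
 (block8746))

noncomputable def blocks8747to8749 (q : ℕ) : ℕ :=
 cond (Nat.blt q 8748) (block8747)
 (block8748)

noncomputable def blocks8749to8752 (q : ℕ) : ℕ :=
 cond (Nat.blt q 8750) (block8749)
 (cond (Nat.blt q 8751) (block8750)
 (block8751))

noncomputable def blocks8752to8755 (q : ℕ) : ℕ :=
 cond (Nat.blt q 8753) (block8752)
 (cond (Nat.blt q 8754) (block8753)
 (block8754))

noncomputable def blocks8755to8758 (q : ℕ) : ℕ :=
 cond (Nat.blt q 8756) (block8755)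
 (cond (Nat.blt q 8757) (block8756)
 (block8757))

noncomputable def blocks8715to8758 (q : ℕ) : ℕ :=
 cond (Nat.blt q 8736) (cond (Nat.blt q 8725) (cond (Nat.blt q 8720) (cond (Nat.blt q 8717) (blocks8715to8717 q)
 (blocks8717to8720 q))
 (cond (Nat.blt q 8722) (blocks8720to8722 q)
 (blocks8722to8725 q)))
 (cond (Nat.blt q 8730) (cond (Nat.blt q 8727) (blocks8725to8727 q)
 (blocks8727to8730 q))
 (cond (Nat.blt q 8733) (blocks8730to8733 q)
 (blocks8733to8736 q))))
 (cond (Nat.blt q 8747) (cond (Nat.blt q 8741) (cond (Nat.blt q 8738) (blocks8736to8738 q)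
 (blocks8738to8741 q))
 (cond (Nat.blt q 8744) (blocks8741to8744 q)
 (blocks8744to8747 q)))
 (cond (Nat.blt q 8752) (cond (Nat.blt q 8749) (blocks8747to8749 q)
 (blocks8749to8752 q))
 (cond (Nat.blt q 8755) (blocks8752to8755 q)
 (blocks8755to8758 q))))

noncomputable def blocks8758to8760 (q : ℕ) : ℕ :=
 cond (Nat.blt q 8759) (block8758)
 (block8759)

noncomputable def blocks8760to8763 (q : ℕ) : ℕ :=
 cond (Nat.blt q 8761) (block8760)
 (cond (Nat.blt q 8762) (block8761)
 (block8762))

noncomputable def blocks8763to8765 (q : ℕ) : ℕ :=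
 cond (Nat.blt q 8764) (block8763)
 (block8764)

noncomputable def blocks8765to8768 (q : ℕ) : ℕ :=
 cond (Nat.blt q 8766) (block8765)
 (cond (Nat.blt q 8767) (block8766)
 (block8767))

noncomputable def blocks8768to8770 (q : ℕ) : ℕ :=
 cond (Nat.blt q 8769) (block8768)
 (block8769)

noncomputable def blocks8770to8773 (q : ℕ) : ℕ :=
 cond (Nat.blt q 8771) (block8770)
 (cond (Nat.blt q 8772) (block8771)
 (block8772))

noncomputable def blocks8773to8776 (q : ℕ) : ℕ :=
 cond (Nat.blt q 8774) (block8773)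
 (cond (Nat.blt q 8775) (block8774)
 (block8775))

noncomputable def blocks8776to8779 (q : ℕ) : ℕ :=
 cond (Nat.blt q 8777) (block8776)
 (cond (Nat.blt q 8778) (block8777)
 (block8778))

noncomputable def blocks8779to8781 (q : ℕ) : ℕ :=
 cond (Nat.blt q 8780) (block8779)
 (block8780)

noncomputable def blocks8781to8784 (q : ℕ) : ℕ :=
 cond (Nat.blt q 8782) (block8781)
 (cond (Nat.blt q 8783) (block8782)
 (block8783))

noncomputable def blocks8784to8786 (q : ℕ) : ℕ :=
 cond (Nat.blt q 8785) (block8784)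
 (block8785)

noncomputable def blocks8786to8789 (q : ℕ) : ℕ :=
 cond (Nat.blt q 8787) (block8786)
 (cond (Nat.blt q 8788) (block8787)
 (block8788))

noncomputable def blocks8789to8791 (q : ℕ) : ℕ :=
 cond (Nat.blt q 8790) (block8789)
 (block8790)

noncomputable def blocks8791to8794 (q : ℕ) : ℕ :=
 cond (Nat.blt q 8792) (block8791)
 (cond (Nat.blt q 8793) (block8792)
 (block8793))

noncomputable def blocks8794to8797 (q : ℕ) : ℕ :=
 cond (Nat.blt q 8795) (block8794)
 (cond (Nat.blt q 8796) (block8795)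
 (block8796))

noncomputable def blocks8797to8800 (q : ℕ) : ℕ :=
 cond (Nat.blt q 8798) (block8797)
 (cond (Nat.blt q 8799) (block8798)
 (block8799))

noncomputable def blocks8758to8800 (q : ℕ) : ℕ :=
 cond (Nat.blt q 8779) (cond (Nat.blt q 8768) (cond (Nat.blt q 8763) (cond (Nat.blt q 8760) (blocks8758to8760 q)
 (blocks8760to8763 q))
 (cond (Nat.blt q 8765) (blocks8763to8765 q)
 (blocks8765to8768 q)))
 (cond (Nat.blt q 8773) (cond (Nat.blt q 8770) (blocks8768to8770 q)
 (blocks8770to8773 q))
 (cond (Nat.blt q 8776) (blocks8773to8776 q)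
 (blocks8776to8779 q))))
 (cond (Nat.blt q 8789) (cond (Nat.blt q 8784) (cond (Nat.blt q 8781) (blocks8779to8781 q)
 (blocks8781to8784 q))
 (cond (Nat.blt q 8786) (blocks8784to8786 q)
 (blocks8786to8789 q)))
 (cond (Nat.blt q 8794) (cond (Nat.blt q 8791) (blocks8789to8791 q)
 (blocks8791to8794 q))
 (cond (Nat.blt q 8797) (blocks8794to8797 q)
 (blocks8797to8800 q))))

noncomputable def blocks8800to8802 (q : ℕ) : ℕ :=
 cond (Nat.blt q 8801) (block8800)
 (block8801)

noncomputable def blocks8802to8805 (q : ℕ) : ℕ :=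
 cond (Nat.blt q 8803) (block8802)
 (cond (Nat.blt q 8804) (block8803)
 (block8804))

noncomputable def blocks8805to8807 (q : ℕ) : ℕ :=
 cond (Nat.blt q 8806) (block8805)
 (block8806)

noncomputable def blocks8807to8810 (q : ℕ) : ℕ :=
 cond (Nat.blt q 8808) (block8807)
 (cond (Nat.blt q 8809) (block8808)
 (block8809))

noncomputable def blocks8810to8812 (q : ℕ) : ℕ :=
 cond (Nat.blt q 8811) (block8810)
 (block8811)

noncomputable def blocks8812to8815 (q : ℕ) : ℕ :=
 cond (Nat.blt q 8813) (block8812)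
 (cond (Nat.blt q 8814) (block8813)
 (block8814))

noncomputable def blocks8815to8818 (q : ℕ) : ℕ :=
 cond (Nat.blt q 8816) (block8815)
 (cond (Nat.blt q 8817) (block8816)
 (block8817))

noncomputable def blocks8818to8821 (q : ℕ) : ℕ :=
 cond (Nat.blt q 8819) (block8818)
 (cond (Nat.blt q 8820) (block8819)
 (block8820))

noncomputable def blocks8821to8823 (q : ℕ) : ℕ :=
 cond (Nat.blt q 8822) (block8821)
 (block8822)

noncomputable def blocks8823to8826 (q : ℕ) : ℕ :=
 cond (Nat.blt q 8824) (block8823)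
 (cond (Nat.blt q 8825) (block8824)
 (block8825))

noncomputable def blocks8826to8829 (q : ℕ) : ℕ :=
 cond (Nat.blt q 8827) (block8826)
 (cond (Nat.blt q 8828) (block8827)
 (block8828))

noncomputable def blocks8829to8832 (q : ℕ) : ℕ :=
 cond (Nat.blt q 8830) (block8829)
 (cond (Nat.blt q 8831) (block8830)
 (block8831))

noncomputable def blocks8832to8834 (q : ℕ) : ℕ :=
 cond (Nat.blt q 8833) (block8832)
 (block8833)

noncomputable def blocks8834to8837 (q : ℕ) : ℕ :=
 cond (Nat.blt q 8835) (block8834)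
 (cond (Nat.blt q 8836) (block8835)
 (block8836))

noncomputable def blocks8837to8840 (q : ℕ) : ℕ :=
 cond (Nat.blt q 8838) (block8837)
 (cond (Nat.blt q 8839) (block8838)
 (block8839))

noncomputable def blocks8840to8843 (q : ℕ) : ℕ :=
 cond (Nat.blt q 8841) (block8840)
 (cond (Nat.blt q 8842) (block8841)
 (block8842))

noncomputable def blocks8800to8843 (q : ℕ) : ℕ :=
 cond (Nat.blt q 8821) (cond (Nat.blt q 8810) (cond (Nat.blt q 8805) (cond (Nat.blt q 8802) (blocks8800to8802 q)
 (blocks8802to8805 q))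
 (cond (Nat.blt q 8807) (blocks8805to8807 q)
 (blocks8807to8810 q)))
 (cond (Nat.blt q 8815) (cond (Nat.blt q 8812) (blocks8810to8812 q)
 (blocks8812to8815 q))
 (cond (Nat.blt q 8818) (blocks8815to8818 q)
 (blocks8818to8821 q))))
 (cond (Nat.blt q 8832) (cond (Nat.blt q 8826) (cond (Nat.blt q 8823) (blocks8821to8823 q)
 (blocks8823to8826 q))
 (cond (Nat.blt q 8829) (blocks8826to8829 q)
 (blocks8829to8832 q)))
 (cond (Nat.blt q 8837) (cond (Nat.blt q 8834) (blocks8832to8834 q)
 (blocks8834to8837 q))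
 (cond (Nat.blt q 8840) (blocks8837to8840 q)
 (blocks8840to8843 q))))

noncomputable def blocks8163to8843 (q : ℕ) : ℕ :=
 cond (Nat.blt q 8503) (cond (Nat.blt q 8333) (cond (Nat.blt q 8248) (cond (Nat.blt q 8205) (blocks8163to8205 q)
 (blocks8205to8248 q))
 (cond (Nat.blt q 8290) (blocks8248to8290 q)
 (blocks8290to8333 q)))
 (cond (Nat.blt q 8418) (cond (Nat.blt q 8375) (blocks8333to8375 q)
 (blocks8375to8418 q))
 (cond (Nat.blt q 8460) (blocks8418to8460 q)
 (blocks8460to8503 q))))
 (cond (Nat.blt q 8673) (cond (Nat.blt q 8588) (cond (Nat.blt q 8545) (blocks8503to8545 q)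
 (blocks8545to8588 q))
 (cond (Nat.blt q 8630) (blocks8588to8630 q)
 (blocks8630to8673 q)))
 (cond (Nat.blt q 8758) (cond (Nat.blt q 8715) (blocks8673to8715 q)
 (blocks8715to8758 q))
 (cond (Nat.blt q 8800) (blocks8758to8800 q)
 (blocks8800to8843 q))))

noncomputable def blocks8843to8845 (q : ℕ) : ℕ :=
 cond (Nat.blt q 8844) (block8843)
 (block8844)

noncomputable def blocks8845to8848 (q : ℕ) : ℕ :=
 cond (Nat.blt q 8846) (block8845)
 (cond (Nat.blt q 8847) (block8846)
 (block8847))

noncomputable def blocks8848to8850 (q : ℕ) : ℕ :=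
 cond (Nat.blt q 8849) (block8848)
 (block8849)

noncomputable def blocks8850to8853 (q : ℕ) : ℕ :=
 cond (Nat.blt q 8851) (block8850)
 (cond (Nat.blt q 8852) (block8851)
 (block8852))

noncomputable def blocks8853to8855 (q : ℕ) : ℕ :=
 cond (Nat.blt q 8854) (block8853)
 (block8854)

noncomputable def blocks8855to8858 (q : ℕ) : ℕ :=
 cond (Nat.blt q 8856) (block8855)
 (cond (Nat.blt q 8857) (block8856)
 (block8857))

noncomputable def blocks8858to8861 (q : ℕ) : ℕ :=
 cond (Nat.blt q 8859) (block8858)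
 (cond (Nat.blt q 8860) (block8859)
 (block8860))

noncomputable def blocks8861to8864 (q : ℕ) : ℕ :=
 cond (Nat.blt q 8862) (block8861)
 (cond (Nat.blt q 8863) (block8862)
 (block8863))

noncomputable def blocks8864to8866 (q : ℕ) : ℕ :=
 cond (Nat.blt q 8865) (block8864)
 (block8865)

noncomputable def blocks8866to8869 (q : ℕ) : ℕ :=
 cond (Nat.blt q 8867) (block8866)
 (cond (Nat.blt q 8868) (block8867)
 (block8868))

noncomputable def blocks8869to8871 (q : ℕ) : ℕ :=
 cond (Nat.blt q 8870) (block8869)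
 (block8870)

noncomputable def blocks8871to8874 (q : ℕ) : ℕ :=
 cond (Nat.blt q 8872) (block8871)
 (cond (Nat.blt q 8873) (block8872)
 (block8873))

noncomputable def blocks8874to8876 (q : ℕ) : ℕ :=
 cond (Nat.blt q 8875) (block8874)
 (block8875)

noncomputable def blocks8876to8879 (q : ℕ) : ℕ :=
 cond (Nat.blt q 8877) (block8876)
 (cond (Nat.blt q 8878) (block8877)
 (block8878))

noncomputable def blocks8879to8882 (q : ℕ) : ℕ :=
 cond (Nat.blt q 8880) (block8879)
 (cond (Nat.blt q 8881) (block8880)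
 (block8881))

noncomputable def blocks8882to8885 (q : ℕ) : ℕ :=
 cond (Nat.blt q 8883) (block8882)
 (cond (Nat.blt q 8884) (block8883)
 (block8884))

noncomputable def blocks8843to8885 (q : ℕ) : ℕ :=
 cond (Nat.blt q 8864) (cond (Nat.blt q 8853) (cond (Nat.blt q 8848) (cond (Nat.blt q 8845) (blocks8843to8845 q)
 (blocks8845to8848 q))
 (cond (Nat.blt q 8850) (blocks8848to8850 q)
 (blocks8850to8853 q)))
 (cond (Nat.blt q 8858) (cond (Nat.blt q 8855) (blocks8853to8855 q)
 (blocks8855to8858 q))
 (cond (Nat.blt q 8861) (blocks8858to8861 q)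
 (blocks8861to8864 q))))
 (cond (Nat.blt q 8874) (cond (Nat.blt q 8869) (cond (Nat.blt q 8866) (blocks8864to8866 q)
 (blocks8866to8869 q))
 (cond (Nat.blt q 8871) (blocks8869to8871 q)
 (blocks8871to8874 q)))
 (cond (Nat.blt q 8879) (cond (Nat.blt q 8876) (blocks8874to8876 q)
 (blocks8876to8879 q))
 (cond (Nat.blt q 8882) (blocks8879to8882 q)
 (blocks8882to8885 q))))

noncomputable def blocks8885to8887 (q : ℕ) : ℕ :=
 cond (Nat.blt q 8886) (block8885)
 (block8886)

noncomputable def blocks8887to8890 (q : ℕ) : ℕ :=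
 cond (Nat.blt q 8888) (block8887)
 (cond (Nat.blt q 8889) (block8888)
 (block8889))

noncomputable def blocks8890to8892 (q : ℕ) : ℕ :=
 cond (Nat.blt q 8891) (block8890)
 (block8891)

noncomputable def blocks8892to8895 (q : ℕ) : ℕ :=
 cond (Nat.blt q 8893) (block8892)
 (cond (Nat.blt q 8894) (block8893)
 (block8894))

noncomputable def blocks8895to8897 (q : ℕ) : ℕ :=
 cond (Nat.blt q 8896) (block8895)
 (block8896)

noncomputable def blocks8897to8900 (q : ℕ) : ℕ :=
 cond (Nat.blt q 8898) (block8897)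
 (cond (Nat.blt q 8899) (block8898)
 (block8899))

noncomputable def blocks8900to8903 (q : ℕ) : ℕ :=
 cond (Nat.blt q 8901) (block8900)
 (cond (Nat.blt q 8902) (block8901)
 (block8902))

noncomputable def blocks8903to8906 (q : ℕ) : ℕ :=
 cond (Nat.blt q 8904) (block8903)
 (cond (Nat.blt q 8905) (block8904)
 (block8905))

noncomputable def blocks8906to8908 (q : ℕ) : ℕ :=
 cond (Nat.blt q 8907) (block8906)
 (block8907)

noncomputable def blocks8908to8911 (q : ℕ) : ℕ :=
 cond (Nat.blt q 8909) (block8908)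
 (cond (Nat.blt q 8910) (block8909)
 (block8910))

noncomputable def blocks8911to8914 (q : ℕ) : ℕ :=
 cond (Nat.blt q 8912) (block8911)
 (cond (Nat.blt q 8913) (block8912)
 (block8913))

noncomputable def blocks8914to8917 (q : ℕ) : ℕ :=
 cond (Nat.blt q 8915) (block8914)
 (cond (Nat.blt q 8916) (block8915)
 (block8916))

noncomputable def blocks8917to8919 (q : ℕ) : ℕ :=
 cond (Nat.blt q 8918) (block8917)
 (block8918)

noncomputable def blocks8919to8922 (q : ℕ) : ℕ :=
 cond (Nat.blt q 8920) (block8919)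
 (cond (Nat.blt q 8921) (block8920)
 (block8921))

noncomputable def blocks8922to8925 (q : ℕ) : ℕ :=
 cond (Nat.blt q 8923) (block8922)
 (cond (Nat.blt q 8924) (block8923)
 (block8924))

noncomputable def blocks8925to8928 (q : ℕ) : ℕ :=
 cond (Nat.blt q 8926) (block8925)
 (cond (Nat.blt q 8927) (block8926)
 (block8927))

noncomputable def blocks8885to8928 (q : ℕ) : ℕ :=
 cond (Nat.blt q 8906) (cond (Nat.blt q 8895) (cond (Nat.blt q 8890) (cond (Nat.blt q 8887) (blocks8885to8887 q)
 (blocks8887to8890 q))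
 (cond (Nat.blt q 8892) (blocks8890to8892 q)
 (blocks8892to8895 q)))
 (cond (Nat.blt q 8900) (cond (Nat.blt q 8897) (blocks8895to8897 q)
 (blocks8897to8900 q))
 (cond (Nat.blt q 8903) (blocks8900to8903 q)
 (blocks8903to8906 q))))
 (cond (Nat.blt q 8917) (cond (Nat.blt q 8911) (cond (Nat.blt q 8908) (blocks8906to8908 q)
 (blocks8908to8911 q))
 (cond (Nat.blt q 8914) (blocks8911to8914 q)
 (blocks8914to8917 q)))
 (cond (Nat.blt q 8922) (cond (Nat.blt q 8919) (blocks8917to8919 q)
 (blocks8919to8922 q))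
 (cond (Nat.blt q 8925) (blocks8922to8925 q)
 (blocks8925to8928 q))))

noncomputable def blocks8928to8930 (q : ℕ) : ℕ :=
 cond (Nat.blt q 8929) (block8928)
 (block8929)

noncomputable def blocks8930to8933 (q : ℕ) : ℕ :=
 cond (Nat.blt q 8931) (block8930)
 (cond (Nat.blt q 8932) (block8931)
 (block8932))

noncomputable def blocks8933to8935 (q : ℕ) : ℕ :=
 cond (Nat.blt q 8934) (block8933)
 (block8934)

noncomputable def blocks8935to8938 (q : ℕ) : ℕ :=
 cond (Nat.blt q 8936) (block8935)
 (cond (Nat.blt q 8937) (block8936)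
 (block8937))

noncomputable def blocks8938to8940 (q : ℕ) : ℕ :=
 cond (Nat.blt q 8939) (block8938)
 (block8939)

noncomputable def blocks8940to8943 (q : ℕ) : ℕ :=
 cond (Nat.blt q 8941) (block8940)
 (cond (Nat.blt q 8942) (block8941)
 (block8942))

noncomputable def blocks8943to8946 (q : ℕ) : ℕ :=
 cond (Nat.blt q 8944) (block8943)
 (cond (Nat.blt q 8945) (block8944)
 (block8945))

noncomputable def blocks8946to8949 (q : ℕ) : ℕ :=
 cond (Nat.blt q 8947) (block8946)
 (cond (Nat.blt q 8948) (block8947)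
 (block8948))

noncomputable def blocks8949to8951 (q : ℕ) : ℕ :=
 cond (Nat.blt q 8950) (block8949)
 (block8950)

noncomputable def blocks8951to8954 (q : ℕ) : ℕ :=
 cond (Nat.blt q 8952) (block8951)
 (cond (Nat.blt q 8953) (block8952)
 (block8953))

noncomputable def blocks8954to8956 (q : ℕ) : ℕ :=
 cond (Nat.blt q 8955) (block8954)
 (block8955)

noncomputable def blocks8956to8959 (q : ℕ) : ℕ :=
 cond (Nat.blt q 8957) (block8956)
 (cond (Nat.blt q 8958) (block8957)
 (block8958))

noncomputable def blocks8959to8961 (q : ℕ) : ℕ :=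
 cond (Nat.blt q 8960) (block8959)
 (block8960)

noncomputable def blocks8961to8964 (q : ℕ) : ℕ :=
 cond (Nat.blt q 8962) (block8961)
 (cond (Nat.blt q 8963) (block8962)
 (block8963))

noncomputable def blocks8964to8967 (q : ℕ) : ℕ :=
 cond (Nat.blt q 8965) (block8964)
 (cond (Nat.blt q 8966) (block8965)
 (block8966))

noncomputable def blocks8967to8970 (q : ℕ) : ℕ :=
 cond (Nat.blt q 8968) (block8967)
 (cond (Nat.blt q 8969) (block8968)
 (block8969))

noncomputable def blocks8928to8970 (q : ℕ) : ℕ :=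
 cond (Nat.blt q 8949) (cond (Nat.blt q 8938) (cond (Nat.blt q 8933) (cond (Nat.blt q 8930) (blocks8928to8930 q)
 (blocks8930to8933 q))
 (cond (Nat.blt q 8935) (blocks8933to8935 q)
 (blocks8935to8938 q)))
 (cond (Nat.blt q 8943) (cond (Nat.blt q 8940) (blocks8938to8940 q)
 (blocks8940to8943 q))
 (cond (Nat.blt q 8946) (blocks8943to8946 q)
 (blocks8946to8949 q))))
 (cond (Nat.blt q 8959) (cond (Nat.blt q 8954) (cond (Nat.blt q 8951) (blocks8949to8951 q)
 (blocks8951to8954 q))
 (cond (Nat.blt q 8956) (blocks8954to8956 q)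
 (blocks8956to8959 q)))
 (cond (Nat.blt q 8964) (cond (Nat.blt q 8961) (blocks8959to8961 q)
 (blocks8961to8964 q))
 (cond (Nat.blt q 8967) (blocks8964to8967 q)
 (blocks8967to8970 q))))

noncomputable def blocks8970to8972 (q : ℕ) : ℕ :=
 cond (Nat.blt q 8971) (block8970)
 (block8971)

noncomputable def blocks8972to8975 (q : ℕ) : ℕ :=
 cond (Nat.blt q 8973) (block8972)
 (cond (Nat.blt q 8974) (block8973)
 (block8974))

noncomputable def blocks8975to8977 (q : ℕ) : ℕ :=
 cond (Nat.blt q 8976) (block8975)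
 (block8976)

noncomputable def blocks8977to8980 (q : ℕ) : ℕ :=
 cond (Nat.blt q 8978) (block8977)
 (cond (Nat.blt q 8979) (block8978)
 (block8979))

noncomputable def blocks8980to8982 (q : ℕ) : ℕ :=
 cond (Nat.blt q 8981) (block8980)
 (block8981)

noncomputable def blocks8982to8985 (q : ℕ) : ℕ :=
 cond (Nat.blt q 8983) (block8982)
 (cond (Nat.blt q 8984) (block8983)
 (block8984))

noncomputable def blocks8985to8988 (q : ℕ) : ℕ :=
 cond (Nat.blt q 8986) (block8985)
 (cond (Nat.blt q 8987) (block8986)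
 (block8987))

noncomputable def blocks8988to8991 (q : ℕ) : ℕ :=
 cond (Nat.blt q 8989) (block8988)
 (cond (Nat.blt q 8990) (block8989)
 (block8990))

noncomputable def blocks8991to8993 (q : ℕ) : ℕ :=
 cond (Nat.blt q 8992) (block8991)
 (block8992)

noncomputable def blocks8993to8996 (q : ℕ) : ℕ :=
 cond (Nat.blt q 8994) (block8993)
 (cond (Nat.blt q 8995) (block8994)
 (block8995))

noncomputable def blocks8996to8999 (q : ℕ) : ℕ :=
 cond (Nat.blt q 8997) (block8996)
 (cond (Nat.blt q 8998) (block8997)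
 (block8998))

noncomputable def blocks8999to9002 (q : ℕ) : ℕ :=
 cond (Nat.blt q 9000) (block8999)
 (cond (Nat.blt q 9001) (block9000)
 (block9001))

noncomputable def blocks9002to9004 (q : ℕ) : ℕ :=
 cond (Nat.blt q 9003) (block9002)
 (block9003)

noncomputable def blocks9004to9007 (q : ℕ) : ℕ :=
 cond (Nat.blt q 9005) (block9004)
 (cond (Nat.blt q 9006) (block9005)
 (block9006))

noncomputable def blocks9007to9010 (q : ℕ) : ℕ :=
 cond (Nat.blt q 9008) (block9007)
 (cond (Nat.blt q 9009) (block9008)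
 (block9009))

noncomputable def blocks9010to9013 (q : ℕ) : ℕ :=
 cond (Nat.blt q 9011) (block9010)
 (cond (Nat.blt q 9012) (block9011)
 (block9012))

noncomputable def blocks8970to9013 (q : ℕ) : ℕ :=
 cond (Nat.blt q 8991) (cond (Nat.blt q 8980) (cond (Nat.blt q 8975) (cond (Nat.blt q 8972) (blocks8970to8972 q)
 (blocks8972to8975 q))
 (cond (Nat.blt q 8977) (blocks8975to8977 q)
 (blocks8977to8980 q)))
 (cond (Nat.blt q 8985) (cond (Nat.blt q 8982) (blocks8980to8982 q)
 (blocks8982to8985 q))
 (cond (Nat.blt q 8988) (blocks8985to8988 q)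
 (blocks8988to8991 q))))
 (cond (Nat.blt q 9002) (cond (Nat.blt q 8996) (cond (Nat.blt q 8993) (blocks8991to8993 q)
 (blocks8993to8996 q))
 (cond (Nat.blt q 8999) (blocks8996to8999 q)
 (blocks8999to9002 q)))
 (cond (Nat.blt q 9007) (cond (Nat.blt q 9004) (blocks9002to9004 q)
 (blocks9004to9007 q))
 (cond (Nat.blt q 9010) (blocks9007to9010 q)
 (blocks9010to9013 q))))

noncomputable def blocks9013to9015 (q : ℕ) : ℕ :=
 cond (Nat.blt q 9014) (block9013)
 (block9014)

noncomputable def blocks9015to9018 (q : ℕ) : ℕ :=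
 cond (Nat.blt q 9016) (block9015)
 (cond (Nat.blt q 9017) (block9016)
 (block9017))

noncomputable def blocks9018to9020 (q : ℕ) : ℕ :=
 cond (Nat.blt q 9019) (block9018)
 (block9019)

noncomputable def blocks9020to9023 (q : ℕ) : ℕ :=
 cond (Nat.blt q 9021) (block9020)
 (cond (Nat.blt q 9022) (block9021)
 (block9022))

noncomputable def blocks9023to9025 (q : ℕ) : ℕ :=
 cond (Nat.blt q 9024) (block9023)
 (block9024)

noncomputable def blocks9025to9028 (q : ℕ) : ℕ :=
 cond (Nat.blt q 9026) (block9025)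
 (cond (Nat.blt q 9027) (block9026)
 (block9027))

noncomputable def blocks9028to9031 (q : ℕ) : ℕ :=
 cond (Nat.blt q 9029) (block9028)
 (cond (Nat.blt q 9030) (block9029)
 (block9030))

noncomputable def blocks9031to9034 (q : ℕ) : ℕ :=
 cond (Nat.blt q 9032) (block9031)
 (cond (Nat.blt q 9033) (block9032)
 (block9033))

noncomputable def blocks9034to9036 (q : ℕ) : ℕ :=
 cond (Nat.blt q 9035) (block9034)
 (block9035)

noncomputable def blocks9036to9039 (q : ℕ) : ℕ :=
 cond (Nat.blt q 9037) (block9036)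
 (cond (Nat.blt q 9038) (block9037)
 (block9038))

noncomputable def blocks9039to9041 (q : ℕ) : ℕ :=
 cond (Nat.blt q 9040) (block9039)
 (block9040)

noncomputable def blocks9041to9044 (q : ℕ) : ℕ :=
 cond (Nat.blt q 9042) (block9041)
 (cond (Nat.blt q 9043) (block9042)
 (block9043))

noncomputable def blocks9044to9046 (q : ℕ) : ℕ :=
 cond (Nat.blt q 9045) (block9044)
 (block9045)

noncomputable def blocks9046to9049 (q : ℕ) : ℕ :=
 cond (Nat.blt q 9047) (block9046)
 (cond (Nat.blt q 9048) (block9047)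
 (block9048))

noncomputable def blocks9049to9052 (q : ℕ) : ℕ :=
 cond (Nat.blt q 9050) (block9049)
 (cond (Nat.blt q 9051) (block9050)
 (block9051))

noncomputable def blocks9052to9055 (q : ℕ) : ℕ :=
 cond (Nat.blt q 9053) (block9052)
 (cond (Nat.blt q 9054) (block9053)
 (block9054))

noncomputable def blocks9013to9055 (q : ℕ) : ℕ :=
 cond (Nat.blt q 9034) (cond (Nat.blt q 9023) (cond (Nat.blt q 9018) (cond (Nat.blt q 9015) (blocks9013to9015 q)
 (blocks9015to9018 q))
 (cond (Nat.blt q 9020) (blocks9018to9020 q)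
 (blocks9020to9023 q)))
 (cond (Nat.blt q 9028) (cond (Nat.blt q 9025) (blocks9023to9025 q)
 (blocks9025to9028 q))
 (cond (Nat.blt q 9031) (blocks9028to9031 q)
 (blocks9031to9034 q))))
 (cond (Nat.blt q 9044) (cond (Nat.blt q 9039) (cond (Nat.blt q 9036) (blocks9034to9036 q)
 (blocks9036to9039 q))
 (cond (Nat.blt q 9041) (blocks9039to9041 q)
 (blocks9041to9044 q)))
 (cond (Nat.blt q 9049) (cond (Nat.blt q 9046) (blocks9044to9046 q)
 (blocks9046to9049 q))
 (cond (Nat.blt q 9052) (blocks9049to9052 q)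
 (blocks9052to9055 q))))

noncomputable def blocks9055to9057 (q : ℕ) : ℕ :=
 cond (Nat.blt q 9056) (block9055)
 (block9056)

noncomputable def blocks9057to9060 (q : ℕ) : ℕ :=
 cond (Nat.blt q 9058) (block9057)
 (cond (Nat.blt q 9059) (block9058)
 (block9059))

noncomputable def blocks9060to9062 (q : ℕ) : ℕ :=
 cond (Nat.blt q 9061) (block9060)
 (block9061)

noncomputable def blocks9062to9065 (q : ℕ) : ℕ :=
 cond (Nat.blt q 9063) (block9062)
 (cond (Nat.blt q 9064) (block9063)
 (block9064))

noncomputable def blocks9065to9067 (q : ℕ) : ℕ :=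
 cond (Nat.blt q 9066) (block9065)
 (block9066)

noncomputable def blocks9067to9070 (q : ℕ) : ℕ :=
 cond (Nat.blt q 9068) (block9067)
 (cond (Nat.blt q 9069) (block9068)
 (block9069))

noncomputable def blocks9070to9073 (q : ℕ) : ℕ :=
 cond (Nat.blt q 9071) (block9070)
 (cond (Nat.blt q 9072) (block9071)
 (block9072))

noncomputable def blocks9073to9076 (q : ℕ) : ℕ :=
 cond (Nat.blt q 9074) (block9073)
 (cond (Nat.blt q 9075) (block9074)
 (block9075))

noncomputable def blocks9076to9078 (q : ℕ) : ℕ :=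
 cond (Nat.blt q 9077) (block9076)
 (block9077)

noncomputable def blocks9078to9081 (q : ℕ) : ℕ :=
 cond (Nat.blt q 9079) (block9078)
 (cond (Nat.blt q 9080) (block9079)
 (block9080))

noncomputable def blocks9081to9084 (q : ℕ) : ℕ :=
 cond (Nat.blt q 9082) (block9081)
 (cond (Nat.blt q 9083) (block9082)
 (block9083))

noncomputable def blocks9084to9087 (q : ℕ) : ℕ :=
 cond (Nat.blt q 9085) (block9084)
 (cond (Nat.blt q 9086) (block9085)
 (block9086))

noncomputable def blocks9087to9089 (q : ℕ) : ℕ :=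
 cond (Nat.blt q 9088) (block9087)
 (block9088)

noncomputable def blocks9089to9092 (q : ℕ) : ℕ :=
 cond (Nat.blt q 9090) (block9089)
 (cond (Nat.blt q 9091) (block9090)
 (block9091))

noncomputable def blocks9092to9095 (q : ℕ) : ℕ :=
 cond (Nat.blt q 9093) (block9092)
 (cond (Nat.blt q 9094) (block9093)
 (block9094))

noncomputable def blocks9095to9098 (q : ℕ) : ℕ :=
 cond (Nat.blt q 9096) (block9095)
 (cond (Nat.blt q 9097) (block9096)
 (block9097))

noncomputable def blocks9055to9098 (q : ℕ) : ℕ :=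
 cond (Nat.blt q 9076) (cond (Nat.blt q 9065) (cond (Nat.blt q 9060) (cond (Nat.blt q 9057) (blocks9055to9057 q)
 (blocks9057to9060 q))
 (cond (Nat.blt q 9062) (blocks9060to9062 q)
 (blocks9062to9065 q)))
 (cond (Nat.blt q 9070) (cond (Nat.blt q 9067) (blocks9065to9067 q)
 (blocks9067to9070 q))
 (cond (Nat.blt q 9073) (blocks9070to9073 q)
 (blocks9073to9076 q))))
 (cond (Nat.blt q 9087) (cond (Nat.blt q 9081) (cond (Nat.blt q 9078) (blocks9076to9078 q)
 (blocks9078to9081 q))
 (cond (Nat.blt q 9084) (blocks9081to9084 q)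
 (blocks9084to9087 q)))
 (cond (Nat.blt q 9092) (cond (Nat.blt q 9089) (blocks9087to9089 q)
 (blocks9089to9092 q))
 (cond (Nat.blt q 9095) (blocks9092to9095 q)
 (blocks9095to9098 q))))

noncomputable def blocks9098to9100 (q : ℕ) : ℕ :=
 cond (Nat.blt q 9099) (block9098)
 (block9099)

noncomputable def blocks9100to9103 (q : ℕ) : ℕ :=
 cond (Nat.blt q 9101) (block9100)
 (cond (Nat.blt q 9102) (block9101)
 (block9102))

noncomputable def blocks9103to9105 (q : ℕ) : ℕ :=
 cond (Nat.blt q 9104) (block9103)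
 (block9104)

noncomputable def blocks9105to9108 (q : ℕ) : ℕ :=
 cond (Nat.blt q 9106) (block9105)
 (cond (Nat.blt q 9107) (block9106)
 (block9107))

noncomputable def blocks9108to9110 (q : ℕ) : ℕ :=
 cond (Nat.blt q 9109) (block9108)
 (block9109)

noncomputable def blocks9110to9113 (q : ℕ) : ℕ :=
 cond (Nat.blt q 9111) (block9110)
 (cond (Nat.blt q 9112) (block9111)
 (block9112))

noncomputable def blocks9113to9116 (q : ℕ) : ℕ :=
 cond (Nat.blt q 9114) (block9113)
 (cond (Nat.blt q 9115) (block9114)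
 (block9115))

noncomputable def blocks9116to9119 (q : ℕ) : ℕ :=
 cond (Nat.blt q 9117) (block9116)
 (cond (Nat.blt q 9118) (block9117)
 (block9118))

noncomputable def blocks9119to9121 (q : ℕ) : ℕ :=
 cond (Nat.blt q 9120) (block9119)
 (block9120)

noncomputable def blocks9121to9124 (q : ℕ) : ℕ :=
 cond (Nat.blt q 9122) (block9121)
 (cond (Nat.blt q 9123) (block9122)
 (block9123))

noncomputable def blocks9124to9126 (q : ℕ) : ℕ :=
 cond (Nat.blt q 9125) (block9124)
 (block9125)

noncomputable def blocks9126to9129 (q : ℕ) : ℕ :=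
 cond (Nat.blt q 9127) (block9126)
 (cond (Nat.blt q 9128) (block9127)
 (block9128))

noncomputable def blocks9129to9131 (q : ℕ) : ℕ :=
 cond (Nat.blt q 9130) (block9129)
 (block9130)

noncomputable def blocks9131to9134 (q : ℕ) : ℕ :=
 cond (Nat.blt q 9132) (block9131)
 (cond (Nat.blt q 9133) (block9132)
 (block9133))

noncomputable def blocks9134to9137 (q : ℕ) : ℕ :=
 cond (Nat.blt q 9135) (block9134)
 (cond (Nat.blt q 9136) (block9135)
 (block9136))

noncomputable def blocks9137to9140 (q : ℕ) : ℕ :=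
 cond (Nat.blt q 9138) (block9137)
 (cond (Nat.blt q 9139) (block9138)
 (block9139))

noncomputable def blocks9098to9140 (q : ℕ) : ℕ :=
 cond (Nat.blt q 9119) (cond (Nat.blt q 9108) (cond (Nat.blt q 9103) (cond (Nat.blt q 9100) (blocks9098to9100 q)
 (blocks9100to9103 q))
 (cond (Nat.blt q 9105) (blocks9103to9105 q)
 (blocks9105to9108 q)))
 (cond (Nat.blt q 9113) (cond (Nat.blt q 9110) (blocks9108to9110 q)
 (blocks9110to9113 q))
 (cond (Nat.blt q 9116) (blocks9113to9116 q)
 (blocks9116to9119 q))))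
 (cond (Nat.blt q 9129) (cond (Nat.blt q 9124) (cond (Nat.blt q 9121) (blocks9119to9121 q)
 (blocks9121to9124 q))
 (cond (Nat.blt q 9126) (blocks9124to9126 q)
 (blocks9126to9129 q)))
 (cond (Nat.blt q 9134) (cond (Nat.blt q 9131) (blocks9129to9131 q)
 (blocks9131to9134 q))
 (cond (Nat.blt q 9137) (blocks9134to9137 q)
 (blocks9137to9140 q))))

noncomputable def blocks9140to9142 (q : ℕ) : ℕ :=
 cond (Nat.blt q 9141) (block9140)
 (block9141)

noncomputable def blocks9142to9145 (q : ℕ) : ℕ :=
 cond (Nat.blt q 9143) (block9142)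
 (cond (Nat.blt q 9144) (block9143)
 (block9144))

noncomputable def blocks9145to9147 (q : ℕ) : ℕ :=
 cond (Nat.blt q 9146) (block9145)
 (block9146)

noncomputable def blocks9147to9150 (q : ℕ) : ℕ :=
 cond (Nat.blt q 9148) (block9147)
 (cond (Nat.blt q 9149) (block9148)
 (block9149))

noncomputable def blocks9150to9152 (q : ℕ) : ℕ :=
 cond (Nat.blt q 9151) (block9150)
 (block9151)

noncomputable def blocks9152to9155 (q : ℕ) : ℕ :=
 cond (Nat.blt q 9153) (block9152)
 (cond (Nat.blt q 9154) (block9153)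
 (block9154))

noncomputable def blocks9155to9158 (q : ℕ) : ℕ :=
 cond (Nat.blt q 9156) (block9155)
 (cond (Nat.blt q 9157) (block9156)
 (block9157))

noncomputable def blocks9158to9161 (q : ℕ) : ℕ :=
 cond (Nat.blt q 9159) (block9158)
 (cond (Nat.blt q 9160) (block9159)
 (block9160))

noncomputable def blocks9161to9163 (q : ℕ) : ℕ :=
 cond (Nat.blt q 9162) (block9161)
 (block9162)

noncomputable def blocks9163to9166 (q : ℕ) : ℕ :=
 cond (Nat.blt q 9164) (block9163)
 (cond (Nat.blt q 9165) (block9164)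
 (block9165))

noncomputable def blocks9166to9169 (q : ℕ) : ℕ :=
 cond (Nat.blt q 9167) (block9166)
 (cond (Nat.blt q 9168) (block9167)
 (block9168))

noncomputable def blocks9169to9172 (q : ℕ) : ℕ :=
 cond (Nat.blt q 9170) (block9169)
 (cond (Nat.blt q 9171) (block9170)
 (block9171))

noncomputable def blocks9172to9174 (q : ℕ) : ℕ :=
 cond (Nat.blt q 9173) (block9172)
 (block9173)

noncomputable def blocks9174to9177 (q : ℕ) : ℕ :=
 cond (Nat.blt q 9175) (block9174)
 (cond (Nat.blt q 9176) (block9175)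
 (block9176))

noncomputable def blocks9177to9180 (q : ℕ) : ℕ :=
 cond (Nat.blt q 9178) (block9177)
 (cond (Nat.blt q 9179) (block9178)
 (block9179))

noncomputable def blocks9180to9183 (q : ℕ) : ℕ :=
 cond (Nat.blt q 9181) (block9180)
 (cond (Nat.blt q 9182) (block9181)
 (block9182))

noncomputable def blocks9140to9183 (q : ℕ) : ℕ :=
 cond (Nat.blt q 9161) (cond (Nat.blt q 9150) (cond (Nat.blt q 9145) (cond (Nat.blt q 9142) (blocks9140to9142 q)
 (blocks9142to9145 q))
 (cond (Nat.blt q 9147) (blocks9145to9147 q)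
 (blocks9147to9150 q)))
 (cond (Nat.blt q 9155) (cond (Nat.blt q 9152) (blocks9150to9152 q)
 (blocks9152to9155 q))
 (cond (Nat.blt q 9158) (blocks9155to9158 q)
 (blocks9158to9161 q))))
 (cond (Nat.blt q 9172) (cond (Nat.blt q 9166) (cond (Nat.blt q 9163) (blocks9161to9163 q)
 (blocks9163to9166 q))
 (cond (Nat.blt q 9169) (blocks9166to9169 q)
 (blocks9169to9172 q)))
 (cond (Nat.blt q 9177) (cond (Nat.blt q 9174) (blocks9172to9174 q)
 (blocks9174to9177 q))
 (cond (Nat.blt q 9180) (blocks9177to9180 q)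
 (blocks9180to9183 q))))

noncomputable def blocks9183to9185 (q : ℕ) : ℕ :=
 cond (Nat.blt q 9184) (block9183)
 (block9184)

noncomputable def blocks9185to9188 (q : ℕ) : ℕ :=
 cond (Nat.blt q 9186) (block9185)
 (cond (Nat.blt q 9187) (block9186)
 (block9187))

noncomputable def blocks9188to9190 (q : ℕ) : ℕ :=
 cond (Nat.blt q 9189) (block9188)
 (block9189)

noncomputable def blocks9190to9193 (q : ℕ) : ℕ :=
 cond (Nat.blt q 9191) (block9190)
 (cond (Nat.blt q 9192) (block9191)
 (block9192))

noncomputable def blocks9193to9195 (q : ℕ) : ℕ :=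
 cond (Nat.blt q 9194) (block9193)
 (block9194)

noncomputable def blocks9195to9198 (q : ℕ) : ℕ :=
 cond (Nat.blt q 9196) (block9195)
 (cond (Nat.blt q 9197) (block9196)
 (block9197))

noncomputable def blocks9198to9201 (q : ℕ) : ℕ :=
 cond (Nat.blt q 9199) (block9198)
 (cond (Nat.blt q 9200) (block9199)
 (block9200))

noncomputable def blocks9201to9204 (q : ℕ) : ℕ :=
 cond (Nat.blt q 9202) (block9201)
 (cond (Nat.blt q 9203) (block9202)
 (block9203))

noncomputable def blocks9204to9206 (q : ℕ) : ℕ :=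
 cond (Nat.blt q 9205) (block9204)
 (block9205)

noncomputable def blocks9206to9209 (q : ℕ) : ℕ :=
 cond (Nat.blt q 9207) (block9206)
 (cond (Nat.blt q 9208) (block9207)
 (block9208))

noncomputable def blocks9209to9211 (q : ℕ) : ℕ :=
 cond (Nat.blt q 9210) (block9209)
 (block9210)

noncomputable def blocks9211to9214 (q : ℕ) : ℕ :=
 cond (Nat.blt q 9212) (block9211)
 (cond (Nat.blt q 9213) (block9212)
 (block9213))

noncomputable def blocks9214to9216 (q : ℕ) : ℕ :=
 cond (Nat.blt q 9215) (block9214)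
 (block9215)

noncomputable def blocks9216to9219 (q : ℕ) : ℕ :=
 cond (Nat.blt q 9217) (block9216)
 (cond (Nat.blt q 9218) (block9217)
 (block9218))

noncomputable def blocks9219to9222 (q : ℕ) : ℕ :=
 cond (Nat.blt q 9220) (block9219)
 (cond (Nat.blt q 9221) (block9220)
 (block9221))

noncomputable def blocks9222to9225 (q : ℕ) : ℕ :=
 cond (Nat.blt q 9223) (block9222)
 (cond (Nat.blt q 9224) (block9223)
 (block9224))

noncomputable def blocks9183to9225 (q : ℕ) : ℕ :=
 cond (Nat.blt q 9204) (cond (Nat.blt q 9193) (cond (Nat.blt q 9188) (cond (Nat.blt q 9185) (blocks9183to9185 q)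
 (blocks9185to9188 q))
 (cond (Nat.blt q 9190) (blocks9188to9190 q)
 (blocks9190to9193 q)))
 (cond (Nat.blt q 9198) (cond (Nat.blt q 9195) (blocks9193to9195 q)
 (blocks9195to9198 q))
 (cond (Nat.blt q 9201) (blocks9198to9201 q)
 (blocks9201to9204 q))))
 (cond (Nat.blt q 9214) (cond (Nat.blt q 9209) (cond (Nat.blt q 9206) (blocks9204to9206 q)
 (blocks9206to9209 q))
 (cond (Nat.blt q 9211) (blocks9209to9211 q)
 (blocks9211to9214 q)))
 (cond (Nat.blt q 9219) (cond (Nat.blt q 9216) (blocks9214to9216 q)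
 (blocks9216to9219 q))
 (cond (Nat.blt q 9222) (blocks9219to9222 q)
 (blocks9222to9225 q))))

noncomputable def blocks9225to9227 (q : ℕ) : ℕ :=
 cond (Nat.blt q 9226) (block9225)
 (block9226)

noncomputable def blocks9227to9230 (q : ℕ) : ℕ :=
 cond (Nat.blt q 9228) (block9227)
 (cond (Nat.blt q 9229) (block9228)
 (block9229))

noncomputable def blocks9230to9232 (q : ℕ) : ℕ :=
 cond (Nat.blt q 9231) (block9230)
 (block9231)

noncomputable def blocks9232to9235 (q : ℕ) : ℕ :=
 cond (Nat.blt q 9233) (block9232)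
 (cond (Nat.blt q 9234) (block9233)
 (block9234))

noncomputable def blocks9235to9237 (q : ℕ) : ℕ :=
 cond (Nat.blt q 9236) (block9235)
 (block9236)

noncomputable def blocks9237to9240 (q : ℕ) : ℕ :=
 cond (Nat.blt q 9238) (block9237)
 (cond (Nat.blt q 9239) (block9238)
 (block9239))

noncomputable def blocks9240to9243 (q : ℕ) : ℕ :=
 cond (Nat.blt q 9241) (block9240)
 (cond (Nat.blt q 9242) (block9241)
 (block9242))

noncomputable def blocks9243to9246 (q : ℕ) : ℕ :=
 cond (Nat.blt q 9244) (block9243)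
 (cond (Nat.blt q 9245) (block9244)
 (block9245))

noncomputable def blocks9246to9248 (q : ℕ) : ℕ :=
 cond (Nat.blt q 9247) (block9246)
 (block9247)

noncomputable def blocks9248to9251 (q : ℕ) : ℕ :=
 cond (Nat.blt q 9249) (block9248)
 (cond (Nat.blt q 9250) (block9249)
 (block9250))

noncomputable def blocks9251to9254 (q : ℕ) : ℕ :=
 cond (Nat.blt q 9252) (block9251)
 (cond (Nat.blt q 9253) (block9252)
 (block9253))

noncomputable def blocks9254to9257 (q : ℕ) : ℕ :=
 cond (Nat.blt q 9255) (block9254)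
 (cond (Nat.blt q 9256) (block9255)
 (block9256))

noncomputable def blocks9257to9259 (q : ℕ) : ℕ :=
 cond (Nat.blt q 9258) (block9257)
 (block9258)

noncomputable def blocks9259to9262 (q : ℕ) : ℕ :=
 cond (Nat.blt q 9260) (block9259)
 (cond (Nat.blt q 9261) (block9260)
 (block9261))

noncomputable def blocks9262to9265 (q : ℕ) : ℕ :=
 cond (Nat.blt q 9263) (block9262)
 (cond (Nat.blt q 9264) (block9263)
 (block9264))

noncomputable def blocks9265to9268 (q : ℕ) : ℕ :=
 cond (Nat.blt q 9266) (block9265)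
 (cond (Nat.blt q 9267) (block9266)
 (block9267))

noncomputable def blocks9225to9268 (q : ℕ) : ℕ :=
 cond (Nat.blt q 9246) (cond (Nat.blt q 9235) (cond (Nat.blt q 9230) (cond (Nat.blt q 9227) (blocks9225to9227 q)
 (blocks9227to9230 q))
 (cond (Nat.blt q 9232) (blocks9230to9232 q)
 (blocks9232to9235 q)))
 (cond (Nat.blt q 9240) (cond (Nat.blt q 9237) (blocks9235to9237 q)
 (blocks9237to9240 q))
 (cond (Nat.blt q 9243) (blocks9240to9243 q)
 (blocks9243to9246 q))))
 (cond (Nat.blt q 9257) (cond (Nat.blt q 9251) (cond (Nat.blt q 9248) (blocks9246to9248 q)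
 (blocks9248to9251 q))
 (cond (Nat.blt q 9254) (blocks9251to9254 q)
 (blocks9254to9257 q)))
 (cond (Nat.blt q 9262) (cond (Nat.blt q 9259) (blocks9257to9259 q)
 (blocks9259to9262 q))
 (cond (Nat.blt q 9265) (blocks9262to9265 q)
 (blocks9265to9268 q))))

noncomputable def blocks9268to9270 (q : ℕ) : ℕ :=
 cond (Nat.blt q 9269) (block9268)
 (block9269)

noncomputable def blocks9270to9273 (q : ℕ) : ℕ :=
 cond (Nat.blt q 9271) (block9270)
 (cond (Nat.blt q 9272) (block9271)
 (block9272))

noncomputable def blocks9273to9275 (q : ℕ) : ℕ :=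
 cond (Nat.blt q 9274) (block9273)
 (block9274)

noncomputable def blocks9275to9278 (q : ℕ) : ℕ :=
 cond (Nat.blt q 9276) (block9275)
 (cond (Nat.blt q 9277) (block9276)
 (block9277))

noncomputable def blocks9278to9280 (q : ℕ) : ℕ :=
 cond (Nat.blt q 9279) (block9278)
 (block9279)

noncomputable def blocks9280to9283 (q : ℕ) : ℕ :=
 cond (Nat.blt q 9281) (block9280)
 (cond (Nat.blt q 9282) (block9281)
 (block9282))

noncomputable def blocks9283to9286 (q : ℕ) : ℕ :=
 cond (Nat.blt q 9284) (block9283)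
 (cond (Nat.blt q 9285) (block9284)
 (block9285))

noncomputable def blocks9286to9289 (q : ℕ) : ℕ :=
 cond (Nat.blt q 9287) (block9286)
 (cond (Nat.blt q 9288) (block9287)
 (block9288))

noncomputable def blocks9289to9291 (q : ℕ) : ℕ :=
 cond (Nat.blt q 9290) (block9289)
 (block9290)

noncomputable def blocks9291to9294 (q : ℕ) : ℕ :=
 cond (Nat.blt q 9292) (block9291)
 (cond (Nat.blt q 9293) (block9292)
 (block9293))

noncomputable def blocks9294to9296 (q : ℕ) : ℕ :=
 cond (Nat.blt q 9295) (block9294)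
 (block9295)

noncomputable def blocks9296to9299 (q : ℕ) : ℕ :=
 cond (Nat.blt q 9297) (block9296)
 (cond (Nat.blt q 9298) (block9297)
 (block9298))

noncomputable def blocks9299to9301 (q : ℕ) : ℕ :=
 cond (Nat.blt q 9300) (block9299)
 (block9300)

noncomputable def blocks9301to9304 (q : ℕ) : ℕ :=
 cond (Nat.blt q 9302) (block9301)
 (cond (Nat.blt q 9303) (block9302)
 (block9303))

noncomputable def blocks9304to9307 (q : ℕ) : ℕ :=
 cond (Nat.blt q 9305) (block9304)
 (cond (Nat.blt q 9306) (block9305)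
 (block9306))

noncomputable def blocks9307to9310 (q : ℕ) : ℕ :=
 cond (Nat.blt q 9308) (block9307)
 (cond (Nat.blt q 9309) (block9308)
 (block9309))

noncomputable def blocks9268to9310 (q : ℕ) : ℕ :=
 cond (Nat.blt q 9289) (cond (Nat.blt q 9278) (cond (Nat.blt q 9273) (cond (Nat.blt q 9270) (blocks9268to9270 q)
 (blocks9270to9273 q))
 (cond (Nat.blt q 9275) (blocks9273to9275 q)
 (blocks9275to9278 q)))
 (cond (Nat.blt q 9283) (cond (Nat.blt q 9280) (blocks9278to9280 q)
 (blocks9280to9283 q))
 (cond (Nat.blt q 9286) (blocks9283to9286 q)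
 (blocks9286to9289 q))))
 (cond (Nat.blt q 9299) (cond (Nat.blt q 9294) (cond (Nat.blt q 9291) (blocks9289to9291 q)
 (blocks9291to9294 q))
 (cond (Nat.blt q 9296) (blocks9294to9296 q)
 (blocks9296to9299 q)))
 (cond (Nat.blt q 9304) (cond (Nat.blt q 9301) (blocks9299to9301 q)
 (blocks9301to9304 q))
 (cond (Nat.blt q 9307) (blocks9304to9307 q)
 (blocks9307to9310 q))))

noncomputable def blocks9310to9312 (q : ℕ) : ℕ :=
 cond (Nat.blt q 9311) (block9310)
 (block9311)

noncomputable def blocks9312to9315 (q : ℕ) : ℕ :=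
 cond (Nat.blt q 9313) (block9312)
 (cond (Nat.blt q 9314) (block9313)
 (block9314))

noncomputable def blocks9315to9317 (q : ℕ) : ℕ :=
 cond (Nat.blt q 9316) (block9315)
 (block9316)

noncomputable def blocks9317to9320 (q : ℕ) : ℕ :=
 cond (Nat.blt q 9318) (block9317)
 (cond (Nat.blt q 9319) (block9318)
 (block9319))

noncomputable def blocks9320to9322 (q : ℕ) : ℕ :=
 cond (Nat.blt q 9321) (block9320)
 (block9321)

noncomputable def blocks9322to9325 (q : ℕ) : ℕ :=
 cond (Nat.blt q 9323) (block9322)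
 (cond (Nat.blt q 9324) (block9323)
 (block9324))

noncomputable def blocks9325to9328 (q : ℕ) : ℕ :=
 cond (Nat.blt q 9326) (block9325)
 (cond (Nat.blt q 9327) (block9326)
 (block9327))

noncomputable def blocks9328to9331 (q : ℕ) : ℕ :=
 cond (Nat.blt q 9329) (block9328)
 (cond (Nat.blt q 9330) (block9329)
 (block9330))

noncomputable def blocks9331to9333 (q : ℕ) : ℕ :=
 cond (Nat.blt q 9332) (block9331)
 (block9332)

noncomputable def blocks9333to9336 (q : ℕ) : ℕ :=
 cond (Nat.blt q 9334) (block9333)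
 (cond (Nat.blt q 9335) (block9334)
 (block9335))

noncomputable def blocks9336to9339 (q : ℕ) : ℕ :=
 cond (Nat.blt q 9337) (block9336)
 (cond (Nat.blt q 9338) (block9337)
 (block9338))

noncomputable def blocks9339to9342 (q : ℕ) : ℕ :=
 cond (Nat.blt q 9340) (block9339)
 (cond (Nat.blt q 9341) (block9340)
 (block9341))

noncomputable def blocks9342to9344 (q : ℕ) : ℕ :=
 cond (Nat.blt q 9343) (block9342)
 (block9343)

noncomputable def blocks9344to9347 (q : ℕ) : ℕ :=
 cond (Nat.blt q 9345) (block9344)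
 (cond (Nat.blt q 9346) (block9345)
 (block9346))

noncomputable def blocks9347to9350 (q : ℕ) : ℕ :=
 cond (Nat.blt q 9348) (block9347)
 (cond (Nat.blt q 9349) (block9348)
 (block9349))

noncomputable def blocks9350to9353 (q : ℕ) : ℕ :=
 cond (Nat.blt q 9351) (block9350)
 (cond (Nat.blt q 9352) (block9351)
 (block9352))

noncomputable def blocks9310to9353 (q : ℕ) : ℕ :=
 cond (Nat.blt q 9331) (cond (Nat.blt q 9320) (cond (Nat.blt q 9315) (cond (Nat.blt q 9312) (blocks9310to9312 q)
 (blocks9312to9315 q))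
 (cond (Nat.blt q 9317) (blocks9315to9317 q)
 (blocks9317to9320 q)))
 (cond (Nat.blt q 9325) (cond (Nat.blt q 9322) (blocks9320to9322 q)
 (blocks9322to9325 q))
 (cond (Nat.blt q 9328) (blocks9325to9328 q)
 (blocks9328to9331 q))))
 (cond (Nat.blt q 9342) (cond (Nat.blt q 9336) (cond (Nat.blt q 9333) (blocks9331to9333 q)
 (blocks9333to9336 q))
 (cond (Nat.blt q 9339) (blocks9336to9339 q)
 (blocks9339to9342 q)))
 (cond (Nat.blt q 9347) (cond (Nat.blt q 9344) (blocks9342to9344 q)
 (blocks9344to9347 q))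
 (cond (Nat.blt q 9350) (blocks9347to9350 q)
 (blocks9350to9353 q))))

noncomputable def blocks9353to9355 (q : ℕ) : ℕ :=
 cond (Nat.blt q 9354) (block9353)
 (block9354)

noncomputable def blocks9355to9358 (q : ℕ) : ℕ :=
 cond (Nat.blt q 9356) (block9355)
 (cond (Nat.blt q 9357) (block9356)
 (block9357))

noncomputable def blocks9358to9360 (q : ℕ) : ℕ :=
 cond (Nat.blt q 9359) (block9358)
 (block9359)

noncomputable def blocks9360to9363 (q : ℕ) : ℕ :=
 cond (Nat.blt q 9361) (block9360)
 (cond (Nat.blt q 9362) (block9361)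
 (block9362))

noncomputable def blocks9363to9365 (q : ℕ) : ℕ :=
 cond (Nat.blt q 9364) (block9363)
 (block9364)

noncomputable def blocks9365to9368 (q : ℕ) : ℕ :=
 cond (Nat.blt q 9366) (block9365)
 (cond (Nat.blt q 9367) (block9366)
 (block9367))

noncomputable def blocks9368to9371 (q : ℕ) : ℕ :=
 cond (Nat.blt q 9369) (block9368)
 (cond (Nat.blt q 9370) (block9369)
 (block9370))

noncomputable def blocks9371to9374 (q : ℕ) : ℕ :=
 cond (Nat.blt q 9372) (block9371)
 (cond (Nat.blt q 9373) (block9372)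
 (block9373))

noncomputable def blocks9374to9376 (q : ℕ) : ℕ :=
 cond (Nat.blt q 9375) (block9374)
 (block9375)

noncomputable def blocks9376to9379 (q : ℕ) : ℕ :=
 cond (Nat.blt q 9377) (block9376)
 (cond (Nat.blt q 9378) (block9377)
 (block9378))

noncomputable def blocks9379to9381 (q : ℕ) : ℕ :=
 cond (Nat.blt q 9380) (block9379)
 (block9380)

noncomputable def blocks9381to9384 (q : ℕ) : ℕ :=
 cond (Nat.blt q 9382) (block9381)
 (cond (Nat.blt q 9383) (block9382)
 (block9383))

noncomputable def blocks9384to9386 (q : ℕ) : ℕ :=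
 cond (Nat.blt q 9385) (block9384)
 (block9385)

noncomputable def blocks9386to9389 (q : ℕ) : ℕ :=
 cond (Nat.blt q 9387) (block9386)
 (cond (Nat.blt q 9388) (block9387)
 (block9388))

noncomputable def blocks9389to9392 (q : ℕ) : ℕ :=
 cond (Nat.blt q 9390) (block9389)
 (cond (Nat.blt q 9391) (block9390)
 (block9391))

noncomputable def blocks9392to9395 (q : ℕ) : ℕ :=
 cond (Nat.blt q 9393) (block9392)
 (cond (Nat.blt q 9394) (block9393)
 (block9394))

noncomputable def blocks9353to9395 (q : ℕ) : ℕ :=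
 cond (Nat.blt q 9374) (cond (Nat.blt q 9363) (cond (Nat.blt q 9358) (cond (Nat.blt q 9355) (blocks9353to9355 q)
 (blocks9355to9358 q))
 (cond (Nat.blt q 9360) (blocks9358to9360 q)
 (blocks9360to9363 q)))
 (cond (Nat.blt q 9368) (cond (Nat.blt q 9365) (blocks9363to9365 q)
 (blocks9365to9368 q))
 (cond (Nat.blt q 9371) (blocks9368to9371 q)
 (blocks9371to9374 q))))
 (cond (Nat.blt q 9384) (cond (Nat.blt q 9379) (cond (Nat.blt q 9376) (blocks9374to9376 q)
 (blocks9376to9379 q))
 (cond (Nat.blt q 9381) (blocks9379to9381 q)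
 (blocks9381to9384 q)))
 (cond (Nat.blt q 9389) (cond (Nat.blt q 9386) (blocks9384to9386 q)
 (blocks9386to9389 q))
 (cond (Nat.blt q 9392) (blocks9389to9392 q)
 (blocks9392to9395 q))))

noncomputable def blocks9395to9397 (q : ℕ) : ℕ :=
 cond (Nat.blt q 9396) (block9395)
 (block9396)

noncomputable def blocks9397to9400 (q : ℕ) : ℕ :=
 cond (Nat.blt q 9398) (block9397)
 (cond (Nat.blt q 9399) (block9398)
 (block9399))

noncomputable def blocks9400to9402 (q : ℕ) : ℕ :=
 cond (Nat.blt q 9401) (block9400)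
 (block9401)

noncomputable def blocks9402to9405 (q : ℕ) : ℕ :=
 cond (Nat.blt q 9403) (block9402)
 (cond (Nat.blt q 9404) (block9403)
 (block9404))

noncomputable def blocks9405to9407 (q : ℕ) : ℕ :=
 cond (Nat.blt q 9406) (block9405)
 (block9406)

noncomputable def blocks9407to9410 (q : ℕ) : ℕ :=
 cond (Nat.blt q 9408) (block9407)
 (cond (Nat.blt q 9409) (block9408)
 (block9409))

noncomputable def blocks9410to9413 (q : ℕ) : ℕ :=
 cond (Nat.blt q 9411) (block9410)
 (cond (Nat.blt q 9412) (block9411)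
 (block9412))

noncomputable def blocks9413to9416 (q : ℕ) : ℕ :=
 cond (Nat.blt q 9414) (block9413)
 (cond (Nat.blt q 9415) (block9414)
 (block9415))

noncomputable def blocks9416to9418 (q : ℕ) : ℕ :=
 cond (Nat.blt q 9417) (block9416)
 (block9417)

noncomputable def blocks9418to9421 (q : ℕ) : ℕ :=
 cond (Nat.blt q 9419) (block9418)
 (cond (Nat.blt q 9420) (block9419)
 (block9420))

noncomputable def blocks9421to9424 (q : ℕ) : ℕ :=
 cond (Nat.blt q 9422) (block9421)
 (cond (Nat.blt q 9423) (block9422)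
 (block9423))

noncomputable def blocks9424to9427 (q : ℕ) : ℕ :=
 cond (Nat.blt q 9425) (block9424)
 (cond (Nat.blt q 9426) (block9425)
 (block9426))

noncomputable def blocks9427to9429 (q : ℕ) : ℕ :=
 cond (Nat.blt q 9428) (block9427)
 (block9428)

noncomputable def blocks9429to9432 (q : ℕ) : ℕ :=
 cond (Nat.blt q 9430) (block9429)
 (cond (Nat.blt q 9431) (block9430)
 (block9431))

noncomputable def blocks9432to9435 (q : ℕ) : ℕ :=
 cond (Nat.blt q 9433) (block9432)
 (cond (Nat.blt q 9434) (block9433)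
 (block9434))

noncomputable def blocks9435to9438 (q : ℕ) : ℕ :=
 cond (Nat.blt q 9436) (block9435)
 (cond (Nat.blt q 9437) (block9436)
 (block9437))

noncomputable def blocks9395to9438 (q : ℕ) : ℕ :=
 cond (Nat.blt q 9416) (cond (Nat.blt q 9405) (cond (Nat.blt q 9400) (cond (Nat.blt q 9397) (blocks9395to9397 q)
 (blocks9397to9400 q))
 (cond (Nat.blt q 9402) (blocks9400to9402 q)
 (blocks9402to9405 q)))
 (cond (Nat.blt q 9410) (cond (Nat.blt q 9407) (blocks9405to9407 q)
 (blocks9407to9410 q))
 (cond (Nat.blt q 9413) (blocks9410to9413 q)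
 (blocks9413to9416 q))))
 (cond (Nat.blt q 9427) (cond (Nat.blt q 9421) (cond (Nat.blt q 9418) (blocks9416to9418 q)
 (blocks9418to9421 q))
 (cond (Nat.blt q 9424) (blocks9421to9424 q)
 (blocks9424to9427 q)))
 (cond (Nat.blt q 9432) (cond (Nat.blt q 9429) (blocks9427to9429 q)
 (blocks9429to9432 q))
 (cond (Nat.blt q 9435) (blocks9432to9435 q)
 (blocks9435to9438 q))))

noncomputable def blocks9438to9440 (q : ℕ) : ℕ :=
 cond (Nat.blt q 9439) (block9438)
 (block9439)

noncomputable def blocks9440to9443 (q : ℕ) : ℕ :=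
 cond (Nat.blt q 9441) (block9440)
 (cond (Nat.blt q 9442) (block9441)
 (block9442))

noncomputable def blocks9443to9445 (q : ℕ) : ℕ :=
 cond (Nat.blt q 9444) (block9443)
 (block9444)

noncomputable def blocks9445to9448 (q : ℕ) : ℕ :=
 cond (Nat.blt q 9446) (block9445)
 (cond (Nat.blt q 9447) (block9446)
 (block9447))

noncomputable def blocks9448to9450 (q : ℕ) : ℕ :=
 cond (Nat.blt q 9449) (block9448)
 (block9449)

noncomputable def blocks9450to9453 (q : ℕ) : ℕ :=
 cond (Nat.blt q 9451) (block9450)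
 (cond (Nat.blt q 9452) (block9451)
 (block9452))

noncomputable def blocks9453to9456 (q : ℕ) : ℕ :=
 cond (Nat.blt q 9454) (block9453)
 (cond (Nat.blt q 9455) (block9454)
 (block9455))

noncomputable def blocks9456to9459 (q : ℕ) : ℕ :=
 cond (Nat.blt q 9457) (block9456)
 (cond (Nat.blt q 9458) (block9457)
 (block9458))

noncomputable def blocks9459to9461 (q : ℕ) : ℕ :=
 cond (Nat.blt q 9460) (block9459)
 (block9460)

noncomputable def blocks9461to9464 (q : ℕ) : ℕ :=
 cond (Nat.blt q 9462) (block9461)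
 (cond (Nat.blt q 9463) (block9462)
 (block9463))

noncomputable def blocks9464to9467 (q : ℕ) : ℕ :=
 cond (Nat.blt q 9465) (block9464)
 (cond (Nat.blt q 9466) (block9465)
 (block9466))

noncomputable def blocks9467to9470 (q : ℕ) : ℕ :=
 cond (Nat.blt q 9468) (block9467)
 (cond (Nat.blt q 9469) (block9468)
 (block9469))

noncomputable def blocks9470to9472 (q : ℕ) : ℕ :=
 cond (Nat.blt q 9471) (block9470)
 (block9471)

noncomputable def blocks9472to9475 (q : ℕ) : ℕ :=
 cond (Nat.blt q 9473) (block9472)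
 (cond (Nat.blt q 9474) (block9473)
 (block9474))

noncomputable def blocks9475to9478 (q : ℕ) : ℕ :=
 cond (Nat.blt q 9476) (block9475)
 (cond (Nat.blt q 9477) (block9476)
 (block9477))

noncomputable def blocks9478to9481 (q : ℕ) : ℕ :=
 cond (Nat.blt q 9479) (block9478)
 (cond (Nat.blt q 9480) (block9479)
 (block9480))

noncomputable def blocks9438to9481 (q : ℕ) : ℕ :=
 cond (Nat.blt q 9459) (cond (Nat.blt q 9448) (cond (Nat.blt q 9443) (cond (Nat.blt q 9440) (blocks9438to9440 q)
 (blocks9440to9443 q))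
 (cond (Nat.blt q 9445) (blocks9443to9445 q)
 (blocks9445to9448 q)))
 (cond (Nat.blt q 9453) (cond (Nat.blt q 9450) (blocks9448to9450 q)
 (blocks9450to9453 q))
 (cond (Nat.blt q 9456) (blocks9453to9456 q)
 (blocks9456to9459 q))))
 (cond (Nat.blt q 9470) (cond (Nat.blt q 9464) (cond (Nat.blt q 9461) (blocks9459to9461 q)
 (blocks9461to9464 q))
 (cond (Nat.blt q 9467) (blocks9464to9467 q)
 (blocks9467to9470 q)))
 (cond (Nat.blt q 9475) (cond (Nat.blt q 9472) (blocks9470to9472 q)
 (blocks9472to9475 q))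
 (cond (Nat.blt q 9478) (blocks9475to9478 q)
 (blocks9478to9481 q))))

noncomputable def blocks9481to9483 (q : ℕ) : ℕ :=
 cond (Nat.blt q 9482) (block9481)
 (block9482)

noncomputable def blocks9483to9486 (q : ℕ) : ℕ :=
 cond (Nat.blt q 9484) (block9483)
 (cond (Nat.blt q 9485) (block9484)
 (block9485))

noncomputable def blocks9486to9488 (q : ℕ) : ℕ :=
 cond (Nat.blt q 9487) (block9486)
 (block9487)

noncomputable def blocks9488to9491 (q : ℕ) : ℕ :=
 cond (Nat.blt q 9489) (block9488)
 (cond (Nat.blt q 9490) (block9489)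
 (block9490))

noncomputable def blocks9491to9493 (q : ℕ) : ℕ :=
 cond (Nat.blt q 9492) (block9491)
 (block9492)

noncomputable def blocks9493to9496 (q : ℕ) : ℕ :=
 cond (Nat.blt q 9494) (block9493)
 (cond (Nat.blt q 9495) (block9494)
 (block9495))

noncomputable def blocks9496to9499 (q : ℕ) : ℕ :=
 cond (Nat.blt q 9497) (block9496)
 (cond (Nat.blt q 9498) (block9497)
 (block9498))

noncomputable def blocks9499to9502 (q : ℕ) : ℕ :=
 cond (Nat.blt q 9500) (block9499)
 (cond (Nat.blt q 9501) (block9500)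
 (block9501))

noncomputable def blocks9502to9504 (q : ℕ) : ℕ :=
 cond (Nat.blt q 9503) (block9502)
 (block9503)

noncomputable def blocks9504to9507 (q : ℕ) : ℕ :=
 cond (Nat.blt q 9505) (block9504)
 (cond (Nat.blt q 9506) (block9505)
 (block9506))

noncomputable def blocks9507to9510 (q : ℕ) : ℕ :=
 cond (Nat.blt q 9508) (block9507)
 (cond (Nat.blt q 9509) (block9508)
 (block9509))

noncomputable def blocks9510to9513 (q : ℕ) : ℕ :=
 cond (Nat.blt q 9511) (block9510)
 (cond (Nat.blt q 9512) (block9511)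
 (block9512))

noncomputable def blocks9513to9515 (q : ℕ) : ℕ :=
 cond (Nat.blt q 9514) (block9513)
 (block9514)

noncomputable def blocks9515to9518 (q : ℕ) : ℕ :=
 cond (Nat.blt q 9516) (block9515)
 (cond (Nat.blt q 9517) (block9516)
 (block9517))

noncomputable def blocks9518to9521 (q : ℕ) : ℕ :=
 cond (Nat.blt q 9519) (block9518)
 (cond (Nat.blt q 9520) (block9519)
 (block9520))

noncomputable def blocks9521to9524 (q : ℕ) : ℕ :=
 cond (Nat.blt q 9522) (block9521)
 (cond (Nat.blt q 9523) (block9522)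
 (block9523))

noncomputable def blocks9481to9524 (q : ℕ) : ℕ :=
 cond (Nat.blt q 9502) (cond (Nat.blt q 9491) (cond (Nat.blt q 9486) (cond (Nat.blt q 9483) (blocks9481to9483 q)
 (blocks9483to9486 q))
 (cond (Nat.blt q 9488) (blocks9486to9488 q)
 (blocks9488to9491 q)))
 (cond (Nat.blt q 9496) (cond (Nat.blt q 9493) (blocks9491to9493 q)
 (blocks9493to9496 q))
 (cond (Nat.blt q 9499) (blocks9496to9499 q)
 (blocks9499to9502 q))))
 (cond (Nat.blt q 9513) (cond (Nat.blt q 9507) (cond (Nat.blt q 9504) (blocks9502to9504 q)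
 (blocks9504to9507 q))
 (cond (Nat.blt q 9510) (blocks9507to9510 q)
 (blocks9510to9513 q)))
 (cond (Nat.blt q 9518) (cond (Nat.blt q 9515) (blocks9513to9515 q)
 (blocks9515to9518 q))
 (cond (Nat.blt q 9521) (blocks9518to9521 q)
 (blocks9521to9524 q))))

noncomputable def blocks8843to9524 (q : ℕ) : ℕ :=
 cond (Nat.blt q 9183) (cond (Nat.blt q 9013) (cond (Nat.blt q 8928) (cond (Nat.blt q 8885) (blocks8843to8885 q)
 (blocks8885to8928 q))
 (cond (Nat.blt q 8970) (blocks8928to8970 q)
 (blocks8970to9013 q)))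
 (cond (Nat.blt q 9098) (cond (Nat.blt q 9055) (blocks9013to9055 q)
 (blocks9055to9098 q))
 (cond (Nat.blt q 9140) (blocks9098to9140 q)
 (blocks9140to9183 q))))
 (cond (Nat.blt q 9353) (cond (Nat.blt q 9268) (cond (Nat.blt q 9225) (blocks9183to9225 q)
 (blocks9225to9268 q))
 (cond (Nat.blt q 9310) (blocks9268to9310 q)
 (blocks9310to9353 q)))
 (cond (Nat.blt q 9438) (cond (Nat.blt q 9395) (blocks9353to9395 q)
 (blocks9395to9438 q))
 (cond (Nat.blt q 9481) (blocks9438to9481 q)
 (blocks9481to9524 q))))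

noncomputable def blocks9524to9526 (q : ℕ) : ℕ :=
 cond (Nat.blt q 9525) (block9524)
 (block9525)

noncomputable def blocks9526to9529 (q : ℕ) : ℕ :=
 cond (Nat.blt q 9527) (block9526)
 (cond (Nat.blt q 9528) (block9527)
 (block9528))

noncomputable def blocks9529to9531 (q : ℕ) : ℕ :=
 cond (Nat.blt q 9530) (block9529)
 (block9530)

noncomputable def blocks9531to9534 (q : ℕ) : ℕ :=
 cond (Nat.blt q 9532) (block9531)
 (cond (Nat.blt q 9533) (block9532)
 (block9533))

noncomputable def blocks9534to9536 (q : ℕ) : ℕ :=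
 cond (Nat.blt q 9535) (block9534)
 (block9535)

noncomputable def blocks9536to9539 (q : ℕ) : ℕ :=
 cond (Nat.blt q 9537) (block9536)
 (cond (Nat.blt q 9538) (block9537)
 (block9538))

noncomputable def blocks9539to9542 (q : ℕ) : ℕ :=
 cond (Nat.blt q 9540) (block9539)
 (cond (Nat.blt q 9541) (block9540)
 (block9541))

noncomputable def blocks9542to9545 (q : ℕ) : ℕ :=
 cond (Nat.blt q 9543) (block9542)
 (cond (Nat.blt q 9544) (block9543)
 (block9544))

noncomputable def blocks9545to9547 (q : ℕ) : ℕ :=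
 cond (Nat.blt q 9546) (block9545)
 (block9546)

noncomputable def blocks9547to9550 (q : ℕ) : ℕ :=
 cond (Nat.blt q 9548) (block9547)
 (cond (Nat.blt q 9549) (block9548)
 (block9549))

noncomputable def blocks9550to9552 (q : ℕ) : ℕ :=
 cond (Nat.blt q 9551) (block9550)
 (block9551)

noncomputable def blocks9552to9555 (q : ℕ) : ℕ :=
 cond (Nat.blt q 9553) (block9552)
 (cond (Nat.blt q 9554) (block9553)
 (block9554))

noncomputable def blocks9555to9557 (q : ℕ) : ℕ :=
 cond (Nat.blt q 9556) (block9555)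
 (block9556)

noncomputable def blocks9557to9560 (q : ℕ) : ℕ :=
 cond (Nat.blt q 9558) (block9557)
 (cond (Nat.blt q 9559) (block9558)
 (block9559))

noncomputable def blocks9560to9563 (q : ℕ) : ℕ :=
 cond (Nat.blt q 9561) (block9560)
 (cond (Nat.blt q 9562) (block9561)
 (block9562))

noncomputable def blocks9563to9566 (q : ℕ) : ℕ :=
 cond (Nat.blt q 9564) (block9563)
 (cond (Nat.blt q 9565) (block9564)
 (block9565))

noncomputable def blocks9524to9566 (q : ℕ) : ℕ :=
 cond (Nat.blt q 9545) (cond (Nat.blt q 9534) (cond (Nat.blt q 9529) (cond (Nat.blt q 9526) (blocks9524to9526 q)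
 (blocks9526to9529 q))
 (cond (Nat.blt q 9531) (blocks9529to9531 q)
 (blocks9531to9534 q)))
 (cond (Nat.blt q 9539) (cond (Nat.blt q 9536) (blocks9534to9536 q)
 (blocks9536to9539 q))
 (cond (Nat.blt q 9542) (blocks9539to9542 q)
 (blocks9542to9545 q))))
 (cond (Nat.blt q 9555) (cond (Nat.blt q 9550) (cond (Nat.blt q 9547) (blocks9545to9547 q)
 (blocks9547to9550 q))
 (cond (Nat.blt q 9552) (blocks9550to9552 q)
 (blocks9552to9555 q)))
 (cond (Nat.blt q 9560) (cond (Nat.blt q 9557) (blocks9555to9557 q)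
 (blocks9557to9560 q))
 (cond (Nat.blt q 9563) (blocks9560to9563 q)
 (blocks9563to9566 q))))

noncomputable def blocks9566to9568 (q : ℕ) : ℕ :=
 cond (Nat.blt q 9567) (block9566)
 (block9567)

noncomputable def blocks9568to9571 (q : ℕ) : ℕ :=
 cond (Nat.blt q 9569) (block9568)
 (cond (Nat.blt q 9570) (block9569)
 (block9570))

noncomputable def blocks9571to9573 (q : ℕ) : ℕ :=
 cond (Nat.blt q 9572) (block9571)
 (block9572)

noncomputable def blocks9573to9576 (q : ℕ) : ℕ :=
 cond (Nat.blt q 9574) (block9573)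
 (cond (Nat.blt q 9575) (block9574)
 (block9575))

noncomputable def blocks9576to9578 (q : ℕ) : ℕ :=
 cond (Nat.blt q 9577) (block9576)
 (block9577)

noncomputable def blocks9578to9581 (q : ℕ) : ℕ :=
 cond (Nat.blt q 9579) (block9578)
 (cond (Nat.blt q 9580) (block9579)
 (block9580))

noncomputable def blocks9581to9584 (q : ℕ) : ℕ :=
 cond (Nat.blt q 9582) (block9581)
 (cond (Nat.blt q 9583) (block9582)
 (block9583))

noncomputable def blocks9584to9587 (q : ℕ) : ℕ :=
 cond (Nat.blt q 9585) (block9584)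
 (cond (Nat.blt q 9586) (block9585)
 (block9586))

noncomputable def blocks9587to9589 (q : ℕ) : ℕ :=
 cond (Nat.blt q 9588) (block9587)
 (block9588)

noncomputable def blocks9589to9592 (q : ℕ) : ℕ :=
 cond (Nat.blt q 9590) (block9589)
 (cond (Nat.blt q 9591) (block9590)
 (block9591))

noncomputable def blocks9592to9595 (q : ℕ) : ℕ :=
 cond (Nat.blt q 9593) (block9592)
 (cond (Nat.blt q 9594) (block9593)
 (block9594))

noncomputable def blocks9595to9598 (q : ℕ) : ℕ :=
 cond (Nat.blt q 9596) (block9595)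
 (cond (Nat.blt q 9597) (block9596)
 (block9597))

noncomputable def blocks9598to9600 (q : ℕ) : ℕ :=
 cond (Nat.blt q 9599) (block9598)
 (block9599)

noncomputable def blocks9600to9603 (q : ℕ) : ℕ :=
 cond (Nat.blt q 9601) (block9600)
 (cond (Nat.blt q 9602) (block9601)
 (block9602))

noncomputable def blocks9603to9606 (q : ℕ) : ℕ :=
 cond (Nat.blt q 9604) (block9603)
 (cond (Nat.blt q 9605) (block9604)
 (block9605))

noncomputable def blocks9606to9609 (q : ℕ) : ℕ :=
 cond (Nat.blt q 9607) (block9606)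
 (cond (Nat.blt q 9608) (block9607)
 (block9608))

noncomputable def blocks9566to9609 (q : ℕ) : ℕ :=
 cond (Nat.blt q 9587) (cond (Nat.blt q 9576) (cond (Nat.blt q 9571) (cond (Nat.blt q 9568) (blocks9566to9568 q)
 (blocks9568to9571 q))
 (cond (Nat.blt q 9573) (blocks9571to9573 q)
 (blocks9573to9576 q)))
 (cond (Nat.blt q 9581) (cond (Nat.blt q 9578) (blocks9576to9578 q)
 (blocks9578to9581 q))
 (cond (Nat.blt q 9584) (blocks9581to9584 q)
 (blocks9584to9587 q))))
 (cond (Nat.blt q 9598) (cond (Nat.blt q 9592) (cond (Nat.blt q 9589) (blocks9587to9589 q)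
 (blocks9589to9592 q))
 (cond (Nat.blt q 9595) (blocks9592to9595 q)
 (blocks9595to9598 q)))
 (cond (Nat.blt q 9603) (cond (Nat.blt q 9600) (blocks9598to9600 q)
 (blocks9600to9603 q))
 (cond (Nat.blt q 9606) (blocks9603to9606 q)
 (blocks9606to9609 q))))

noncomputable def blocks9609to9611 (q : ℕ) : ℕ :=
 cond (Nat.blt q 9610) (block9609)
 (block9610)

noncomputable def blocks9611to9614 (q : ℕ) : ℕ :=
 cond (Nat.blt q 9612) (block9611)
 (cond (Nat.blt q 9613) (block9612)
 (block9613))

noncomputable def blocks9614to9616 (q : ℕ) : ℕ :=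
 cond (Nat.blt q 9615) (block9614)
 (block9615)

noncomputable def blocks9616to9619 (q : ℕ) : ℕ :=
 cond (Nat.blt q 9617) (block9616)
 (cond (Nat.blt q 9618) (block9617)
 (block9618))

noncomputable def blocks9619to9621 (q : ℕ) : ℕ :=
 cond (Nat.blt q 9620) (block9619)
 (block9620)

noncomputable def blocks9621to9624 (q : ℕ) : ℕ :=
 cond (Nat.blt q 9622) (block9621)
 (cond (Nat.blt q 9623) (block9622)
 (block9623))

noncomputable def blocks9624to9627 (q : ℕ) : ℕ :=
 cond (Nat.blt q 9625) (block9624)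
 (cond (Nat.blt q 9626) (block9625)
 (block9626))

noncomputable def blocks9627to9630 (q : ℕ) : ℕ :=
 cond (Nat.blt q 9628) (block9627)
 (cond (Nat.blt q 9629) (block9628)
 (block9629))

noncomputable def blocks9630to9632 (q : ℕ) : ℕ :=
 cond (Nat.blt q 9631) (block9630)
 (block9631)

noncomputable def blocks9632to9635 (q : ℕ) : ℕ :=
 cond (Nat.blt q 9633) (block9632)
 (cond (Nat.blt q 9634) (block9633)
 (block9634))

noncomputable def blocks9635to9637 (q : ℕ) : ℕ :=
 cond (Nat.blt q 9636) (block9635)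
 (block9636)

noncomputable def blocks9637to9640 (q : ℕ) : ℕ :=
 cond (Nat.blt q 9638) (block9637)
 (cond (Nat.blt q 9639) (block9638)
 (block9639))

noncomputable def blocks9640to9642 (q : ℕ) : ℕ :=
 cond (Nat.blt q 9641) (block9640)
 (block9641)

noncomputable def blocks9642to9645 (q : ℕ) : ℕ :=
 cond (Nat.blt q 9643) (block9642)
 (cond (Nat.blt q 9644) (block9643)
 (block9644))

noncomputable def blocks9645to9648 (q : ℕ) : ℕ :=
 cond (Nat.blt q 9646) (block9645)
 (cond (Nat.blt q 9647) (block9646)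
 (block9647))

noncomputable def blocks9648to9651 (q : ℕ) : ℕ :=
 cond (Nat.blt q 9649) (block9648)
 (cond (Nat.blt q 9650) (block9649)
 (block9650))

noncomputable def blocks9609to9651 (q : ℕ) : ℕ :=
 cond (Nat.blt q 9630) (cond (Nat.blt q 9619) (cond (Nat.blt q 9614) (cond (Nat.blt q 9611) (blocks9609to9611 q)
 (blocks9611to9614 q))
 (cond (Nat.blt q 9616) (blocks9614to9616 q)
 (blocks9616to9619 q)))
 (cond (Nat.blt q 9624) (cond (Nat.blt q 9621) (blocks9619to9621 q)
 (blocks9621to9624 q))
 (cond (Nat.blt q 9627) (blocks9624to9627 q)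
 (blocks9627to9630 q))))
 (cond (Nat.blt q 9640) (cond (Nat.blt q 9635) (cond (Nat.blt q 9632) (blocks9630to9632 q)
 (blocks9632to9635 q))
 (cond (Nat.blt q 9637) (blocks9635to9637 q)
 (blocks9637to9640 q)))
 (cond (Nat.blt q 9645) (cond (Nat.blt q 9642) (blocks9640to9642 q)
 (blocks9642to9645 q))
 (cond (Nat.blt q 9648) (blocks9645to9648 q)
 (blocks9648to9651 q))))

noncomputable def blocks9651to9653 (q : ℕ) : ℕ :=
 cond (Nat.blt q 9652) (block9651)
 (block9652)

noncomputable def blocks9653to9656 (q : ℕ) : ℕ :=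
 cond (Nat.blt q 9654) (block9653)
 (cond (Nat.blt q 9655) (block9654)
 (block9655))

noncomputable def blocks9656to9658 (q : ℕ) : ℕ :=
 cond (Nat.blt q 9657) (block9656)
 (block9657)

noncomputable def blocks9658to9661 (q : ℕ) : ℕ :=
 cond (Nat.blt q 9659) (block9658)
 (cond (Nat.blt q 9660) (block9659)
 (block9660))

noncomputable def blocks9661to9663 (q : ℕ) : ℕ :=
 cond (Nat.blt q 9662) (block9661)
 (block9662)

noncomputable def blocks9663to9666 (q : ℕ) : ℕ :=
 cond (Nat.blt q 9664) (block9663)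
 (cond (Nat.blt q 9665) (block9664)
 (block9665))

noncomputable def blocks9666to9669 (q : ℕ) : ℕ :=
 cond (Nat.blt q 9667) (block9666)
 (cond (Nat.blt q 9668) (block9667)
 (block9668))

noncomputable def blocks9669to9672 (q : ℕ) : ℕ :=
 cond (Nat.blt q 9670) (block9669)
 (cond (Nat.blt q 9671) (block9670)
 (block9671))

noncomputable def blocks9672to9674 (q : ℕ) : ℕ :=
 cond (Nat.blt q 9673) (block9672)
 (block9673)

noncomputable def blocks9674to9677 (q : ℕ) : ℕ :=
 cond (Nat.blt q 9675) (block9674)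
 (cond (Nat.blt q 9676) (block9675)
 (block9676))

noncomputable def blocks9677to9680 (q : ℕ) : ℕ :=
 cond (Nat.blt q 9678) (block9677)
 (cond (Nat.blt q 9679) (block9678)
 (block9679))

noncomputable def blocks9680to9683 (q : ℕ) : ℕ :=
 cond (Nat.blt q 9681) (block9680)
 (cond (Nat.blt q 9682) (block9681)
 (block9682))

noncomputable def blocks9683to9685 (q : ℕ) : ℕ :=
 cond (Nat.blt q 9684) (block9683)
 (block9684)

noncomputable def blocks9685to9688 (q : ℕ) : ℕ :=
 cond (Nat.blt q 9686) (block9685)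
 (cond (Nat.blt q 9687) (block9686)
 (block9687))

noncomputable def blocks9688to9691 (q : ℕ) : ℕ :=
 cond (Nat.blt q 9689) (block9688)
 (cond (Nat.blt q 9690) (block9689)
 (block9690))

noncomputable def blocks9691to9694 (q : ℕ) : ℕ :=
 cond (Nat.blt q 9692) (block9691)
 (cond (Nat.blt q 9693) (block9692)
 (block9693))

noncomputable def blocks9651to9694 (q : ℕ) : ℕ :=
 cond (Nat.blt q 9672) (cond (Nat.blt q 9661) (cond (Nat.blt q 9656) (cond (Nat.blt q 9653) (blocks9651to9653 q)
 (blocks9653to9656 q))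
 (cond (Nat.blt q 9658) (blocks9656to9658 q)
 (blocks9658to9661 q)))
 (cond (Nat.blt q 9666) (cond (Nat.blt q 9663) (blocks9661to9663 q)
 (blocks9663to9666 q))
 (cond (Nat.blt q 9669) (blocks9666to9669 q)
 (blocks9669to9672 q))))
 (cond (Nat.blt q 9683) (cond (Nat.blt q 9677) (cond (Nat.blt q 9674) (blocks9672to9674 q)
 (blocks9674to9677 q))
 (cond (Nat.blt q 9680) (blocks9677to9680 q)
 (blocks9680to9683 q)))
 (cond (Nat.blt q 9688) (cond (Nat.blt q 9685) (blocks9683to9685 q)
 (blocks9685to9688 q))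
 (cond (Nat.blt q 9691) (blocks9688to9691 q)
 (blocks9691to9694 q))))

noncomputable def blocks9694to9696 (q : ℕ) : ℕ :=
 cond (Nat.blt q 9695) (block9694)
 (block9695)

noncomputable def blocks9696to9699 (q : ℕ) : ℕ :=
 cond (Nat.blt q 9697) (block9696)
 (cond (Nat.blt q 9698) (block9697)
 (block9698))

noncomputable def blocks9699to9701 (q : ℕ) : ℕ :=
 cond (Nat.blt q 9700) (block9699)
 (block9700)

noncomputable def blocks9701to9704 (q : ℕ) : ℕ :=
 cond (Nat.blt q 9702) (block9701)
 (cond (Nat.blt q 9703) (block9702)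
 (block9703))

noncomputable def blocks9704to9706 (q : ℕ) : ℕ :=
 cond (Nat.blt q 9705) (block9704)
 (block9705)

noncomputable def blocks9706to9709 (q : ℕ) : ℕ :=
 cond (Nat.blt q 9707) (block9706)
 (cond (Nat.blt q 9708) (block9707)
 (block9708))

noncomputable def blocks9709to9712 (q : ℕ) : ℕ :=
 cond (Nat.blt q 9710) (block9709)
 (cond (Nat.blt q 9711) (block9710)
 (block9711))

noncomputable def blocks9712to9715 (q : ℕ) : ℕ :=
 cond (Nat.blt q 9713) (block9712)
 (cond (Nat.blt q 9714) (block9713)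
 (block9714))

noncomputable def blocks9715to9717 (q : ℕ) : ℕ :=
 cond (Nat.blt q 9716) (block9715)
 (block9716)

noncomputable def blocks9717to9720 (q : ℕ) : ℕ :=
 cond (Nat.blt q 9718) (block9717)
 (cond (Nat.blt q 9719) (block9718)
 (block9719))

noncomputable def blocks9720to9722 (q : ℕ) : ℕ :=
 cond (Nat.blt q 9721) (block9720)
 (block9721)

noncomputable def blocks9722to9725 (q : ℕ) : ℕ :=
 cond (Nat.blt q 9723) (block9722)
 (cond (Nat.blt q 9724) (block9723)
 (block9724))

noncomputable def blocks9725to9727 (q : ℕ) : ℕ :=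
 cond (Nat.blt q 9726) (block9725)
 (block9726)

noncomputable def blocks9727to9730 (q : ℕ) : ℕ :=
 cond (Nat.blt q 9728) (block9727)
 (cond (Nat.blt q 9729) (block9728)
 (block9729))

noncomputable def blocks9730to9733 (q : ℕ) : ℕ :=
 cond (Nat.blt q 9731) (block9730)
 (cond (Nat.blt q 9732) (block9731)
 (block9732))

noncomputable def blocks9733to9736 (q : ℕ) : ℕ :=
 cond (Nat.blt q 9734) (block9733)
 (cond (Nat.blt q 9735) (block9734)
 (block9735))

noncomputable def blocks9694to9736 (q : ℕ) : ℕ :=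
 cond (Nat.blt q 9715) (cond (Nat.blt q 9704) (cond (Nat.blt q 9699) (cond (Nat.blt q 9696) (blocks9694to9696 q)
 (blocks9696to9699 q))
 (cond (Nat.blt q 9701) (blocks9699to9701 q)
 (blocks9701to9704 q)))
 (cond (Nat.blt q 9709) (cond (Nat.blt q 9706) (blocks9704to9706 q)
 (blocks9706to9709 q))
 (cond (Nat.blt q 9712) (blocks9709to9712 q)
 (blocks9712to9715 q))))
 (cond (Nat.blt q 9725) (cond (Nat.blt q 9720) (cond (Nat.blt q 9717) (blocks9715to9717 q)
 (blocks9717to9720 q))
 (cond (Nat.blt q 9722) (blocks9720to9722 q)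
 (blocks9722to9725 q)))
 (cond (Nat.blt q 9730) (cond (Nat.blt q 9727) (blocks9725to9727 q)
 (blocks9727to9730 q))
 (cond (Nat.blt q 9733) (blocks9730to9733 q)
 (blocks9733to9736 q))))

noncomputable def blocks9736to9738 (q : ℕ) : ℕ :=
 cond (Nat.blt q 9737) (block9736)
 (block9737)

noncomputable def blocks9738to9741 (q : ℕ) : ℕ :=
 cond (Nat.blt q 9739) (block9738)
 (cond (Nat.blt q 9740) (block9739)
 (block9740))

noncomputable def blocks9741to9743 (q : ℕ) : ℕ :=
 cond (Nat.blt q 9742) (block9741)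
 (block9742)

noncomputable def blocks9743to9746 (q : ℕ) : ℕ :=
 cond (Nat.blt q 9744) (block9743)
 (cond (Nat.blt q 9745) (block9744)
 (block9745))

noncomputable def blocks9746to9748 (q : ℕ) : ℕ :=
 cond (Nat.blt q 9747) (block9746)
 (block9747)

noncomputable def blocks9748to9751 (q : ℕ) : ℕ :=
 cond (Nat.blt q 9749) (block9748)
 (cond (Nat.blt q 9750) (block9749)
 (block9750))

noncomputable def blocks9751to9754 (q : ℕ) : ℕ :=
 cond (Nat.blt q 9752) (block9751)
 (cond (Nat.blt q 9753) (block9752)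
 (block9753))

noncomputable def blocks9754to9757 (q : ℕ) : ℕ :=
 cond (Nat.blt q 9755) (block9754)
 (cond (Nat.blt q 9756) (block9755)
 (block9756))

noncomputable def blocks9757to9759 (q : ℕ) : ℕ :=
 cond (Nat.blt q 9758) (block9757)
 (block9758)

noncomputable def blocks9759to9762 (q : ℕ) : ℕ :=
 cond (Nat.blt q 9760) (block9759)
 (cond (Nat.blt q 9761) (block9760)
 (block9761))

noncomputable def blocks9762to9765 (q : ℕ) : ℕ :=
 cond (Nat.blt q 9763) (block9762)
 (cond (Nat.blt q 9764) (block9763)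
 (block9764))

noncomputable def blocks9765to9768 (q : ℕ) : ℕ :=
 cond (Nat.blt q 9766) (block9765)
 (cond (Nat.blt q 9767) (block9766)
 (block9767))

noncomputable def blocks9768to9770 (q : ℕ) : ℕ :=
 cond (Nat.blt q 9769) (block9768)
 (block9769)

noncomputable def blocks9770to9773 (q : ℕ) : ℕ :=
 cond (Nat.blt q 9771) (block9770)
 (cond (Nat.blt q 9772) (block9771)
 (block9772))

noncomputable def blocks9773to9776 (q : ℕ) : ℕ :=
 cond (Nat.blt q 9774) (block9773)
 (cond (Nat.blt q 9775) (block9774)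
 (block9775))

noncomputable def blocks9776to9779 (q : ℕ) : ℕ :=
 cond (Nat.blt q 9777) (block9776)
 (cond (Nat.blt q 9778) (block9777)
 (block9778))

noncomputable def blocks9736to9779 (q : ℕ) : ℕ :=
 cond (Nat.blt q 9757) (cond (Nat.blt q 9746) (cond (Nat.blt q 9741) (cond (Nat.blt q 9738) (blocks9736to9738 q)
 (blocks9738to9741 q))
 (cond (Nat.blt q 9743) (blocks9741to9743 q)
 (blocks9743to9746 q)))
 (cond (Nat.blt q 9751) (cond (Nat.blt q 9748) (blocks9746to9748 q)
 (blocks9748to9751 q))
 (cond (Nat.blt q 9754) (blocks9751to9754 q)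
 (blocks9754to9757 q))))
 (cond (Nat.blt q 9768) (cond (Nat.blt q 9762) (cond (Nat.blt q 9759) (blocks9757to9759 q)
 (blocks9759to9762 q))
 (cond (Nat.blt q 9765) (blocks9762to9765 q)
 (blocks9765to9768 q)))
 (cond (Nat.blt q 9773) (cond (Nat.blt q 9770) (blocks9768to9770 q)
 (blocks9770to9773 q))
 (cond (Nat.blt q 9776) (blocks9773to9776 q)
 (blocks9776to9779 q))))

noncomputable def blocks9779to9781 (q : ℕ) : ℕ :=
 cond (Nat.blt q 9780) (block9779)
 (block9780)

noncomputable def blocks9781to9784 (q : ℕ) : ℕ :=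
 cond (Nat.blt q 9782) (block9781)
 (cond (Nat.blt q 9783) (block9782)
 (block9783))

noncomputable def blocks9784to9786 (q : ℕ) : ℕ :=
 cond (Nat.blt q 9785) (block9784)
 (block9785)

noncomputable def blocks9786to9789 (q : ℕ) : ℕ :=
 cond (Nat.blt q 9787) (block9786)
 (cond (Nat.blt q 9788) (block9787)
 (block9788))

noncomputable def blocks9789to9791 (q : ℕ) : ℕ :=
 cond (Nat.blt q 9790) (block9789)
 (block9790)

noncomputable def blocks9791to9794 (q : ℕ) : ℕ :=
 cond (Nat.blt q 9792) (block9791)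
 (cond (Nat.blt q 9793) (block9792)
 (block9793))

noncomputable def blocks9794to9797 (q : ℕ) : ℕ :=
 cond (Nat.blt q 9795) (block9794)
 (cond (Nat.blt q 9796) (block9795)
 (block9796))

noncomputable def blocks9797to9800 (q : ℕ) : ℕ :=
 cond (Nat.blt q 9798) (block9797)
 (cond (Nat.blt q 9799) (block9798)
 (block9799))

noncomputable def blocks9800to9802 (q : ℕ) : ℕ :=
 cond (Nat.blt q 9801) (block9800)
 (block9801)

noncomputable def blocks9802to9805 (q : ℕ) : ℕ :=
 cond (Nat.blt q 9803) (block9802)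
 (cond (Nat.blt q 9804) (block9803)
 (block9804))

noncomputable def blocks9805to9807 (q : ℕ) : ℕ :=
 cond (Nat.blt q 9806) (block9805)
 (block9806)

noncomputable def blocks9807to9810 (q : ℕ) : ℕ :=
 cond (Nat.blt q 9808) (block9807)
 (cond (Nat.blt q 9809) (block9808)
 (block9809))

noncomputable def blocks9810to9812 (q : ℕ) : ℕ :=
 cond (Nat.blt q 9811) (block9810)
 (block9811)

noncomputable def blocks9812to9815 (q : ℕ) : ℕ :=
 cond (Nat.blt q 9813) (block9812)
 (cond (Nat.blt q 9814) (block9813)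
 (block9814))

noncomputable def blocks9815to9818 (q : ℕ) : ℕ :=
 cond (Nat.blt q 9816) (block9815)
 (cond (Nat.blt q 9817) (block9816)
 (block9817))

noncomputable def blocks9818to9821 (q : ℕ) : ℕ :=
 cond (Nat.blt q 9819) (block9818)
 (cond (Nat.blt q 9820) (block9819)
 (block9820))

noncomputable def blocks9779to9821 (q : ℕ) : ℕ :=
 cond (Nat.blt q 9800) (cond (Nat.blt q 9789) (cond (Nat.blt q 9784) (cond (Nat.blt q 9781) (blocks9779to9781 q)
 (blocks9781to9784 q))
 (cond (Nat.blt q 9786) (blocks9784to9786 q)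
 (blocks9786to9789 q)))
 (cond (Nat.blt q 9794) (cond (Nat.blt q 9791) (blocks9789to9791 q)
 (blocks9791to9794 q))
 (cond (Nat.blt q 9797) (blocks9794to9797 q)
 (blocks9797to9800 q))))
 (cond (Nat.blt q 9810) (cond (Nat.blt q 9805) (cond (Nat.blt q 9802) (blocks9800to9802 q)
 (blocks9802to9805 q))
 (cond (Nat.blt q 9807) (blocks9805to9807 q)
 (blocks9807to9810 q)))
 (cond (Nat.blt q 9815) (cond (Nat.blt q 9812) (blocks9810to9812 q)
 (blocks9812to9815 q))
 (cond (Nat.blt q 9818) (blocks9815to9818 q)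
 (blocks9818to9821 q))))

noncomputable def blocks9821to9823 (q : ℕ) : ℕ :=
 cond (Nat.blt q 9822) (block9821)
 (block9822)

noncomputable def blocks9823to9826 (q : ℕ) : ℕ :=
 cond (Nat.blt q 9824) (block9823)
 (cond (Nat.blt q 9825) (block9824)
 (block9825))

noncomputable def blocks9826to9828 (q : ℕ) : ℕ :=
 cond (Nat.blt q 9827) (block9826)
 (block9827)

noncomputable def blocks9828to9831 (q : ℕ) : ℕ :=
 cond (Nat.blt q 9829) (block9828)
 (cond (Nat.blt q 9830) (block9829)
 (block9830))

noncomputable def blocks9831to9833 (q : ℕ) : ℕ :=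
 cond (Nat.blt q 9832) (block9831)
 (block9832)

noncomputable def blocks9833to9836 (q : ℕ) : ℕ :=
 cond (Nat.blt q 9834) (block9833)
 (cond (Nat.blt q 9835) (block9834)
 (block9835))

noncomputable def blocks9836to9839 (q : ℕ) : ℕ :=
 cond (Nat.blt q 9837) (block9836)
 (cond (Nat.blt q 9838) (block9837)
 (block9838))

noncomputable def blocks9839to9842 (q : ℕ) : ℕ :=
 cond (Nat.blt q 9840) (block9839)
 (cond (Nat.blt q 9841) (block9840)
 (block9841))

noncomputable def blocks9842to9844 (q : ℕ) : ℕ :=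
 cond (Nat.blt q 9843) (block9842)
 (block9843)

noncomputable def blocks9844to9847 (q : ℕ) : ℕ :=
 cond (Nat.blt q 9845) (block9844)
 (cond (Nat.blt q 9846) (block9845)
 (block9846))

noncomputable def blocks9847to9850 (q : ℕ) : ℕ :=
 cond (Nat.blt q 9848) (block9847)
 (cond (Nat.blt q 9849) (block9848)
 (block9849))

noncomputable def blocks9850to9853 (q : ℕ) : ℕ :=
 cond (Nat.blt q 9851) (block9850)
 (cond (Nat.blt q 9852) (block9851)
 (block9852))

noncomputable def blocks9853to9855 (q : ℕ) : ℕ :=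
 cond (Nat.blt q 9854) (block9853)
 (block9854)

noncomputable def blocks9855to9858 (q : ℕ) : ℕ :=
 cond (Nat.blt q 9856) (block9855)
 (cond (Nat.blt q 9857) (block9856)
 (block9857))

noncomputable def blocks9858to9861 (q : ℕ) : ℕ :=
 cond (Nat.blt q 9859) (block9858)
 (cond (Nat.blt q 9860) (block9859)
 (block9860))

noncomputable def blocks9861to9864 (q : ℕ) : ℕ :=
 cond (Nat.blt q 9862) (block9861)
 (cond (Nat.blt q 9863) (block9862)
 (block9863))

noncomputable def blocks9821to9864 (q : ℕ) : ℕ :=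
 cond (Nat.blt q 9842) (cond (Nat.blt q 9831) (cond (Nat.blt q 9826) (cond (Nat.blt q 9823) (blocks9821to9823 q)
 (blocks9823to9826 q))
 (cond (Nat.blt q 9828) (blocks9826to9828 q)
 (blocks9828to9831 q)))
 (cond (Nat.blt q 9836) (cond (Nat.blt q 9833) (blocks9831to9833 q)
 (blocks9833to9836 q))
 (cond (Nat.blt q 9839) (blocks9836to9839 q)
 (blocks9839to9842 q))))
 (cond (Nat.blt q 9853) (cond (Nat.blt q 9847) (cond (Nat.blt q 9844) (blocks9842to9844 q)
 (blocks9844to9847 q))
 (cond (Nat.blt q 9850) (blocks9847to9850 q)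
 (blocks9850to9853 q)))
 (cond (Nat.blt q 9858) (cond (Nat.blt q 9855) (blocks9853to9855 q)
 (blocks9855to9858 q))
 (cond (Nat.blt q 9861) (blocks9858to9861 q)
 (blocks9861to9864 q))))

noncomputable def blocks9864to9866 (q : ℕ) : ℕ :=
 cond (Nat.blt q 9865) (block9864)
 (block9865)

noncomputable def blocks9866to9869 (q : ℕ) : ℕ :=
 cond (Nat.blt q 9867) (block9866)
 (cond (Nat.blt q 9868) (block9867)
 (block9868))

noncomputable def blocks9869to9871 (q : ℕ) : ℕ :=
 cond (Nat.blt q 9870) (block9869)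
 (block9870)

noncomputable def blocks9871to9874 (q : ℕ) : ℕ :=
 cond (Nat.blt q 9872) (block9871)
 (cond (Nat.blt q 9873) (block9872)
 (block9873))

noncomputable def blocks9874to9876 (q : ℕ) : ℕ :=
 cond (Nat.blt q 9875) (block9874)
 (block9875)

noncomputable def blocks9876to9879 (q : ℕ) : ℕ :=
 cond (Nat.blt q 9877) (block9876)
 (cond (Nat.blt q 9878) (block9877)
 (block9878))

noncomputable def blocks9879to9882 (q : ℕ) : ℕ :=
 cond (Nat.blt q 9880) (block9879)
 (cond (Nat.blt q 9881) (block9880)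
 (block9881))

noncomputable def blocks9882to9885 (q : ℕ) : ℕ :=
 cond (Nat.blt q 9883) (block9882)
 (cond (Nat.blt q 9884) (block9883)
 (block9884))

noncomputable def blocks9885to9887 (q : ℕ) : ℕ :=
 cond (Nat.blt q 9886) (block9885)
 (block9886)

noncomputable def blocks9887to9890 (q : ℕ) : ℕ :=
 cond (Nat.blt q 9888) (block9887)
 (cond (Nat.blt q 9889) (block9888)
 (block9889))

noncomputable def blocks9890to9892 (q : ℕ) : ℕ :=
 cond (Nat.blt q 9891) (block9890)
 (block9891)

noncomputable def blocks9892to9895 (q : ℕ) : ℕ :=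
 cond (Nat.blt q 9893) (block9892)
 (cond (Nat.blt q 9894) (block9893)
 (block9894))

noncomputable def blocks9895to9897 (q : ℕ) : ℕ :=
 cond (Nat.blt q 9896) (block9895)
 (block9896)

noncomputable def blocks9897to9900 (q : ℕ) : ℕ :=
 cond (Nat.blt q 9898) (block9897)
 (cond (Nat.blt q 9899) (block9898)
 (block9899))

noncomputable def blocks9900to9903 (q : ℕ) : ℕ :=
 cond (Nat.blt q 9901) (block9900)
 (cond (Nat.blt q 9902) (block9901)
 (block9902))

noncomputable def blocks9903to9906 (q : ℕ) : ℕ :=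
 cond (Nat.blt q 9904) (block9903)
 (cond (Nat.blt q 9905) (block9904)
 (block9905))

noncomputable def blocks9864to9906 (q : ℕ) : ℕ :=
 cond (Nat.blt q 9885) (cond (Nat.blt q 9874) (cond (Nat.blt q 9869) (cond (Nat.blt q 9866) (blocks9864to9866 q)
 (blocks9866to9869 q))
 (cond (Nat.blt q 9871) (blocks9869to9871 q)
 (blocks9871to9874 q)))
 (cond (Nat.blt q 9879) (cond (Nat.blt q 9876) (blocks9874to9876 q)
 (blocks9876to9879 q))
 (cond (Nat.blt q 9882) (blocks9879to9882 q)
 (blocks9882to9885 q))))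
 (cond (Nat.blt q 9895) (cond (Nat.blt q 9890) (cond (Nat.blt q 9887) (blocks9885to9887 q)
 (blocks9887to9890 q))
 (cond (Nat.blt q 9892) (blocks9890to9892 q)
 (blocks9892to9895 q)))
 (cond (Nat.blt q 9900) (cond (Nat.blt q 9897) (blocks9895to9897 q)
 (blocks9897to9900 q))
 (cond (Nat.blt q 9903) (blocks9900to9903 q)
 (blocks9903to9906 q))))

noncomputable def blocks9906to9908 (q : ℕ) : ℕ :=
 cond (Nat.blt q 9907) (block9906)
 (block9907)

noncomputable def blocks9908to9911 (q : ℕ) : ℕ :=
 cond (Nat.blt q 9909) (block9908)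
 (cond (Nat.blt q 9910) (block9909)
 (block9910))

noncomputable def blocks9911to9913 (q : ℕ) : ℕ :=
 cond (Nat.blt q 9912) (block9911)
 (block9912)

noncomputable def blocks9913to9916 (q : ℕ) : ℕ :=
 cond (Nat.blt q 9914) (block9913)
 (cond (Nat.blt q 9915) (block9914)
 (block9915))

noncomputable def blocks9916to9918 (q : ℕ) : ℕ :=
 cond (Nat.blt q 9917) (block9916)
 (block9917)

noncomputable def blocks9918to9921 (q : ℕ) : ℕ :=
 cond (Nat.blt q 9919) (block9918)
 (cond (Nat.blt q 9920) (block9919)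
 (block9920))

noncomputable def blocks9921to9924 (q : ℕ) : ℕ :=
 cond (Nat.blt q 9922) (block9921)
 (cond (Nat.blt q 9923) (block9922)
 (block9923))

noncomputable def blocks9924to9927 (q : ℕ) : ℕ :=
 cond (Nat.blt q 9925) (block9924)
 (cond (Nat.blt q 9926) (block9925)
 (block9926))

noncomputable def blocks9927to9929 (q : ℕ) : ℕ :=
 cond (Nat.blt q 9928) (block9927)
 (block9928)

noncomputable def blocks9929to9932 (q : ℕ) : ℕ :=
 cond (Nat.blt q 9930) (block9929)
 (cond (Nat.blt q 9931) (block9930)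
 (block9931))

noncomputable def blocks9932to9935 (q : ℕ) : ℕ :=
 cond (Nat.blt q 9933) (block9932)
 (cond (Nat.blt q 9934) (block9933)
 (block9934))

noncomputable def blocks9935to9938 (q : ℕ) : ℕ :=
 cond (Nat.blt q 9936) (block9935)
 (cond (Nat.blt q 9937) (block9936)
 (block9937))

noncomputable def blocks9938to9940 (q : ℕ) : ℕ :=
 cond (Nat.blt q 9939) (block9938)
 (block9939)

noncomputable def blocks9940to9943 (q : ℕ) : ℕ :=
 cond (Nat.blt q 9941) (block9940)
 (cond (Nat.blt q 9942) (block9941)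
 (block9942))

noncomputable def blocks9943to9946 (q : ℕ) : ℕ :=
 cond (Nat.blt q 9944) (block9943)
 (cond (Nat.blt q 9945) (block9944)
 (block9945))

noncomputable def blocks9946to9949 (q : ℕ) : ℕ :=
 cond (Nat.blt q 9947) (block9946)
 (cond (Nat.blt q 9948) (block9947)
 (block9948))

noncomputable def blocks9906to9949 (q : ℕ) : ℕ :=
 cond (Nat.blt q 9927) (cond (Nat.blt q 9916) (cond (Nat.blt q 9911) (cond (Nat.blt q 9908) (blocks9906to9908 q)
 (blocks9908to9911 q))
 (cond (Nat.blt q 9913) (blocks9911to9913 q)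
 (blocks9913to9916 q)))
 (cond (Nat.blt q 9921) (cond (Nat.blt q 9918) (blocks9916to9918 q)
 (blocks9918to9921 q))
 (cond (Nat.blt q 9924) (blocks9921to9924 q)
 (blocks9924to9927 q))))
 (cond (Nat.blt q 9938) (cond (Nat.blt q 9932) (cond (Nat.blt q 9929) (blocks9927to9929 q)
 (blocks9929to9932 q))
 (cond (Nat.blt q 9935) (blocks9932to9935 q)
 (blocks9935to9938 q)))
 (cond (Nat.blt q 9943) (cond (Nat.blt q 9940) (blocks9938to9940 q)
 (blocks9940to9943 q))
 (cond (Nat.blt q 9946) (blocks9943to9946 q)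
 (blocks9946to9949 q))))

noncomputable def blocks9949to9951 (q : ℕ) : ℕ :=
 cond (Nat.blt q 9950) (block9949)
 (block9950)

noncomputable def blocks9951to9954 (q : ℕ) : ℕ :=
 cond (Nat.blt q 9952) (block9951)
 (cond (Nat.blt q 9953) (block9952)
 (block9953))

noncomputable def blocks9954to9956 (q : ℕ) : ℕ :=
 cond (Nat.blt q 9955) (block9954)
 (block9955)

noncomputable def blocks9956to9959 (q : ℕ) : ℕ :=
 cond (Nat.blt q 9957) (block9956)
 (cond (Nat.blt q 9958) (block9957)
 (block9958))

noncomputable def blocks9959to9961 (q : ℕ) : ℕ :=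
 cond (Nat.blt q 9960) (block9959)
 (block9960)

noncomputable def blocks9961to9964 (q : ℕ) : ℕ :=
 cond (Nat.blt q 9962) (block9961)
 (cond (Nat.blt q 9963) (block9962)
 (block9963))

noncomputable def blocks9964to9967 (q : ℕ) : ℕ :=
 cond (Nat.blt q 9965) (block9964)
 (cond (Nat.blt q 9966) (block9965)
 (block9966))

noncomputable def blocks9967to9970 (q : ℕ) : ℕ :=
 cond (Nat.blt q 9968) (block9967)
 (cond (Nat.blt q 9969) (block9968)
 (block9969))

noncomputable def blocks9970to9972 (q : ℕ) : ℕ :=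
 cond (Nat.blt q 9971) (block9970)
 (block9971)

noncomputable def blocks9972to9975 (q : ℕ) : ℕ :=
 cond (Nat.blt q 9973) (block9972)
 (cond (Nat.blt q 9974) (block9973)
 (block9974))

noncomputable def blocks9975to9977 (q : ℕ) : ℕ :=
 cond (Nat.blt q 9976) (block9975)
 (block9976)

noncomputable def blocks9977to9980 (q : ℕ) : ℕ :=
 cond (Nat.blt q 9978) (block9977)
 (cond (Nat.blt q 9979) (block9978)
 (block9979))

noncomputable def blocks9980to9982 (q : ℕ) : ℕ :=
 cond (Nat.blt q 9981) (block9980)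
 (block9981)

noncomputable def blocks9982to9985 (q : ℕ) : ℕ :=
 cond (Nat.blt q 9983) (block9982)
 (cond (Nat.blt q 9984) (block9983)
 (block9984))

noncomputable def blocks9985to9988 (q : ℕ) : ℕ :=
 cond (Nat.blt q 9986) (block9985)
 (cond (Nat.blt q 9987) (block9986)
 (block9987))

noncomputable def blocks9988to9991 (q : ℕ) : ℕ :=
 cond (Nat.blt q 9989) (block9988)
 (cond (Nat.blt q 9990) (block9989)
 (block9990))

noncomputable def blocks9949to9991 (q : ℕ) : ℕ :=
 cond (Nat.blt q 9970) (cond (Nat.blt q 9959) (cond (Nat.blt q 9954) (cond (Nat.blt q 9951) (blocks9949to9951 q)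
 (blocks9951to9954 q))
 (cond (Nat.blt q 9956) (blocks9954to9956 q)
 (blocks9956to9959 q)))
 (cond (Nat.blt q 9964) (cond (Nat.blt q 9961) (blocks9959to9961 q)
 (blocks9961to9964 q))
 (cond (Nat.blt q 9967) (blocks9964to9967 q)
 (blocks9967to9970 q))))
 (cond (Nat.blt q 9980) (cond (Nat.blt q 9975) (cond (Nat.blt q 9972) (blocks9970to9972 q)
 (blocks9972to9975 q))
 (cond (Nat.blt q 9977) (blocks9975to9977 q)
 (blocks9977to9980 q)))
 (cond (Nat.blt q 9985) (cond (Nat.blt q 9982) (blocks9980to9982 q)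
 (blocks9982to9985 q))
 (cond (Nat.blt q 9988) (blocks9985to9988 q)
 (blocks9988to9991 q))))

noncomputable def blocks9991to9993 (q : ℕ) : ℕ :=
 cond (Nat.blt q 9992) (block9991)
 (block9992)

noncomputable def blocks9993to9996 (q : ℕ) : ℕ :=
 cond (Nat.blt q 9994) (block9993)
 (cond (Nat.blt q 9995) (block9994)
 (block9995))

noncomputable def blocks9996to9998 (q : ℕ) : ℕ :=
 cond (Nat.blt q 9997) (block9996)
 (block9997)

noncomputable def blocks9998to10001 (q : ℕ) : ℕ :=
 cond (Nat.blt q 9999) (block9998)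
 (cond (Nat.blt q 10000) (block9999)
 (block10000))

noncomputable def blocks10001to10003 (q : ℕ) : ℕ :=
 cond (Nat.blt q 10002) (block10001)
 (block10002)

noncomputable def blocks10003to10006 (q : ℕ) : ℕ :=
 cond (Nat.blt q 10004) (block10003)
 (cond (Nat.blt q 10005) (block10004)
 (block10005))

noncomputable def blocks10006to10009 (q : ℕ) : ℕ :=
 cond (Nat.blt q 10007) (block10006)
 (cond (Nat.blt q 10008) (block10007)
 (block10008))

noncomputable def blocks10009to10012 (q : ℕ) : ℕ :=
 cond (Nat.blt q 10010) (block10009)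
 (cond (Nat.blt q 10011) (block10010)
 (block10011))

noncomputable def blocks10012to10014 (q : ℕ) : ℕ :=
 cond (Nat.blt q 10013) (block10012)
 (block10013)

noncomputable def blocks10014to10017 (q : ℕ) : ℕ :=
 cond (Nat.blt q 10015) (block10014)
 (cond (Nat.blt q 10016) (block10015)
 (block10016))

noncomputable def blocks10017to10020 (q : ℕ) : ℕ :=
 cond (Nat.blt q 10018) (block10017)
 (cond (Nat.blt q 10019) (block10018)
 (block10019))

noncomputable def blocks10020to10023 (q : ℕ) : ℕ :=
 cond (Nat.blt q 10021) (block10020)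
 (cond (Nat.blt q 10022) (block10021)
 (block10022))

noncomputable def blocks10023to10025 (q : ℕ) : ℕ :=
 cond (Nat.blt q 10024) (block10023)
 (block10024)

noncomputable def blocks10025to10028 (q : ℕ) : ℕ :=
 cond (Nat.blt q 10026) (block10025)
 (cond (Nat.blt q 10027) (block10026)
 (block10027))

noncomputable def blocks10028to10031 (q : ℕ) : ℕ :=
 cond (Nat.blt q 10029) (block10028)
 (cond (Nat.blt q 10030) (block10029)
 (block10030))

noncomputable def blocks10031to10034 (q : ℕ) : ℕ :=
 cond (Nat.blt q 10032) (block10031)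
 (cond (Nat.blt q 10033) (block10032)
 (block10033))

noncomputable def blocks9991to10034 (q : ℕ) : ℕ :=
 cond (Nat.blt q 10012) (cond (Nat.blt q 10001) (cond (Nat.blt q 9996) (cond (Nat.blt q 9993) (blocks9991to9993 q)
 (blocks9993to9996 q))
 (cond (Nat.blt q 9998) (blocks9996to9998 q)
 (blocks9998to10001 q)))
 (cond (Nat.blt q 10006) (cond (Nat.blt q 10003) (blocks10001to10003 q)
 (blocks10003to10006 q))
 (cond (Nat.blt q 10009) (blocks10006to10009 q)
 (blocks10009to10012 q))))
 (cond (Nat.blt q 10023) (cond (Nat.blt q 10017) (cond (Nat.blt q 10014) (blocks10012to10014 q)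
 (blocks10014to10017 q))
 (cond (Nat.blt q 10020) (blocks10017to10020 q)
 (blocks10020to10023 q)))
 (cond (Nat.blt q 10028) (cond (Nat.blt q 10025) (blocks10023to10025 q)
 (blocks10025to10028 q))
 (cond (Nat.blt q 10031) (blocks10028to10031 q)
 (blocks10031to10034 q))))

noncomputable def blocks10034to10036 (q : ℕ) : ℕ :=
 cond (Nat.blt q 10035) (block10034)
 (block10035)

noncomputable def blocks10036to10039 (q : ℕ) : ℕ :=
 cond (Nat.blt q 10037) (block10036)
 (cond (Nat.blt q 10038) (block10037)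
 (block10038))

noncomputable def blocks10039to10041 (q : ℕ) : ℕ :=
 cond (Nat.blt q 10040) (block10039)
 (block10040)

noncomputable def blocks10041to10044 (q : ℕ) : ℕ :=
 cond (Nat.blt q 10042) (block10041)
 (cond (Nat.blt q 10043) (block10042)
 (block10043))

noncomputable def blocks10044to10046 (q : ℕ) : ℕ :=
 cond (Nat.blt q 10045) (block10044)
 (block10045)

noncomputable def blocks10046to10049 (q : ℕ) : ℕ :=
 cond (Nat.blt q 10047) (block10046)
 (cond (Nat.blt q 10048) (block10047)
 (block10048))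

noncomputable def blocks10049to10052 (q : ℕ) : ℕ :=
 cond (Nat.blt q 10050) (block10049)
 (cond (Nat.blt q 10051) (block10050)
 (block10051))

noncomputable def blocks10052to10055 (q : ℕ) : ℕ :=
 cond (Nat.blt q 10053) (block10052)
 (cond (Nat.blt q 10054) (block10053)
 (block10054))

noncomputable def blocks10055to10057 (q : ℕ) : ℕ :=
 cond (Nat.blt q 10056) (block10055)
 (block10056)

noncomputable def blocks10057to10060 (q : ℕ) : ℕ :=
 cond (Nat.blt q 10058) (block10057)
 (cond (Nat.blt q 10059) (block10058)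
 (block10059))

noncomputable def blocks10060to10062 (q : ℕ) : ℕ :=
 cond (Nat.blt q 10061) (block10060)
 (block10061)

noncomputable def blocks10062to10065 (q : ℕ) : ℕ :=
 cond (Nat.blt q 10063) (block10062)
 (cond (Nat.blt q 10064) (block10063)
 (block10064))

noncomputable def blocks10065to10067 (q : ℕ) : ℕ :=
 cond (Nat.blt q 10066) (block10065)
 (block10066)

noncomputable def blocks10067to10070 (q : ℕ) : ℕ :=
 cond (Nat.blt q 10068) (block10067)
 (cond (Nat.blt q 10069) (block10068)
 (block10069))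

noncomputable def blocks10070to10073 (q : ℕ) : ℕ :=
 cond (Nat.blt q 10071) (block10070)
 (cond (Nat.blt q 10072) (block10071)
 (block10072))

noncomputable def blocks10073to10076 (q : ℕ) : ℕ :=
 cond (Nat.blt q 10074) (block10073)
 (cond (Nat.blt q 10075) (block10074)
 (block10075))

noncomputable def blocks10034to10076 (q : ℕ) : ℕ :=
 cond (Nat.blt q 10055) (cond (Nat.blt q 10044) (cond (Nat.blt q 10039) (cond (Nat.blt q 10036) (blocks10034to10036 q)
 (blocks10036to10039 q))
 (cond (Nat.blt q 10041) (blocks10039to10041 q)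
 (blocks10041to10044 q)))
 (cond (Nat.blt q 10049) (cond (Nat.blt q 10046) (blocks10044to10046 q)
 (blocks10046to10049 q))
 (cond (Nat.blt q 10052) (blocks10049to10052 q)
 (blocks10052to10055 q))))
 (cond (Nat.blt q 10065) (cond (Nat.blt q 10060) (cond (Nat.blt q 10057) (blocks10055to10057 q)
 (blocks10057to10060 q))
 (cond (Nat.blt q 10062) (blocks10060to10062 q)
 (blocks10062to10065 q)))
 (cond (Nat.blt q 10070) (cond (Nat.blt q 10067) (blocks10065to10067 q)
 (blocks10067to10070 q))
 (cond (Nat.blt q 10073) (blocks10070to10073 q)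
 (blocks10073to10076 q))))

noncomputable def blocks10076to10078 (q : ℕ) : ℕ :=
 cond (Nat.blt q 10077) (block10076)
 (block10077)

noncomputable def blocks10078to10081 (q : ℕ) : ℕ :=
 cond (Nat.blt q 10079) (block10078)
 (cond (Nat.blt q 10080) (block10079)
 (block10080))

noncomputable def blocks10081to10083 (q : ℕ) : ℕ :=
 cond (Nat.blt q 10082) (block10081)
 (block10082)

noncomputable def blocks10083to10086 (q : ℕ) : ℕ :=
 cond (Nat.blt q 10084) (block10083)
 (cond (Nat.blt q 10085) (block10084)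
 (block10085))

noncomputable def blocks10086to10088 (q : ℕ) : ℕ :=
 cond (Nat.blt q 10087) (block10086)
 (block10087)

noncomputable def blocks10088to10091 (q : ℕ) : ℕ :=
 cond (Nat.blt q 10089) (block10088)
 (cond (Nat.blt q 10090) (block10089)
 (block10090))

noncomputable def blocks10091to10094 (q : ℕ) : ℕ :=
 cond (Nat.blt q 10092) (block10091)
 (cond (Nat.blt q 10093) (block10092)
 (block10093))

noncomputable def blocks10094to10097 (q : ℕ) : ℕ :=
 cond (Nat.blt q 10095) (block10094)
 (cond (Nat.blt q 10096) (block10095)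
 (block10096))

noncomputable def blocks10097to10099 (q : ℕ) : ℕ :=
 cond (Nat.blt q 10098) (block10097)
 (block10098)

noncomputable def blocks10099to10102 (q : ℕ) : ℕ :=
 cond (Nat.blt q 10100) (block10099)
 (cond (Nat.blt q 10101) (block10100)
 (block10101))

noncomputable def blocks10102to10105 (q : ℕ) : ℕ :=
 cond (Nat.blt q 10103) (block10102)
 (cond (Nat.blt q 10104) (block10103)
 (block10104))

noncomputable def blocks10105to10108 (q : ℕ) : ℕ :=
 cond (Nat.blt q 10106) (block10105)
 (cond (Nat.blt q 10107) (block10106)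
 (block10107))

noncomputable def blocks10108to10110 (q : ℕ) : ℕ :=
 cond (Nat.blt q 10109) (block10108)
 (block10109)

noncomputable def blocks10110to10113 (q : ℕ) : ℕ :=
 cond (Nat.blt q 10111) (block10110)
 (cond (Nat.blt q 10112) (block10111)
 (block10112))

noncomputable def blocks10113to10116 (q : ℕ) : ℕ :=
 cond (Nat.blt q 10114) (block10113)
 (cond (Nat.blt q 10115) (block10114)
 (block10115))

noncomputable def blocks10116to10119 (q : ℕ) : ℕ :=
 cond (Nat.blt q 10117) (block10116)
 (cond (Nat.blt q 10118) (block10117)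
 (block10118))

noncomputable def blocks10076to10119 (q : ℕ) : ℕ :=
 cond (Nat.blt q 10097) (cond (Nat.blt q 10086) (cond (Nat.blt q 10081) (cond (Nat.blt q 10078) (blocks10076to10078 q)
 (blocks10078to10081 q))
 (cond (Nat.blt q 10083) (blocks10081to10083 q)
 (blocks10083to10086 q)))
 (cond (Nat.blt q 10091) (cond (Nat.blt q 10088) (blocks10086to10088 q)
 (blocks10088to10091 q))
 (cond (Nat.blt q 10094) (blocks10091to10094 q)
 (blocks10094to10097 q))))
 (cond (Nat.blt q 10108) (cond (Nat.blt q 10102) (cond (Nat.blt q 10099) (blocks10097to10099 q)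
 (blocks10099to10102 q))
 (cond (Nat.blt q 10105) (blocks10102to10105 q)
 (blocks10105to10108 q)))
 (cond (Nat.blt q 10113) (cond (Nat.blt q 10110) (blocks10108to10110 q)
 (blocks10110to10113 q))
 (cond (Nat.blt q 10116) (blocks10113to10116 q)
 (blocks10116to10119 q))))

noncomputable def blocks10119to10121 (q : ℕ) : ℕ :=
 cond (Nat.blt q 10120) (block10119)
 (block10120)

noncomputable def blocks10121to10124 (q : ℕ) : ℕ :=
 cond (Nat.blt q 10122) (block10121)
 (cond (Nat.blt q 10123) (block10122)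
 (block10123))

noncomputable def blocks10124to10126 (q : ℕ) : ℕ :=
 cond (Nat.blt q 10125) (block10124)
 (block10125)

noncomputable def blocks10126to10129 (q : ℕ) : ℕ :=
 cond (Nat.blt q 10127) (block10126)
 (cond (Nat.blt q 10128) (block10127)
 (block10128))

noncomputable def blocks10129to10131 (q : ℕ) : ℕ :=
 cond (Nat.blt q 10130) (block10129)
 (block10130)

noncomputable def blocks10131to10134 (q : ℕ) : ℕ :=
 cond (Nat.blt q 10132) (block10131)
 (cond (Nat.blt q 10133) (block10132)
 (block10133))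

noncomputable def blocks10134to10137 (q : ℕ) : ℕ :=
 cond (Nat.blt q 10135) (block10134)
 (cond (Nat.blt q 10136) (block10135)
 (block10136))

noncomputable def blocks10137to10140 (q : ℕ) : ℕ :=
 cond (Nat.blt q 10138) (block10137)
 (cond (Nat.blt q 10139) (block10138)
 (block10139))

noncomputable def blocks10140to10142 (q : ℕ) : ℕ :=
 cond (Nat.blt q 10141) (block10140)
 (block10141)

noncomputable def blocks10142to10145 (q : ℕ) : ℕ :=
 cond (Nat.blt q 10143) (block10142)
 (cond (Nat.blt q 10144) (block10143)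
 (block10144))

noncomputable def blocks10145to10147 (q : ℕ) : ℕ :=
 cond (Nat.blt q 10146) (block10145)
 (block10146)

noncomputable def blocks10147to10150 (q : ℕ) : ℕ :=
 cond (Nat.blt q 10148) (block10147)
 (cond (Nat.blt q 10149) (block10148)
 (block10149))

noncomputable def blocks10150to10152 (q : ℕ) : ℕ :=
 cond (Nat.blt q 10151) (block10150)
 (block10151)

noncomputable def blocks10152to10155 (q : ℕ) : ℕ :=
 cond (Nat.blt q 10153) (block10152)
 (cond (Nat.blt q 10154) (block10153)
 (block10154))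

noncomputable def blocks10155to10158 (q : ℕ) : ℕ :=
 cond (Nat.blt q 10156) (block10155)
 (cond (Nat.blt q 10157) (block10156)
 (block10157))

noncomputable def blocks10158to10161 (q : ℕ) : ℕ :=
 cond (Nat.blt q 10159) (block10158)
 (cond (Nat.blt q 10160) (block10159)
 (block10160))

noncomputable def blocks10119to10161 (q : ℕ) : ℕ :=
 cond (Nat.blt q 10140) (cond (Nat.blt q 10129) (cond (Nat.blt q 10124) (cond (Nat.blt q 10121) (blocks10119to10121 q)
 (blocks10121to10124 q))
 (cond (Nat.blt q 10126) (blocks10124to10126 q)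
 (blocks10126to10129 q)))
 (cond (Nat.blt q 10134) (cond (Nat.blt q 10131) (blocks10129to10131 q)
 (blocks10131to10134 q))
 (cond (Nat.blt q 10137) (blocks10134to10137 q)
 (blocks10137to10140 q))))
 (cond (Nat.blt q 10150) (cond (Nat.blt q 10145) (cond (Nat.blt q 10142) (blocks10140to10142 q)
 (blocks10142to10145 q))
 (cond (Nat.blt q 10147) (blocks10145to10147 q)
 (blocks10147to10150 q)))
 (cond (Nat.blt q 10155) (cond (Nat.blt q 10152) (blocks10150to10152 q)
 (blocks10152to10155 q))
 (cond (Nat.blt q 10158) (blocks10155to10158 q)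
 (blocks10158to10161 q))))

noncomputable def blocks10161to10163 (q : ℕ) : ℕ :=
 cond (Nat.blt q 10162) (block10161)
 (block10162)

noncomputable def blocks10163to10166 (q : ℕ) : ℕ :=
 cond (Nat.blt q 10164) (block10163)
 (cond (Nat.blt q 10165) (block10164)
 (block10165))

noncomputable def blocks10166to10168 (q : ℕ) : ℕ :=
 cond (Nat.blt q 10167) (block10166)
 (block10167)

noncomputable def blocks10168to10171 (q : ℕ) : ℕ :=
 cond (Nat.blt q 10169) (block10168)
 (cond (Nat.blt q 10170) (block10169)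
 (block10170))

noncomputable def blocks10171to10173 (q : ℕ) : ℕ :=
 cond (Nat.blt q 10172) (block10171)
 (block10172)

noncomputable def blocks10173to10176 (q : ℕ) : ℕ :=
 cond (Nat.blt q 10174) (block10173)
 (cond (Nat.blt q 10175) (block10174)
 (block10175))

noncomputable def blocks10176to10179 (q : ℕ) : ℕ :=
 cond (Nat.blt q 10177) (block10176)
 (cond (Nat.blt q 10178) (block10177)
 (block10178))

noncomputable def blocks10179to10182 (q : ℕ) : ℕ :=
 cond (Nat.blt q 10180) (block10179)
 (cond (Nat.blt q 10181) (block10180)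
 (block10181))

noncomputable def blocks10182to10184 (q : ℕ) : ℕ :=
 cond (Nat.blt q 10183) (block10182)
 (block10183)

noncomputable def blocks10184to10187 (q : ℕ) : ℕ :=
 cond (Nat.blt q 10185) (block10184)
 (cond (Nat.blt q 10186) (block10185)
 (block10186))

noncomputable def blocks10187to10190 (q : ℕ) : ℕ :=
 cond (Nat.blt q 10188) (block10187)
 (cond (Nat.blt q 10189) (block10188)
 (block10189))

noncomputable def blocks10190to10193 (q : ℕ) : ℕ :=
 cond (Nat.blt q 10191) (block10190)
 (cond (Nat.blt q 10192) (block10191)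
 (block10192))

noncomputable def blocks10193to10195 (q : ℕ) : ℕ :=
 cond (Nat.blt q 10194) (block10193)
 (block10194)

noncomputable def blocks10195to10198 (q : ℕ) : ℕ :=
 cond (Nat.blt q 10196) (block10195)
 (cond (Nat.blt q 10197) (block10196)
 (block10197))

noncomputable def blocks10198to10201 (q : ℕ) : ℕ :=
 cond (Nat.blt q 10199) (block10198)
 (cond (Nat.blt q 10200) (block10199)
 (block10200))

noncomputable def blocks10201to10204 (q : ℕ) : ℕ :=
 cond (Nat.blt q 10202) (block10201)
 (cond (Nat.blt q 10203) (block10202)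
 (block10203))

noncomputable def blocks10161to10204 (q : ℕ) : ℕ :=
 cond (Nat.blt q 10182) (cond (Nat.blt q 10171) (cond (Nat.blt q 10166) (cond (Nat.blt q 10163) (blocks10161to10163 q)
 (blocks10163to10166 q))
 (cond (Nat.blt q 10168) (blocks10166to10168 q)
 (blocks10168to10171 q)))
 (cond (Nat.blt q 10176) (cond (Nat.blt q 10173) (blocks10171to10173 q)
 (blocks10173to10176 q))
 (cond (Nat.blt q 10179) (blocks10176to10179 q)
 (blocks10179to10182 q))))
 (cond (Nat.blt q 10193) (cond (Nat.blt q 10187) (cond (Nat.blt q 10184) (blocks10182to10184 q)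
 (blocks10184to10187 q))
 (cond (Nat.blt q 10190) (blocks10187to10190 q)
 (blocks10190to10193 q)))
 (cond (Nat.blt q 10198) (cond (Nat.blt q 10195) (blocks10193to10195 q)
 (blocks10195to10198 q))
 (cond (Nat.blt q 10201) (blocks10198to10201 q)
 (blocks10201to10204 q))))

noncomputable def blocks9524to10204 (q : ℕ) : ℕ :=
 cond (Nat.blt q 9864) (cond (Nat.blt q 9694) (cond (Nat.blt q 9609) (cond (Nat.blt q 9566) (blocks9524to9566 q)
 (blocks9566to9609 q))
 (cond (Nat.blt q 9651) (blocks9609to9651 q)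
 (blocks9651to9694 q)))
 (cond (Nat.blt q 9779) (cond (Nat.blt q 9736) (blocks9694to9736 q)
 (blocks9736to9779 q))
 (cond (Nat.blt q 9821) (blocks9779to9821 q)
 (blocks9821to9864 q))))
 (cond (Nat.blt q 10034) (cond (Nat.blt q 9949) (cond (Nat.blt q 9906) (blocks9864to9906 q)
 (blocks9906to9949 q))
 (cond (Nat.blt q 9991) (blocks9949to9991 q)
 (blocks9991to10034 q)))
 (cond (Nat.blt q 10119) (cond (Nat.blt q 10076) (blocks10034to10076 q)
 (blocks10076to10119 q))
 (cond (Nat.blt q 10161) (blocks10119to10161 q)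
 (blocks10161to10204 q))))

noncomputable def blocks10204to10206 (q : ℕ) : ℕ :=
 cond (Nat.blt q 10205) (block10204)
 (block10205)

noncomputable def blocks10206to10209 (q : ℕ) : ℕ :=
 cond (Nat.blt q 10207) (block10206)
 (cond (Nat.blt q 10208) (block10207)
 (block10208))

noncomputable def blocks10209to10211 (q : ℕ) : ℕ :=
 cond (Nat.blt q 10210) (block10209)
 (block10210)

noncomputable def blocks10211to10214 (q : ℕ) : ℕ :=
 cond (Nat.blt q 10212) (block10211)
 (cond (Nat.blt q 10213) (block10212)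
 (block10213))

noncomputable def blocks10214to10216 (q : ℕ) : ℕ :=
 cond (Nat.blt q 10215) (block10214)
 (block10215)

noncomputable def blocks10216to10219 (q : ℕ) : ℕ :=
 cond (Nat.blt q 10217) (block10216)
 (cond (Nat.blt q 10218) (block10217)
 (block10218))

noncomputable def blocks10219to10222 (q : ℕ) : ℕ :=
 cond (Nat.blt q 10220) (block10219)
 (cond (Nat.blt q 10221) (block10220)
 (block10221))

noncomputable def blocks10222to10225 (q : ℕ) : ℕ :=
 cond (Nat.blt q 10223) (block10222)
 (cond (Nat.blt q 10224) (block10223)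
 (block10224))

noncomputable def blocks10225to10227 (q : ℕ) : ℕ :=
 cond (Nat.blt q 10226) (block10225)
 (block10226)

noncomputable def blocks10227to10230 (q : ℕ) : ℕ :=
 cond (Nat.blt q 10228) (block10227)
 (cond (Nat.blt q 10229) (block10228)
 (block10229))

noncomputable def blocks10230to10232 (q : ℕ) : ℕ :=
 cond (Nat.blt q 10231) (block10230)
 (block10231)

noncomputable def blocks10232to10235 (q : ℕ) : ℕ :=
 cond (Nat.blt q 10233) (block10232)
 (cond (Nat.blt q 10234) (block10233)
 (block10234))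

noncomputable def blocks10235to10237 (q : ℕ) : ℕ :=
 cond (Nat.blt q 10236) (block10235)
 (block10236)

noncomputable def blocks10237to10240 (q : ℕ) : ℕ :=
 cond (Nat.blt q 10238) (block10237)
 (cond (Nat.blt q 10239) (block10238)
 (block10239))

noncomputable def blocks10240to10243 (q : ℕ) : ℕ :=
 cond (Nat.blt q 10241) (block10240)
 (cond (Nat.blt q 10242) (block10241)
 (block10242))

noncomputable def blocks10243to10246 (q : ℕ) : ℕ :=
 cond (Nat.blt q 10244) (block10243)
 (cond (Nat.blt q 10245) (block10244)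
 (block10245))

noncomputable def blocks10204to10246 (q : ℕ) : ℕ :=
 cond (Nat.blt q 10225) (cond (Nat.blt q 10214) (cond (Nat.blt q 10209) (cond (Nat.blt q 10206) (blocks10204to10206 q)
 (blocks10206to10209 q))
 (cond (Nat.blt q 10211) (blocks10209to10211 q)
 (blocks10211to10214 q)))
 (cond (Nat.blt q 10219) (cond (Nat.blt q 10216) (blocks10214to10216 q)
 (blocks10216to10219 q))
 (cond (Nat.blt q 10222) (blocks10219to10222 q)
 (blocks10222to10225 q))))
 (cond (Nat.blt q 10235) (cond (Nat.blt q 10230) (cond (Nat.blt q 10227) (blocks10225to10227 q)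
 (blocks10227to10230 q))
 (cond (Nat.blt q 10232) (blocks10230to10232 q)
 (blocks10232to10235 q)))
 (cond (Nat.blt q 10240) (cond (Nat.blt q 10237) (blocks10235to10237 q)
 (blocks10237to10240 q))
 (cond (Nat.blt q 10243) (blocks10240to10243 q)
 (blocks10243to10246 q))))

noncomputable def blocks10246to10248 (q : ℕ) : ℕ :=
 cond (Nat.blt q 10247) (block10246)
 (block10247)

noncomputable def blocks10248to10251 (q : ℕ) : ℕ :=
 cond (Nat.blt q 10249) (block10248)
 (cond (Nat.blt q 10250) (block10249)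
 (block10250))

noncomputable def blocks10251to10253 (q : ℕ) : ℕ :=
 cond (Nat.blt q 10252) (block10251)
 (block10252)

noncomputable def blocks10253to10256 (q : ℕ) : ℕ :=
 cond (Nat.blt q 10254) (block10253)
 (cond (Nat.blt q 10255) (block10254)
 (block10255))

noncomputable def blocks10256to10258 (q : ℕ) : ℕ :=
 cond (Nat.blt q 10257) (block10256)
 (block10257)

noncomputable def blocks10258to10261 (q : ℕ) : ℕ :=
 cond (Nat.blt q 10259) (block10258)
 (cond (Nat.blt q 10260) (block10259)
 (block10260))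

noncomputable def blocks10261to10264 (q : ℕ) : ℕ :=
 cond (Nat.blt q 10262) (block10261)
 (cond (Nat.blt q 10263) (block10262)
 (block10263))

noncomputable def blocks10264to10267 (q : ℕ) : ℕ :=
 cond (Nat.blt q 10265) (block10264)
 (cond (Nat.blt q 10266) (block10265)
 (block10266))

noncomputable def blocks10267to10269 (q : ℕ) : ℕ :=
 cond (Nat.blt q 10268) (block10267)
 (block10268)

noncomputable def blocks10269to10272 (q : ℕ) : ℕ :=
 cond (Nat.blt q 10270) (block10269)
 (cond (Nat.blt q 10271) (block10270)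
 (block10271))

noncomputable def blocks10272to10275 (q : ℕ) : ℕ :=
 cond (Nat.blt q 10273) (block10272)
 (cond (Nat.blt q 10274) (block10273)
 (block10274))

noncomputable def blocks10275to10278 (q : ℕ) : ℕ :=
 cond (Nat.blt q 10276) (block10275)
 (cond (Nat.blt q 10277) (block10276)
 (block10277))

noncomputable def blocks10278to10280 (q : ℕ) : ℕ :=
 cond (Nat.blt q 10279) (block10278)
 (block10279)

noncomputable def blocks10280to10283 (q : ℕ) : ℕ :=
 cond (Nat.blt q 10281) (block10280)
 (cond (Nat.blt q 10282) (block10281)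
 (block10282))

noncomputable def blocks10283to10286 (q : ℕ) : ℕ :=
 cond (Nat.blt q 10284) (block10283)
 (cond (Nat.blt q 10285) (block10284)
 (block10285))

noncomputable def blocks10286to10289 (q : ℕ) : ℕ :=
 cond (Nat.blt q 10287) (block10286)
 (cond (Nat.blt q 10288) (block10287)
 (block10288))

noncomputable def blocks10246to10289 (q : ℕ) : ℕ :=
 cond (Nat.blt q 10267) (cond (Nat.blt q 10256) (cond (Nat.blt q 10251) (cond (Nat.blt q 10248) (blocks10246to10248 q)
 (blocks10248to10251 q))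
 (cond (Nat.blt q 10253) (blocks10251to10253 q)
 (blocks10253to10256 q)))
 (cond (Nat.blt q 10261) (cond (Nat.blt q 10258) (blocks10256to10258 q)
 (blocks10258to10261 q))
 (cond (Nat.blt q 10264) (blocks10261to10264 q)
 (blocks10264to10267 q))))
 (cond (Nat.blt q 10278) (cond (Nat.blt q 10272) (cond (Nat.blt q 10269) (blocks10267to10269 q)
 (blocks10269to10272 q))
 (cond (Nat.blt q 10275) (blocks10272to10275 q)
 (blocks10275to10278 q)))
 (cond (Nat.blt q 10283) (cond (Nat.blt q 10280) (blocks10278to10280 q)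
 (blocks10280to10283 q))
 (cond (Nat.blt q 10286) (blocks10283to10286 q)
 (blocks10286to10289 q))))

noncomputable def blocks10289to10291 (q : ℕ) : ℕ :=
 cond (Nat.blt q 10290) (block10289)
 (block10290)

noncomputable def blocks10291to10294 (q : ℕ) : ℕ :=
 cond (Nat.blt q 10292) (block10291)
 (cond (Nat.blt q 10293) (block10292)
 (block10293))

noncomputable def blocks10294to10296 (q : ℕ) : ℕ :=
 cond (Nat.blt q 10295) (block10294)
 (block10295)

noncomputable def blocks10296to10299 (q : ℕ) : ℕ :=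
 cond (Nat.blt q 10297) (block10296)
 (cond (Nat.blt q 10298) (block10297)
 (block10298))

noncomputable def blocks10299to10301 (q : ℕ) : ℕ :=
 cond (Nat.blt q 10300) (block10299)
 (block10300)

noncomputable def blocks10301to10304 (q : ℕ) : ℕ :=
 cond (Nat.blt q 10302) (block10301)
 (cond (Nat.blt q 10303) (block10302)
 (block10303))

noncomputable def blocks10304to10307 (q : ℕ) : ℕ :=
 cond (Nat.blt q 10305) (block10304)
 (cond (Nat.blt q 10306) (block10305)
 (block10306))

noncomputable def blocks10307to10310 (q : ℕ) : ℕ :=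
 cond (Nat.blt q 10308) (block10307)
 (cond (Nat.blt q 10309) (block10308)
 (block10309))

noncomputable def blocks10310to10312 (q : ℕ) : ℕ :=
 cond (Nat.blt q 10311) (block10310)
 (block10311)

noncomputable def blocks10312to10315 (q : ℕ) : ℕ :=
 cond (Nat.blt q 10313) (block10312)
 (cond (Nat.blt q 10314) (block10313)
 (block10314))

noncomputable def blocks10315to10317 (q : ℕ) : ℕ :=
 cond (Nat.blt q 10316) (block10315)
 (block10316)

noncomputable def blocks10317to10320 (q : ℕ) : ℕ :=
 cond (Nat.blt q 10318) (block10317)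
 (cond (Nat.blt q 10319) (block10318)
 (block10319))

noncomputable def blocks10320to10322 (q : ℕ) : ℕ :=
 cond (Nat.blt q 10321) (block10320)
 (block10321)

noncomputable def blocks10322to10325 (q : ℕ) : ℕ :=
 cond (Nat.blt q 10323) (block10322)
 (cond (Nat.blt q 10324) (block10323)
 (block10324))

noncomputable def blocks10325to10328 (q : ℕ) : ℕ :=
 cond (Nat.blt q 10326) (block10325)
 (cond (Nat.blt q 10327) (block10326)
 (block10327))

noncomputable def blocks10328to10331 (q : ℕ) : ℕ :=
 cond (Nat.blt q 10329) (block10328)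
 (cond (Nat.blt q 10330) (block10329)
 (block10330))

noncomputable def blocks10289to10331 (q : ℕ) : ℕ :=
 cond (Nat.blt q 10310) (cond (Nat.blt q 10299) (cond (Nat.blt q 10294) (cond (Nat.blt q 10291) (blocks10289to10291 q)
 (blocks10291to10294 q))
 (cond (Nat.blt q 10296) (blocks10294to10296 q)
 (blocks10296to10299 q)))
 (cond (Nat.blt q 10304) (cond (Nat.blt q 10301) (blocks10299to10301 q)
 (blocks10301to10304 q))
 (cond (Nat.blt q 10307) (blocks10304to10307 q)
 (blocks10307to10310 q))))
 (cond (Nat.blt q 10320) (cond (Nat.blt q 10315) (cond (Nat.blt q 10312) (blocks10310to10312 q)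
 (blocks10312to10315 q))
 (cond (Nat.blt q 10317) (blocks10315to10317 q)
 (blocks10317to10320 q)))
 (cond (Nat.blt q 10325) (cond (Nat.blt q 10322) (blocks10320to10322 q)
 (blocks10322to10325 q))
 (cond (Nat.blt q 10328) (blocks10325to10328 q)
 (blocks10328to10331 q))))

noncomputable def blocks10331to10333 (q : ℕ) : ℕ :=
 cond (Nat.blt q 10332) (block10331)
 (block10332)

noncomputable def blocks10333to10336 (q : ℕ) : ℕ :=
 cond (Nat.blt q 10334) (block10333)
 (cond (Nat.blt q 10335) (block10334)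
 (block10335))

noncomputable def blocks10336to10338 (q : ℕ) : ℕ :=
 cond (Nat.blt q 10337) (block10336)
 (block10337)

noncomputable def blocks10338to10341 (q : ℕ) : ℕ :=
 cond (Nat.blt q 10339) (block10338)
 (cond (Nat.blt q 10340) (block10339)
 (block10340))

noncomputable def blocks10341to10343 (q : ℕ) : ℕ :=
 cond (Nat.blt q 10342) (block10341)
 (block10342)

noncomputable def blocks10343to10346 (q : ℕ) : ℕ :=
 cond (Nat.blt q 10344) (block10343)
 (cond (Nat.blt q 10345) (block10344)
 (block10345))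

noncomputable def blocks10346to10349 (q : ℕ) : ℕ :=
 cond (Nat.blt q 10347) (block10346)
 (cond (Nat.blt q 10348) (block10347)
 (block10348))

noncomputable def blocks10349to10352 (q : ℕ) : ℕ :=
 cond (Nat.blt q 10350) (block10349)
 (cond (Nat.blt q 10351) (block10350)
 (block10351))

noncomputable def blocks10352to10354 (q : ℕ) : ℕ :=
 cond (Nat.blt q 10353) (block10352)
 (block10353)

noncomputable def blocks10354to10357 (q : ℕ) : ℕ :=
 cond (Nat.blt q 10355) (block10354)
 (cond (Nat.blt q 10356) (block10355)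
 (block10356))

noncomputable def blocks10357to10360 (q : ℕ) : ℕ :=
 cond (Nat.blt q 10358) (block10357)
 (cond (Nat.blt q 10359) (block10358)
 (block10359))

noncomputable def blocks10360to10363 (q : ℕ) : ℕ :=
 cond (Nat.blt q 10361) (block10360)
 (cond (Nat.blt q 10362) (block10361)
 (block10362))

noncomputable def blocks10363to10365 (q : ℕ) : ℕ :=
 cond (Nat.blt q 10364) (block10363)
 (block10364)

noncomputable def blocks10365to10368 (q : ℕ) : ℕ :=
 cond (Nat.blt q 10366) (block10365)
 (cond (Nat.blt q 10367) (block10366)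
 (block10367))

noncomputable def blocks10368to10371 (q : ℕ) : ℕ :=
 cond (Nat.blt q 10369) (block10368)
 (cond (Nat.blt q 10370) (block10369)
 (block10370))

noncomputable def blocks10371to10374 (q : ℕ) : ℕ :=
 cond (Nat.blt q 10372) (block10371)
 (cond (Nat.blt q 10373) (block10372)
 (block10373))

noncomputable def blocks10331to10374 (q : ℕ) : ℕ :=
 cond (Nat.blt q 10352) (cond (Nat.blt q 10341) (cond (Nat.blt q 10336) (cond (Nat.blt q 10333) (blocks10331to10333 q)
 (blocks10333to10336 q))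
 (cond (Nat.blt q 10338) (blocks10336to10338 q)
 (blocks10338to10341 q)))
 (cond (Nat.blt q 10346) (cond (Nat.blt q 10343) (blocks10341to10343 q)
 (blocks10343to10346 q))
 (cond (Nat.blt q 10349) (blocks10346to10349 q)
 (blocks10349to10352 q))))
 (cond (Nat.blt q 10363) (cond (Nat.blt q 10357) (cond (Nat.blt q 10354) (blocks10352to10354 q)
 (blocks10354to10357 q))
 (cond (Nat.blt q 10360) (blocks10357to10360 q)
 (blocks10360to10363 q)))
 (cond (Nat.blt q 10368) (cond (Nat.blt q 10365) (blocks10363to10365 q)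
 (blocks10365to10368 q))
 (cond (Nat.blt q 10371) (blocks10368to10371 q)
 (blocks10371to10374 q))))

noncomputable def blocks10374to10376 (q : ℕ) : ℕ :=
 cond (Nat.blt q 10375) (block10374)
 (block10375)

noncomputable def blocks10376to10379 (q : ℕ) : ℕ :=
 cond (Nat.blt q 10377) (block10376)
 (cond (Nat.blt q 10378) (block10377)
 (block10378))

noncomputable def blocks10379to10381 (q : ℕ) : ℕ :=
 cond (Nat.blt q 10380) (block10379)
 (block10380)

noncomputable def blocks10381to10384 (q : ℕ) : ℕ :=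
 cond (Nat.blt q 10382) (block10381)
 (cond (Nat.blt q 10383) (block10382)
 (block10383))

noncomputable def blocks10384to10386 (q : ℕ) : ℕ :=
 cond (Nat.blt q 10385) (block10384)
 (block10385)

noncomputable def blocks10386to10389 (q : ℕ) : ℕ :=
 cond (Nat.blt q 10387) (block10386)
 (cond (Nat.blt q 10388) (block10387)
 (block10388))

noncomputable def blocks10389to10392 (q : ℕ) : ℕ :=
 cond (Nat.blt q 10390) (block10389)
 (cond (Nat.blt q 10391) (block10390)
 (block10391))

noncomputable def blocks10392to10395 (q : ℕ) : ℕ :=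
 cond (Nat.blt q 10393) (block10392)
 (cond (Nat.blt q 10394) (block10393)
 (block10394))

noncomputable def blocks10395to10397 (q : ℕ) : ℕ :=
 cond (Nat.blt q 10396) (block10395)
 (block10396)

noncomputable def blocks10397to10400 (q : ℕ) : ℕ :=
 cond (Nat.blt q 10398) (block10397)
 (cond (Nat.blt q 10399) (block10398)
 (block10399))

noncomputable def blocks10400to10402 (q : ℕ) : ℕ :=
 cond (Nat.blt q 10401) (block10400)
 (block10401)

noncomputable def blocks10402to10405 (q : ℕ) : ℕ :=
 cond (Nat.blt q 10403) (block10402)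
 (cond (Nat.blt q 10404) (block10403)
 (block10404))

noncomputable def blocks10405to10407 (q : ℕ) : ℕ :=
 cond (Nat.blt q 10406) (block10405)
 (block10406)

noncomputable def blocks10407to10410 (q : ℕ) : ℕ :=
 cond (Nat.blt q 10408) (block10407)
 (cond (Nat.blt q 10409) (block10408)
 (block10409))

noncomputable def blocks10410to10413 (q : ℕ) : ℕ :=
 cond (Nat.blt q 10411) (block10410)
 (cond (Nat.blt q 10412) (block10411)
 (block10412))

noncomputable def blocks10413to10416 (q : ℕ) : ℕ :=
 cond (Nat.blt q 10414) (block10413)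
 (cond (Nat.blt q 10415) (block10414)
 (block10415))

noncomputable def blocks10374to10416 (q : ℕ) : ℕ :=
 cond (Nat.blt q 10395) (cond (Nat.blt q 10384) (cond (Nat.blt q 10379) (cond (Nat.blt q 10376) (blocks10374to10376 q)
 (blocks10376to10379 q))
 (cond (Nat.blt q 10381) (blocks10379to10381 q)
 (blocks10381to10384 q)))
 (cond (Nat.blt q 10389) (cond (Nat.blt q 10386) (blocks10384to10386 q)
 (blocks10386to10389 q))
 (cond (Nat.blt q 10392) (blocks10389to10392 q)
 (blocks10392to10395 q))))
 (cond (Nat.blt q 10405) (cond (Nat.blt q 10400) (cond (Nat.blt q 10397) (blocks10395to10397 q)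
 (blocks10397to10400 q))
 (cond (Nat.blt q 10402) (blocks10400to10402 q)
 (blocks10402to10405 q)))
 (cond (Nat.blt q 10410) (cond (Nat.blt q 10407) (blocks10405to10407 q)
 (blocks10407to10410 q))
 (cond (Nat.blt q 10413) (blocks10410to10413 q)
 (blocks10413to10416 q))))

noncomputable def blocks10416to10418 (q : ℕ) : ℕ :=
 cond (Nat.blt q 10417) (block10416)
 (block10417)

noncomputable def blocks10418to10421 (q : ℕ) : ℕ :=
 cond (Nat.blt q 10419) (block10418)
 (cond (Nat.blt q 10420) (block10419)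
 (block10420))

noncomputable def blocks10421to10423 (q : ℕ) : ℕ :=
 cond (Nat.blt q 10422) (block10421)
 (block10422)

noncomputable def blocks10423to10426 (q : ℕ) : ℕ :=
 cond (Nat.blt q 10424) (block10423)
 (cond (Nat.blt q 10425) (block10424)
 (block10425))

noncomputable def blocks10426to10428 (q : ℕ) : ℕ :=
 cond (Nat.blt q 10427) (block10426)
 (block10427)

noncomputable def blocks10428to10431 (q : ℕ) : ℕ :=
 cond (Nat.blt q 10429) (block10428)
 (cond (Nat.blt q 10430) (block10429)
 (block10430))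

noncomputable def blocks10431to10434 (q : ℕ) : ℕ :=
 cond (Nat.blt q 10432) (block10431)
 (cond (Nat.blt q 10433) (block10432)
 (block10433))

noncomputable def blocks10434to10437 (q : ℕ) : ℕ :=
 cond (Nat.blt q 10435) (block10434)
 (cond (Nat.blt q 10436) (block10435)
 (block10436))

noncomputable def blocks10437to10439 (q : ℕ) : ℕ :=
 cond (Nat.blt q 10438) (block10437)
 (block10438)

noncomputable def blocks10439to10442 (q : ℕ) : ℕ :=
 cond (Nat.blt q 10440) (block10439)
 (cond (Nat.blt q 10441) (block10440)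
 (block10441))

noncomputable def blocks10442to10445 (q : ℕ) : ℕ :=
 cond (Nat.blt q 10443) (block10442)
 (cond (Nat.blt q 10444) (block10443)
 (block10444))

noncomputable def blocks10445to10448 (q : ℕ) : ℕ :=
 cond (Nat.blt q 10446) (block10445)
 (cond (Nat.blt q 10447) (block10446)
 (block10447))

noncomputable def blocks10448to10450 (q : ℕ) : ℕ :=
 cond (Nat.blt q 10449) (block10448)
 (block10449)

noncomputable def blocks10450to10453 (q : ℕ) : ℕ :=
 cond (Nat.blt q 10451) (block10450)
 (cond (Nat.blt q 10452) (block10451)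
 (block10452))

noncomputable def blocks10453to10456 (q : ℕ) : ℕ :=
 cond (Nat.blt q 10454) (block10453)
 (cond (Nat.blt q 10455) (block10454)
 (block10455))

noncomputable def blocks10456to10459 (q : ℕ) : ℕ :=
 cond (Nat.blt q 10457) (block10456)
 (cond (Nat.blt q 10458) (block10457)
 (block10458))

noncomputable def blocks10416to10459 (q : ℕ) : ℕ :=
 cond (Nat.blt q 10437) (cond (Nat.blt q 10426) (cond (Nat.blt q 10421) (cond (Nat.blt q 10418) (blocks10416to10418 q)
 (blocks10418to10421 q))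
 (cond (Nat.blt q 10423) (blocks10421to10423 q)
 (blocks10423to10426 q)))
 (cond (Nat.blt q 10431) (cond (Nat.blt q 10428) (blocks10426to10428 q)
 (blocks10428to10431 q))
 (cond (Nat.blt q 10434) (blocks10431to10434 q)
 (blocks10434to10437 q))))
 (cond (Nat.blt q 10448) (cond (Nat.blt q 10442) (cond (Nat.blt q 10439) (blocks10437to10439 q)
 (blocks10439to10442 q))
 (cond (Nat.blt q 10445) (blocks10442to10445 q)
 (blocks10445to10448 q)))
 (cond (Nat.blt q 10453) (cond (Nat.blt q 10450) (blocks10448to10450 q)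
 (blocks10450to10453 q))
 (cond (Nat.blt q 10456) (blocks10453to10456 q)
 (blocks10456to10459 q))))

noncomputable def blocks10459to10461 (q : ℕ) : ℕ :=
 cond (Nat.blt q 10460) (block10459)
 (block10460)

noncomputable def blocks10461to10464 (q : ℕ) : ℕ :=
 cond (Nat.blt q 10462) (block10461)
 (cond (Nat.blt q 10463) (block10462)
 (block10463))

noncomputable def blocks10464to10466 (q : ℕ) : ℕ :=
 cond (Nat.blt q 10465) (block10464)
 (block10465)

noncomputable def blocks10466to10469 (q : ℕ) : ℕ :=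
 cond (Nat.blt q 10467) (block10466)
 (cond (Nat.blt q 10468) (block10467)
 (block10468))

noncomputable def blocks10469to10471 (q : ℕ) : ℕ :=
 cond (Nat.blt q 10470) (block10469)
 (block10470)

noncomputable def blocks10471to10474 (q : ℕ) : ℕ :=
 cond (Nat.blt q 10472) (block10471)
 (cond (Nat.blt q 10473) (block10472)
 (block10473))

noncomputable def blocks10474to10477 (q : ℕ) : ℕ :=
 cond (Nat.blt q 10475) (block10474)
 (cond (Nat.blt q 10476) (block10475)
 (block10476))

noncomputable def blocks10477to10480 (q : ℕ) : ℕ :=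
 cond (Nat.blt q 10478) (block10477)
 (cond (Nat.blt q 10479) (block10478)
 (block10479))

noncomputable def blocks10480to10482 (q : ℕ) : ℕ :=
 cond (Nat.blt q 10481) (block10480)
 (block10481)

noncomputable def blocks10482to10485 (q : ℕ) : ℕ :=
 cond (Nat.blt q 10483) (block10482)
 (cond (Nat.blt q 10484) (block10483)
 (block10484))

noncomputable def blocks10485to10487 (q : ℕ) : ℕ :=
 cond (Nat.blt q 10486) (block10485)
 (block10486)

noncomputable def blocks10487to10490 (q : ℕ) : ℕ :=
 cond (Nat.blt q 10488) (block10487)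
 (cond (Nat.blt q 10489) (block10488)
 (block10489))

noncomputable def blocks10490to10492 (q : ℕ) : ℕ :=
 cond (Nat.blt q 10491) (block10490)
 (block10491)

noncomputable def blocks10492to10495 (q : ℕ) : ℕ :=
 cond (Nat.blt q 10493) (block10492)
 (cond (Nat.blt q 10494) (block10493)
 (block10494))

noncomputable def blocks10495to10498 (q : ℕ) : ℕ :=
 cond (Nat.blt q 10496) (block10495)
 (cond (Nat.blt q 10497) (block10496)
 (block10497))

noncomputable def blocks10498to10501 (q : ℕ) : ℕ :=
 cond (Nat.blt q 10499) (block10498)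
 (cond (Nat.blt q 10500) (block10499)
 (block10500))

noncomputable def blocks10459to10501 (q : ℕ) : ℕ :=
 cond (Nat.blt q 10480) (cond (Nat.blt q 10469) (cond (Nat.blt q 10464) (cond (Nat.blt q 10461) (blocks10459to10461 q)
 (blocks10461to10464 q))
 (cond (Nat.blt q 10466) (blocks10464to10466 q)
 (blocks10466to10469 q)))
 (cond (Nat.blt q 10474) (cond (Nat.blt q 10471) (blocks10469to10471 q)
 (blocks10471to10474 q))
 (cond (Nat.blt q 10477) (blocks10474to10477 q)
 (blocks10477to10480 q))))
 (cond (Nat.blt q 10490) (cond (Nat.blt q 10485) (cond (Nat.blt q 10482) (blocks10480to10482 q)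
 (blocks10482to10485 q))
 (cond (Nat.blt q 10487) (blocks10485to10487 q)
 (blocks10487to10490 q)))
 (cond (Nat.blt q 10495) (cond (Nat.blt q 10492) (blocks10490to10492 q)
 (blocks10492to10495 q))
 (cond (Nat.blt q 10498) (blocks10495to10498 q)
 (blocks10498to10501 q))))

noncomputable def blocks10501to10503 (q : ℕ) : ℕ :=
 cond (Nat.blt q 10502) (block10501)
 (block10502)

noncomputable def blocks10503to10506 (q : ℕ) : ℕ :=
 cond (Nat.blt q 10504) (block10503)
 (cond (Nat.blt q 10505) (block10504)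
 (block10505))

noncomputable def blocks10506to10508 (q : ℕ) : ℕ :=
 cond (Nat.blt q 10507) (block10506)
 (block10507)

noncomputable def blocks10508to10511 (q : ℕ) : ℕ :=
 cond (Nat.blt q 10509) (block10508)
 (cond (Nat.blt q 10510) (block10509)
 (block10510))

noncomputable def blocks10511to10513 (q : ℕ) : ℕ :=
 cond (Nat.blt q 10512) (block10511)
 (block10512)

noncomputable def blocks10513to10516 (q : ℕ) : ℕ :=
 cond (Nat.blt q 10514) (block10513)
 (cond (Nat.blt q 10515) (block10514)
 (block10515))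

noncomputable def blocks10516to10519 (q : ℕ) : ℕ :=
 cond (Nat.blt q 10517) (block10516)
 (cond (Nat.blt q 10518) (block10517)
 (block10518))

noncomputable def blocks10519to10522 (q : ℕ) : ℕ :=
 cond (Nat.blt q 10520) (block10519)
 (cond (Nat.blt q 10521) (block10520)
 (block10521))

noncomputable def blocks10522to10524 (q : ℕ) : ℕ :=
 cond (Nat.blt q 10523) (block10522)
 (block10523)

noncomputable def blocks10524to10527 (q : ℕ) : ℕ :=
 cond (Nat.blt q 10525) (block10524)
 (cond (Nat.blt q 10526) (block10525)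
 (block10526))

noncomputable def blocks10527to10530 (q : ℕ) : ℕ :=
 cond (Nat.blt q 10528) (block10527)
 (cond (Nat.blt q 10529) (block10528)
 (block10529))

noncomputable def blocks10530to10533 (q : ℕ) : ℕ :=
 cond (Nat.blt q 10531) (block10530)
 (cond (Nat.blt q 10532) (block10531)
 (block10532))

noncomputable def blocks10533to10535 (q : ℕ) : ℕ :=
 cond (Nat.blt q 10534) (block10533)
 (block10534)

noncomputable def blocks10535to10538 (q : ℕ) : ℕ :=
 cond (Nat.blt q 10536) (block10535)
 (cond (Nat.blt q 10537) (block10536)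
 (block10537))

noncomputable def blocks10538to10541 (q : ℕ) : ℕ :=
 cond (Nat.blt q 10539) (block10538)
 (cond (Nat.blt q 10540) (block10539)
 (block10540))

noncomputable def blocks10541to10544 (q : ℕ) : ℕ :=
 cond (Nat.blt q 10542) (block10541)
 (cond (Nat.blt q 10543) (block10542)
 (block10543))

noncomputable def blocks10501to10544 (q : ℕ) : ℕ :=
 cond (Nat.blt q 10522) (cond (Nat.blt q 10511) (cond (Nat.blt q 10506) (cond (Nat.blt q 10503) (blocks10501to10503 q)
 (blocks10503to10506 q))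
 (cond (Nat.blt q 10508) (blocks10506to10508 q)
 (blocks10508to10511 q)))
 (cond (Nat.blt q 10516) (cond (Nat.blt q 10513) (blocks10511to10513 q)
 (blocks10513to10516 q))
 (cond (Nat.blt q 10519) (blocks10516to10519 q)
 (blocks10519to10522 q))))
 (cond (Nat.blt q 10533) (cond (Nat.blt q 10527) (cond (Nat.blt q 10524) (blocks10522to10524 q)
 (blocks10524to10527 q))
 (cond (Nat.blt q 10530) (blocks10527to10530 q)
 (blocks10530to10533 q)))
 (cond (Nat.blt q 10538) (cond (Nat.blt q 10535) (blocks10533to10535 q)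
 (blocks10535to10538 q))
 (cond (Nat.blt q 10541) (blocks10538to10541 q)
 (blocks10541to10544 q))))

noncomputable def blocks10544to10546 (q : ℕ) : ℕ :=
 cond (Nat.blt q 10545) (block10544)
 (block10545)

noncomputable def blocks10546to10549 (q : ℕ) : ℕ :=
 cond (Nat.blt q 10547) (block10546)
 (cond (Nat.blt q 10548) (block10547)
 (block10548))

noncomputable def blocks10549to10551 (q : ℕ) : ℕ :=
 cond (Nat.blt q 10550) (block10549)
 (block10550)

noncomputable def blocks10551to10554 (q : ℕ) : ℕ :=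
 cond (Nat.blt q 10552) (block10551)
 (cond (Nat.blt q 10553) (block10552)
 (block10553))

noncomputable def blocks10554to10556 (q : ℕ) : ℕ :=
 cond (Nat.blt q 10555) (block10554)
 (block10555)

noncomputable def blocks10556to10559 (q : ℕ) : ℕ :=
 cond (Nat.blt q 10557) (block10556)
 (cond (Nat.blt q 10558) (block10557)
 (block10558))

noncomputable def blocks10559to10562 (q : ℕ) : ℕ :=
 cond (Nat.blt q 10560) (block10559)
 (cond (Nat.blt q 10561) (block10560)
 (block10561))

noncomputable def blocks10562to10565 (q : ℕ) : ℕ :=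
 cond (Nat.blt q 10563) (block10562)
 (cond (Nat.blt q 10564) (block10563)
 (block10564))

noncomputable def blocks10565to10567 (q : ℕ) : ℕ :=
 cond (Nat.blt q 10566) (block10565)
 (block10566)

noncomputable def blocks10567to10570 (q : ℕ) : ℕ :=
 cond (Nat.blt q 10568) (block10567)
 (cond (Nat.blt q 10569) (block10568)
 (block10569))

noncomputable def blocks10570to10572 (q : ℕ) : ℕ :=
 cond (Nat.blt q 10571) (block10570)
 (block10571)

noncomputable def blocks10572to10575 (q : ℕ) : ℕ :=
 cond (Nat.blt q 10573) (block10572)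
 (cond (Nat.blt q 10574) (block10573)
 (block10574))

noncomputable def blocks10575to10577 (q : ℕ) : ℕ :=
 cond (Nat.blt q 10576) (block10575)
 (block10576)

noncomputable def blocks10577to10580 (q : ℕ) : ℕ :=
 cond (Nat.blt q 10578) (block10577)
 (cond (Nat.blt q 10579) (block10578)
 (block10579))

noncomputable def blocks10580to10583 (q : ℕ) : ℕ :=
 cond (Nat.blt q 10581) (block10580)
 (cond (Nat.blt q 10582) (block10581)
 (block10582))

noncomputable def blocks10583to10586 (q : ℕ) : ℕ :=
 cond (Nat.blt q 10584) (block10583)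
 (cond (Nat.blt q 10585) (block10584)
 (block10585))

noncomputable def blocks10544to10586 (q : ℕ) : ℕ :=
 cond (Nat.blt q 10565) (cond (Nat.blt q 10554) (cond (Nat.blt q 10549) (cond (Nat.blt q 10546) (blocks10544to10546 q)
 (blocks10546to10549 q))
 (cond (Nat.blt q 10551) (blocks10549to10551 q)
 (blocks10551to10554 q)))
 (cond (Nat.blt q 10559) (cond (Nat.blt q 10556) (blocks10554to10556 q)
 (blocks10556to10559 q))
 (cond (Nat.blt q 10562) (blocks10559to10562 q)
 (blocks10562to10565 q))))
 (cond (Nat.blt q 10575) (cond (Nat.blt q 10570) (cond (Nat.blt q 10567) (blocks10565to10567 q)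
 (blocks10567to10570 q))
 (cond (Nat.blt q 10572) (blocks10570to10572 q)
 (blocks10572to10575 q)))
 (cond (Nat.blt q 10580) (cond (Nat.blt q 10577) (blocks10575to10577 q)
 (blocks10577to10580 q))
 (cond (Nat.blt q 10583) (blocks10580to10583 q)
 (blocks10583to10586 q))))

noncomputable def blocks10586to10588 (q : ℕ) : ℕ :=
 cond (Nat.blt q 10587) (block10586)
 (block10587)

noncomputable def blocks10588to10591 (q : ℕ) : ℕ :=
 cond (Nat.blt q 10589) (block10588)
 (cond (Nat.blt q 10590) (block10589)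
 (block10590))

noncomputable def blocks10591to10593 (q : ℕ) : ℕ :=
 cond (Nat.blt q 10592) (block10591)
 (block10592)

noncomputable def blocks10593to10596 (q : ℕ) : ℕ :=
 cond (Nat.blt q 10594) (block10593)
 (cond (Nat.blt q 10595) (block10594)
 (block10595))

noncomputable def blocks10596to10598 (q : ℕ) : ℕ :=
 cond (Nat.blt q 10597) (block10596)
 (block10597)

noncomputable def blocks10598to10601 (q : ℕ) : ℕ :=
 cond (Nat.blt q 10599) (block10598)
 (cond (Nat.blt q 10600) (block10599)
 (block10600))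

noncomputable def blocks10601to10604 (q : ℕ) : ℕ :=
 cond (Nat.blt q 10602) (block10601)
 (cond (Nat.blt q 10603) (block10602)
 (block10603))

noncomputable def blocks10604to10607 (q : ℕ) : ℕ :=
 cond (Nat.blt q 10605) (block10604)
 (cond (Nat.blt q 10606) (block10605)
 (block10606))

noncomputable def blocks10607to10609 (q : ℕ) : ℕ :=
 cond (Nat.blt q 10608) (block10607)
 (block10608)

noncomputable def blocks10609to10612 (q : ℕ) : ℕ :=
 cond (Nat.blt q 10610) (block10609)
 (cond (Nat.blt q 10611) (block10610)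
 (block10611))

noncomputable def blocks10612to10615 (q : ℕ) : ℕ :=
 cond (Nat.blt q 10613) (block10612)
 (cond (Nat.blt q 10614) (block10613)
 (block10614))

noncomputable def blocks10615to10618 (q : ℕ) : ℕ :=
 cond (Nat.blt q 10616) (block10615)
 (cond (Nat.blt q 10617) (block10616)
 (block10617))

noncomputable def blocks10618to10620 (q : ℕ) : ℕ :=
 cond (Nat.blt q 10619) (block10618)
 (block10619)

noncomputable def blocks10620to10623 (q : ℕ) : ℕ :=
 cond (Nat.blt q 10621) (block10620)
 (cond (Nat.blt q 10622) (block10621)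
 (block10622))

noncomputable def blocks10623to10626 (q : ℕ) : ℕ :=
 cond (Nat.blt q 10624) (block10623)
 (cond (Nat.blt q 10625) (block10624)
 (block10625))

noncomputable def blocks10626to10629 (q : ℕ) : ℕ :=
 cond (Nat.blt q 10627) (block10626)
 (cond (Nat.blt q 10628) (block10627)
 (block10628))

noncomputable def blocks10586to10629 (q : ℕ) : ℕ :=
 cond (Nat.blt q 10607) (cond (Nat.blt q 10596) (cond (Nat.blt q 10591) (cond (Nat.blt q 10588) (blocks10586to10588 q)
 (blocks10588to10591 q))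
 (cond (Nat.blt q 10593) (blocks10591to10593 q)
 (blocks10593to10596 q)))
 (cond (Nat.blt q 10601) (cond (Nat.blt q 10598) (blocks10596to10598 q)
 (blocks10598to10601 q))
 (cond (Nat.blt q 10604) (blocks10601to10604 q)
 (blocks10604to10607 q))))
 (cond (Nat.blt q 10618) (cond (Nat.blt q 10612) (cond (Nat.blt q 10609) (blocks10607to10609 q)
 (blocks10609to10612 q))
 (cond (Nat.blt q 10615) (blocks10612to10615 q)
 (blocks10615to10618 q)))
 (cond (Nat.blt q 10623) (cond (Nat.blt q 10620) (blocks10618to10620 q)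
 (blocks10620to10623 q))
 (cond (Nat.blt q 10626) (blocks10623to10626 q)
 (blocks10626to10629 q))))

noncomputable def blocks10629to10631 (q : ℕ) : ℕ :=
 cond (Nat.blt q 10630) (block10629)
 (block10630)

noncomputable def blocks10631to10634 (q : ℕ) : ℕ :=
 cond (Nat.blt q 10632) (block10631)
 (cond (Nat.blt q 10633) (block10632)
 (block10633))

noncomputable def blocks10634to10636 (q : ℕ) : ℕ :=
 cond (Nat.blt q 10635) (block10634)
 (block10635)

noncomputable def blocks10636to10639 (q : ℕ) : ℕ :=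
 cond (Nat.blt q 10637) (block10636)
 (cond (Nat.blt q 10638) (block10637)
 (block10638))

noncomputable def blocks10639to10641 (q : ℕ) : ℕ :=
 cond (Nat.blt q 10640) (block10639)
 (block10640)

noncomputable def blocks10641to10644 (q : ℕ) : ℕ :=
 cond (Nat.blt q 10642) (block10641)
 (cond (Nat.blt q 10643) (block10642)
 (block10643))

noncomputable def blocks10644to10647 (q : ℕ) : ℕ :=
 cond (Nat.blt q 10645) (block10644)
 (cond (Nat.blt q 10646) (block10645)
 (block10646))

noncomputable def blocks10647to10650 (q : ℕ) : ℕ :=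
 cond (Nat.blt q 10648) (block10647)
 (cond (Nat.blt q 10649) (block10648)
 (block10649))

noncomputable def blocks10650to10652 (q : ℕ) : ℕ :=
 cond (Nat.blt q 10651) (block10650)
 (block10651)

noncomputable def blocks10652to10655 (q : ℕ) : ℕ :=
 cond (Nat.blt q 10653) (block10652)
 (cond (Nat.blt q 10654) (block10653)
 (block10654))

noncomputable def blocks10655to10657 (q : ℕ) : ℕ :=
 cond (Nat.blt q 10656) (block10655)
 (block10656)

noncomputable def blocks10657to10660 (q : ℕ) : ℕ :=
 cond (Nat.blt q 10658) (block10657)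
 (cond (Nat.blt q 10659) (block10658)
 (block10659))

noncomputable def blocks10660to10662 (q : ℕ) : ℕ :=
 cond (Nat.blt q 10661) (block10660)
 (block10661)

noncomputable def blocks10662to10665 (q : ℕ) : ℕ :=
 cond (Nat.blt q 10663) (block10662)
 (cond (Nat.blt q 10664) (block10663)
 (block10664))

noncomputable def blocks10665to10668 (q : ℕ) : ℕ :=
 cond (Nat.blt q 10666) (block10665)
 (cond (Nat.blt q 10667) (block10666)
 (block10667))

noncomputable def blocks10668to10671 (q : ℕ) : ℕ :=
 cond (Nat.blt q 10669) (block10668)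
 (cond (Nat.blt q 10670) (block10669)
 (block10670))

noncomputable def blocks10629to10671 (q : ℕ) : ℕ :=
 cond (Nat.blt q 10650) (cond (Nat.blt q 10639) (cond (Nat.blt q 10634) (cond (Nat.blt q 10631) (blocks10629to10631 q)
 (blocks10631to10634 q))
 (cond (Nat.blt q 10636) (blocks10634to10636 q)
 (blocks10636to10639 q)))
 (cond (Nat.blt q 10644) (cond (Nat.blt q 10641) (blocks10639to10641 q)
 (blocks10641to10644 q))
 (cond (Nat.blt q 10647) (blocks10644to10647 q)
 (blocks10647to10650 q))))
 (cond (Nat.blt q 10660) (cond (Nat.blt q 10655) (cond (Nat.blt q 10652) (blocks10650to10652 q)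
 (blocks10652to10655 q))
 (cond (Nat.blt q 10657) (blocks10655to10657 q)
 (blocks10657to10660 q)))
 (cond (Nat.blt q 10665) (cond (Nat.blt q 10662) (blocks10660to10662 q)
 (blocks10662to10665 q))
 (cond (Nat.blt q 10668) (blocks10665to10668 q)
 (blocks10668to10671 q))))

noncomputable def blocks10671to10673 (q : ℕ) : ℕ :=
 cond (Nat.blt q 10672) (block10671)
 (block10672)

noncomputable def blocks10673to10676 (q : ℕ) : ℕ :=
 cond (Nat.blt q 10674) (block10673)
 (cond (Nat.blt q 10675) (block10674)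
 (block10675))

noncomputable def blocks10676to10678 (q : ℕ) : ℕ :=
 cond (Nat.blt q 10677) (block10676)
 (block10677)

noncomputable def blocks10678to10681 (q : ℕ) : ℕ :=
 cond (Nat.blt q 10679) (block10678)
 (cond (Nat.blt q 10680) (block10679)
 (block10680))

noncomputable def blocks10681to10683 (q : ℕ) : ℕ :=
 cond (Nat.blt q 10682) (block10681)
 (block10682)

noncomputable def blocks10683to10686 (q : ℕ) : ℕ :=
 cond (Nat.blt q 10684) (block10683)
 (cond (Nat.blt q 10685) (block10684)
 (block10685))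

noncomputable def blocks10686to10689 (q : ℕ) : ℕ :=
 cond (Nat.blt q 10687) (block10686)
 (cond (Nat.blt q 10688) (block10687)
 (block10688))

noncomputable def blocks10689to10692 (q : ℕ) : ℕ :=
 cond (Nat.blt q 10690) (block10689)
 (cond (Nat.blt q 10691) (block10690)
 (block10691))

noncomputable def blocks10692to10694 (q : ℕ) : ℕ :=
 cond (Nat.blt q 10693) (block10692)
 (block10693)

noncomputable def blocks10694to10697 (q : ℕ) : ℕ :=
 cond (Nat.blt q 10695) (block10694)
 (cond (Nat.blt q 10696) (block10695)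
 (block10696))

noncomputable def blocks10697to10700 (q : ℕ) : ℕ :=
 cond (Nat.blt q 10698) (block10697)
 (cond (Nat.blt q 10699) (block10698)
 (block10699))

noncomputable def blocks10700to10703 (q : ℕ) : ℕ :=
 cond (Nat.blt q 10701) (block10700)
 (cond (Nat.blt q 10702) (block10701)
 (block10702))

noncomputable def blocks10703to10705 (q : ℕ) : ℕ :=
 cond (Nat.blt q 10704) (block10703)
 (block10704)

noncomputable def blocks10705to10708 (q : ℕ) : ℕ :=
 cond (Nat.blt q 10706) (block10705)
 (cond (Nat.blt q 10707) (block10706)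
 (block10707))

noncomputable def blocks10708to10711 (q : ℕ) : ℕ :=
 cond (Nat.blt q 10709) (block10708)
 (cond (Nat.blt q 10710) (block10709)
 (block10710))

noncomputable def blocks10711to10714 (q : ℕ) : ℕ :=
 cond (Nat.blt q 10712) (block10711)
 (cond (Nat.blt q 10713) (block10712)
 (block10713))

noncomputable def blocks10671to10714 (q : ℕ) : ℕ :=
 cond (Nat.blt q 10692) (cond (Nat.blt q 10681) (cond (Nat.blt q 10676) (cond (Nat.blt q 10673) (blocks10671to10673 q)
 (blocks10673to10676 q))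
 (cond (Nat.blt q 10678) (blocks10676to10678 q)
 (blocks10678to10681 q)))
 (cond (Nat.blt q 10686) (cond (Nat.blt q 10683) (blocks10681to10683 q)
 (blocks10683to10686 q))
 (cond (Nat.blt q 10689) (blocks10686to10689 q)
 (blocks10689to10692 q))))
 (cond (Nat.blt q 10703) (cond (Nat.blt q 10697) (cond (Nat.blt q 10694) (blocks10692to10694 q)
 (blocks10694to10697 q))
 (cond (Nat.blt q 10700) (blocks10697to10700 q)
 (blocks10700to10703 q)))
 (cond (Nat.blt q 10708) (cond (Nat.blt q 10705) (blocks10703to10705 q)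
 (blocks10705to10708 q))
 (cond (Nat.blt q 10711) (blocks10708to10711 q)
 (blocks10711to10714 q))))

noncomputable def blocks10714to10716 (q : ℕ) : ℕ :=
 cond (Nat.blt q 10715) (block10714)
 (block10715)

noncomputable def blocks10716to10719 (q : ℕ) : ℕ :=
 cond (Nat.blt q 10717) (block10716)
 (cond (Nat.blt q 10718) (block10717)
 (block10718))

noncomputable def blocks10719to10721 (q : ℕ) : ℕ :=
 cond (Nat.blt q 10720) (block10719)
 (block10720)

noncomputable def blocks10721to10724 (q : ℕ) : ℕ :=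
 cond (Nat.blt q 10722) (block10721)
 (cond (Nat.blt q 10723) (block10722)
 (block10723))

noncomputable def blocks10724to10726 (q : ℕ) : ℕ :=
 cond (Nat.blt q 10725) (block10724)
 (block10725)

noncomputable def blocks10726to10729 (q : ℕ) : ℕ :=
 cond (Nat.blt q 10727) (block10726)
 (cond (Nat.blt q 10728) (block10727)
 (block10728))

noncomputable def blocks10729to10732 (q : ℕ) : ℕ :=
 cond (Nat.blt q 10730) (block10729)
 (cond (Nat.blt q 10731) (block10730)
 (block10731))

noncomputable def blocks10732to10735 (q : ℕ) : ℕ :=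
 cond (Nat.blt q 10733) (block10732)
 (cond (Nat.blt q 10734) (block10733)
 (block10734))

noncomputable def blocks10735to10737 (q : ℕ) : ℕ :=
 cond (Nat.blt q 10736) (block10735)
 (block10736)

noncomputable def blocks10737to10740 (q : ℕ) : ℕ :=
 cond (Nat.blt q 10738) (block10737)
 (cond (Nat.blt q 10739) (block10738)
 (block10739))

noncomputable def blocks10740to10742 (q : ℕ) : ℕ :=
 cond (Nat.blt q 10741) (block10740)
 (block10741)

noncomputable def blocks10742to10745 (q : ℕ) : ℕ :=
 cond (Nat.blt q 10743) (block10742)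
 (cond (Nat.blt q 10744) (block10743)
 (block10744))

noncomputable def blocks10745to10747 (q : ℕ) : ℕ :=
 cond (Nat.blt q 10746) (block10745)
 (block10746)

noncomputable def blocks10747to10750 (q : ℕ) : ℕ :=
 cond (Nat.blt q 10748) (block10747)
 (cond (Nat.blt q 10749) (block10748)
 (block10749))

noncomputable def blocks10750to10753 (q : ℕ) : ℕ :=
 cond (Nat.blt q 10751) (block10750)
 (cond (Nat.blt q 10752) (block10751)
 (block10752))

noncomputable def blocks10753to10756 (q : ℕ) : ℕ :=
 cond (Nat.blt q 10754) (block10753)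
 (cond (Nat.blt q 10755) (block10754)
 (block10755))

noncomputable def blocks10714to10756 (q : ℕ) : ℕ :=
 cond (Nat.blt q 10735) (cond (Nat.blt q 10724) (cond (Nat.blt q 10719) (cond (Nat.blt q 10716) (blocks10714to10716 q)
 (blocks10716to10719 q))
 (cond (Nat.blt q 10721) (blocks10719to10721 q)
 (blocks10721to10724 q)))
 (cond (Nat.blt q 10729) (cond (Nat.blt q 10726) (blocks10724to10726 q)
 (blocks10726to10729 q))
 (cond (Nat.blt q 10732) (blocks10729to10732 q)
 (blocks10732to10735 q))))
 (cond (Nat.blt q 10745) (cond (Nat.blt q 10740) (cond (Nat.blt q 10737) (blocks10735to10737 q)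
 (blocks10737to10740 q))
 (cond (Nat.blt q 10742) (blocks10740to10742 q)
 (blocks10742to10745 q)))
 (cond (Nat.blt q 10750) (cond (Nat.blt q 10747) (blocks10745to10747 q)
 (blocks10747to10750 q))
 (cond (Nat.blt q 10753) (blocks10750to10753 q)
 (blocks10753to10756 q))))

noncomputable def blocks10756to10758 (q : ℕ) : ℕ :=
 cond (Nat.blt q 10757) (block10756)
 (block10757)

noncomputable def blocks10758to10761 (q : ℕ) : ℕ :=
 cond (Nat.blt q 10759) (block10758)
 (cond (Nat.blt q 10760) (block10759)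
 (block10760))

noncomputable def blocks10761to10763 (q : ℕ) : ℕ :=
 cond (Nat.blt q 10762) (block10761)
 (block10762)

noncomputable def blocks10763to10766 (q : ℕ) : ℕ :=
 cond (Nat.blt q 10764) (block10763)
 (cond (Nat.blt q 10765) (block10764)
 (block10765))

noncomputable def blocks10766to10768 (q : ℕ) : ℕ :=
 cond (Nat.blt q 10767) (block10766)
 (block10767)

noncomputable def blocks10768to10771 (q : ℕ) : ℕ :=
 cond (Nat.blt q 10769) (block10768)
 (cond (Nat.blt q 10770) (block10769)
 (block10770))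

noncomputable def blocks10771to10774 (q : ℕ) : ℕ :=
 cond (Nat.blt q 10772) (block10771)
 (cond (Nat.blt q 10773) (block10772)
 (block10773))

noncomputable def blocks10774to10777 (q : ℕ) : ℕ :=
 cond (Nat.blt q 10775) (block10774)
 (cond (Nat.blt q 10776) (block10775)
 (block10776))

noncomputable def blocks10777to10779 (q : ℕ) : ℕ :=
 cond (Nat.blt q 10778) (block10777)
 (block10778)

noncomputable def blocks10779to10782 (q : ℕ) : ℕ :=
 cond (Nat.blt q 10780) (block10779)
 (cond (Nat.blt q 10781) (block10780)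
 (block10781))

noncomputable def blocks10782to10785 (q : ℕ) : ℕ :=
 cond (Nat.blt q 10783) (block10782)
 (cond (Nat.blt q 10784) (block10783)
 (block10784))

noncomputable def blocks10785to10788 (q : ℕ) : ℕ :=
 cond (Nat.blt q 10786) (block10785)
 (cond (Nat.blt q 10787) (block10786)
 (block10787))

noncomputable def blocks10788to10790 (q : ℕ) : ℕ :=
 cond (Nat.blt q 10789) (block10788)
 (block10789)

noncomputable def blocks10790to10793 (q : ℕ) : ℕ :=
 cond (Nat.blt q 10791) (block10790)
 (cond (Nat.blt q 10792) (block10791)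
 (block10792))

noncomputable def blocks10793to10796 (q : ℕ) : ℕ :=
 cond (Nat.blt q 10794) (block10793)
 (cond (Nat.blt q 10795) (block10794)
 (block10795))

noncomputable def blocks10796to10799 (q : ℕ) : ℕ :=
 cond (Nat.blt q 10797) (block10796)
 (cond (Nat.blt q 10798) (block10797)
 (block10798))

noncomputable def blocks10756to10799 (q : ℕ) : ℕ :=
 cond (Nat.blt q 10777) (cond (Nat.blt q 10766) (cond (Nat.blt q 10761) (cond (Nat.blt q 10758) (blocks10756to10758 q)
 (blocks10758to10761 q))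
 (cond (Nat.blt q 10763) (blocks10761to10763 q)
 (blocks10763to10766 q)))
 (cond (Nat.blt q 10771) (cond (Nat.blt q 10768) (blocks10766to10768 q)
 (blocks10768to10771 q))
 (cond (Nat.blt q 10774) (blocks10771to10774 q)
 (blocks10774to10777 q))))
 (cond (Nat.blt q 10788) (cond (Nat.blt q 10782) (cond (Nat.blt q 10779) (blocks10777to10779 q)
 (blocks10779to10782 q))
 (cond (Nat.blt q 10785) (blocks10782to10785 q)
 (blocks10785to10788 q)))
 (cond (Nat.blt q 10793) (cond (Nat.blt q 10790) (blocks10788to10790 q)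
 (blocks10790to10793 q))
 (cond (Nat.blt q 10796) (blocks10793to10796 q)
 (blocks10796to10799 q))))

noncomputable def blocks10799to10801 (q : ℕ) : ℕ :=
 cond (Nat.blt q 10800) (block10799)
 (block10800)

noncomputable def blocks10801to10804 (q : ℕ) : ℕ :=
 cond (Nat.blt q 10802) (block10801)
 (cond (Nat.blt q 10803) (block10802)
 (block10803))

noncomputable def blocks10804to10806 (q : ℕ) : ℕ :=
 cond (Nat.blt q 10805) (block10804)
 (block10805)

noncomputable def blocks10806to10809 (q : ℕ) : ℕ :=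
 cond (Nat.blt q 10807) (block10806)
 (cond (Nat.blt q 10808) (block10807)
 (block10808))

noncomputable def blocks10809to10811 (q : ℕ) : ℕ :=
 cond (Nat.blt q 10810) (block10809)
 (block10810)

noncomputable def blocks10811to10814 (q : ℕ) : ℕ :=
 cond (Nat.blt q 10812) (block10811)
 (cond (Nat.blt q 10813) (block10812)
 (block10813))

noncomputable def blocks10814to10817 (q : ℕ) : ℕ :=
 cond (Nat.blt q 10815) (block10814)
 (cond (Nat.blt q 10816) (block10815)
 (block10816))

noncomputable def blocks10817to10820 (q : ℕ) : ℕ :=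
 cond (Nat.blt q 10818) (block10817)
 (cond (Nat.blt q 10819) (block10818)
 (block10819))

noncomputable def blocks10820to10822 (q : ℕ) : ℕ :=
 cond (Nat.blt q 10821) (block10820)
 (block10821)

noncomputable def blocks10822to10825 (q : ℕ) : ℕ :=
 cond (Nat.blt q 10823) (block10822)
 (cond (Nat.blt q 10824) (block10823)
 (block10824))

noncomputable def blocks10825to10828 (q : ℕ) : ℕ :=
 cond (Nat.blt q 10826) (block10825)
 (cond (Nat.blt q 10827) (block10826)
 (block10827))

noncomputable def blocks10828to10831 (q : ℕ) : ℕ :=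
 cond (Nat.blt q 10829) (block10828)
 (cond (Nat.blt q 10830) (block10829)
 (block10830))

noncomputable def blocks10831to10833 (q : ℕ) : ℕ :=
 cond (Nat.blt q 10832) (block10831)
 (block10832)

noncomputable def blocks10833to10836 (q : ℕ) : ℕ :=
 cond (Nat.blt q 10834) (block10833)
 (cond (Nat.blt q 10835) (block10834)
 (block10835))

noncomputable def blocks10836to10839 (q : ℕ) : ℕ :=
 cond (Nat.blt q 10837) (block10836)
 (cond (Nat.blt q 10838) (block10837)
 (block10838))

noncomputable def blocks10839to10842 (q : ℕ) : ℕ :=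
 cond (Nat.blt q 10840) (block10839)
 (cond (Nat.blt q 10841) (block10840)
 (block10841))

noncomputable def blocks10799to10842 (q : ℕ) : ℕ :=
 cond (Nat.blt q 10820) (cond (Nat.blt q 10809) (cond (Nat.blt q 10804) (cond (Nat.blt q 10801) (blocks10799to10801 q)
 (blocks10801to10804 q))
 (cond (Nat.blt q 10806) (blocks10804to10806 q)
 (blocks10806to10809 q)))
 (cond (Nat.blt q 10814) (cond (Nat.blt q 10811) (blocks10809to10811 q)
 (blocks10811to10814 q))
 (cond (Nat.blt q 10817) (blocks10814to10817 q)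
 (blocks10817to10820 q))))
 (cond (Nat.blt q 10831) (cond (Nat.blt q 10825) (cond (Nat.blt q 10822) (blocks10820to10822 q)
 (blocks10822to10825 q))
 (cond (Nat.blt q 10828) (blocks10825to10828 q)
 (blocks10828to10831 q)))
 (cond (Nat.blt q 10836) (cond (Nat.blt q 10833) (blocks10831to10833 q)
 (blocks10833to10836 q))
 (cond (Nat.blt q 10839) (blocks10836to10839 q)
 (blocks10839to10842 q))))

noncomputable def blocks10842to10844 (q : ℕ) : ℕ :=
 cond (Nat.blt q 10843) (block10842)
 (block10843)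

noncomputable def blocks10844to10847 (q : ℕ) : ℕ :=
 cond (Nat.blt q 10845) (block10844)
 (cond (Nat.blt q 10846) (block10845)
 (block10846))

noncomputable def blocks10847to10849 (q : ℕ) : ℕ :=
 cond (Nat.blt q 10848) (block10847)
 (block10848)

noncomputable def blocks10849to10852 (q : ℕ) : ℕ :=
 cond (Nat.blt q 10850) (block10849)
 (cond (Nat.blt q 10851) (block10850)
 (block10851))

noncomputable def blocks10852to10854 (q : ℕ) : ℕ :=
 cond (Nat.blt q 10853) (block10852)
 (block10853)

noncomputable def blocks10854to10857 (q : ℕ) : ℕ :=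
 cond (Nat.blt q 10855) (block10854)
 (cond (Nat.blt q 10856) (block10855)
 (block10856))

noncomputable def blocks10857to10860 (q : ℕ) : ℕ :=
 cond (Nat.blt q 10858) (block10857)
 (cond (Nat.blt q 10859) (block10858)
 (block10859))

noncomputable def blocks10860to10863 (q : ℕ) : ℕ :=
 cond (Nat.blt q 10861) (block10860)
 (cond (Nat.blt q 10862) (block10861)
 (block10862))

noncomputable def blocks10863to10865 (q : ℕ) : ℕ :=
 cond (Nat.blt q 10864) (block10863)
 (block10864)

noncomputable def blocks10865to10868 (q : ℕ) : ℕ :=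
 cond (Nat.blt q 10866) (block10865)
 (cond (Nat.blt q 10867) (block10866)
 (block10867))

noncomputable def blocks10868to10871 (q : ℕ) : ℕ :=
 cond (Nat.blt q 10869) (block10868)
 (cond (Nat.blt q 10870) (block10869)
 (block10870))

noncomputable def blocks10871to10874 (q : ℕ) : ℕ :=
 cond (Nat.blt q 10872) (block10871)
 (cond (Nat.blt q 10873) (block10872)
 (block10873))

noncomputable def blocks10874to10876 (q : ℕ) : ℕ :=
 cond (Nat.blt q 10875) (block10874)
 (block10875)

noncomputable def blocks10876to10879 (q : ℕ) : ℕ :=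
 cond (Nat.blt q 10877) (block10876)
 (cond (Nat.blt q 10878) (block10877)
 (block10878))

noncomputable def blocks10879to10882 (q : ℕ) : ℕ :=
 cond (Nat.blt q 10880) (block10879)
 (cond (Nat.blt q 10881) (block10880)
 (block10881))

noncomputable def blocks10882to10885 (q : ℕ) : ℕ :=
 cond (Nat.blt q 10883) (block10882)
 (cond (Nat.blt q 10884) (block10883)
 (block10884))

noncomputable def blocks10842to10885 (q : ℕ) : ℕ :=
 cond (Nat.blt q 10863) (cond (Nat.blt q 10852) (cond (Nat.blt q 10847) (cond (Nat.blt q 10844) (blocks10842to10844 q)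
 (blocks10844to10847 q))
 (cond (Nat.blt q 10849) (blocks10847to10849 q)
 (blocks10849to10852 q)))
 (cond (Nat.blt q 10857) (cond (Nat.blt q 10854) (blocks10852to10854 q)
 (blocks10854to10857 q))
 (cond (Nat.blt q 10860) (blocks10857to10860 q)
 (blocks10860to10863 q))))
 (cond (Nat.blt q 10874) (cond (Nat.blt q 10868) (cond (Nat.blt q 10865) (blocks10863to10865 q)
 (blocks10865to10868 q))
 (cond (Nat.blt q 10871) (blocks10868to10871 q)
 (blocks10871to10874 q)))
 (cond (Nat.blt q 10879) (cond (Nat.blt q 10876) (blocks10874to10876 q)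
 (blocks10876to10879 q))
 (cond (Nat.blt q 10882) (blocks10879to10882 q)
 (blocks10882to10885 q))))

noncomputable def blocks10204to10885 (q : ℕ) : ℕ :=
 cond (Nat.blt q 10544) (cond (Nat.blt q 10374) (cond (Nat.blt q 10289) (cond (Nat.blt q 10246) (blocks10204to10246 q)
 (blocks10246to10289 q))
 (cond (Nat.blt q 10331) (blocks10289to10331 q)
 (blocks10331to10374 q)))
 (cond (Nat.blt q 10459) (cond (Nat.blt q 10416) (blocks10374to10416 q)
 (blocks10416to10459 q))
 (cond (Nat.blt q 10501) (blocks10459to10501 q)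
 (blocks10501to10544 q))))
 (cond (Nat.blt q 10714) (cond (Nat.blt q 10629) (cond (Nat.blt q 10586) (blocks10544to10586 q)
 (blocks10586to10629 q))
 (cond (Nat.blt q 10671) (blocks10629to10671 q)
 (blocks10671to10714 q)))
 (cond (Nat.blt q 10799) (cond (Nat.blt q 10756) (blocks10714to10756 q)
 (blocks10756to10799 q))
 (cond (Nat.blt q 10842) (blocks10799to10842 q)
 (blocks10842to10885 q))))

/-- The packed blocks. -/
noncomputable def blocks (q : ℕ) : ℕ :=
 cond (Nat.blt q 5442) (cond (Nat.blt q 2721) (cond (Nat.blt q 1360) (cond (Nat.blt q 680) (blocks0to680 q)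
 (blocks680to1360 q))
 (cond (Nat.blt q 2040) (blocks1360to2040 q)
 (blocks2040to2721 q)))
 (cond (Nat.blt q 4081) (cond (Nat.blt q 3401) (blocks2721to3401 q)
 (blocks3401to4081 q))
 (cond (Nat.blt q 4761) (blocks4081to4761 q)
 (blocks4761to5442 q))))
 (cond (Nat.blt q 8163) (cond (Nat.blt q 6802) (cond (Nat.blt q 6122) (blocks5442to6122 q)
 (blocks6122to6802 q))
 (cond (Nat.blt q 7482) (blocks6802to7482 q)
 (blocks7482to8163 q)))
 (cond (Nat.blt q 9524) (cond (Nat.blt q 8843) (blocks8163to8843 q)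
 (blocks8843to9524 q))
 (cond (Nat.blt q 10204) (blocks9524to10204 q)
 (blocks10204to10885 q))))

/-- The recorded entries. -/
noncomputable def get (k : ℕ) : ℕ × ℕ := fetch blocks k

end Vale.Agent.P062
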